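import Mathlib

/-!
Row 224 (S0346), helper792.  The amenable case: on a group with Følner sets every function with
finite energy is an energy limit of finitely supported functions.
Trace argument: `Q` = projection of `ℓ²(G × S)` on the gradients orthogonal to the gradients of
finitely supported functions; `tr (1_F Q 1_F) = c |F|` and `rank ≤ |∂F|`.
-/

set_option autoImplicit false
set_option linter.unusedVariables false
set_option linter.unusedSectionVars false
set_option linter.unusedSimpArgs false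
open scoped BigOperators RealInnerProductSpace Topology
open Filter

namespace Crest.Agent.R224.Amen

variable {G : Type*} [Group G]

abbrev L (S : Finset G) := lp (fun _ : G × S => ℝ) 2

/-- gradient -/
def grad (S : Finset G) (f : G → ℝ) : G × S → ℝ := fun p => f (p.1 * (p.2 : G)) - f p.1

theorem grad_add (S : Finset G) (f g : G → ℝ) : grad S (f + g) = grad S f + grad S g := by
  funext p; simp only [grad, Pi.add_apply]; ring

theorem grad_sub (S : Finset G) (f g : G → ℝ) : grad S (f - g) = grad S f - grad S g := by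
  funext p; simp only [grad, Pi.sub_apply]; ring

theorem grad_smul (S : Finset G) (c : ℝ) (f : G → ℝ) : grad S (c • f) = c • grad S f := by
  funext p; simp only [grad, Pi.smul_apply, smul_eq_mul]; ring

/-- the space of square summable gradients -/
def Grad (S : Finset G) : Submodule ℝ (L S) where
  carrier := {b | ∃ h : G → ℝ, (b : G × S → ℝ) = grad S h}
  zero_mem' := ⟨0, by funext p; simp [grad]⟩
  add_mem' := by
    rintro a b ⟨h, hh⟩ ⟨k, hk⟩
    exact ⟨h + k, by rw [grad_add, lp.coeFn_add, hh, hk]⟩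
  smul_mem' := by
    rintro c a ⟨h, hh⟩
    exact ⟨c • h, by rw [grad_smul, lp.coeFn_smul, hh]⟩

theorem mem_Grad {S : Finset G} {b : L S} : b ∈ Grad S ↔ ∃ h : G → ℝ, (b : G × S → ℝ) = grad S h :=
  Iff.rfl

theorem tendsto_apply {S : Finset G} {b : ℕ → L S} {c : L S} (h : Tendsto b atTop (𝓝 c))
    (p : G × S) : Tendsto (fun n => b n p) atTop (𝓝 (c p)) := by
  rw [tendsto_iff_norm_sub_tendsto_zero] at h ⊢
  refine squeeze_zero (fun n => norm_nonneg _) (fun n => ?_) h
  have := lp.norm_apply_le_norm (p := 2) (by norm_num) (b n - c) p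
  simpa using this

theorem Grad_closed {S : Finset G} (hS : Subgroup.closure (S : Set G) = ⊤) :
    IsClosed (Grad S : Set (L S)) := by
  apply IsSeqClosed.isClosed
  intro b c hb hc
  choose h hh using fun n => mem_Grad.1 (hb n)
  have key : ∀ g : G, ∀ k : G, ∃ r : ℝ, Tendsto (fun n => h n (k * g) - h n k) atTop (𝓝 r) := by
    intro g
    have hg : g ∈ Subgroup.closure (S : Set G) := by rw [hS]; trivial
    induction hg using Subgroup.closure_induction with
    | mem x hx =>
      intro k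
      refine ⟨c (k, ⟨x, hx⟩), ?_⟩
      have := tendsto_apply hc (k, ⟨x, hx⟩)
      refine this.congr fun n => ?_
      rw [hh n]; rfl
    | one => intro k; exact ⟨0, by simp⟩
    | mul x y _ _ hx hy =>
      intro k
      obtain ⟨r, hr⟩ := hx k
      obtain ⟨r', hr'⟩ := hy (k * x)
      refine ⟨r' + r, (hr'.add hr).congr fun n => ?_⟩
      rw [mul_assoc]; ring
    | inv x _ hx =>
      intro k
      obtain ⟨r, hr⟩ := hx (k * x⁻¹)
      refine ⟨-r, hr.neg.congr fun n => ?_⟩
      rw [inv_mul_cancel_right]; ring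
  choose r hr using fun g => key g 1
  refine ⟨r, ?_⟩
  funext p
  refine tendsto_nhds_unique (tendsto_apply hc p) ?_
  have h1 := (hr (p.1 * p.2)).sub (hr p.1)
  refine h1.congr fun n => ?_
  rw [hh n]
  simp only [grad, one_mul]
  ring

theorem memlp_of_finite {S : Finset G} {b : G × S → ℝ} (h : (Function.support b).Finite) :
    Memℓp b 2 := by
  refine memℓp_gen ?_
  refine summable_of_hasFiniteSupport (h.subset ?_)
  intro p hp
  simp only [Function.mem_support] at hp ⊢
  intro h0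
  apply hp
  rw [h0]; simp

theorem memlp_iff {S : Finset G} {b : G × S → ℝ} :
    Memℓp b 2 ↔ Summable fun p => b p ^ 2 := by
  rw [memℓp_gen_iff (by norm_num)]
  simp

theorem support_grad_finite {S : Finset G} {u : G → ℝ} (hu : (Function.support u).Finite) :
    (Function.support (grad S u)).Finite := by
  have h1 : Function.support (grad S u) ⊆
      (⋃ s : S, (fun g => ((g * (s : G)⁻¹, s) : G × S)) '' Function.support u) ∪
      (⋃ s : S, (fun g => ((g, s) : G × S)) '' Function.support u) := by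
    rintro ⟨g, s⟩ hp
    simp only [Function.mem_support, grad] at hp
    by_cases h0 : u g = 0
    · left
      refine Set.mem_iUnion.2 ⟨s, g * s, ?_, by simp⟩
      intro h; apply hp; rw [h, h0]; simp
    · right
      exact Set.mem_iUnion.2 ⟨s, g, h0, rfl⟩
  refine Set.Finite.subset ?_ h1
  exact (Set.finite_iUnion fun s => hu.image _).union (Set.finite_iUnion fun s => hu.image _)

/-- gradients of finitely supported functions -/
def D0 (S : Finset G) : Submodule ℝ (L S) where
  carrier := {b | ∃ u : G → ℝ, (Function.support u).Finite ∧ (b : G × S → ℝ) = grad S u}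
  zero_mem' := ⟨0, by simp, by funext p; simp [grad]⟩
  add_mem' := by
    rintro a b ⟨h, hf, hh⟩ ⟨k, hf', hk⟩
    exact ⟨h + k, (hf.union hf').subset (Function.support_add _ _),
      by rw [grad_add, lp.coeFn_add, hh, hk]⟩
  smul_mem' := by
    rintro c a ⟨h, hf, hh⟩
    exact ⟨c • h, hf.subset (Function.support_const_smul_subset c h),
      by rw [grad_smul, lp.coeFn_smul, hh]⟩

/-- harmonic Dirichlet gradients -/
noncomputable def HD (S : Finset G) : Submodule ℝ (L S) := Grad S ⊓ (D0 S)ᗮ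

theorem HD_closed {S : Finset G} (hS : Subgroup.closure (S : Set G) = ⊤) :
    IsClosed (HD S : Set (L S)) := by
  have : (HD S : Set (L S)) = (Grad S : Set (L S)) ∩ ((D0 S)ᗮ : Submodule ℝ (L S)) := rfl
  rw [this]
  exact (Grad_closed hS).inter (Submodule.isClosed_orthogonal _)

section
variable [DecidableEq G]

/-- basis vector -/
noncomputable def dl {S : Finset G} (p : G × S) : L S := lp.single 2 p (1 : ℝ)

theorem inner_dl {S : Finset G} (p : G × S) (b : L S) : ⟪dl p, b⟫ = b p := by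
  rw [dl, lp.inner_single_left]; simp

theorem inner_dl' {S : Finset G} (p : G × S) (b : L S) : ⟪b, dl p⟫ = b p := by
  rw [real_inner_comm, inner_dl]

/-- the gradient of a point mass -/
noncomputable def gpt (S : Finset G) (g : G) : L S :=
  ∑ s : S, (dl (g * (s : G)⁻¹, s) - dl (g, s))

theorem gpt_eq (S : Finset G) (g : G) : ((gpt S g : L S) : G × S → ℝ) = grad S (Pi.single g 1) := by
  funext p
  obtain ⟨k, t⟩ := p
  rw [← inner_dl, gpt, inner_sum]
  have : ∀ s : S, ⟪(dl (k, t) : L S), dl (g * (s : G)⁻¹, s) - dl (g, s)⟫ =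
      if s = t then ((if k = g * (s:G)⁻¹ then (1:ℝ) else 0) - if k = g then 1 else 0) else 0 := by
    intro s
    rw [inner_sub_right, inner_dl, inner_dl]
    simp only [dl, lp.coeFn_single]
    by_cases hst : s = t
    · subst hst
      simp [Pi.single_apply, Prod.ext_iff]
    · simp [Pi.single_apply, Prod.ext_iff, hst, Ne.symm hst, eq_comm]
  simp only [this, Finset.sum_ite_eq', Finset.mem_univ, if_true, grad, Pi.single_apply]
  congr 1
  by_cases h : k = g * (t : G)⁻¹
  · simp [h]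
  · have h' : ¬ k * t = g := fun h' => h (by rw [← h']; group)
    simp [h, h']

theorem gpt_mem (S : Finset G) (g : G) : gpt S g ∈ D0 S := by
  refine ⟨Pi.single g 1, ?_, gpt_eq S g⟩
  refine (Set.finite_singleton g).subset ?_
  intro k hk
  by_contra h
  simp only [Set.mem_singleton_iff] at h
  simp [Function.mem_support, Pi.single_apply, h] at hk

/-- elements of `HD` are harmonic -/
theorem harm_of_mem {S : Finset G} {b : L S} (hb : b ∈ HD S) (h : G → ℝ)
    (hh : (b : G × S → ℝ) = grad S h) (g : G) :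
    ∑ s : S, ((h (g * (s : G)) - h g) + (h (g * (s : G)⁻¹) - h g)) = 0 := by
  have h1 : ⟪gpt S g, b⟫ = 0 := (Submodule.mem_orthogonal _ _).1 hb.2 _ (gpt_mem S g)
  rw [gpt, sum_inner] at h1
  have h2 : ∀ s : S, ⟪(dl (g * (s : G)⁻¹, s) - dl (g, s) : L S), b⟫ =
      -((h (g * (s : G)) - h g) + (h (g * (s : G)⁻¹) - h g)) := by
    intro s
    rw [inner_sub_left, inner_dl, inner_dl, hh]
    simp only [grad, inv_mul_cancel_right]
    ring
  simp only [h2, Finset.sum_neg_distrib, neg_eq_zero] at h1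
  exact h1

/-- outer vertex boundary -/
def bd (S F : Finset G) : Finset G :=
  (S.biUnion fun s => F.image (· * s) ∪ F.image (· * s⁻¹)) \ F

theorem mem_or_mem_bd {S F : Finset G} {g : G} (hg : g ∈ F) {s : G} (hs : s ∈ S) :
    g * s ∈ F ∨ g * s ∈ bd S F := by
  by_cases h : g * s ∈ F
  · exact Or.inl h
  · right
    refine Finset.mem_sdiff.2 ⟨Finset.mem_biUnion.2 ⟨s, hs, Finset.mem_union_left _ ?_⟩, h⟩
    exact Finset.mem_image.2 ⟨g, hg, rfl⟩

theorem mem_or_mem_bd' {S F : Finset G} {g : G} (hg : g ∈ F) {s : G} (hs : s ∈ S) :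
    g * s⁻¹ ∈ F ∨ g * s⁻¹ ∈ bd S F := by
  by_cases h : g * s⁻¹ ∈ F
  · exact Or.inl h
  · right
    refine Finset.mem_sdiff.2 ⟨Finset.mem_biUnion.2 ⟨s, hs, Finset.mem_union_right _ ?_⟩, h⟩
    exact Finset.mem_image.2 ⟨g, hg, rfl⟩

theorem max_principle [Infinite G] {S : Finset G} (hS : Subgroup.closure (S : Set G) = ⊤)
    (F : Finset G) (h : G → ℝ)
    (hh : ∀ g ∈ F, ∑ s : S, ((h (g * (s : G)) - h g) + (h (g * (s : G)⁻¹) - h g)) = 0)
    (h0 : ∀ g ∈ bd S F, h g = 0) : ∀ g ∈ F, h g ≤ 0 := by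
  intro g1 hg1
  by_contra hcon
  push Not at hcon
  obtain ⟨g0, hg0, hmax⟩ := F.exists_max_image h ⟨g1, hg1⟩
  set M := h g0 with hM
  have hMpos : 0 < M := hcon.trans_le (hmax g1 hg1)
  have hle : ∀ x, (x ∈ F ∨ x ∈ bd S F) → h x ≤ M := by
    rintro x (hx | hx)
    · exact hmax x hx
    · rw [h0 x hx]; exact hMpos.le
  have step : ∀ g, (g ∈ F ∧ h g = M) → ∀ s ∈ S,
      (g * s ∈ F ∧ h (g * s) = M) ∧ (g * s⁻¹ ∈ F ∧ h (g * s⁻¹) = M) := by
    rintro g ⟨hg, hgM⟩ s hs
    have h1 := hh g hg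
    have hneg : ∀ s : S, ((h (g * (s : G)) - h g) + (h (g * (s : G)⁻¹) - h g)) ≤ 0 := by
      intro t
      have e1 := hle _ (mem_or_mem_bd (S := S) hg t.2)
      have e2 := hle _ (mem_or_mem_bd' (S := S) hg t.2)
      rw [hgM]; linarith
    have h2 := (Finset.sum_eq_zero_iff_of_nonpos (fun s _ => hneg s)).1 h1 ⟨s, hs⟩
      (Finset.mem_univ _)
    simp only at h2
    have e1 := hle _ (mem_or_mem_bd (S := S) hg hs)
    have e2 := hle _ (mem_or_mem_bd' (S := S) hg hs)
    have e3 : h (g * s) = M := by rw [hgM] at h2; linarith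
    have e4 : h (g * s⁻¹) = M := by rw [hgM] at h2; linarith
    refine ⟨⟨?_, e3⟩, ⟨?_, e4⟩⟩
    · rcases mem_or_mem_bd (S := S) hg hs with h | h
      · exact h
      · rw [h0 _ h] at e3; exact absurd e3 hMpos.ne
    · rcases mem_or_mem_bd' (S := S) hg hs with h | h
      · exact h
      · rw [h0 _ h] at e4; exact absurd e4 hMpos.ne
  have all : ∀ x : G, ∀ g, (g ∈ F ∧ h g = M) → (g * x ∈ F ∧ h (g * x) = M) ∧
      (g * x⁻¹ ∈ F ∧ h (g * x⁻¹) = M) := by
    intro x
    have hx : x ∈ Subgroup.closure (S : Set G) := by rw [hS]; trivial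
    induction hx using Subgroup.closure_induction with
    | mem x hx => intro g hg; exact step g hg x hx
    | one => intro g hg; simpa using hg
    | mul x y _ _ hx hy =>
      intro g hg
      refine ⟨?_, ?_⟩
      · have := (hy _ (hx g hg).1).1
        rwa [mul_assoc] at this
      · have := (hx _ (hy g hg).2).2
        rwa [mul_assoc, ← mul_inv_rev] at this
    | inv x _ hx =>
      intro g hg
      rw [inv_inv]
      exact ⟨(hx g hg).2, (hx g hg).1⟩
  have hfin : (Set.univ : Set G) ⊆ (F : Set G) := by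
    intro x _
    have := (all (g0⁻¹ * x) g0 ⟨hg0, rfl⟩).1.1
    rw [mul_inv_cancel_left] at this
    exact this
  exact Set.infinite_univ (F.finite_toSet.subset hfin)

theorem eq_zero_of_bd [Infinite G] {S : Finset G} (hS : Subgroup.closure (S : Set G) = ⊤)
    (F : Finset G) (h : G → ℝ)
    (hh : ∀ g ∈ F, ∑ s : S, ((h (g * (s : G)) - h g) + (h (g * (s : G)⁻¹) - h g)) = 0)
    (h0 : ∀ g ∈ bd S F, h g = 0) : ∀ g ∈ F, h g = 0 := by
  intro g hg
  refine le_antisymm (max_principle hS F h hh h0 g hg) ?_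
  have := max_principle hS F (fun g => - h g) ?_ ?_ g hg
  · simpa using this
  · intro g hg
    have := hh g hg
    rw [← neg_eq_zero, ← Finset.sum_neg_distrib] at this
    rw [← this]
    refine Finset.sum_congr rfl fun s _ => ?_
    ring
  · intro g hg; simp [h0 g hg]

/-- functions harmonic on `F` -/
def Harm (S F : Finset G) : Submodule ℝ (G → ℝ) where
  carrier := {h | ∀ g ∈ F, ∑ s : S, ((h (g * (s : G)) - h g) + (h (g * (s : G)⁻¹) - h g)) = 0}
  zero_mem' := by intro g _; simp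
  add_mem' := by
    intro a b ha hb g hg
    have h1 := ha g hg
    have h2 := hb g hg
    have : ∀ s : S, (((a + b) (g * (s : G)) - (a + b) g) + ((a + b) (g * (s : G)⁻¹) - (a + b) g))
      = ((a (g * (s : G)) - a g) + (a (g * (s : G)⁻¹) - a g)) +
        ((b (g * (s : G)) - b g) + (b (g * (s : G)⁻¹) - b g)) := by
      intro s; simp only [Pi.add_apply]; ring
    simp only [this, Finset.sum_add_distrib] at *
    rw [h1, h2, add_zero]
  smul_mem' := by
    intro c a ha g hg
    have h1 := ha g hg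
    have : ∀ s : S, (((c • a) (g * (s : G)) - (c • a) g) + ((c • a) (g * (s : G)⁻¹) - (c • a) g))
      = c * ((a (g * (s : G)) - a g) + (a (g * (s : G)⁻¹) - a g)) := by
      intro s; simp only [Pi.smul_apply, smul_eq_mul]; ring
    simp only [this, ← Finset.mul_sum]
    rw [h1, mul_zero]

/-- restriction of the gradient -/
def Rmap (S F : Finset G) : Harm S F →ₗ[ℝ] EuclideanSpace ℝ (F × S) where
  toFun h := WithLp.toLp 2 fun p => grad S (h : G → ℝ) (p.1, p.2)
  map_add' := by
    intro a b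
    ext p
    simp only [Submodule.coe_add, grad_add, Pi.add_apply, PiLp.add_apply]
  map_smul' := by
    intro a b
    ext p
    simp only [Submodule.coe_smul, grad_smul, Pi.smul_apply, PiLp.smul_apply, RingHom.id_apply]

def Bmap (S F : Finset G) : Harm S F →ₗ[ℝ] (bd S F → ℝ) where
  toFun h := fun p => (h : G → ℝ) p
  map_add' := by intro a b; rfl
  map_smul' := by intro a b; rfl

theorem ker_le [Infinite G] {S : Finset G} (hS : Subgroup.closure (S : Set G) = ⊤)
    (F : Finset G) : LinearMap.ker (Bmap S F) ≤ LinearMap.ker (Rmap S F) := by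
  intro h hh
  rw [LinearMap.mem_ker] at hh ⊢
  have h0 : ∀ g ∈ bd S F, (h : G → ℝ) g = 0 := fun g hg => congrFun hh ⟨g, hg⟩
  have h1 := eq_zero_of_bd hS F h h.2 h0
  ext p
  show (h : G → ℝ) (p.1 * p.2) - (h : G → ℝ) p.1 = 0
  rw [h1 _ p.1.2]
  rcases mem_or_mem_bd (S := S) p.1.2 p.2.2 with h' | h'
  · rw [h1 _ h', sub_zero]
  · rw [h0 _ h', sub_zero]

theorem finrank_range_le [Infinite G] {S : Finset G} (hS : Subgroup.closure (S : Set G) = ⊤)
    (F : Finset G) : Module.finrank ℝ (LinearMap.range (Rmap S F)) ≤ (bd S F).card := by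
  have h1 : Module.finrank ℝ (LinearMap.range (Bmap S F)) ≤ (bd S F).card := by
    refine (Submodule.finrank_le _).trans ?_
    simp
  refine le_trans ?_ h1
  have e1 := (LinearMap.quotKerEquivRange (Bmap S F)).finrank_eq
  have e2 := (LinearMap.quotKerEquivRange (Rmap S F)).finrank_eq
  rw [← e1, ← e2]
  have : FiniteDimensional ℝ ((Harm S F) ⧸ LinearMap.ker (Bmap S F)) :=
    LinearEquiv.finiteDimensional (LinearMap.quotKerEquivRange (Bmap S F)).symm
  exact LinearMap.finrank_le_finrank_of_surjective (f := Submodule.factor (ker_le hS F))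
    (Submodule.factor_surjective _)

/-! ### translations -/

def shiftE (S : Finset G) (γ : G) : (G × S) ≃ (G × S) where
  toFun p := (γ * p.1, p.2)
  invFun p := (γ⁻¹ * p.1, p.2)
  left_inv p := by simp
  right_inv p := by simp

noncomputable def Tr {S : Finset G} (γ : G) (b : L S) : L S :=
  ⟨fun p => b ((shiftE S γ).symm p), memlp_iff.2 (by
    have h := memlp_iff.1 b.2
    exact h.comp_injective (shiftE S γ).symm.injective)⟩

theorem Tr_apply {S : Finset G} (γ : G) (b : L S) (p : G × S) :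
    Tr γ b p = b (γ⁻¹ * p.1, p.2) := rfl

theorem inner_Tr {S : Finset G} (γ : G) (b c : L S) : ⟪Tr γ b, c⟫ = ⟪b, Tr γ⁻¹ c⟫ := by
  rw [lp.inner_eq_tsum, lp.inner_eq_tsum, ← (shiftE S γ).tsum_eq]
  refine tsum_congr fun p => ?_
  rw [Tr_apply, Tr_apply]
  simp [shiftE]

theorem Tr_Grad {S : Finset G} {b : L S} (hb : b ∈ Grad S) (γ : G) : Tr γ b ∈ Grad S := by
  obtain ⟨h, hh⟩ := hb
  refine ⟨fun g => h (γ⁻¹ * g), ?_⟩
  funext p
  rw [Tr_apply, hh]
  simp [grad, mul_assoc]

theorem Tr_D0 {S : Finset G} {b : L S} (hb : b ∈ D0 S) (γ : G) : Tr γ b ∈ D0 S := by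
  obtain ⟨h, hf, hh⟩ := hb
  refine ⟨fun g => h (γ⁻¹ * g), ?_, ?_⟩
  · refine (hf.image (γ * ·)).subset ?_
    intro g hg
    exact ⟨γ⁻¹ * g, hg, by simp⟩
  · funext p
    rw [Tr_apply, hh]
    simp [grad, mul_assoc]

theorem Tr_HD {S : Finset G} {b : L S} (hb : b ∈ HD S) (γ : G) : Tr γ b ∈ HD S := by
  refine ⟨Tr_Grad hb.1 γ, ?_⟩
  rw [SetLike.mem_coe, Submodule.mem_orthogonal]
  intro w hw
  have h2 := (Submodule.mem_orthogonal _ _).1 hb.2 _ (Tr_D0 hw γ⁻¹)
  rw [inner_Tr, inv_inv] at h2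
  exact h2

/-! ### the trace inequality -/

theorem diag_eq {S : Finset G} (Q : L S → L S) (hQ1 : ∀ x, Q x ∈ HD S)
    (hQ2 : ∀ x, ∀ w ∈ HD S, ⟪x - Q x, w⟫ = 0) (γ : G) (p : G × S) :
    Q (dl (γ * p.1, p.2)) (γ * p.1, p.2) = Q (dl p) p := by
  have huniq : ∀ x y, y ∈ HD S → (∀ w ∈ HD S, ⟪x, w⟫ = ⟪y, w⟫) → Q x = y := by
    intro x y hy hxy
    have h1 : Q x - y ∈ HD S := (HD S).sub_mem (hQ1 x) hy
    have h2 := hQ2 x _ h1
    have h3 := hxy _ h1
    rw [inner_sub_left, h3, ← inner_sub_left] at h2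
    have h4 : ⟪Q x - y, Q x - y⟫ = 0 := by
      have : Q x - y = -(y - Q x) := by abel
      rw [this, inner_neg_left, ← this, h2, neg_zero]
    exact sub_eq_zero.1 (inner_self_eq_zero.1 h4)
  have h5 : Q (dl (γ * p.1, p.2)) = Tr γ (Q (dl p)) := by
    apply huniq _ _ (Tr_HD (hQ1 _) γ)
    intro w hw
    rw [inner_Tr, inner_dl]
    have h6 := hQ2 (dl p) _ (Tr_HD hw γ⁻¹)
    rw [inner_sub_left, inner_dl, sub_eq_zero] at h6
    rw [← h6, Tr_apply, inv_inv]
  rw [h5, Tr_apply]
  simp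

theorem norm_restrict_le {S : Finset G} (F : Finset G) (b : L S) :
    ‖(WithLp.toLp 2 (fun p : F × S => b (p.1, p.2)) : EuclideanSpace ℝ (F × S))‖ ≤ ‖b‖ := by
  rw [EuclideanSpace.norm_eq]
  apply Real.sqrt_le_iff.2 ⟨norm_nonneg _, ?_⟩
  have h1 := lp.sum_rpow_le_norm_rpow (p := 2) (by norm_num) b
    (Finset.univ.image (fun p : F × S => ((p.1 : G), p.2)))
  rw [Finset.sum_image] at h1
  · simpa using h1
  · rintro ⟨a, b⟩ _ ⟨c, d⟩ _ h
    simp only [Prod.mk.injEq] at h ⊢
    exact ⟨Subtype.ext h.1, h.2⟩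

theorem norm_ext {S : Finset G} (F : Finset G) (e : EuclideanSpace ℝ (F × S)) :
    ‖∑ p : F × S, e p • (dl ((p.1 : G), p.2) : L S)‖ = ‖e‖ := by
  classical
  let ι : F × S → G × S := fun p => ((p.1 : G), p.2)
  have hι : Function.Injective ι := by
    rintro ⟨a, b⟩ ⟨c, d⟩ h
    simp only [ι, Prod.mk.injEq] at h ⊢
    exact ⟨Subtype.ext h.1, h.2⟩
  let f : G × S → ℝ := fun q => if h : q.1 ∈ F then e (⟨q.1, h⟩, q.2) else 0
  have hf : ∀ p, f (ι p) = e p := by
    rintro ⟨a, b⟩
    simp [f, ι]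
  have h1 := lp.norm_sum_single (E := fun _ : G × S => ℝ) (p := 2) (by norm_num) f
    (Finset.univ.image ι)
  rw [Finset.sum_image (fun a _ b _ h => hι h), Finset.sum_image (fun a _ b _ h => hι h)] at h1
  have h2 : ∀ p : F × S, (lp.single (E := fun _ : G × S => ℝ) 2 (ι p) (f (ι p))) =
      e p • (dl ((p.1 : G), p.2) : L S) := by
    intro p
    rw [hf, dl, ← lp.single_smul]
    simp [ι]
  have h3 : ∑ p : F × S, (lp.single (E := fun _ : G × S => ℝ) 2 (ι p) (f (ι p))) =
      ∑ p : F × S, e p • (dl ((p.1 : G), p.2) : L S) := Finset.sum_congr rfl fun p _ => h2 p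
  rw [h3] at h1
  simp only [hf] at h1
  rw [EuclideanSpace.norm_eq]
  symm
  rw [Real.sqrt_eq_iff_eq_sq (by positivity) (norm_nonneg _)]
  have h4 : ‖∑ p : F × S, e p • (dl ((p.1 : G), p.2) : L S)‖ ^ 2 = ∑ p : F × S, ‖e p‖ ^ 2 := by
    exact_mod_cast h1
  rw [h4]

theorem trace_le [Infinite G] {S : Finset G} (hS : Subgroup.closure (S : Set G) = ⊤)
    (Q : L S →ₗ[ℝ] L S) (hQ1 : ∀ x, Q x ∈ HD S) (hQn : ∀ x, ‖Q x‖ ≤ ‖x‖) (F : Finset G) :
    ∑ q : F × S, Q (dl ((q.1 : G), q.2)) ((q.1 : G), q.2) ≤ (bd S F).card := by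
  classical
  set V := LinearMap.range (Rmap S F) with hV
  let R : L S →ₗ[ℝ] EuclideanSpace ℝ (F × S) :=
    { toFun := fun b => WithLp.toLp 2 (fun p : F × S => b (p.1, p.2))
      map_add' := by intro a b; rfl
      map_smul' := by intro a b; rfl }
  have hRV : ∀ x, R (Q x) ∈ V := by
    intro x
    obtain ⟨h, hh⟩ := (hQ1 x).1
    have hharm := harm_of_mem (hQ1 x) h hh
    refine ⟨⟨h, fun g _ => hharm g⟩, ?_⟩
    ext p
    show grad S h (p.1, p.2) = Q x (p.1, p.2)
    rw [hh]
  let e := stdOrthonormalBasis ℝ V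
  have hexp : ∀ q : F × S, Q (dl ((q.1 : G), q.2)) ((q.1 : G), q.2) =
      ∑ i, ⟪(e i : EuclideanSpace ℝ (F × S)), R (Q (dl ((q.1 : G), q.2)))⟫ *
        (e i : EuclideanSpace ℝ (F × S)) q := by
    intro q
    have h1 := e.sum_repr' ⟨R (Q (dl ((q.1 : G), q.2))), hRV _⟩
    have h2 := congrArg (fun v : V => (v : EuclideanSpace ℝ (F × S)) q) h1
    simp only [Submodule.coe_sum, Submodule.coe_smul, WithLp.ofLp_sum, Finset.sum_apply,
      PiLp.smul_apply, smul_eq_mul, Submodule.coe_inner] at h2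
    exact h2.symm
  simp only [hexp]
  rw [Finset.sum_comm]
  have hterm : ∀ i, ∑ q : F × S, ⟪(e i : EuclideanSpace ℝ (F × S)),
      R (Q (dl ((q.1 : G), q.2)))⟫ * (e i : EuclideanSpace ℝ (F × S)) q ≤ 1 := by
    intro i
    have h1 : ∑ q : F × S, ⟪(e i : EuclideanSpace ℝ (F × S)),
      R (Q (dl ((q.1 : G), q.2)))⟫ * (e i : EuclideanSpace ℝ (F × S)) q =
        ⟪(e i : EuclideanSpace ℝ (F × S)),
          R (Q (∑ q : F × S, (e i : EuclideanSpace ℝ (F × S)) q • dl ((q.1 : G), q.2)))⟫ := by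
      simp only [map_sum, map_smul, inner_sum, inner_smul_right]
      refine Finset.sum_congr rfl fun q _ => ?_
      ring
    rw [h1]
    refine (real_inner_le_norm _ _).trans ?_
    have h2 : ‖(e i : EuclideanSpace ℝ (F × S))‖ = 1 := e.orthonormal.1 i
    rw [h2, one_mul]
    refine (norm_restrict_le F _).trans ((hQn _).trans ?_)
    rw [norm_ext, h2]
  refine (Finset.sum_le_sum fun i _ => hterm i).trans ?_
  rw [Finset.sum_const, Finset.card_univ, Fintype.card_fin, nsmul_eq_mul, mul_one]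
  exact_mod_cast finrank_range_le hS F

/-- no harmonic Dirichlet gradients on groups with Følner sets -/
theorem HD_eq_bot [Infinite G] {S : Finset G} (hS : Subgroup.closure (S : Set G) = ⊤)
    (hA : ∀ ε : ℝ, 0 < ε → ∃ F : Finset G, F.Nonempty ∧ ((bd S F).card : ℝ) ≤ ε * F.card) :
    HD S = ⊥ := by
  classical
  have : CompleteSpace (HD S) := (HD_closed hS).completeSpace_coe
  let Q : L S →ₗ[ℝ] L S := ((HD S).starProjection : L S →L[ℝ] L S)
  have hQ1 : ∀ x, Q x ∈ HD S := fun x => Submodule.starProjection_apply_mem _ x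
  have hQ2 : ∀ x, ∀ w ∈ HD S, ⟪x - Q x, w⟫ = 0 := by
    intro x w hw
    exact Submodule.starProjection_inner_eq_zero _ w hw
  have hQn : ∀ x, ‖Q x‖ ≤ ‖x‖ := fun x => Submodule.norm_starProjection_apply_le _ x
  set c : ℝ := ∑ s : S, Q (dl (1, s)) (1, s) with hc
  have hnn : ∀ p : G × S, Q (dl p) p = ‖Q (dl p)‖ ^ 2 := by
    intro p
    have h1 := hQ2 (dl p) _ (hQ1 (dl p))
    rw [inner_sub_left, inner_dl, sub_eq_zero, real_inner_self_eq_norm_sq] at h1
    exact h1
  have hc0 : 0 ≤ c := Finset.sum_nonneg fun s _ => by rw [hnn]; positivity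
  have hmain : ∀ F : Finset G, c * F.card ≤ (bd S F).card := by
    intro F
    refine le_trans (le_of_eq ?_) (trace_le hS Q hQ1 hQn F)
    have h1 : ∀ q : F × S, Q (dl ((q.1 : G), q.2)) ((q.1 : G), q.2) = Q (dl (1, q.2)) (1, q.2) := by
      intro q
      have := diag_eq Q hQ1 hQ2 (q.1 : G) (1, q.2)
      simpa using this
    simp only [h1]
    rw [Fintype.sum_prod_type]
    simp only
    rw [Finset.sum_const, ← hc, Finset.card_univ, Fintype.card_coe, nsmul_eq_mul, mul_comm]
  have hc1 : c = 0 := by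
    by_contra hne
    have hpos : 0 < c := lt_of_le_of_ne hc0 (Ne.symm hne)
    obtain ⟨F, hF, hF2⟩ := hA (c / 2) (by linarith)
    have h1 := (hmain F).trans hF2
    have h2 : (0 : ℝ) < F.card := by exact_mod_cast hF.card_pos
    nlinarith
  have hz : ∀ s : S, Q (dl (1, s)) (1, s) = 0 := by
    intro s
    exact (Finset.sum_eq_zero_iff_of_nonneg (fun s _ => by rw [hnn]; positivity)).1 hc1 s
      (Finset.mem_univ _)
  have hz2 : ∀ p : G × S, Q (dl p) = 0 := by
    intro p
    have h1 := diag_eq Q hQ1 hQ2 p.1 (1, p.2)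
    simp only [mul_one] at h1
    rw [hz, hnn] at h1
    have : ‖Q (dl p)‖ = 0 := by
      have : ‖Q (dl p)‖ ^ 2 = 0 := h1
      exact pow_eq_zero_iff (by norm_num) |>.1 this
    exact norm_eq_zero.1 this
  rw [eq_bot_iff]
  intro b hb
  rw [Submodule.mem_bot]
  ext p
  have h1 := hQ2 (dl p) b hb
  rw [hz2, sub_zero, inner_dl] at h1
  rw [h1]; rfl

end

/-- the conclusion of S0346 for one function, from `HD S = ⊥` -/
theorem approx_of_HD {S : Finset G} (hS : Subgroup.closure (S : Set G) = ⊤)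
    (hHD : HD S = ⊥) (f : G → ℝ)
    (hf : Summable fun p : G × S => (f (p.1 * (p.2 : G)) - f p.1) ^ 2) (ε : ℝ) (hε : 0 < ε) :
    ∃ u : G → ℝ, (Function.support u).Finite ∧
      ∃ E : ℝ, HasSum (fun p : G × S =>
        ((f - u) (p.1 * (p.2 : G)) - (f - u) p.1) ^ 2) E ∧ E < ε := by
  classical
  let b : L S := ⟨grad S f, memlp_iff.2 hf⟩
  have hbG : b ∈ Grad S := ⟨f, rfl⟩
  have hcl : (D0 S).topologicalClosure ≤ Grad S := by
    refine Submodule.topologicalClosure_minimal _ ?_ (Grad_closed hS)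
    rintro a ⟨u, _, hu⟩
    exact ⟨u, hu⟩
  have hb : b ∈ (D0 S).topologicalClosure := by
    have : CompleteSpace ((D0 S).topologicalClosure) :=
      (Submodule.isClosed_topologicalClosure _).completeSpace_coe
    let P := (D0 S).topologicalClosure.starProjection b
    have hP : P ∈ (D0 S).topologicalClosure := Submodule.starProjection_apply_mem _ b
    have h1 : b - P ∈ HD S := by
      refine ⟨(Grad S).sub_mem hbG (hcl hP), ?_⟩
      rw [SetLike.mem_coe, Submodule.mem_orthogonal']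
      intro w hw
      exact Submodule.starProjection_inner_eq_zero _ w ((D0 S).le_topologicalClosure hw)
    rw [hHD, Submodule.mem_bot, sub_eq_zero] at h1
    rw [h1]; exact hP
  have hb2 : b ∈ closure ((D0 S : Submodule ℝ (L S)) : Set (L S)) := hb
  rw [Metric.mem_closure_iff] at hb2
  obtain ⟨a, ⟨u, hu, hau⟩, hd⟩ := hb2 (Real.sqrt ε) (Real.sqrt_pos.2 hε)
  refine ⟨u, hu, ‖b - a‖ ^ 2, ?_, ?_⟩
  · have h2 := lp.hasSum_norm (p := 2) (by norm_num) (b - a)
    have h3 : ∀ p, (b - a) p = (f - u) (p.1 * (p.2 : G)) - (f - u) p.1 := by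
      intro p
      rw [lp.coeFn_sub, Pi.sub_apply, hau]
      show grad S f p - grad S u p = _
      simp only [grad, Pi.sub_apply]; ring
    simpa [h3] using h2
  · rw [dist_eq_norm] at hd
    have := Real.lt_sqrt (norm_nonneg (b - a)) |>.1 hd
    exact this

/-- the amenable case of S0346 -/
theorem amen_case [Infinite G] [DecidableEq G] {S : Finset G}
    (hS : Subgroup.closure (S : Set G) = ⊤)
    (hA : ∀ ε : ℝ, 0 < ε → ∃ F : Finset G, F.Nonempty ∧ ((bd S F).card : ℝ) ≤ ε * F.card)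
    (f : G → ℝ)
    (hf : Summable fun p : G × S => (f (p.1 * (p.2 : G)) - f p.1) ^ 2) (ε : ℝ) (hε : 0 < ε) :
    ∃ u : G → ℝ, (Function.support u).Finite ∧
      ∃ E : ℝ, HasSum (fun p : G × S =>
        ((f - u) (p.1 * (p.2 : G)) - (f - u) p.1) ^ 2) E ∧ E < ε :=
  approx_of_HD hS (HD_eq_bot hS hA) f hf ε hε

/-- the finite case -/
theorem finite_case [Finite G] {S : Finset G} (f : G → ℝ) (ε : ℝ) (hε : 0 < ε) :
    ∃ u : G → ℝ, (Function.support u).Finite ∧
      ∃ E : ℝ, HasSum (fun p : G × S =>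
        ((f - u) (p.1 * (p.2 : G)) - (f - u) p.1) ^ 2) E ∧ E < ε := by
  refine ⟨f, Set.toFinite _, 0, ?_, hε⟩
  simp

end Crest.Agent.R224.Amen
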