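/-
R224 / S0346 : definitions of the GROUP HALF (helper276).
Everything is stated for a group `G` and a finite symmetric set `S` (1 in S, S generates).
Graph: x ~ y iff x⁻¹ * y ∈ S.  Triangles: pairwise adjacent triples (degenerate ones allowed).
-/
import Mathlib

set_option autoImplicit false

noncomputable section

open MeasureTheory Set Filter Topology

namespace Crest.Agent.R224

/-! ## Groups, graph, Dirichlet functions -/

section grp

variable {G : Type} [Group G]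

/-- adjacency in the Cayley/Rips graph -/
def Adj (S : Finset G) (x y : G) : Prop := x⁻¹ * y ∈ S

/-- standard generating set -/
structure Std (S : Finset G) : Prop where
  one : (1 : G) ∈ S
  inv : ∀ s ∈ S, s⁻¹ ∈ S
  gen : Subgroup.closure (S : Set G) = ⊤

/-- Dirichlet function (same form as in S0346) -/
def Dir (S : Finset G) (f : G → ℝ) : Prop :=
  Summable fun p : G × S => (f (p.1 * (p.2 : G)) - f p.1) ^ 2

/-- energy -/
def En (S : Finset G) (f : G → ℝ) : ℝ :=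
  ∑' p : G × S, (f (p.1 * (p.2 : G)) - f p.1) ^ 2

/-- edge boundary of a vertex set, oriented outwards -/
def bd (S : Finset G) (A : Set G) : Set (G × G) :=
  {p | Adj S p.1 p.2 ∧ p.1 ∈ A ∧ p.2 ∉ A}

/-- isoperimetric form of non-amenability -/
def Nonam (S : Finset G) : Prop :=
  ∃ κ : ℝ, 0 < κ ∧ ∀ F : Finset G, κ * (F.card : ℝ) ≤ ((bd S (F : Set G)).ncard : ℝ)

/-- The topological input (to be proved for π₁ of a closed aspherical 4-manifold, for a suitable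
large finite `S`). -/
structure TopHyp (S : Finset G) : Prop extends Std S where
  h1 : ∀ ψ : G → G → ZMod 2,
    (∀ x y z, Adj S x y → Adj S y z → Adj S x z → ψ x y + ψ y z = ψ x z) →
    ∃ E : G → ZMod 2, ∀ x y, Adj S x y → ψ x y = E x + E y
  oneEnd : ∀ A : Set G, (bd S A).Finite → A.Finite ∨ Aᶜ.Finite
  t2 : ∀ ψ : G → G → ZMod 2,
    {p : G × G × G | Adj S p.1 p.2.1 ∧ Adj S p.2.1 p.2.2 ∧ Adj S p.1 p.2.2 ∧
      ψ p.1 p.2.1 + ψ p.2.1 p.2.2 ≠ ψ p.1 p.2.2}.Finite →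
    ∃ E : G → ZMod 2, {p : G × G | Adj S p.1 p.2 ∧ ψ p.1 p.2 ≠ E p.1 + E p.2}.Finite
  tf : ∀ g : G, g ≠ 1 → ∀ n : ℕ, 0 < n → g ^ n ≠ 1

/-- Markov operator of the simple random walk -/
def Pop (S : Finset G) (f : G → ℝ) (x : G) : ℝ := (∑ s ∈ S, f (x * s)) / (S.card : ℝ)

/-- connected vertex set -/
def Conn (S : Finset G) (Y : Set G) : Prop :=
  ∀ x ∈ Y, ∀ y ∈ Y, Relation.ReflTransGen (fun a b => Adj S a b ∧ a ∈ Y ∧ b ∈ Y) x y

/-- adjacency of two oriented edges of a wall (they span a triangle) -/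
def tstep (S : Finset G) (p q : G × G) : Prop :=
  (p.1 = q.1 ∧ Adj S p.2 q.2) ∨ (p.2 = q.2 ∧ Adj S p.1 q.1)

/-- the wall `bd A` has finitely many components -/
def FinC (S : Finset G) (A : Set G) : Prop :=
  ∃ F : Set (G × G), F.Finite ∧ F ⊆ bd S A ∧ ∀ p ∈ bd S A, ∃ q ∈ F,
    Relation.ReflTransGen (fun a b => tstep S a b ∧ a ∈ bd S A ∧ b ∈ bd S A) q p

end grp

/-! ## The compactification -/

section bdry

variable {G : Type} [Group G] {Z : Type} [MetricSpace Z] [MulAction G Z]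

/-- the boundary -/
def T (ι : G → Z) : Set Z := (Set.range ι)ᶜ

/-- Compactification `Z = ι(G) ⊔ T` of `G`, with the family `𝓕` of functions. -/
structure IsBdry [CompactSpace Z] (S : Finset G) (ι : G → Z) (𝓕 : Set (Z → ℝ)) : Prop where
  cont : ∀ g : G, Continuous fun z : Z => g • z
  eqv : ∀ g h : G, g • ι h = ι (g * h)
  inj : Function.Injective ι
  isol : ∀ g : G, IsOpen ({ι g} : Set Z)
  dense : Dense (Set.range ι)
  two : ∃ a ∈ T ι, ∃ b ∈ T ι, a ≠ b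
  /-- convergence property -/
  cp : ∀ ε : ℝ, 0 < ε → ∃ K : Finset G, ∀ x : G, x ∉ K → ∀ z : Z,
    dist z (ι x) ≤ ε ∨ dist (x⁻¹ • z) (ι x⁻¹) ≤ ε
  /-- local connectedness relative to `G` -/
  lc : ∀ θ ∈ T ι, ∀ ε : ℝ, 0 < ε → ∃ Y : Set G, Conn S Y ∧ (∀ x ∈ Y, dist (ι x) θ < ε) ∧
    ∃ δ : ℝ, 0 < δ ∧ ∀ x : G, dist (ι x) θ < δ → x ∈ Y
  ctble : 𝓕.Countable
  fcont : ∀ f ∈ 𝓕, Continuous f
  fdir : ∀ f ∈ 𝓕, Dir S fun x => f (ι x)
  ffin : ∀ f ∈ 𝓕, ∀ᵐ t : ℝ, FinC S {x : G | f (ι x) < t}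
  fsep : ∀ a ∈ T ι, ∀ b ∈ T ι, a ≠ b → ∃ f ∈ 𝓕, f a ≠ f b

/-- relatively open subset of the boundary -/
def RO (ι : G → Z) (U : Set Z) : Prop := ∃ O : Set Z, IsOpen O ∧ O ∩ T ι = U

/-- complement inside `T \ {η}` -/
def cmp (ι : G → Z) (η : Z) (U : Set Z) : Set Z := {z | z ∈ T ι ∧ z ≠ η ∧ z ∉ U}

/-- `U` is a clopen subset of `T \ {η}` -/
structure Clp (ι : G → Z) (η : Z) (U : Set Z) : Prop where
  mem : η ∈ T ι
  notMem : η ∉ U
  ro : RO ι U
  ro' : RO ι (cmp ι η U)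

/-- true cut point -/
def IsCut (ι : G → Z) (η : Z) : Prop :=
  ∃ U, Clp ι η U ∧ U.Nonempty ∧ (cmp ι η U).Nonempty

/-- component (quasi-component) of `θ` in `T \ {η}` -/
def Compo (ι : G → Z) (η θ : Z) : Set Z := {z | z ∈ T ι ∧ z ≠ η ∧ ∀ U, Clp ι η U → θ ∈ U → z ∈ U}

end bdry

/-! ## Harmonic measures -/

section harm

variable {G : Type} [Group G] {Z : Type} [MetricSpace Z] [MulAction G Z]
  [MeasurableSpace Z] [BorelSpace Z]

structure IsHarm (S : Finset G) (ι : G → Z) (ν : G → Measure Z) : Prop where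
  prob : ∀ x, IsProbabilityMeasure (ν x)
  supp : ∀ x, ν x (T ι)ᶜ = 0
  equiv : ∀ (g x : G) (A : Set Z), MeasurableSet A → ν (g * x) ((fun z => g • z) '' A) = ν x A
  harm : ∀ (x : G) (A : Set Z), MeasurableSet A →
    (ν x).real A = Pop S (fun y => (ν y).real A) x
  /-- `ν y` is concentrated near `y` for far `y` -/
  conc : ∀ ε : ℝ, 0 < ε → ∃ K : Finset G, ∀ y : G, y ∉ K →
    (ν y).real {z | ε ≤ dist z (ι y)} ≤ ε
  /-- full support -/
  full : ∀ (x : G) (O : Set Z), IsOpen O → (O ∩ T ι).Nonempty → 0 < (ν x).real O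
  /-- no atoms -/
  atomless : ∀ (x : G) (z : Z), ν x {z} = 0
  /-- zero-one law -/
  zeroone : ∀ (A : Set Z), MeasurableSet A → (∃ x, 0 < (ν x).real A) →
    ∀ s : ℝ, s < 1 → ∃ y, s < (ν y).real A

/-- mass of `U` seen from `x` -/
def hh (ν : G → Measure Z) (U : Set Z) (x : G) : ℝ := (ν x).real U

/-- vertices at which `U` is balanced -/
def Bal (ν : G → Measure Z) (c : ℝ) (U : Set Z) : Set G := {x | c ≤ hh ν U x ∧ hh ν U x ≤ 1 - c}

/-- `η` separates `x` from `y` by majority -/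
def Cross (ι : G → Z) (ν : G → Measure Z) (x y : G) (η : Z) : Prop :=
  ∃ U, Clp ι η U ∧ 1 / 2 < hh ν U x ∧ hh ν U y ≤ 1 / 2

/-! ## Blocks -/

/-- `a` and `b` are not separated by any true cut point -/
structure Unsep (ι : G → Z) (a b : Z) : Prop where
  ha : a ∈ T ι
  hb : b ∈ T ι
  ne : a ≠ b
  uns : ∀ η, IsCut ι η → η ≠ a → η ≠ b → ∀ U, Clp ι η U → (a ∈ U ↔ b ∈ U)

open Classical in
/-- component at `η` containing the block of `a`, `b` -/
def sel (ι : G → Z) (a b η : Z) : Set Z := if η = a then Compo ι a b else Compo ι η a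

/-- the branch at `η` away from the block -/
def Dn (ι : G → Z) (a b η : Z) : Set Z := cmp ι η (sel ι a b η)

/-- the block -/
def Blk (ι : G → Z) (a b : Z) : Set Z :=
  {z | z ∈ T ι ∧ ∀ η, IsCut ι η → (z = η ∨ z ∈ sel ι a b η)}

/-- preimage under the retraction of the boundary onto the block of a subset `A` of the block -/
def sat (ι : G → Z) (a b : Z) (A : Set Z) : Set Z :=
  (A ∩ Blk ι a b) ∪ {z | ∃ η, IsCut ι η ∧ η ∈ A ∧ η ∈ Blk ι a b ∧ z ∈ Dn ι a b η}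

/-- vertices seeing the block -/
def XB (ι : G → Z) (ν : G → Measure Z) (a b : Z) (c : ℝ) : Set G :=
  {x | ∀ η, IsCut ι η → η ∈ Blk ι a b → hh ν (Dn ι a b η) x ≤ 1 - c}

end harm

end Crest.Agent.R224
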