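/- R224: assembly of the group half from the nodes (helper276). -/
import Crest.Agent.R224.Iface

set_option autoImplicit false

noncomputable section

open MeasureTheory Set Filter Topology

namespace Crest.Agent.R224

/-- all the nodes of part II (except `NFinal`) -/
structure AllNodes (s : Sys) : Prop where
  pconn : PConn s
  phalf : PHalf s
  palg : PAlg s
  plim : PLim s
  pbal : PBal s
  psep : PSep s
  pnull : PNullLev s
  lf : NLF s
  ctbl : NCtbl s
  nopen : NOpen s
  nnull : NNull s
  nblock : NBlock s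
  npart : NPart s
  nretr : NRetr s
  nbc : NBlkConn s
  ncofin : NCofin s
  nequiv : NEquiv s
  nspread : NSpread s
  nxb : NXB s
  norder : NOrder s
  nside : NSide s

theorem no_sys (hF : NFinal) (h : ∀ s : Sys, AllNodes s) (s : Sys) : False :=
  hF s (h s).pconn (h s).phalf (h s).palg (h s).plim (h s).pbal (h s).psep (h s).pnull (h s).lf
    (h s).ctbl (h s).nopen (h s).nnull (h s).nblock (h s).npart (h s).nretr (h s).nbc (h s).ncofin
    (h s).nequiv (h s).nspread (h s).nxb (h s).norder (h s).nside

theorem groupHalf_of (hB : NBdry) (hH : NHarm) (hF : NFinal) (h : ∀ s : Sys, AllNodes s) :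
    GroupHalf := by
  intro G _ S hT hN hI f hf
  by_contra hcon
  obtain ⟨Z, i1, i2, i3, ι, 𝓕, hb⟩ := hB G S hT hN hI ⟨f, hf, hcon⟩
  letI := i1
  letI := i2
  letI := i3
  letI : MeasurableSpace Z := borel Z
  haveI : BorelSpace Z := ⟨rfl⟩
  obtain ⟨ν, hν⟩ := hH G S Z ι 𝓕 hT hN hI hb
  exact no_sys hF h
    { G := G, grp := inferInstance, inf := hI, S := S, top := hT, non := hN, Z := Z, met := i1,
      cpt := i2, act := i3, mea := borel Z, bor := ⟨rfl⟩, ι := ι, 𝓕 := 𝓕, bdry := hb, ν := ν,
      harm := hν }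

end Crest.Agent.R224
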