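/-
R224 / S0346 : interface of the proof of Theorem B' (NThmB), note 9910 (helper473).
-/
import Crest.Agent.R224.Iface

set_option autoImplicit false

noncomputable section

open MeasureTheory Set Filter Topology

namespace Crest.Agent.R224

section abs

variable {G : Type} [Group G]

/-- `M` is (up to ties) the `1/2`-superlevel set of a nonconstant harmonic function -/
def Har (S : Finset G) (M : Set G) : Prop :=
  ∃ u : G → ℝ, (∀ x, Pop S u x = u x) ∧ (∀ x, 0 ≤ u x) ∧ (∀ x, u x ≤ 1) ∧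
    {x | 1 / 2 < u x} ⊆ M ∧ M ⊆ {x | 1 / 2 ≤ u x} ∧ (∃ x, 3 / 4 < u x) ∧ ∃ y, u y < 1 / 4

/-- edges from `A` to the complement of `B` -/
def PP (S : Finset G) (A B : Set G) : Set (G × G) :=
  {p | Adj S p.1 p.2 ∧ p.1 ∈ A ∧ p.2 ∉ B}

/-- the abstract nested family (limit walls from below) -/
structure NestFam (S : Finset G) (D : Set (Set G)) : Prop where
  inv : ∀ g : G, ∀ M ∈ D, (fun x => g * x) '' M ∈ D
  chain : ∀ M ∈ D, ∀ M' ∈ D, ∀ x y, Adj S x y → x ∈ M → x ∈ M' → y ∉ M → y ∉ M' →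
    M ⊆ M' ∨ M' ⊆ M
  fin : ∀ M ∈ D, ∀ M' ∈ D, M ⊆ M' → M ≠ M' → ∀ x y, Adj S x y → x ∈ M → y ∉ M' →
    (PP S M M').Finite
  stab : ∀ M ∈ D, ∀ g : G, (fun x => g * x) '' M = M → g = 1
  union : ∀ M : ℕ → Set G, (∀ k, M k ∈ D) → Monotone M → (⋃ k, M k) ≠ univ → (⋃ k, M k) ∈ D
  har : ∀ M ∈ D, Har S M
  harAnti : ∀ M : ℕ → Set G, (∀ k, M k ∈ D) → StrictAnti M → ∀ x y, Adj S x y →
    (∀ k, x ∈ M k) → (∀ k, y ∉ M k) → Har S (⋂ k, M k)

/-- Principle M' (step 5 of note 9910) -/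
def PrinM (S : Finset G) : Prop :=
  ∀ (D : Set G) (w : G → ℝ), (∀ x, 0 ≤ w x) → (∀ x, w x ≤ 1) → (∀ x, w x ≤ Pop S w x) →
    (∀ x, x ∉ D → w x = 0) → (∃ x, 0 < w x) →
    ∀ (R : Finset G) (F : ℕ → Finset G), (∀ x, ∀ᶠ k in atTop, (x ∈ F k ↔ x ∈ D)) →
    (∀ k a b, Adj S a b → a ∈ F k → b ∉ F k → a ∈ D → b ∈ D → ∃ r ∈ R, a * r ∉ D) → False

end abs

/-- (921) Principle M' holds in nonamenable groups -/
def NPrinM : Prop := ∀ (G : Type) [Group G] (S : Finset G), TopHyp S → Nonam S → Infinite G →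
  PrinM S

/-- (473) the abstract theorem, steps 1-4 of note 9910 -/
def NCore : Prop := ∀ (G : Type) [Group G] (S : Finset G), TopHyp S → Infinite G → PrinM S →
  ∀ D : Set (Set G), NestFam S D → D = ∅

/-- order between cuts `(η,U)` -/
def cutLt {Z : Type} (c d : Z × Set Z) : Prop := insert c.1 c.2 ⊆ d.2

/-- majority side of a cut -/
def cutD {G Z : Type} [MeasurableSpace Z] (ν : G → Measure Z) (c : Z × Set Z) : Set G :=
  {x | 1 / 2 < hh ν c.2 x}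

/-- limit walls from below -/
def LimFam {G Z : Type} [Group G] [MetricSpace Z] [MulAction G Z] [MeasurableSpace Z]
    (ι : G → Z) (ν : G → Measure Z) : Set (Set G) :=
  {M | M ≠ univ ∧ ∀ K : Finset G, (K : Set G) ⊆ M → ∃ c1 c2 c3 c4 : Z × Set Z,
    Clp ι c1.1 c1.2 ∧ Clp ι c2.1 c2.2 ∧ Clp ι c3.1 c3.2 ∧ Clp ι c4.1 c4.2 ∧
    cutLt c1 c2 ∧ cutLt c2 c3 ∧ cutLt c3 c4 ∧ (K : Set G) ⊆ cutD ν c1 ∧ cutD ν c4 ⊆ M}

/-- (630) the concrete family is a nested family -/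
def NFam (s : Sys) : Prop := NestFam s.S (LimFam s.ι s.ν)

end Crest.Agent.R224
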