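/-
R224 / S0346 : abstract theorem behind Theorem B' (note 9910), part 1: basics.
-/
import Crest.Agent.R224.BDefs

set_option autoImplicit false

noncomputable section

open MeasureTheory Set Filter Topology

namespace Crest.Agent.R224

variable {G : Type} [Group G]

/-! ### translations -/

/-- left translate -/
def tr (g : G) (A : Set G) : Set G := (fun x => g * x) '' A

theorem mem_tr {g x : G} {A : Set G} : x ∈ tr g A ↔ g⁻¹ * x ∈ A := by
  constructor
  · rintro ⟨a, ha, rfl⟩; simpa using ha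
  · intro h; exact ⟨g⁻¹ * x, h, by simp⟩

@[simp] theorem mul_mem_tr {g x : G} {A : Set G} : g * x ∈ tr g A ↔ x ∈ A := by
  rw [mem_tr]; simp

theorem tr_tr (g h : G) (A : Set G) : tr g (tr h A) = tr (g * h) A := by
  ext x; simp [mem_tr, mul_assoc]

@[simp] theorem tr_one (A : Set G) : tr 1 A = A := by
  ext x; simp [mem_tr]

theorem tr_mono {g : G} {A B : Set G} : tr g A ⊆ tr g B ↔ A ⊆ B := by
  constructor
  · intro h x hx
    have := h (mul_mem_tr.2 hx)
    simpa using this
  · intro h x hx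
    rw [mem_tr] at hx ⊢
    exact h hx

theorem tr_inj {g : G} {A B : Set G} : tr g A = tr g B ↔ A = B := by
  constructor
  · intro h
    exact Subset.antisymm (tr_mono.1 h.subset) (tr_mono.1 h.superset)
  · rintro rfl; rfl

theorem adj_mul {S : Finset G} (g x y : G) : Adj S (g * x) (g * y) ↔ Adj S x y := by
  unfold Adj
  simp [mul_assoc]

theorem Std.adj_symm {S : Finset G} (hS : Std S) {x y : G} (h : Adj S x y) : Adj S y x := by
  unfold Adj at *
  have := hS.inv _ h
  simpa using this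

theorem adj_mul_right {S : Finset G} (x : G) {s : G} (hs : s ∈ S) : Adj S x (x * s) := by
  unfold Adj; simpa using hs

/-- induction along the graph -/
theorem Std.induct {S : Finset G} (hS : Std S) {P : G → Prop} (x0 : G) (h0 : P x0)
    (hstep : ∀ x y, Adj S x y → P x → P y) : ∀ x, P x := by
  have key : ∀ g ∈ Subgroup.closure (S : Set G), ∀ x, P x ↔ P (x * g) := by
    intro g hg
    induction hg using Subgroup.closure_induction with
    | mem s hs =>
      intro x
      have hs' : s ∈ S := hs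
      constructor
      · exact hstep _ _ (adj_mul_right x hs')
      · intro h
        have := hstep _ _ (adj_mul_right (x * s) (hS.inv s hs')) h
        simpa using this
    | one => intro x; simp
    | mul a b _ _ iha ihb =>
      intro x
      rw [iha x, ihb (x * a), mul_assoc]
    | inv a _ iha =>
      intro x
      have := iha (x * a⁻¹)
      rw [this]; simp
  intro x
  have hx : x0⁻¹ * x ∈ Subgroup.closure (S : Set G) := by rw [hS.gen]; trivial
  have := (key _ hx x0).1 h0
  simpa using this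

theorem Std.countable {S : Finset G} (hS : Std S) : Countable G := by
  classical
  let B : ℕ → Finset G := fun n => Nat.rec {1} (fun _ A => A ∪ Finset.image₂ (fun a s => a * s) A S) n
  have hB : ∀ n, B (n + 1) = B n ∪ Finset.image₂ (fun a s => a * s) (B n) S := fun n => rfl
  have : ∀ x : G, ∃ n, x ∈ B n := by
    apply hS.induct (P := fun x => ∃ n, x ∈ B n) 1 ⟨0, by simp [B]⟩
    rintro x y hxy ⟨n, hn⟩
    refine ⟨n + 1, ?_⟩
    rw [hB, Finset.mem_union, Finset.mem_image₂]
    right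
    exact ⟨x, hn, x⁻¹ * y, hxy, by simp⟩
  have hc : (⋃ n, {x : G | x ∈ B n}).Countable := by
    apply Set.countable_iUnion
    intro n
    exact (B n).countable_toSet
  have hu : (⋃ n, {x : G | x ∈ B n}) = univ := by
    ext x; simp only [mem_iUnion, mem_univ, iff_true, mem_setOf_eq]
    exact this x
  rw [hu] at hc
  exact countable_univ_iff.1 hc

/-! ### maximum principle -/

theorem Std.card_pos {S : Finset G} (hS : Std S) : 0 < (S.card : ℝ) := by
  have : 0 < S.card := Finset.card_pos.2 ⟨1, hS.one⟩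
  exact_mod_cast this

theorem harm_const {S : Finset G} (hS : Std S) {u : G → ℝ} (hu : ∀ x, Pop S u x = u x) {x0 : G}
    (hmax : ∀ x, u x ≤ u x0) : ∀ x, u x = u x0 := by
  apply hS.induct (P := fun x => u x = u x0) x0 rfl
  intro x y hxy hx
  have h1 := hu x
  unfold Pop at h1
  rw [div_eq_iff hS.card_pos.ne'] at h1
  have h2 : ∑ s ∈ S, (u x0 - u (x * s)) = 0 := by
    rw [Finset.sum_sub_distrib, h1]; simp [hx, mul_comm]
  have h3 := (Finset.sum_eq_zero_iff_of_nonneg (fun s _ => sub_nonneg.2 (hmax (x * s)))).1 h2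
    (x⁻¹ * y) hxy
  have h4 : x * (x⁻¹ * y) = y := by simp
  rw [h4] at h3
  linarith

theorem Har.bd_infinite {S : Finset G} (hS : TopHyp S) [Infinite G] {M : Set G} (h : Har S M) :
    (bd S M).Infinite := by
  obtain ⟨u, hu, h0, h1, hM, hM', ⟨x, hx⟩, ⟨y, hy⟩⟩ := h
  intro hfin
  rcases hS.oneEnd M hfin with h | h
  · -- maximum attained
    have hne : h.toFinset.Nonempty := ⟨x, by simp; exact hM (by simp; linarith)⟩
    obtain ⟨x0, hx0, hmax⟩ := h.toFinset.exists_max_image u hne
    have hxM : x ∈ h.toFinset := by simp; exact hM (by simp; linarith)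
    have hb : 3 / 4 < u x0 := lt_of_lt_of_le hx (hmax x hxM)
    have : ∀ z, u z ≤ u x0 := by
      intro z
      by_cases hz : z ∈ M
      · exact hmax z (by simpa using hz)
      · by_contra hc
        exact hz (hM (by simp; linarith))
    have := harm_const hS.toStd hu this y
    linarith
  · have hyM : y ∈ h.toFinset := by
      simp only [Set.Finite.mem_toFinset, mem_compl_iff]
      intro hy'
      have := hM' hy'
      simp at this
      linarith
    obtain ⟨x0, hx0, hmin⟩ := h.toFinset.exists_min_image u ⟨y, hyM⟩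
    have hb : u x0 < 1 / 4 := lt_of_le_of_lt (hmin y hyM) hy
    have hneg : ∀ z, Pop S (fun z => - u z) z = - u z := by
      intro z
      unfold Pop
      rw [Finset.sum_neg_distrib, neg_div]
      have := hu z
      unfold Pop at this
      rw [this]
    have : ∀ z, - u z ≤ - u x0 := by
      intro z
      by_cases hz : z ∈ M
      · have := hM' hz
        simp at this
        linarith
      · have := hmin z (by simpa using hz)
        linarith
    have := harm_const hS.toStd (u := fun z => - u z) hneg this x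
    linarith

/-! ### maximal members avoiding a vertex -/

/-- union of the members crossing `(x,y)` and missing `v` -/
def mm (D : Set (Set G)) (x y v : G) : Set G := ⋃₀ {M | M ∈ D ∧ x ∈ M ∧ y ∉ M ∧ v ∉ M}

/-- there are members crossing `(x,y)` and missing `v` -/
def Ex (D : Set (Set G)) (x y v : G) : Prop := ∃ M ∈ D, x ∈ M ∧ y ∉ M ∧ v ∉ M

omit [Group G] in
theorem le_mm {D : Set (Set G)} {x y v : G} {M : Set G} (hM : M ∈ D) (hx : x ∈ M) (hy : y ∉ M)
    (hv : v ∉ M) : M ⊆ mm D x y v :=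
  subset_sUnion_of_mem (show M ∈ {M | M ∈ D ∧ x ∈ M ∧ y ∉ M ∧ v ∉ M} from ⟨hM, hx, hy, hv⟩)

theorem NestFam.sUnion_mem {S : Finset G} (hS : Std S) {D : Set (Set G)} (h : NestFam S D)
    {x y : G} (hxy : Adj S x y) {C : Set (Set G)} (hC : C ⊆ D) (hne : C.Nonempty)
    (hx : ∀ M ∈ C, x ∈ M) (hy : ∀ M ∈ C, y ∉ M) : ⋃₀ C ∈ D := by
  classical
  have := hS.countable
  obtain ⟨M0, hM0⟩ := hne
  obtain ⟨f, hf⟩ := exists_surjective_nat G
  have hch : ∀ n, ∃ M ∈ C, f n ∈ ⋃₀ C → f n ∈ M := by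
    intro n
    by_cases hn : f n ∈ ⋃₀ C
    · obtain ⟨M, hM, hfM⟩ := hn
      exact ⟨M, hM, fun _ => hfM⟩
    · exact ⟨M0, hM0, fun h => absurd h hn⟩
  choose M hMC hM using hch
  have hacc : ∀ n, Set.accumulate M n ∈ C := by
    intro n
    induction n with
    | zero => simpa [Set.accumulate_zero_nat] using hMC 0
    | succ n ih =>
      rw [Set.accumulate_succ]
      rcases h.chain _ (hC ih) _ (hC (hMC (n + 1))) x y hxy (hx _ ih) (hx _ (hMC _)) (hy _ ih)
        (hy _ (hMC _)) with h' | h'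
      · rw [union_eq_right.2 h']; exact hMC _
      · rw [union_eq_left.2 h']; exact ih
  have hU : ⋃ n, Set.accumulate M n = ⋃₀ C := by
    rw [Set.iUnion_accumulate]
    apply Subset.antisymm
    · exact iUnion_subset fun n => subset_sUnion_of_mem (hMC n)
    · intro z hz
      obtain ⟨n, rfl⟩ := hf z
      exact mem_iUnion.2 ⟨n, hM n hz⟩
  rw [← hU]
  apply h.union _ (fun n => hC (hacc n)) Set.monotone_accumulate
  rw [hU]
  intro hc
  have : y ∈ ⋃₀ C := by rw [hc]; trivial
  obtain ⟨M', hM', hyM'⟩ := this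
  exact hy _ hM' hyM'

theorem NestFam.mm_mem {S : Finset G} (hS : Std S) {D : Set (Set G)} (h : NestFam S D)
    {x y v : G} (hxy : Adj S x y) (hne : Ex D x y v) :
    mm D x y v ∈ D ∧ x ∈ mm D x y v ∧ y ∉ mm D x y v ∧ v ∉ mm D x y v := by
  obtain ⟨M0, hM0, hx0, hy0, hv0⟩ := hne
  refine ⟨?_, ?_, ?_, ?_⟩
  · exact h.sUnion_mem hS hxy (C := {M | M ∈ D ∧ x ∈ M ∧ y ∉ M ∧ v ∉ M}) (fun M hM => hM.1)
      ⟨M0, hM0, hx0, hy0, hv0⟩ (fun M hM => hM.2.1) (fun M hM => hM.2.2.1)
  · exact le_mm hM0 hx0 hy0 hv0 hx0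
  · rintro ⟨M, hM, hyM⟩; exact hM.2.2.1 hyM
  · rintro ⟨M, hM, hyM⟩; exact hM.2.2.2 hyM

theorem NestFam.tr_mem {S : Finset G} {D : Set (Set G)} (h : NestFam S D) (g : G) {M : Set G} :
    tr g M ∈ D ↔ M ∈ D := by
  constructor
  · intro hM
    have := h.inv g⁻¹ _ hM
    have h2 : (fun x => g⁻¹ * x) '' tr g M = M := by
      change tr g⁻¹ (tr g M) = M
      rw [tr_tr]; simp
    rwa [h2] at this
  · exact fun hM => h.inv g _ hM

theorem NestFam.Ex_tr {S : Finset G} {D : Set (Set G)} (h : NestFam S D) (g x y v : G) :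
    Ex D (g * x) (g * y) (g * v) ↔ Ex D x y v := by
  constructor
  · rintro ⟨M, hM, hx, hy, hv⟩
    refine ⟨tr g⁻¹ M, (h.tr_mem _).2 hM, ?_, ?_, ?_⟩ <;> rw [mem_tr] <;> simpa
  · rintro ⟨M, hM, hx, hy, hv⟩
    exact ⟨tr g M, (h.tr_mem _).2 hM, by simpa, by simpa, by simpa⟩

theorem NestFam.mm_tr {S : Finset G} {D : Set (Set G)} (h : NestFam S D) (g x y v : G) :
    mm D (g * x) (g * y) (g * v) = tr g (mm D x y v) := by
  ext z
  rw [mem_tr]
  constructor
  · rintro ⟨M, ⟨hM, hx, hy, hv⟩, hz⟩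
    refine ⟨tr g⁻¹ M, ⟨(h.tr_mem _).2 hM, ?_, ?_, ?_⟩, ?_⟩ <;> rw [mem_tr] <;> simpa
  · rintro ⟨M, ⟨hM, hx, hy, hv⟩, hz⟩
    exact ⟨tr g M, ⟨(h.tr_mem _).2 hM, by simpa, by simpa, by simpa⟩, by rw [mem_tr]; exact hz⟩

theorem PP_tr {S : Finset G} (g : G) (A B : Set G) :
    PP S (tr g A) (tr g B) = (fun p : G × G => (g * p.1, g * p.2)) '' PP S A B := by
  ext ⟨a, b⟩
  constructor
  · rintro ⟨h1, h2, h3⟩
    refine ⟨(g⁻¹ * a, g⁻¹ * b), ⟨?_, ?_, ?_⟩, by simp⟩
    · rw [adj_mul]; exact h1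
    · exact mem_tr.1 h2
    · intro h; exact h3 (mem_tr.2 h)
  · rintro ⟨⟨a', b'⟩, ⟨h1, h2, h3⟩, h4⟩
    simp only [Prod.mk.injEq] at h4
    obtain ⟨rfl, rfl⟩ := h4
    exact ⟨(adj_mul _ _ _).2 h1, by simpa using h2, by simpa using h3⟩

theorem PP_tr_ncard {S : Finset G} (g : G) (A B : Set G) :
    (PP S (tr g A) (tr g B)).ncard = (PP S A B).ncard := by
  rw [PP_tr]
  apply Set.ncard_image_of_injective
  rintro ⟨a, b⟩ ⟨c, d⟩ h
  simpa using h

end Crest.Agent.R224
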