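/-
R224 / S0346 : abstract theorem behind Theorem B' (note 9910), part 2: flags and germs.
-/
import Crest.Agent.R224.BCore1

set_option autoImplicit false

noncomputable section

open MeasureTheory Set Filter Topology

namespace Crest.Agent.R224

variable {G : Type} [Group G]

/-! ### flags -/

/-- `(x,y,z)` is a flag of the interval `(A,B)` -/
def fl (A B : Set G) (x y z : G) : Prop := x ∈ A ∧ y ∉ B ∧ z ∈ B ∧ z ∉ A

/-- triangle -/
def Tri (S : Finset G) (x y z : G) : Prop := Adj S x y ∧ Adj S y z ∧ Adj S x z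

/-- there are members crossing `(x,y)` and containing `z` -/
def Ey (D : Set (Set G)) (x y z : G) : Prop := ∃ M ∈ D, x ∈ M ∧ y ∉ M ∧ z ∈ M

/-- intersection of the members crossing `(x,y)` and containing `z` -/
def nn (D : Set (Set G)) (x y z : G) : Set G := ⋂₀ {M | M ∈ D ∧ x ∈ M ∧ y ∉ M ∧ z ∈ M}

omit [Group G] in
theorem nn_le {D : Set (Set G)} {x y z : G} {M : Set G} (hM : M ∈ D) (hx : x ∈ M) (hy : y ∉ M)
    (hz : z ∈ M) : nn D x y z ⊆ M :=
  sInter_subset_of_mem (show M ∈ {M | M ∈ D ∧ x ∈ M ∧ y ∉ M ∧ z ∈ M} from ⟨hM, hx, hy, hz⟩)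

omit [Group G] in
theorem mem_nn_left {D : Set (Set G)} {x y z : G} : x ∈ nn D x y z := fun _ hM => hM.2.1

omit [Group G] in
theorem mem_nn_right {D : Set (Set G)} {x y z : G} : z ∈ nn D x y z := fun _ hM => hM.2.2.2

omit [Group G] in
theorem notMem_nn {D : Set (Set G)} {x y z : G} (h : Ey D x y z) : y ∉ nn D x y z := by
  obtain ⟨M, hM, hx, hy, hz⟩ := h
  exact fun h => hy (nn_le hM hx hy hz h)

theorem NestFam.Ey_tr {S : Finset G} {D : Set (Set G)} (h : NestFam S D) (g x y v : G) :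
    Ey D (g * x) (g * y) (g * v) ↔ Ey D x y v := by
  constructor
  · rintro ⟨M, hM, hx, hy, hv⟩
    refine ⟨tr g⁻¹ M, (h.tr_mem _).2 hM, ?_, ?_, ?_⟩ <;> rw [mem_tr] <;> simpa
  · rintro ⟨M, hM, hx, hy, hv⟩
    exact ⟨tr g M, (h.tr_mem _).2 hM, by simpa, by simpa, by simpa⟩

theorem NestFam.nn_tr {S : Finset G} {D : Set (Set G)} (h : NestFam S D) (g x y v : G) :
    nn D (g * x) (g * y) (g * v) = tr g (nn D x y v) := by
  ext z
  rw [mem_tr]
  constructor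
  · rintro hz M ⟨hM, hx, hy, hv⟩
    have := hz (tr g M) ⟨(h.tr_mem _).2 hM, by simpa, by simpa, by simpa⟩
    rwa [mem_tr] at this
  · rintro hz M ⟨hM, hx, hy, hv⟩
    have := hz (tr g⁻¹ M) ⟨(h.tr_mem _).2 hM, by rw [mem_tr]; simpa, by rw [mem_tr]; simpa,
      by rw [mem_tr]; simpa⟩
    rw [mem_tr] at this
    simpa using this

/-- the lower end is inside the upper end -/
theorem NestFam.mm_le_nn {S : Finset G} (hS : Std S) {D : Set (Set G)} (h : NestFam S D)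
    {x y z : G} (hxy : Adj S x y) (hex : Ex D x y z) : mm D x y z ⊆ nn D x y z := by
  obtain ⟨h1, h2, h3, h4⟩ := h.mm_mem hS hxy hex
  rintro v hv M ⟨hM, hx, hy, hz⟩
  rcases h.chain _ h1 _ hM x y hxy h2 hx h3 hy with h' | h'
  · exact h' hv
  · exact absurd (h' hz) h4

/-- Lemma E1 -/
theorem NestFam.germ {S : Finset G} (hS : Std S) {D : Set (Set G)} (h : NestFam S D)
    {x y z x' y' z' : G} (hxy : Adj S x y) (hex : Ex D x y z) (hey : Ey D x y z)
    (hxy' : Adj S x' y') (hf : fl (mm D x y z) (nn D x y z) x' y' z') :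
    Ex D x' y' z' ∧ Ey D x' y' z' ∧ mm D x' y' z' = mm D x y z ∧ nn D x' y' z' = nn D x y z := by
  obtain ⟨hN, hxN, hyN, hzN⟩ := h.mm_mem hS hxy hex
  have hle := h.mm_le_nn hS hxy hex
  obtain ⟨hx', hy', hz', hz''⟩ := hf
  set N := mm D x y z with hNdef
  set Q := nn D x y z with hQdef
  have hy'N : y' ∉ N := fun hh => hy' (hle hh)
  -- D1
  have hD1 : ∃ D1 ∈ D, x ∈ D1 ∧ y ∉ D1 ∧ z ∈ D1 ∧ y' ∉ D1 := by
    by_contra hc
    push Not at hc
    apply hy'
    rintro M ⟨hM, hx, hy, hz⟩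
    exact hc M hM hx hy hz
  obtain ⟨D1, hD1, hxD1, hyD1, hzD1, hy'D1⟩ := hD1
  have hND1 : N ⊆ D1 := hle.trans (nn_le hD1 hxD1 hyD1 hzD1)
  have hQD1 : Q ⊆ D1 := nn_le hD1 hxD1 hyD1 hzD1
  have hx'D1 : x' ∈ D1 := hND1 hx'
  have hz'D1 : z' ∈ D1 := hQD1 hz'
  have hex' : Ex D x' y' z' := ⟨N, hN, hx', hy'N, hz''⟩
  have hey' : Ey D x' y' z' := ⟨D1, hD1, hx'D1, hy'D1, hz'D1⟩
  have hlow : ∀ M ∈ D, x' ∈ M → y' ∉ M → z' ∉ M → M ⊆ N := by
    intro M hM h1 h2 h3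
    have hMD1 : M ⊆ D1 := by
      rcases h.chain _ hM _ hD1 x' y' hxy' h1 hx'D1 h2 hy'D1 with h' | h'
      · exact h'
      · exact absurd (h' hz'D1) h3
    rcases h.chain _ hM _ hN x' y' hxy' h1 hx' h2 hy'N with h' | h'
    · exact h'
    · -- N ⊆ M, M crosses (x,y)
      have hxM : x ∈ M := h' hxN
      have hyM : y ∉ M := fun hh => hyD1 (hMD1 hh)
      by_cases hzM : z ∈ M
      · exact absurd (nn_le hM hxM hyM hzM hz') h3
      · exact le_mm hM hxM hyM hzM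
  refine ⟨hex', hey', ?_, ?_⟩
  · apply Subset.antisymm
    · rintro v ⟨M, ⟨hM, h1, h2, h3⟩, hv⟩
      exact hlow M hM h1 h2 h3 hv
    · exact le_mm hN hx' hy'N hz''
  · apply Subset.antisymm
    · rintro v hv M ⟨hM, hx, hy, hz⟩
      rcases h.chain _ hM _ hD1 x y hxy hx hxD1 hy hyD1 with h' | h'
      · have h1 : x' ∈ M := (hle.trans (nn_le hM hx hy hz)) hx'
        have h2 : y' ∉ M := fun hh => hy'D1 (h' hh)
        have h3 : z' ∈ M := nn_le hM hx hy hz hz'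
        exact nn_le hM h1 h2 h3 hv
      · exact h' (nn_le hD1 hx'D1 hy'D1 hz'D1 hv)
    · rintro v hv M ⟨hM, h1, h2, h3⟩
      rcases h.chain _ hM _ hD1 x' y' hxy' h1 hx'D1 h2 hy'D1 with h' | h'
      · -- M ⊆ D1
        have hNM : N ⊆ M := by
          rcases h.chain _ hM _ hN x' y' hxy' h1 hx' h2 hy'N with h'' | h''
          · exact absurd (h'' h3) hz''
          · exact h''
        have hxM : x ∈ M := hNM hxN
        have hyM : y ∉ M := fun hh => hyD1 (h' hh)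
        have hzM : z ∈ M := by
          by_contra hzM
          exact hz'' (le_mm hM hxM hyM hzM h3)
        exact nn_le hM hxM hyM hzM hv
      · exact h' (hQD1 hv)

/-- the set of flags of the germ -/
def TT (S : Finset G) (A B : Set G) : Set (G × G × G) :=
  {p | Tri S p.1 p.2.1 p.2.2 ∧ fl A B p.1 p.2.1 p.2.2}

/-- Lemma E2 -/
theorem NestFam.TT_finite {S : Finset G} (hS : Std S) {D : Set (Set G)} (h : NestFam S D)
    {x y z : G} (hxy : Adj S x y) (hex : Ex D x y z) (hey : Ey D x y z) :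
    (TT S (mm D x y z) (nn D x y z)).Finite := by
  have hfin : ((S : Set G) ×ˢ (S : Set G)).Finite := S.finite_toSet.prod S.finite_toSet
  apply Set.Finite.of_finite_image (f := fun p : G × G × G => (p.1⁻¹ * p.2.1, p.1⁻¹ * p.2.2))
  · apply hfin.subset
    rintro _ ⟨⟨a, b, c⟩, ⟨⟨h1, h2, h3⟩, -⟩, rfl⟩
    exact ⟨h1, h3⟩
  · rintro ⟨a, b, c⟩ ⟨⟨h1, h2, h3⟩, h4⟩ ⟨a', b', c'⟩ ⟨⟨h1', h2', h3'⟩, h4'⟩ heq
    simp only [Prod.mk.injEq] at heq
    obtain ⟨hb, hc⟩ := heq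
    obtain ⟨hex1, -, hm1, -⟩ := h.germ hS hxy hex hey h1 h4
    obtain ⟨hex2, -, hm2, -⟩ := h.germ hS hxy hex hey h1' h4'
    simp only at h1 h1' h2 h2' h3 h3' hb hc hm1 hm2 hex1 hex2
    set g := a' * a⁻¹ with hg
    have ha' : a' = g * a := by simp [hg]
    have hb' : b' = g * b := by
      have : b' = a' * (a⁻¹ * b) := by rw [hb]; simp
      rw [this, hg]; simp [mul_assoc]
    have hc' : c' = g * c := by
      have : c' = a' * (a⁻¹ * c) := by rw [hc]; simp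
      rw [this, hg]; simp [mul_assoc]
    have htr : tr g (mm D a b c) = mm D a b c := by
      rw [← h.mm_tr, ← ha', ← hb', ← hc', hm2, hm1]
    have hmem := (h.mm_mem hS h1 hex1).1
    have hg1 : g = 1 := h.stab _ hmem g htr
    rw [ha', hb', hc', hg1]
    simp

/-! ### the cochain of an interval -/

open Classical in
/-- cochain of the interval `(A,B)` -/
def psi (A B : Set G) (a b : G) : ZMod 2 :=
  if (a ∈ A ∧ b ∉ B) ∨ (b ∈ A ∧ a ∉ B) then 1 else 0

/-- some ordering of `a,b,c` is a flag -/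
def sg (A B : Set G) (a b c : G) : Prop :=
  fl A B a b c ∨ fl A B a c b ∨ fl A B b a c ∨ fl A B b c a ∨ fl A B c a b ∨ fl A B c b a

omit [Group G] in
open Classical in
theorem psi_delta {A B : Set G} (hAB : A ⊆ B) (a b c : G) :
    psi A B a b + psi A B b c + psi A B a c = if sg A B a b c then 1 else 0 := by
  have e2 : (1 : ZMod 2) + 1 = 0 := by decide
  have ha := @hAB a
  have hb := @hAB b
  have hc := @hAB c
  unfold psi sg fl
  by_cases a1 : a ∈ A <;> by_cases b1 : b ∈ A <;> by_cases c1 : c ∈ A <;>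
  by_cases a2 : a ∈ B <;> by_cases b2 : b ∈ B <;> by_cases c2 : c ∈ B <;>
  simp_all

omit [Group G] in
theorem psi_delta_ne {A B : Set G} (hAB : A ⊆ B) {a b c : G}
    (h : psi A B a b + psi A B b c ≠ psi A B a c) : sg A B a b c := by
  classical
  by_contra hc
  have := psi_delta hAB a b c
  rw [if_neg hc] at this
  apply h
  have h2 : ∀ p q : ZMod 2, p + q = 0 → p = q := by decide
  exact h2 _ _ this

theorem Tri.perm {S : Finset G} (hS : Std S) {a b c : G} (h : Tri S a b c) :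
    Tri S a b c ∧ Tri S a c b ∧ Tri S b a c ∧ Tri S b c a ∧ Tri S c a b ∧ Tri S c b a := by
  obtain ⟨h1, h2, h3⟩ := h
  have h1' := hS.adj_symm h1
  have h2' := hS.adj_symm h2
  have h3' := hS.adj_symm h3
  exact ⟨⟨h1, h2, h3⟩, ⟨h3, h2', h1⟩, ⟨h1', h3, h2⟩, ⟨h2, h3', h1'⟩, ⟨h3', h1, h2'⟩,
    ⟨h2', h1', h3'⟩⟩

theorem sg_TT {S : Finset G} (hS : Std S) {A B : Set G} {a b c : G} (ht : Tri S a b c)
    (h : sg A B a b c) : (a, b, c) ∈ TT S A B ∨ (a, c, b) ∈ TT S A B ∨ (b, a, c) ∈ TT S A B ∨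
      (b, c, a) ∈ TT S A B ∨ (c, a, b) ∈ TT S A B ∨ (c, b, a) ∈ TT S A B := by
  obtain ⟨t1, t2, t3, t4, t5, t6⟩ := ht.perm hS
  rcases h with h | h | h | h | h | h
  · exact Or.inl ⟨t1, h⟩
  · exact Or.inr (Or.inl ⟨t2, h⟩)
  · exact Or.inr (Or.inr (Or.inl ⟨t3, h⟩))
  · exact Or.inr (Or.inr (Or.inr (Or.inl ⟨t4, h⟩)))
  · exact Or.inr (Or.inr (Or.inr (Or.inr (Or.inl ⟨t5, h⟩))))
  · exact Or.inr (Or.inr (Or.inr (Or.inr (Or.inr ⟨t6, h⟩))))

/-- the bad set of `psi` is finite if there are finitely many flags -/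
theorem psi_bad_finite {S : Finset G} (hS : Std S) {A B : Set G} (hAB : A ⊆ B)
    (hT : (TT S A B).Finite) :
    {p : G × G × G | Adj S p.1 p.2.1 ∧ Adj S p.2.1 p.2.2 ∧ Adj S p.1 p.2.2 ∧
      psi A B p.1 p.2.1 + psi A B p.2.1 p.2.2 ≠ psi A B p.1 p.2.2}.Finite := by
  have h1 := hT
  have h2 := hT.image (fun p : G × G × G => (p.1, p.2.2, p.2.1))
  have h3 := hT.image (fun p : G × G × G => (p.2.1, p.1, p.2.2))
  have h4 := hT.image (fun p : G × G × G => (p.2.2, p.1, p.2.1))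
  have h5 := hT.image (fun p : G × G × G => (p.2.1, p.2.2, p.1))
  have h6 := hT.image (fun p : G × G × G => (p.2.2, p.2.1, p.1))
  apply (((((h1.union h2).union h3).union h4).union h5).union h6).subset
  rintro ⟨a, b, c⟩ ⟨t1, t2, t3, hne⟩
  simp only at t1 t2 t3 hne
  rcases sg_TT hS ⟨t1, t2, t3⟩ (psi_delta_ne hAB hne) with h | h | h | h | h | h
  · exact Or.inl (Or.inl (Or.inl (Or.inl (Or.inl h))))
  · exact Or.inl (Or.inl (Or.inl (Or.inl (Or.inr ⟨_, h, rfl⟩))))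
  · exact Or.inl (Or.inl (Or.inl (Or.inr ⟨_, h, rfl⟩)))
  · exact Or.inl (Or.inl (Or.inr ⟨_, h, rfl⟩))
  · exact Or.inl (Or.inr ⟨_, h, rfl⟩)
  · exact Or.inr ⟨_, h, rfl⟩

end Crest.Agent.R224
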