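/-
R224 / S0346 : abstract theorem behind Theorem B' (note 9910), part 3: fillers, intervals.
-/
import Crest.Agent.R224.BCore2

set_option autoImplicit false

noncomputable section

open MeasureTheory Set Filter Topology

namespace Crest.Agent.R224

variable {G : Type} [Group G]

theorem psi_tr (g : G) (A B : Set G) (a b : G) :
    psi (tr g A) (tr g B) (g * a) (g * b) = psi A B a b := by
  classical
  unfold psi
  simp

/-- one filler -/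
theorem NestFam.filler_one {S : Finset G} (hS : TopHyp S) {D : Set (Set G)} (h : NestFam S D)
    {x y z : G} (hxy : Adj S x y) (hex : Ex D x y z) (hey : Ey D x y z) :
    ∃ (E : G → ZMod 2) (R : Finset G), ∀ a b, Adj S a b →
      psi (mm D x y z) (nn D x y z) a b ≠ E a + E b → a ∈ R ∧ b ∈ R := by
  classical
  obtain ⟨E, hE⟩ := hS.t2 _ (psi_bad_finite hS.toStd (h.mm_le_nn hS.toStd hxy hex)
    (h.TT_finite hS.toStd hxy hex hey))
  refine ⟨E, hE.toFinset.image Prod.fst ∪ hE.toFinset.image Prod.snd, ?_⟩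
  intro a b hab hne
  have hmem : ((a, b) : G × G) ∈ hE.toFinset := by
    simp only [Set.Finite.mem_toFinset]
    exact ⟨hab, hne⟩
  constructor
  · exact Finset.mem_union_left _ (Finset.mem_image.2 ⟨_, hmem, rfl⟩)
  · exact Finset.mem_union_right _ (Finset.mem_image.2 ⟨_, hmem, rfl⟩)

/-- uniform fillers (E4), and uniform bound of the germ -/
theorem NestFam.filler {S : Finset G} (hS : TopHyp S) {D : Set (Set G)} (h : NestFam S D) :
    ∃ R : Finset G, ∀ x y z, Adj S x y → Adj S x z → Ex D x y z → Ey D x y z →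
      (∃ E : G → ZMod 2, ∀ a b, Adj S a b →
        psi (mm D x y z) (nn D x y z) a b ≠ E a + E b → x⁻¹ * a ∈ R ∧ x⁻¹ * b ∈ R) ∧
      (∀ p ∈ TT S (mm D x y z) (nn D x y z), x⁻¹ * p.1 ∈ R ∧ x⁻¹ * p.2.1 ∈ R) := by
  classical
  have h1 : ∀ p : G × G, ∃ R : Finset G, p.1 ∈ S → Ex D 1 p.1 p.2 → Ey D 1 p.1 p.2 →
      (∃ E : G → ZMod 2, ∀ a b, Adj S a b →
        psi (mm D 1 p.1 p.2) (nn D 1 p.1 p.2) a b ≠ E a + E b → a ∈ R ∧ b ∈ R) ∧
      (∀ q ∈ TT S (mm D 1 p.1 p.2) (nn D 1 p.1 p.2), q.1 ∈ R ∧ q.2.1 ∈ R) := by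
    rintro ⟨s, t⟩
    by_cases hc : s ∈ S ∧ Ex D 1 s t ∧ Ey D 1 s t
    · obtain ⟨hs, hex, hey⟩ := hc
      have hadj : Adj S 1 s := by unfold Adj; simpa using hs
      obtain ⟨E, R1, hE⟩ := h.filler_one hS hadj hex hey
      have hT := h.TT_finite hS.toStd hadj hex hey
      refine ⟨R1 ∪ (hT.toFinset.image (fun q => q.1) ∪ hT.toFinset.image (fun q => q.2.1)), ?_⟩
      intro _ _ _
      refine ⟨⟨E, ?_⟩, ?_⟩
      · intro a b hab hne
        obtain ⟨h1, h2⟩ := hE a b hab hne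
        exact ⟨Finset.mem_union_left _ h1, Finset.mem_union_left _ h2⟩
      · intro q hq
        have hmem : q ∈ hT.toFinset := by simpa using hq
        constructor
        · exact Finset.mem_union_right _ (Finset.mem_union_left _ (Finset.mem_image.2 ⟨q, hmem, rfl⟩))
        · exact Finset.mem_union_right _ (Finset.mem_union_right _ (Finset.mem_image.2 ⟨q, hmem, rfl⟩))
    · refine ⟨∅, fun h1 h2 h3 => absurd ⟨h1, h2, h3⟩ hc⟩
  choose R hR using h1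
  refine ⟨(S ×ˢ S).biUnion R, ?_⟩
  intro x y z hxy hxz hex hey
  obtain ⟨s, rfl⟩ : ∃ s, y = x * s := ⟨x⁻¹ * y, by simp⟩
  obtain ⟨t, rfl⟩ : ∃ t, z = x * t := ⟨x⁻¹ * z, by simp⟩
  have hs : s ∈ S := by simpa [Adj] using hxy
  have ht : t ∈ S := by simpa [Adj] using hxz
  have hex' : Ex D 1 s t := by
    rw [← h.Ex_tr x]; simpa using hex
  have hey' : Ey D 1 s t := by
    rw [← h.Ey_tr x]; simpa using hey
  have hmm : mm D x (x * s) (x * t) = tr x (mm D 1 s t) := by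
    rw [← h.mm_tr]; simp
  have hnn : nn D x (x * s) (x * t) = tr x (nn D 1 s t) := by
    rw [← h.nn_tr]; simp
  obtain ⟨⟨E, hE⟩, hT⟩ := hR (s, t) hs hex' hey'
  have hsub : R (s, t) ⊆ (S ×ˢ S).biUnion R := by
    intro r hr
    exact Finset.mem_biUnion.2 ⟨(s, t), Finset.mem_product.2 ⟨hs, ht⟩, hr⟩
  refine ⟨⟨fun a => E (x⁻¹ * a), ?_⟩, ?_⟩
  · intro a b hab hne
    rw [hmm, hnn] at hne
    have ha : a = x * (x⁻¹ * a) := by simp
    have hb : b = x * (x⁻¹ * b) := by simp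
    rw [ha, hb, psi_tr] at hne
    have hab' : Adj S (x⁻¹ * a) (x⁻¹ * b) := by rw [adj_mul]; exact hab
    obtain ⟨h1, h2⟩ := hE _ _ hab' (by simpa using hne)
    exact ⟨hsub h1, hsub h2⟩
  · rintro ⟨a, b, c⟩ ⟨⟨t1, t2, t3⟩, f1, f2, f3, f4⟩
    simp only at t1 t2 t3 f1 f2 f3 f4
    rw [hmm] at f1 f4
    rw [hnn] at f2 f3
    rw [mem_tr] at f1 f2 f3 f4
    obtain ⟨h1, h2⟩ := hT (x⁻¹ * a, x⁻¹ * b, x⁻¹ * c)
      ⟨⟨(adj_mul _ _ _).2 t1, (adj_mul _ _ _).2 t2, (adj_mul _ _ _).2 t3⟩, f1, f2, f3, f4⟩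
    exact ⟨hsub h1, hsub h2⟩

/-- uniform bound of the finite crossing numbers -/
theorem NestFam.bound {S : Finset G} {D : Set (Set G)} (h : NestFam S D)
    (R : Finset G) : ∃ K : ℕ, ∀ x y v v', Adj S x y → x⁻¹ * v ∈ R → x⁻¹ * v' ∈ R →
      (PP S (mm D x y v) (mm D x y v')).ncard ≤ K := by
  classical
  let f : G × G × G → ℕ := fun p => (PP S (mm D 1 p.1 p.2.1) (mm D 1 p.1 p.2.2)).ncard
  refine ⟨(S ×ˢ R ×ˢ R).sup f, ?_⟩
  intro x y v v' hxy hv hv'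
  obtain ⟨s, rfl⟩ : ∃ s, y = x * s := ⟨x⁻¹ * y, by simp⟩
  obtain ⟨t, rfl⟩ : ∃ t, v = x * t := ⟨x⁻¹ * v, by simp⟩
  obtain ⟨t', rfl⟩ : ∃ t, v' = x * t := ⟨x⁻¹ * v', by simp⟩
  have hs : s ∈ S := by simpa [Adj] using hxy
  have ht : t ∈ R := by simpa using hv
  have ht' : t' ∈ R := by simpa using hv'
  have h1 : mm D x (x * s) (x * t) = tr x (mm D 1 s t) := by
    rw [← h.mm_tr]; simp
  have h2 : mm D x (x * s) (x * t') = tr x (mm D 1 s t') := by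
    rw [← h.mm_tr]; simp
  rw [h1, h2, PP_tr_ncard]
  exact Finset.le_sup (f := f) (b := (s, t, t'))
    (Finset.mem_product.2 ⟨hs, Finset.mem_product.2 ⟨ht, ht'⟩⟩)

/-! ### intervals -/

/-- `(A,B)` is an interval of the family -/
structure Itv (D : Set (Set G)) (A B : Set G) : Prop where
  sub : A ⊆ B
  lo : ∀ v, v ∉ A → ∃ M ∈ D, A ⊆ M ∧ M ⊆ B ∧ v ∉ M
  hi : ∀ v, v ∈ B → ∃ M ∈ D, A ⊆ M ∧ M ⊆ B ∧ v ∈ M

theorem Itv.ex {D : Set (Set G)} {A B : Set G} (hI : Itv D A B) {x y z : G} (hf : fl A B x y z) :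
    Ex D x y z ∧ Ey D x y z := by
  obtain ⟨h1, h2, h3, h4⟩ := hf
  constructor
  · obtain ⟨M, hM, hA, hB, hz⟩ := hI.lo z h4
    exact ⟨M, hM, hA h1, fun hh => h2 (hB hh), hz⟩
  · obtain ⟨M, hM, hA, hB, hz⟩ := hI.hi z h3
    exact ⟨M, hM, hA h1, fun hh => h2 (hB hh), hz⟩

theorem Itv.le_mm {D : Set (Set G)} {A B : Set G} (hI : Itv D A B) {x y v : G} (hx : x ∈ A)
    (hy : y ∉ B) (hv : v ∉ A) : A ⊆ mm D x y v := by
  obtain ⟨M, hM, hA, hB, hz⟩ := hI.lo v hv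
  exact hA.trans (Crest.Agent.R224.le_mm hM (hA hx) (fun hh => hy (hB hh)) hz)

theorem Itv.nn_le {D : Set (Set G)} {A B : Set G} (hI : Itv D A B) {x y z : G} (hf : fl A B x y z) :
    nn D x y z ⊆ B := by
  obtain ⟨h1, h2, h3, h4⟩ := hf
  obtain ⟨M, hM, hA, hB, hz⟩ := hI.hi z h3
  exact (Crest.Agent.R224.nn_le hM (hA h1) (fun hh => h2 (hB hh)) hz).trans hB

/-- Claim F1 -/
theorem NestFam.claim {S : Finset G} (hS : Std S) {D : Set (Set G)} (h : NestFam S D)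
    {R : Finset G} {K : ℕ} (hR : ∀ x y z, Adj S x y → Adj S x z → Ex D x y z → Ey D x y z →
      ∀ p ∈ TT S (mm D x y z) (nn D x y z), x⁻¹ * p.1 ∈ R ∧ x⁻¹ * p.2.1 ∈ R)
    (hSR : S ⊆ R)
    (hK : ∀ x y v v', Adj S x y → x⁻¹ * v ∈ R → x⁻¹ * v' ∈ R →
      (PP S (mm D x y v) (mm D x y v')).ncard ≤ K)
    {A B : Set G} (hI : Itv D A B) (hbig : K < (PP S A B).ncard)
    {x y z : G} (ht : Tri S x y z) (hf : fl A B x y z) :
    TT S (mm D x y z) (nn D x y z) ⊆ TT S A B := by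
  rintro ⟨x', y', z'⟩ ⟨⟨t1, t2, t3⟩, g1, g2, g3, g4⟩
  simp only at t1 t2 t3 g1 g2 g3 g4
  obtain ⟨hex, hey⟩ := hI.ex hf
  have hxy := ht.1
  have hxz := ht.2.2
  obtain ⟨hN, hxN, hyN, hzN⟩ := h.mm_mem hS hxy hex
  have hAN : A ⊆ mm D x y z := hI.le_mm hf.1 hf.2.1 hf.2.2.2
  have hQB : nn D x y z ⊆ B := hI.nn_le hf
  have hNQ := h.mm_le_nn hS hxy hex
  have hNB := hNQ.trans hQB
  have hRR := hR x y z hxy hxz hex hey (x', y', z') ⟨⟨t1, t2, t3⟩, g1, g2, g3, g4⟩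
  simp only at hRR
  have hzR : x⁻¹ * z ∈ R := hSR hxz
  refine ⟨⟨t1, t2, t3⟩, ?_, ?_, hQB g3, fun hh => g4 (hAN hh)⟩
  · -- x' ∈ A
    show x' ∈ A
    by_contra hx'
    have hAD : A ⊆ mm D x y x' := hI.le_mm hf.1 hf.2.1 hx'
    have hexx : Ex D x y x' := by
      obtain ⟨M, hM, hA, hB, hz⟩ := hI.lo x' hx'
      exact ⟨M, hM, hA hf.1, fun hh => hf.2.1 (hB hh), hz⟩
    obtain ⟨hD1, hxD1, hyD1, hx'D1⟩ := h.mm_mem hS hxy hexx
    have hsub : mm D x y x' ⊆ mm D x y z := by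
      rcases h.chain _ hD1 _ hN x y hxy hxD1 hxN hyD1 hyN with h' | h'
      · exact h'
      · exact absurd (h' g1) hx'D1
    have hne : mm D x y x' ≠ mm D x y z := fun hh => hx'D1 (hh ▸ g1)
    have hfin := h.fin _ hD1 _ hN hsub hne x y hxy hxD1 hyN
    have hPsub : PP S A B ⊆ PP S (mm D x y x') (mm D x y z) := by
      rintro ⟨a, b⟩ ⟨p1, p2, p3⟩
      exact ⟨p1, hAD p2, fun hh => p3 (hNB hh)⟩
    have := Set.ncard_le_ncard hPsub hfin
    have := hK x y x' z hxy hRR.1 hzR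
    omega
  · -- y' ∉ B
    show y' ∉ B
    intro hy'
    obtain ⟨M1, hM1, hA1, hB1, hy'1⟩ := hI.hi y' hy'
    -- D0
    have hD0 : ∃ D0 ∈ D, x ∈ D0 ∧ y ∉ D0 ∧ z ∈ D0 ∧ y' ∉ D0 := by
      by_contra hc
      push Not at hc
      apply g2
      rintro M ⟨hM, hx, hy, hz⟩
      exact hc M hM hx hy hz
    obtain ⟨D0, hD0, hxD0, hyD0, hzD0, hy'D0⟩ := hD0
    have hexx : Ex D x y y' := ⟨D0, hD0, hxD0, hyD0, hy'D0⟩
    obtain ⟨hD2, hxD2, hyD2, hy'D2⟩ := h.mm_mem hS hxy hexx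
    have h02 : D0 ⊆ mm D x y y' := Crest.Agent.R224.le_mm hD0 hxD0 hyD0 hy'D0
    have hN0 : mm D x y z ⊆ D0 := hNQ.trans (Crest.Agent.R224.nn_le hD0 hxD0 hyD0 hzD0)
    have hsub : mm D x y z ⊆ mm D x y y' := hN0.trans h02
    have hne : mm D x y z ≠ mm D x y y' := fun hh => hzN (hh ▸ h02 hzD0)
    have hfin := h.fin _ hN _ hD2 hsub hne x y hxy hxN hyD2
    have hD2B : mm D x y y' ⊆ B := by
      rcases h.chain _ hD2 _ hM1 x y hxy hxD2 (hA1 hf.1) hyD2 (fun hh => hf.2.1 (hB1 hh)) with h' | h'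
      · exact h'.trans hB1
      · exact absurd (h' hy'1) hy'D2
    have hPsub : PP S A B ⊆ PP S (mm D x y z) (mm D x y y') := by
      rintro ⟨a, b⟩ ⟨p1, p2, p3⟩
      exact ⟨p1, hAN p2, fun hh => p3 (hD2B hh)⟩
    have := Set.ncard_le_ncard hPsub hfin
    have := hK x y z y' hxy hzR hRR.2
    omega

end Crest.Agent.R224
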