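/-
R224 / S0346 : abstract theorem behind Theorem B' (note 9910), part 4: filling an interval.
-/
import Crest.Agent.R224.BCore3

set_option autoImplicit false

noncomputable section

open MeasureTheory Set Filter Topology

namespace Crest.Agent.R224

variable {G : Type} [Group G]

/-- `(x,y,z)` is a permutation of `(a,b,c)` -/
def Perm3 (a b c x y z : G) : Prop :=
  (x = a ∧ y = b ∧ z = c) ∨ (x = a ∧ y = c ∧ z = b) ∨ (x = b ∧ y = a ∧ z = c) ∨
  (x = b ∧ y = c ∧ z = a) ∨ (x = c ∧ y = a ∧ z = b) ∨ (x = c ∧ y = b ∧ z = a)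

omit [Group G] in
theorem sg_iff {A B : Set G} {a b c : G} :
    sg A B a b c ↔ ∃ x y z, Perm3 a b c x y z ∧ fl A B x y z := by
  unfold sg Perm3
  constructor
  · rintro (h | h | h | h | h | h)
    · exact ⟨a, b, c, by tauto, h⟩
    · exact ⟨a, c, b, by tauto, h⟩
    · exact ⟨b, a, c, by tauto, h⟩
    · exact ⟨b, c, a, by tauto, h⟩
    · exact ⟨c, a, b, by tauto, h⟩
    · exact ⟨c, b, a, by tauto, h⟩
  · rintro ⟨x, y, z, (⟨rfl, rfl, rfl⟩ | ⟨rfl, rfl, rfl⟩ | ⟨rfl, rfl, rfl⟩ | ⟨rfl, rfl, rfl⟩ |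
      ⟨rfl, rfl, rfl⟩ | ⟨rfl, rfl, rfl⟩), h⟩ <;> tauto

omit [Group G] in
theorem Perm3.uniq {A B : Set G} (hAB : A ⊆ B) {a b c x y z x' y' z' : G}
    (h : Perm3 a b c x y z) (h' : Perm3 a b c x' y' z') (hf : fl A B x y z)
    (hf' : fl A B x' y' z') : x' = x ∧ y' = y ∧ z' = z := by
  have ha := @hAB a
  have hb := @hAB b
  have hc := @hAB c
  unfold fl at hf hf'
  rcases h with ⟨rfl, rfl, rfl⟩ | ⟨rfl, rfl, rfl⟩ | ⟨rfl, rfl, rfl⟩ | ⟨rfl, rfl, rfl⟩ |
      ⟨rfl, rfl, rfl⟩ | ⟨rfl, rfl, rfl⟩ <;>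
  rcases h' with ⟨rfl, rfl, rfl⟩ | ⟨rfl, rfl, rfl⟩ | ⟨rfl, rfl, rfl⟩ | ⟨rfl, rfl, rfl⟩ |
      ⟨rfl, rfl, rfl⟩ | ⟨rfl, rfl, rfl⟩ <;> tauto

theorem Perm3.tri {S : Finset G} (hS : Std S) {a b c x y z : G} (h : Perm3 a b c x y z)
    (ht : Tri S a b c) : Tri S x y z := by
  obtain ⟨t1, t2, t3, t4, t5, t6⟩ := ht.perm hS
  rcases h with ⟨rfl, rfl, rfl⟩ | ⟨rfl, rfl, rfl⟩ | ⟨rfl, rfl, rfl⟩ | ⟨rfl, rfl, rfl⟩ |
      ⟨rfl, rfl, rfl⟩ | ⟨rfl, rfl, rfl⟩ <;> assumption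

theorem TT_finite_of_PP {S : Finset G} {A B : Set G} (h : (PP S A B).Finite) :
    (TT S A B).Finite := by
  apply ((h.prod S.finite_toSet).image
    (fun p : (G × G) × G => (p.1.1, p.1.2, p.1.1 * p.2))).subset
  rintro ⟨x, y, z⟩ ⟨⟨t1, t2, t3⟩, f1, f2, f3, f4⟩
  exact ⟨((x, y), x⁻¹ * z), ⟨⟨t1, f1, f2⟩, t3⟩, by simp⟩

/-- filling of an interval with many crossing edges -/
theorem NestFam.fill {S : Finset G} (hS : TopHyp S) {D : Set (Set G)} (h : NestFam S D)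
    {R : Finset G} {K : ℕ} (hR : ∀ x y z, Adj S x y → Adj S x z → Ex D x y z → Ey D x y z →
      (∃ E : G → ZMod 2, ∀ a b, Adj S a b →
        psi (mm D x y z) (nn D x y z) a b ≠ E a + E b → x⁻¹ * a ∈ R ∧ x⁻¹ * b ∈ R) ∧
      (∀ p ∈ TT S (mm D x y z) (nn D x y z), x⁻¹ * p.1 ∈ R ∧ x⁻¹ * p.2.1 ∈ R))
    (hSR : S ⊆ R)
    (hK : ∀ x y v v', Adj S x y → x⁻¹ * v ∈ R → x⁻¹ * v' ∈ R →
      (PP S (mm D x y v) (mm D x y v')).ncard ≤ K)
    {A B : Set G} (hI : Itv D A B) (hfin : (PP S A B).Finite) (hbig : K < (PP S A B).ncard) :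
    ∃ F : Finset G, ∀ a b, Adj S a b → ((a ∈ F ↔ b ∈ F) ↔ psi A B a b = 0) ∨
      ∃ p ∈ TT S A B, p.1⁻¹ * a ∈ R ∧ p.1⁻¹ * b ∈ R := by
  classical
  have hTf := TT_finite_of_PP hfin
  have hclaim : ∀ p ∈ TT S A B,
      TT S (mm D p.1 p.2.1 p.2.2) (nn D p.1 p.2.1 p.2.2) ⊆ TT S A B := by
    rintro ⟨x, y, z⟩ ⟨ht, hf⟩
    exact h.claim hS.toStd (fun x y z h1 h2 h3 h4 => (hR x y z h1 h2 h3 h4).2) hSR hK hI hbig ht hf
  let pr : G × G × G → Set G × Set G := fun p => (mm D p.1 p.2.1 p.2.2, nn D p.1 p.2.1 p.2.2)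
  let II : Finset (Set G × Set G) := hTf.toFinset.image pr
  have hII : ∀ i ∈ II, ∃ p ∈ TT S A B, pr p = i := by
    intro i hi
    obtain ⟨p, hp, rfl⟩ := Finset.mem_image.1 hi
    exact ⟨p, by simpa using hp, rfl⟩
  have hEi : ∀ i : Set G × Set G, ∃ (E : G → ZMod 2), i ∈ II → ∃ p ∈ TT S A B, ∀ a b, Adj S a b →
      psi i.1 i.2 a b ≠ E a + E b → p.1⁻¹ * a ∈ R ∧ p.1⁻¹ * b ∈ R := by
    intro i
    by_cases hi : i ∈ II
    · obtain ⟨p, hp, rfl⟩ := hII i hi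
      obtain ⟨hex, hey⟩ := hI.ex hp.2
      obtain ⟨E, hE⟩ := (hR _ _ _ hp.1.1 hp.1.2.2 hex hey).1
      exact ⟨E, fun _ => ⟨p, hp, hE⟩⟩
    · exact ⟨fun _ => 0, fun h => absurd h hi⟩
  choose E hE using hEi
  -- the cocycle
  let Th : G → G → ZMod 2 := fun a b =>
    psi A B a b + ∑ i ∈ II, (psi i.1 i.2 a b + (E i a + E i b))
  have hcoc : ∀ a b c, Adj S a b → Adj S b c → Adj S a c → Th a b + Th b c = Th a c := by
    intro a b c hab hbc hac
    have ht : Tri S a b c := ⟨hab, hbc, hac⟩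
    have hz : ∀ p q : ZMod 2, p + q = 0 → p = q := by decide
    apply hz
    have e0 : ∀ p q r : ZMod 2, (p + q) + (q + r) + (p + r) = 0 := by decide
    have e1 : Th a b + Th b c + Th a c = (psi A B a b + psi A B b c + psi A B a c) +
        ∑ i ∈ II, (psi i.1 i.2 a b + psi i.1 i.2 b c + psi i.1 i.2 a c) := by
      have e2 : ∑ i ∈ II, (psi i.1 i.2 a b + (E i a + E i b)) +
          ∑ i ∈ II, (psi i.1 i.2 b c + (E i b + E i c)) +
          ∑ i ∈ II, (psi i.1 i.2 a c + (E i a + E i c)) =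
          ∑ i ∈ II, (psi i.1 i.2 a b + psi i.1 i.2 b c + psi i.1 i.2 a c) := by
        rw [← Finset.sum_add_distrib, ← Finset.sum_add_distrib]
        apply Finset.sum_congr rfl
        intro i _
        have := e0 (E i a) (E i b) (E i c)
        linear_combination this
      simp only [Th]
      rw [← e2]; ring
    rw [e1]
    have hsub : ∀ i ∈ II, i.1 ⊆ i.2 := by
      intro i hi
      obtain ⟨p, hp, rfl⟩ := hII i hi
      exact h.mm_le_nn hS.toStd hp.1.1 (hI.ex hp.2).1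
    rw [psi_delta hI.sub, Finset.sum_congr rfl (fun i hi => psi_delta (hsub i hi) a b c)]
    -- i-flags are flags of the interval
    have hfl : ∀ i ∈ II, ∀ x y z, Perm3 a b c x y z → fl i.1 i.2 x y z →
        fl A B x y z ∧ pr (x, y, z) = i := by
      intro i hi x y z hp hf
      obtain ⟨p, hp', rfl⟩ := hII i hi
      have htri := hp.tri hS.toStd ht
      obtain ⟨hex, hey⟩ := hI.ex hp'.2
      refine ⟨(hclaim p hp' (show (x, y, z) ∈ _ from ⟨htri, hf⟩)).2, ?_⟩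
      obtain ⟨-, -, h1, h2⟩ := h.germ hS.toStd hp'.1.1 hex hey htri.1 hf
      exact Prod.ext h1 h2
    by_cases hs : sg A B a b c
    · obtain ⟨x, y, z, hp, hf⟩ := sg_iff.1 hs
      have htri := hp.tri hS.toStd ht
      have hi0 : pr (x, y, z) ∈ II :=
        Finset.mem_image.2 ⟨(x, y, z), by simpa using (show (x, y, z) ∈ TT S A B from ⟨htri, hf⟩), rfl⟩
      have hkey : ∀ i ∈ II, (sg i.1 i.2 a b c ↔ i = pr (x, y, z)) := by
        intro i hi
        constructor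
        · intro hsi
          obtain ⟨x', y', z', hp', hf'⟩ := sg_iff.1 hsi
          obtain ⟨g1, g2⟩ := hfl i hi x' y' z' hp' hf'
          obtain ⟨rfl, rfl, rfl⟩ := hp.uniq hI.sub hp' hf g1
          exact g2.symm
        · rintro rfl
          obtain ⟨hex, hey⟩ := hI.ex hf
          obtain ⟨m1, m2, m3, m4⟩ := h.mm_mem hS.toStd htri.1 hex
          exact sg_iff.2 ⟨x, y, z, hp, m2, notMem_nn hey, mem_nn_right, m4⟩
      have hsum : ∑ i ∈ II, (if sg i.1 i.2 a b c then (1 : ZMod 2) else 0) =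
          ∑ i ∈ II, (if i = pr (x, y, z) then (1 : ZMod 2) else 0) := by
        apply Finset.sum_congr rfl
        intro i hi
        by_cases hc : sg i.1 i.2 a b c
        · rw [if_pos hc, if_pos ((hkey i hi).1 hc)]
        · rw [if_neg hc, if_neg (fun hh => hc ((hkey i hi).2 hh))]
      rw [if_pos hs, hsum, Finset.sum_ite_eq', if_pos hi0]
      decide
    · have hnone : ∀ i ∈ II, ¬ sg i.1 i.2 a b c := by
        intro i hi hsi
        obtain ⟨x', y', z', hp', hf'⟩ := sg_iff.1 hsi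
        exact hs (sg_iff.2 ⟨x', y', z', hp', (hfl i hi x' y' z' hp' hf').1⟩)
      rw [if_neg hs, Finset.sum_congr rfl (fun i hi => if_neg (hnone i hi))]
      simp
  obtain ⟨e, he⟩ := hS.h1 Th hcoc
  -- where all q_i vanish
  have hkey : ∀ a b, Adj S a b → (e a + e b = psi A B a b) ∨
      ∃ p ∈ TT S A B, p.1⁻¹ * a ∈ R ∧ p.1⁻¹ * b ∈ R := by
    intro a b hab
    by_cases hall : ∀ i ∈ II, psi i.1 i.2 a b = E i a + E i b
    · left
      rw [← he a b hab]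
      have e3 : ∀ p : ZMod 2, p + p = 0 := by decide
      have : ∑ i ∈ II, (psi i.1 i.2 a b + (E i a + E i b)) = 0 := by
        apply Finset.sum_eq_zero
        intro i hi
        rw [hall i hi]; exact e3 _
      simp only [Th]
      rw [this, add_zero]
    · right
      push Not at hall
      obtain ⟨i, hi, hne⟩ := hall
      obtain ⟨p, hp, hpE⟩ := hE i hi
      exact ⟨p, hp, hpE a b hab hne⟩
  -- boundary of {e = 1} finite
  have hbd : (bd S {v | e v = 1}).Finite := by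
    have hU : (⋃ p ∈ TT S A B, ((R.image fun r => p.1 * r : Finset G) : Set G) ×ˢ
        ((R.image fun r => p.1 * r : Finset G) : Set G)).Finite :=
      hTf.biUnion fun p _ => (Finset.finite_toSet _).prod (Finset.finite_toSet _)
    apply ((hfin.union (hfin.image Prod.swap)).union hU).subset
    rintro ⟨a, b⟩ ⟨hab, ha, hb⟩
    simp only at hab ha hb
    rcases hkey a b hab with hk | ⟨p, hp, h1, h2⟩
    · left
      have ha' : e a = 1 := ha
      have hb' : e b ≠ 1 := hb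
      have hb0 : e b = 0 := by
        have : ∀ q : ZMod 2, q ≠ 1 → q = 0 := by decide
        exact this _ hb'
      rw [ha', hb0, add_zero] at hk
      unfold psi at hk
      by_cases hc : (a ∈ A ∧ b ∉ B) ∨ (b ∈ A ∧ a ∉ B)
      · rcases hc with ⟨c1, c2⟩ | ⟨c1, c2⟩
        · left; exact ⟨hab, c1, c2⟩
        · right; exact ⟨(b, a), ⟨hS.toStd.adj_symm hab, c1, c2⟩, rfl⟩
      · rw [if_neg hc] at hk
        exact absurd hk (by decide)
    · right
      refine mem_iUnion₂.2 ⟨p, hp, ?_, ?_⟩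
      · exact Finset.mem_coe.2 (Finset.mem_image.2 ⟨_, h1, by simp⟩)
      · exact Finset.mem_coe.2 (Finset.mem_image.2 ⟨_, h2, by simp⟩)
  have hfinal : ∀ F : Finset G, ((∀ v, v ∈ F ↔ e v = 1) ∨ (∀ v, v ∈ F ↔ ¬ e v = 1)) →
      ∀ a b, Adj S a b → ((a ∈ F ↔ b ∈ F) ↔ psi A B a b = 0) ∨
      ∃ p ∈ TT S A B, p.1⁻¹ * a ∈ R ∧ p.1⁻¹ * b ∈ R := by
    intro F hF a b hab
    rcases hkey a b hab with hk | hk
    · left
      rw [← hk]
      have hz : ∀ p q : ZMod 2, ((p = 1 ↔ q = 1) ↔ p + q = 0) := by decide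
      rcases hF with hF | hF
      · rw [hF a, hF b]; exact hz _ _
      · rw [hF a, hF b, not_iff_not]; exact hz _ _
    · right; exact hk
  rcases hS.oneEnd _ hbd with hf | hf
  · exact ⟨hf.toFinset, hfinal _ (Or.inl (by intro v; simp))⟩
  · exact ⟨hf.toFinset, hfinal _ (Or.inr (by intro v; simp))⟩

end Crest.Agent.R224
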