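/-
R224 / S0346 : abstract theorem behind Theorem B' (note 9910), part 5: conclusion.
-/
import Crest.Agent.R224.BCore4

set_option autoImplicit false

noncomputable section

open MeasureTheory Set Filter Topology

namespace Crest.Agent.R224

variable {G : Type} [Group G]

theorem le_Pop_of_le {S : Finset G} (hS : Std S) {w : G → ℝ} {x : G} {c : G → ℝ} {d : ℝ}
    (h1 : ∀ s ∈ S, c (x * s) ≤ w (x * s)) (h2 : Pop S c x = d) : d ≤ Pop S w x := by
  rw [← h2]
  unfold Pop
  exact div_le_div_of_nonneg_right (Finset.sum_le_sum h1) hS.card_pos.le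

theorem Pop_sub_const {S : Finset G} (hS : Std S) (u : G → ℝ) (c : ℝ) (x : G) :
    Pop S (fun y => u y - c) x = Pop S u x - c := by
  unfold Pop
  rw [Finset.sum_sub_distrib, sub_div]
  simp only [Finset.sum_const, nsmul_eq_mul]
  rw [mul_div_cancel_left₀ _ hS.card_pos.ne']

theorem Pop_const_sub {S : Finset G} (hS : Std S) (u : G → ℝ) (c : ℝ) (x : G) :
    Pop S (fun y => c - u y) x = c - Pop S u x := by
  unfold Pop
  rw [Finset.sum_sub_distrib, sub_div]
  simp only [Finset.sum_const, nsmul_eq_mul]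
  rw [mul_div_cancel_left₀ _ hS.card_pos.ne']

theorem Pop_nonneg {S : Finset G} {w : G → ℝ} (h : ∀ x, 0 ≤ w x) (x : G) : 0 ≤ Pop S w x := by
  unfold Pop
  exact div_nonneg (Finset.sum_nonneg fun s _ => h _) (Nat.cast_nonneg _)

/-- witness of massivity for `M` and for its complement -/
theorem Har.massive {S : Finset G} (hS : Std S) {M : Set G} (h : Har S M) :
    (∃ w : G → ℝ, (∀ x, 0 ≤ w x) ∧ (∀ x, w x ≤ 1) ∧ (∀ x, w x ≤ Pop S w x) ∧
      (∀ x, x ∉ M → w x = 0) ∧ ∃ x, 0 < w x) ∧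
    (∃ w : G → ℝ, (∀ x, 0 ≤ w x) ∧ (∀ x, w x ≤ 1) ∧ (∀ x, w x ≤ Pop S w x) ∧
      (∀ x, x ∉ Mᶜ → w x = 0) ∧ ∃ x, 0 < w x) := by
  obtain ⟨u, hu, h0, h1, hM, hM', ⟨x, hx⟩, ⟨y, hy⟩⟩ := h
  constructor
  · refine ⟨fun z => max (u z - 1 / 2) 0, fun z => le_max_right _ _, ?_, ?_, ?_, ⟨x, ?_⟩⟩
    · intro z; have := h1 z; exact max_le (by linarith) (by norm_num)
    · intro z
      apply max_le
      · exact le_Pop_of_le hS (c := fun y => u y - 1 / 2) (fun s _ => le_max_left _ _)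
          (by rw [Pop_sub_const hS, hu])
      · exact Pop_nonneg (fun z => le_max_right _ _) z
    · intro z hz
      apply max_eq_right
      by_contra hc
      exact hz (hM (by simp only [mem_ofPred_eq]; linarith))
    · exact lt_max_of_lt_left (by linarith)
  · refine ⟨fun z => max (1 / 2 - u z) 0, fun z => le_max_right _ _, ?_, ?_, ?_, ⟨y, ?_⟩⟩
    · intro z; have := h0 z; exact max_le (by linarith) (by norm_num)
    · intro z
      apply max_le
      · exact le_Pop_of_le hS (c := fun y => 1 / 2 - u y) (fun s _ => le_max_left _ _)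
          (by rw [Pop_const_sub hS, hu])
      · exact Pop_nonneg (fun z => le_max_right _ _) z
    · intro z hz
      apply max_eq_right
      have hz' : z ∈ M := by simpa using hz
      have := hM' hz'
      simp only [mem_ofPred_eq] at this
      linarith
    · exact lt_max_of_lt_left (by linarith)

theorem psi_self {A : Set G} {a b : G} : psi A A a b = 0 ↔ (a ∈ A ↔ b ∈ A) := by
  classical
  unfold psi
  by_cases h1 : a ∈ A <;> by_cases h2 : b ∈ A <;> simp [h1, h2]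

/-- conclusion for a sequence of intervals shrinking to a wall -/
theorem NestFam.concl {S : Finset G} (hS : TopHyp S) [Infinite G] (hPM : PrinM S)
    {D : Set (Set G)} (h : NestFam S D) {M : Set G} (hM : Har S M) {A B : ℕ → Set G}
    (hI : ∀ k, Itv D (A k) (B k)) (hA : ∀ k, A k ⊆ M) (hB : ∀ k, M ⊆ B k)
    (hfin : ∀ k, (PP S (A k) (B k)).Finite)
    (hA' : ∀ v ∈ M, ∀ᶠ k in atTop, v ∈ A k) (hB' : ∀ v, v ∉ M → ∀ᶠ k in atTop, v ∉ B k) :
    False := by
  classical
  obtain ⟨R0, hR0⟩ := h.filler hS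
  set R := R0 ∪ S with hRdef
  have hR : ∀ x y z, Adj S x y → Adj S x z → Ex D x y z → Ey D x y z →
      (∃ E : G → ZMod 2, ∀ a b, Adj S a b →
        psi (mm D x y z) (nn D x y z) a b ≠ E a + E b → x⁻¹ * a ∈ R ∧ x⁻¹ * b ∈ R) ∧
      (∀ p ∈ TT S (mm D x y z) (nn D x y z), x⁻¹ * p.1 ∈ R ∧ x⁻¹ * p.2.1 ∈ R) := by
    intro x y z h1 h2 h3 h4
    obtain ⟨⟨E, hE⟩, hT⟩ := hR0 x y z h1 h2 h3 h4
    refine ⟨⟨E, ?_⟩, ?_⟩
    · intro a b hab hne
      exact ⟨Finset.mem_union_left _ (hE a b hab hne).1, Finset.mem_union_left _ (hE a b hab hne).2⟩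
    · intro p hp
      exact ⟨Finset.mem_union_left _ (hT p hp).1, Finset.mem_union_left _ (hT p hp).2⟩
  have hSR : S ⊆ R := Finset.subset_union_right
  obtain ⟨K, hK⟩ := h.bound R
  -- many crossing edges
  have hbig : ∀ᶠ k in atTop, K < (PP S (A k) (B k)).ncard := by
    obtain ⟨T, hT, hTc⟩ := (hM.bd_infinite hS).exists_subset_card_eq (K + 1)
    have : ∀ᶠ k in atTop, ∀ p ∈ T, p ∈ PP S (A k) (B k) := by
      rw [Finset.eventually_all]
      intro p hp
      obtain ⟨h1, h2, h3⟩ := hT hp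
      filter_upwards [hA' _ h2, hB' _ h3] with k h4 h5
      exact ⟨h1, h4, h5⟩
    filter_upwards [this] with k hk
    have h1 : (T : Set (G × G)) ⊆ PP S (A k) (B k) := hk
    have h2 := Set.ncard_le_ncard h1 (hfin k)
    rw [Set.ncard_coe_finset, hTc] at h2
    omega
  obtain ⟨k0, hk0⟩ := eventually_atTop.1 hbig
  have hF : ∀ k, ∃ F : Finset G, ∀ a b, Adj S a b →
      ((a ∈ F ↔ b ∈ F) ↔ psi (A (k + k0)) (B (k + k0)) a b = 0) ∨
      ∃ p ∈ TT S (A (k + k0)) (B (k + k0)), p.1⁻¹ * a ∈ R ∧ p.1⁻¹ * b ∈ R := fun k =>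
    h.fill hS hR hSR hK (hI _) (hfin _) (hk0 _ (Nat.le_add_left _ _))
  choose F hF using hF
  have hA2 : ∀ v, ∀ᶠ k in atTop, (v ∈ A (k + k0) ↔ v ∈ M) := by
    intro v
    have ht : Tendsto (fun k => k + k0) atTop atTop := tendsto_add_atTop_nat k0
    by_cases hv : v ∈ M
    · filter_upwards [ht.eventually (hA' v hv)] with k hk
      exact ⟨fun _ => hv, fun _ => hk⟩
    · exact Eventually.of_forall fun k => ⟨fun hh => hA _ hh, fun hh => absurd hh hv⟩
  have hB2 : ∀ v, ∀ᶠ k in atTop, (v ∈ B (k + k0) ↔ v ∈ M) := by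
    intro v
    have ht : Tendsto (fun k => k + k0) atTop atTop := tendsto_add_atTop_nat k0
    by_cases hv : v ∈ M
    · exact Eventually.of_forall fun k => ⟨fun _ => hv, fun hh => hB _ hh⟩
    · filter_upwards [ht.eventually (hB' v hv)] with k hk
      exact ⟨fun hh => absurd hh hk, fun hh => absurd hh hv⟩
  -- convergence along edges
  have hedge : ∀ a b, Adj S a b → ∀ᶠ k in atTop, ((a ∈ F k ↔ b ∈ F k) ↔ (a ∈ M ↔ b ∈ M)) := by
    intro a b hab
    have h1 : ∀ᶠ k in atTop, ∀ q ∈ R ×ˢ S,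
        ((a * q.1⁻¹ * q.2 ∈ A (k + k0) ↔ a * q.1⁻¹ * q.2 ∈ M) ∧
         (a * q.1⁻¹ * q.2 ∈ B (k + k0) ↔ a * q.1⁻¹ * q.2 ∈ M)) := by
      rw [Finset.eventually_all]
      intro q _
      exact (hA2 _).and (hB2 _)
    filter_upwards [h1, hA2 a, hA2 b, hB2 a, hB2 b] with k e1 e2 e3 e4 e5
    rcases hF k a b hab with hk | ⟨⟨x, y, z⟩, ⟨⟨t1, t2, t3⟩, f1, f2, f3, f4⟩, g1, g2⟩
    · rw [hk, ← psi_self]
      unfold psi
      rw [e2, e3, e4, e5]
    · exfalso
      simp only at t1 t2 t3 f1 f2 f3 f4 g1 g2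
      have hq := e1 (x⁻¹ * a, x⁻¹ * z) (Finset.mem_product.2 ⟨g1, t3⟩)
      have hz : a * (x⁻¹ * a)⁻¹ * (x⁻¹ * z) = z := by
        simp [mul_assoc]
      simp only [hz] at hq
      exact f4 (hq.1.2 (hq.2.1 f3))
  have hvert : ∀ v, ∀ᶠ k in atTop, (((1 : G) ∈ F k ↔ v ∈ F k) ↔ ((1 : G) ∈ M ↔ v ∈ M)) := by
    apply hS.toStd.induct (P := fun v => ∀ᶠ k in atTop,
      (((1 : G) ∈ F k ↔ v ∈ F k) ↔ ((1 : G) ∈ M ↔ v ∈ M))) 1
    · exact Eventually.of_forall fun k => by simp
    · intro x y hxy hx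
      filter_upwards [hx, hedge x y hxy] with k h1 h2
      tauto
  -- bad edges
  have hbad : ∀ k a b, Adj S a b → a ∈ F k → b ∉ F k → (a ∈ M ↔ b ∈ M) →
      ∃ p ∈ TT S (A (k + k0)) (B (k + k0)), p.1⁻¹ * a ∈ R ∧ p.1⁻¹ * b ∈ R := by
    intro k a b hab ha hb hM2
    rcases hF k a b hab with hk | hk
    · exfalso
      have h0 : psi (A (k + k0)) (B (k + k0)) a b = 0 := by
        unfold psi
        rw [if_neg]
        rintro (⟨c1, c2⟩ | ⟨c1, c2⟩)
        · exact c2 (hB _ (hM2.1 (hA _ c1)))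
        · exact c2 (hB _ (hM2.2 (hA _ c1)))
      exact hb ((hk.2 h0).1 ha)
    · exact hk
  obtain ⟨⟨w, w0, w1, w2, w3, w4⟩, ⟨w', w0', w1', w2', w3', w4'⟩⟩ := hM.massive hS.toStd
  by_cases hfr : ∃ᶠ k in atTop, ((1 : G) ∈ F k ↔ (1 : G) ∈ M)
  · obtain ⟨φ, hφ, hφ1⟩ := extraction_of_frequently_atTop hfr
    refine hPM M w w0 w1 w2 w3 w4 (Finset.image₂ (fun r s => r⁻¹ * s) R R) (fun k => F (φ k)) ?_ ?_
    · intro v
      filter_upwards [hφ.tendsto_atTop.eventually (hvert v)] with k hk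
      have := hφ1 k
      tauto
    · intro k a b hab ha hb haM hbM
      obtain ⟨⟨x, y, z⟩, ⟨⟨t1, t2, t3⟩, f1, f2, f3, f4⟩, g1, g2⟩ :=
        hbad (φ k) a b hab ha hb ⟨fun _ => hbM, fun _ => haM⟩
      simp only at t1 t2 t3 f1 f2 f3 f4 g1 g2
      refine ⟨(x⁻¹ * a)⁻¹ * (x⁻¹ * y), Finset.mem_image₂.2 ⟨_, g1, _, hSR t1, rfl⟩, ?_⟩
      have : a * ((x⁻¹ * a)⁻¹ * (x⁻¹ * y)) = y := by simp [mul_assoc]
      rw [this]
      exact fun hh => f2 (hB _ hh)
  · rw [not_frequently] at hfr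
    refine hPM Mᶜ w' w0' w1' w2' w3' w4' (Finset.image₂ (fun r s => r⁻¹ * s) R R) F ?_ ?_
    · intro v
      filter_upwards [hfr, hvert v] with k h1 h2
      simp only [mem_compl_iff]
      tauto
    · intro k a b hab ha hb haM hbM
      obtain ⟨⟨x, y, z⟩, ⟨⟨t1, t2, t3⟩, f1, f2, f3, f4⟩, g1, g2⟩ :=
        hbad k a b hab ha hb ⟨fun h => absurd h haM, fun h => absurd h hbM⟩
      simp only at t1 t2 t3 f1 f2 f3 f4 g1 g2
      have h1R : (1 : G) ∈ R := hSR hS.toStd.one
      refine ⟨(x⁻¹ * a)⁻¹ * 1, Finset.mem_image₂.2 ⟨_, g1, _, h1R, rfl⟩, ?_⟩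
      have : a * ((x⁻¹ * a)⁻¹ * 1) = x := by simp [mul_assoc]
      rw [this]
      exact fun hh => hh (hA _ f1)

/-- the abstract theorem -/
theorem NestFam.empty {S : Finset G} (hS : TopHyp S) [Infinite G] (hPM : PrinM S)
    {D : Set (Set G)} (h : NestFam S D) : D = ∅ := by
  classical
  by_contra hne
  obtain ⟨M0, hM0⟩ := Set.nonempty_iff_ne_empty.2 hne
  have hinf := (h.har M0 hM0).bd_infinite hS
  -- some generator crosses infinitely often
  have hs : ∃ s ∈ S, {x : G | x ∈ M0 ∧ x * s ∉ M0}.Infinite := by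
    by_contra hc
    push Not at hc
    apply hinf
    have hU : (⋃ s ∈ S, (fun x => (x, x * s)) '' {x : G | x ∈ M0 ∧ x * s ∉ M0}).Finite :=
      S.finite_toSet.biUnion fun s hs => (hc s hs).image _
    apply hU.subset
    rintro ⟨a, b⟩ ⟨h1, h2, h3⟩
    simp only at h1 h2 h3
    refine mem_iUnion₂.2 ⟨a⁻¹ * b, h1, a, ⟨h2, ?_⟩, ?_⟩
    · simpa using h3
    · simp
  obtain ⟨s, hs, hsinf⟩ := hs
  have hadj : Adj S 1 s := by unfold Adj; simpa using hs
  set L : Set (Set G) := {M | M ∈ D ∧ (1 : G) ∈ M ∧ s ∉ M} with hL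
  have hLinf : L.Infinite := by
    have himg : ((fun x => tr x⁻¹ M0) '' {x : G | x ∈ M0 ∧ x * s ∉ M0}).Infinite := by
      apply hsinf.image
      intro x _ y _ hxy
      simp only at hxy
      have h1 : tr (y * x⁻¹) M0 = M0 := by
        rw [← tr_tr, hxy, tr_tr]; simp
      have h2 := h.stab M0 hM0 _ h1
      exact (mul_inv_eq_one.1 h2).symm
    apply himg.mono
    rintro _ ⟨x, ⟨h1, h2⟩, rfl⟩
    refine ⟨(h.tr_mem _).2 hM0, ?_, ?_⟩
    · rw [mem_tr]; simpa using h1
    · rw [mem_tr]; simpa using h2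
  -- monotone sequence
  let f := hLinf.natEmbedding
  have hchain : ∀ M ∈ L, ∀ M' ∈ L, M ⊆ M' ∨ M' ⊆ M := fun M hM M' hM' =>
    h.chain M hM.1 M' hM'.1 1 s hadj hM.2.1 hM'.2.1 hM.2.2 hM'.2.2
  obtain ⟨g, hg⟩ := exists_increasing_or_nonincreasing_subseq (· ⊂ ·) (fun n => (f n : Set G))
  have hmemL : ∀ k, (f (g k) : Set G) ∈ L := fun k => (f (g k)).2
  rcases hg with hg | hg
  · -- increasing
    have hmono : StrictMono fun k => (f (g k) : Set G) := fun m n hmn => hg m n hmn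
    set N : ℕ → Set G := fun k => (f (g k) : Set G) with hN
    have hNu : (⋃ k, N k) ∈ D := by
      apply h.union N (fun k => (hmemL k).1) hmono.monotone
      intro hc
      have : s ∈ ⋃ k, N k := by rw [hc]; trivial
      obtain ⟨k, hk⟩ := mem_iUnion.1 this
      exact (hmemL k).2.2 hk
    have hsU : s ∉ ⋃ k, N k := by
      intro hc
      obtain ⟨k, hk⟩ := mem_iUnion.1 hc
      exact (hmemL k).2.2 hk
    have hsub : ∀ k, N k ⊆ ⋃ k, N k := fun k => subset_iUnion N k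
    refine h.concl hS hPM (h.har _ hNu) (A := N) (B := fun _ => ⋃ k, N k) ?_ hsub
      (fun _ => Subset.rfl) ?_ ?_ ?_
    · intro k
      refine ⟨hsub k, ?_, ?_⟩
      · intro v hv
        exact ⟨N k, (hmemL k).1, Subset.rfl, hsub k, hv⟩
      · intro v hv
        obtain ⟨j, hj⟩ := mem_iUnion.1 hv
        exact ⟨N (max j k), (hmemL _).1, hmono.monotone (le_max_right _ _), hsub _,
          hmono.monotone (le_max_left _ _) hj⟩
    · intro k
      have hlt : N k ⊂ N (k + 1) := hmono (Nat.lt_succ_self k)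
      apply (h.fin (N k) (hmemL k).1 (N (k + 1)) (hmemL _).1 hlt.subset hlt.ne 1 s hadj
        (hmemL k).2.1 (hmemL _).2.2).subset
      rintro ⟨a, b⟩ ⟨h1, h2, h3⟩
      exact ⟨h1, h2, fun hh => h3 (hsub _ hh)⟩
    · intro v hv
      obtain ⟨j, hj⟩ := mem_iUnion.1 hv
      filter_upwards [eventually_ge_atTop j] with k hk
      exact hmono.monotone hk hj
    · intro v hv
      exact Eventually.of_forall fun _ => hv
  · -- decreasing
    have hanti : StrictAnti fun k => (f (g k) : Set G) := by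
      intro m n hmn
      have h1 := hg m n hmn
      have h2 : (f (g m) : Set G) ≠ f (g n) := by
        intro hh
        have := f.injective (Subtype.ext hh)
        exact absurd (g.injective this) hmn.ne
      rcases hchain _ (hmemL m) _ (hmemL n) with h' | h'
      · exact absurd (HasSubset.Subset.ssubset_of_ne h' h2) h1
      · exact HasSubset.Subset.ssubset_of_ne h' h2.symm
    set N : ℕ → Set G := fun k => (f (g k) : Set G) with hN
    have hhar := h.harAnti N (fun k => (hmemL k).1) hanti 1 s hadj (fun k => (hmemL k).2.1)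
      (fun k => (hmemL k).2.2)
    have hsub : ∀ k, ⋂ k, N k ⊆ N k := fun k => iInter_subset N k
    have h1I : (1 : G) ∈ ⋂ k, N k := mem_iInter.2 fun k => (hmemL k).2.1
    refine h.concl hS hPM hhar (A := fun _ => ⋂ k, N k) (B := N) ?_ (fun _ => Subset.rfl) hsub
      ?_ ?_ ?_
    · intro k
      refine ⟨hsub k, ?_, ?_⟩
      · intro v hv
        have : ∃ j, v ∉ N j := by
          by_contra hc
          push Not at hc
          exact hv (mem_iInter.2 hc)
        obtain ⟨j, hj⟩ := this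
        exact ⟨N (max j k), (hmemL _).1, hsub _, hanti.antitone (le_max_right _ _),
          fun hh => hj (hanti.antitone (le_max_left _ _) hh)⟩
      · intro v hv
        exact ⟨N k, (hmemL k).1, hsub k, Subset.rfl, hv⟩
    · intro k
      have hlt : N (k + 1) ⊂ N k := hanti (Nat.lt_succ_self k)
      apply (h.fin (N (k + 1)) (hmemL _).1 (N k) (hmemL k).1 hlt.subset hlt.ne 1 s hadj
        (hmemL _).2.1 (hmemL _).2.2).subset
      rintro ⟨a, b⟩ ⟨h1, h2, h3⟩
      exact ⟨h1, hsub _ h2, h3⟩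
    · intro v hv
      exact Eventually.of_forall fun _ => hv
    · intro v hv
      have : ∃ j, v ∉ N j := by
        by_contra hc
        push Not at hc
        exact hv (mem_iInter.2 hc)
      obtain ⟨j, hj⟩ := this
      filter_upwards [eventually_ge_atTop j] with k hk
      exact fun hh => hj (hanti.antitone hk hh)

theorem nCore : NCore := by
  intro G _ S hS hinf hPM D h
  exact h.empty hS hPM

end Crest.Agent.R224
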