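import Crest.Agent.R224.Cpt

/-!
Row 224, node NBdry (helper912).
-/

set_option autoImplicit false
set_option linter.unusedSectionVars false

noncomputable section

namespace Crest.Agent.R224.BdryN

open Relation MeasureTheory Set Filter Topology Crest.Agent.R224.FC Crest.Agent.R224.Fam

variable {G : Type} [Group G] {S : Finset G} {A : Set (G → ℝ)}

/-- the compactification, abstractly -/
structure IsCpt (S : Finset G) (A : Set (G → ℝ)) {Z : Type} [MetricSpace Z] [MulAction G Z]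
    (io : G → Z) (ex : A → Z → ℝ) : Prop where
  cont : ∀ g : G, Continuous fun z : Z => g • z
  eqv : ∀ g h : G, g • io h = io (g * h)
  inj : Function.Injective io
  isol : ∀ g : G, IsOpen ({io g} : Set Z)
  dense : Dense (Set.range io)
  exc : ∀ f, Continuous (ex f)
  exio : ∀ f x, ex f (io x) = f.1 x
  sep : ∀ z w, (∀ f, ex f z = ex f w) → z = w
  acc : ∀ E : Set G, E.Infinite → ∃ z : Z, z ∉ Set.range io ∧ z ∈ closure (io '' E)

theorem exists_cpt (hA : ClFam S A) : ∃ (Z : Type) (_ : MetricSpace Z) (_ : CompactSpace Z)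
    (_ : MulAction G Z) (io : G → Z) (ex : A → Z → ℝ), IsCpt S A io ex := by
  have h1 := Cpt.compact_Z hA
  have h2 := Cpt.metrizable_Z hA
  letI m : MetricSpace (Cpt.Z A) := TopologicalSpace.metrizableSpaceMetric (Cpt.Z A)
  letI a := Cpt.act hA
  exact ⟨Cpt.Z A, m, h1, a, Cpt.io A, Cpt.ex,
    { cont := fun g => Cpt.act_cont hA g
      eqv := fun g h => Cpt.act_io hA g h
      inj := Cpt.io_inj hA
      isol := Cpt.isol hA
      dense := Cpt.dense_io
      exc := Cpt.continuous_ex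
      exio := Cpt.ex_io
      sep := fun z w h => Cpt.ext_Z h
      acc := fun E hE => Cpt.exists_acc hA hE }⟩

section abs

variable {Z : Type} [MetricSpace Z] [CompactSpace Z] [MulAction G Z] {io : G → Z}
  {ex : A → Z → ℝ}

/-- Uniformity lemma: finitely many coordinates control the distance. -/
theorem exists_unif (h : IsCpt S A io ex) {ε : ℝ} (hε : 0 < ε) :
    ∃ (F : Finset (A × ℕ)), ∀ z w : Z, (∀ q ∈ F, |ex q.1 z - ex q.1 w| ≤ 1 / ((q.2 : ℝ) + 1)) →
      dist z w < ε := by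
  have hK : IsCompact {p : Z × Z | ε ≤ dist p.1 p.2} :=
    (isClosed_le continuous_const (continuous_fst.dist continuous_snd)).isCompact
  obtain ⟨F, hF⟩ := hK.elim_finite_subcover
    (fun q : A × ℕ => {p : Z × Z | 1 / ((q.2 : ℝ) + 1) < |ex q.1 p.1 - ex q.1 p.2|})
    (fun q => isOpen_lt continuous_const
      (((h.exc q.1).comp continuous_fst).sub ((h.exc q.1).comp continuous_snd)).abs) (by
      rintro ⟨z, w⟩ hzw
      have hne : z ≠ w := by
        rintro rfl
        simp only [Set.mem_ofPred_eq, dist_self] at hzw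
        linarith
      have : ∃ f, ex f z ≠ ex f w := by
        by_contra hcon
        push Not at hcon
        exact hne (h.sep z w hcon)
      obtain ⟨f, hf⟩ := this
      obtain ⟨n, hn⟩ := exists_nat_one_div_lt (abs_pos.2 (sub_ne_zero.2 hf))
      exact Set.mem_iUnion.2 ⟨(f, n), hn⟩)
  refine ⟨F, fun z w hzw => ?_⟩
  by_contra hcon
  push Not at hcon
  have := hF (show (z, w) ∈ {p : Z × Z | ε ≤ dist p.1 p.2} from hcon)
  simp only [Set.mem_iUnion] at this
  obtain ⟨q, hq, hq2⟩ := this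
  exact absurd (hzw q hq) (not_le.2 hq2)

/-- (CP) -/
theorem cp (hT : TopHyp S) (hinf : Infinite G) (hCP : NCP2) (hA : ClFam S A)
    (h : IsCpt S A io ex) {ε : ℝ} (hε : 0 < ε) : ∃ K : Finset G, ∀ x : G, x ∉ K → ∀ z : Z,
    dist z (io x) ≤ ε ∨ dist (x⁻¹ • z) (io x⁻¹) ≤ ε := by
  classical
  obtain ⟨F, hF⟩ := exists_unif h hε
  have hex : ∀ q r : A × ℕ, ∃ K : Finset G, ∀ x, x ∉ K → ∀ y,
      |q.1.1 y - q.1.1 x| ≤ min (1 / ((q.2 : ℝ) + 1)) (1 / ((r.2 : ℝ) + 1)) ∨
      |r.1.1 (x⁻¹ * y) - r.1.1 x⁻¹| ≤ min (1 / ((q.2 : ℝ) + 1)) (1 / ((r.2 : ℝ) + 1)) := by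
    intro q r
    exact hCP G S hT hinf q.1.1 r.1.1 (hA.cls _ q.1.2) (hA.cls _ r.1.2) _
      (lt_min (by positivity) (by positivity))
  choose K hK using hex
  refine ⟨F.biUnion (fun q => F.biUnion (fun r => K q r)), fun x hx z => ?_⟩
  have hcl : IsClosed ({z : Z | dist z (io x) ≤ ε} ∪ {z | dist (x⁻¹ • z) (io x⁻¹) ≤ ε}) :=
    (isClosed_le (continuous_id.dist continuous_const) continuous_const).union
      (isClosed_le ((h.cont x⁻¹).dist continuous_const) continuous_const)
  have hz : z ∈ closure (Set.range io) := h.dense z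
  refine hcl.closure_subset_iff.2 ?_ hz
  rintro _ ⟨y, rfl⟩
  by_contra hcon
  simp only [Set.mem_union, Set.mem_ofPred_eq, not_or, not_le] at hcon
  obtain ⟨h1, h2⟩ := hcon
  have h1' : ∃ q ∈ F, 1 / ((q.2 : ℝ) + 1) < |ex q.1 (io y) - ex q.1 (io x)| := by
    by_contra hcon
    push Not at hcon
    exact absurd (hF _ _ hcon) (not_lt.2 h1.le)
  have h2' : ∃ r ∈ F, 1 / ((r.2 : ℝ) + 1) < |ex r.1 (x⁻¹ • io y) - ex r.1 (io x⁻¹)| := by
    by_contra hcon
    push Not at hcon
    exact absurd (hF _ _ hcon) (not_lt.2 h2.le)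
  obtain ⟨q, hq, hq2⟩ := h1'
  obtain ⟨r, hr, hr2⟩ := h2'
  rw [h.exio, h.exio] at hq2
  rw [h.eqv, h.exio, h.exio] at hr2
  have hxK : x ∉ K q r := by
    intro hmem
    exact hx (Finset.mem_biUnion.2 ⟨q, hq, Finset.mem_biUnion.2 ⟨r, hr, hmem⟩⟩)
  rcases hK q r x hxK y with h3 | h3
  · have := h3.trans (min_le_left _ _)
    linarith
  · have := h3.trans (min_le_right _ _)
    linarith

/-- Directedness of the basic neighbourhoods. -/
theorem basic_inter (hA : ClFam S A) (h : IsCpt S A io ex) (θ : Z) (f1 f2 : A) (t1 t2 : ℝ)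
    (h1 : ex f1 θ < t1) (h2 : ex f2 θ < t2) :
    ∃ (f3 : A) (t3 : ℝ), ex f3 θ < t3 ∧ ∀ z, ex f3 z < t3 → ex f1 z < t1 ∧ ex f2 z < t2 := by
  set η := min (t1 - ex f1 θ) (t2 - ex f2 θ) with hη
  have hη0 : 0 < η := lt_min (by linarith) (by linarith)
  obtain ⟨s, hs1, hs2, hmem⟩ := hA.mx f1.1 f1.2 f2.1 f2.2 (t1 - t2 - η / 3) (t1 - t2 + η / 3)
    (by linarith)
  -- the extension of the max is the max of the extensions
  have hmax : ∀ z, ex ⟨_, hmem⟩ z = max (ex f1 z) (ex f2 z + s) := by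
    intro z
    have hcl : IsClosed {z : Z | ex ⟨_, hmem⟩ z = max (ex f1 z) (ex f2 z + s)} :=
      isClosed_eq (h.exc _) ((h.exc f1).max ((h.exc f2).add continuous_const))
    refine hcl.closure_subset_iff.2 ?_ (h.dense z)
    rintro _ ⟨y, rfl⟩
    show ex ⟨_, hmem⟩ (io y) = max (ex f1 (io y)) (ex f2 (io y) + s)
    rw [h.exio, h.exio, h.exio]
  have e1 : η ≤ t1 - ex f1 θ := min_le_left _ _
  have e2 : η ≤ t2 - ex f2 θ := min_le_right _ _
  refine ⟨⟨_, hmem⟩, min t1 (t2 + s), ?_, ?_⟩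
  · rw [hmax]
    refine max_lt (lt_min ?_ ?_) (lt_min ?_ ?_) <;> linarith
  · intro z hz
    rw [hmax] at hz
    constructor
    · have := le_max_left (ex f1 z) (ex f2 z + s)
      have := min_le_left t1 (t2 + s)
      linarith
    · have := le_max_right (ex f1 z) (ex f2 z + s)
      have := min_le_right t1 (t2 + s)
      linarith

/-- Basic neighbourhoods. -/
theorem exists_basic (hA : ClFam S A) (h : IsCpt S A io ex) (θ : Z) {ε : ℝ} (hε : 0 < ε) :
    ∃ (f : A) (t : ℝ), ex f θ < t ∧ ∀ z, ex f z < t → dist z θ < ε := by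
  classical
  have hK : IsCompact {z : Z | ε ≤ dist z θ} :=
    (isClosed_le continuous_const (continuous_id.dist continuous_const)).isCompact
  -- cover
  obtain ⟨F, hF⟩ := hK.elim_finite_subcover
    (fun q : {q : A × ℝ // ex q.1 θ < q.2} => {z : Z | q.1.2 < ex q.1.1 z})
    (fun q => isOpen_lt continuous_const (h.exc q.1.1)) (by
      intro z hz
      have hne : z ≠ θ := by
        rintro rfl
        simp only [Set.mem_ofPred_eq, dist_self] at hz
        linarith
      have : ∃ f, ex f z ≠ ex f θ := by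
        by_contra hcon
        push Not at hcon
        exact hne (h.sep z θ hcon)
      obtain ⟨f, hf⟩ := this
      rcases lt_or_gt_of_ne hf with hf | hf
      · -- use the negation
        obtain ⟨fn, hfn⟩ : ∃ fn : A, fn.1 = fun x => - f.1 x := ⟨⟨_, hA.neg f.1 f.2⟩, rfl⟩
        have hneg : ∀ z, ex fn z = - ex f z := by
          intro z
          have hcl : IsClosed {z : Z | ex fn z = - ex f z} :=
            isClosed_eq (h.exc _) (h.exc f).neg
          refine hcl.closure_subset_iff.2 ?_ (h.dense z)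
          rintro _ ⟨y, rfl⟩
          show ex fn (io y) = - ex f (io y)
          rw [h.exio, h.exio, hfn]
        have e1 := hneg θ
        have e2 := hneg z
        refine Set.mem_iUnion.2 ⟨⟨(fn, - (ex f z + ex f θ) / 2), ?_⟩, ?_⟩
        · show ex fn θ < - (ex f z + ex f θ) / 2
          linarith
        · show - (ex f z + ex f θ) / 2 < ex fn z
          linarith
      · refine Set.mem_iUnion.2 ⟨⟨(f, (ex f z + ex f θ) / 2), ?_⟩, ?_⟩
        · show ex f θ < _
          linarith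
        · show _ < ex f z
          linarith)
  -- intersect
  have key : ∀ F : Finset {q : A × ℝ // ex q.1 θ < q.2},
      ∃ (f : A) (t : ℝ), ex f θ < t ∧ ∀ z, ex f z < t → ∀ q ∈ F, ex q.1.1 z < q.1.2 := by
    intro F
    induction F using Finset.induction_on with
    | empty =>
        obtain ⟨x⟩ : Nonempty G := ⟨1⟩
        exact ⟨⟨_, hA.delta x⟩, ex ⟨_, hA.delta x⟩ θ + 1, by linarith, by simp⟩
    | insert q F _ ih =>
        obtain ⟨f, t, h1, h2⟩ := ih
        obtain ⟨f3, t3, h3, h4⟩ := basic_inter hA h θ f q.1.1 t q.1.2 h1 q.2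
        refine ⟨f3, t3, h3, fun z hz r hr => ?_⟩
        rcases Finset.mem_insert.1 hr with rfl | hr
        · exact (h4 z hz).2
        · exact h2 z (h4 z hz).1 r hr
  obtain ⟨f, t, h1, h2⟩ := key F
  refine ⟨f, t, h1, fun z hz => ?_⟩
  by_contra hcon
  push Not at hcon
  have := hF (show z ∈ {z : Z | ε ≤ dist z θ} from hcon)
  simp only [Set.mem_iUnion] at this
  obtain ⟨q, hq, hq2⟩ := this
  exact absurd (h2 z hz q hq) (not_lt.2 (le_of_lt hq2))

/-- (LC) -/
theorem lc (hS : Std S) (hA : ClFam S A) (h : IsCpt S A io ex) (θ : Z) {ε : ℝ} (hε : 0 < ε) :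
    ∃ Y : Set G, Conn S Y ∧ (∀ x ∈ Y, dist (io x) θ < ε) ∧
    ∃ δ : ℝ, 0 < δ ∧ ∀ x : G, dist (io x) θ < δ → x ∈ Y := by
  classical
  obtain ⟨f, t, hft, hfz⟩ := exists_basic hA h θ hε
  obtain ⟨t', ht1, ht2, hfin, hcmp⟩ := hA.cmp f.1 f.2 (ex f θ) t hft
  obtain ⟨P, hP, hPc⟩ := finite_components hS hfin
  -- the component functions
  obtain ⟨g, hg⟩ : ∃ g : G → A, ∀ o, (g o).1 =
      Set.indicator (comp S {y | f.1 y < t'} o) (fun x => t' - f.1 x) :=
    ⟨fun o => ⟨_, hcmp o⟩, fun o => rfl⟩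
  -- on the group: every point of the sublevel set is in the component of some `p ∈ P`
  have hcomp : ∀ y, f.1 y < t' → ∃ p ∈ P, y ∈ comp S {y | f.1 y < t'} p := by
    intro y hy
    obtain ⟨p, hp, hr⟩ := hPc y hy
    exact ⟨p, hp, hy, rtg_cst_iff.1 hr⟩
  -- closed condition
  have hclosed : IsClosed ({z : Z | t' ≤ ex f z} ∪ ⋃ p ∈ P, {z | ex (g p) z = t' - ex f z}) := by
    refine (isClosed_le continuous_const (h.exc f)).union ?_
    refine isClosed_biUnion_finset (fun p _ => ?_)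
    exact isClosed_eq (h.exc _) (continuous_const.sub (h.exc f))
  have hθ : θ ∈ ({z : Z | t' ≤ ex f z} ∪ ⋃ p ∈ P, {z | ex (g p) z = t' - ex f z}) := by
    refine hclosed.closure_subset_iff.2 ?_ (h.dense θ)
    rintro _ ⟨y, rfl⟩
    by_cases hy : f.1 y < t'
    · right
      obtain ⟨p, hp, hyp⟩ := hcomp y hy
      simp only [Set.mem_iUnion]
      refine ⟨p, hp, ?_⟩
      show ex (g p) (io y) = t' - ex f (io y)
      rw [h.exio, h.exio, hg]
      exact Set.indicator_of_mem hyp _
    · left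
      show t' ≤ ex f (io y)
      rw [h.exio]
      exact not_lt.1 hy
  rcases hθ with hθ | hθ
  · exact absurd hθ (not_le.2 ht1)
  simp only [Set.mem_iUnion] at hθ
  obtain ⟨p, hp, hpθ⟩ := hθ
  have hpos : 0 < ex (g p) θ := by
    have : ex (g p) θ = t' - ex f θ := hpθ
    rw [this]; linarith
  have hopen : IsOpen {z : Z | 0 < ex (g p) z} := isOpen_lt continuous_const (h.exc _)
  obtain ⟨δ, hδ, hball⟩ := Metric.isOpen_iff.1 hopen θ hpos
  refine ⟨comp S {y | f.1 y < t'} p, conn_iff.2 (conn_comp hS p), ?_, δ, hδ, ?_⟩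
  · intro x hx
    refine hfz (io x) ?_
    rw [h.exio]
    exact lt_trans hx.1 ht2
  · intro x hx
    have h1 : 0 < ex (g p) (io x) := hball hx
    rw [h.exio] at h1
    by_contra hcon
    have : (g p).1 x = 0 := by rw [hg]; exact Set.indicator_of_notMem hcon _
    rw [this] at h1
    exact lt_irrefl _ h1

end abs

/-- Node N8. -/
theorem nBdry (hMono : NMono) (hMax : NMax) (hComp : NComp) (hCP : NCP2) : NBdry := by
  intro G _ S hT hN hinf hf
  obtain ⟨f, hfc, a, b, hab, hfa, hfb⟩ := hMono G S hT hN hinf hf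
  obtain ⟨A, hA, hfA⟩ := exists_family hT hinf hMax hComp {f} (Set.countable_singleton f)
    (by intro g hg; rw [Set.mem_singleton_iff] at hg; subst hg; exact hfc)
  have hfA' : f ∈ A := hfA rfl
  obtain ⟨Z, m, c, act, io, ex, h⟩ := exists_cpt (S := S) hA
  refine ⟨Z, m, c, act, io, Set.range ex, ?_⟩
  have hcount : Countable A := hA.ctbl.to_subtype
  refine
    { cont := h.cont
      eqv := h.eqv
      inj := h.inj
      isol := h.isol
      dense := h.dense
      two := ?_
      cp := fun ε hε => cp hT hinf hCP hA h hε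
      lc := fun θ _ ε hε => lc hT.toStd hA h θ hε
      ctble := Set.countable_range ex
      fcont := ?_
      fdir := ?_
      ffin := ?_
      fsep := ?_ }
  · obtain ⟨z, hz, hz2⟩ := h.acc _ hfa
    obtain ⟨w, hw, hw2⟩ := h.acc _ hfb
    have h1 : ex ⟨f, hfA'⟩ z ≤ a := by
      have hcl : IsClosed {z : Z | ex ⟨f, hfA'⟩ z ≤ a} := isClosed_le (h.exc _) continuous_const
      refine hcl.closure_subset_iff.2 ?_ hz2
      rintro _ ⟨y, hy, rfl⟩
      show ex ⟨f, hfA'⟩ (io y) ≤ a
      rw [h.exio]; exact hy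
    have h2 : b ≤ ex ⟨f, hfA'⟩ w := by
      have hcl : IsClosed {z : Z | b ≤ ex ⟨f, hfA'⟩ z} := isClosed_le continuous_const (h.exc _)
      refine hcl.closure_subset_iff.2 ?_ hw2
      rintro _ ⟨y, hy, rfl⟩
      show b ≤ ex ⟨f, hfA'⟩ (io y)
      rw [h.exio]; exact hy
    refine ⟨z, hz, w, hw, ?_⟩
    rintro rfl
    linarith
  · rintro _ ⟨g, rfl⟩
    exact h.exc g
  · rintro _ ⟨g, rfl⟩
    have := (hA.cls g.1 g.2).dir
    have e : (fun x => ex g (io x)) = g.1 := funext (fun x => h.exio g x)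
    rw [e]; exact this
  · rintro _ ⟨g, rfl⟩
    have := (hA.cls g.1 g.2).fin
    filter_upwards [this] with t ht
    have e : {x : G | ex g (io x) < t} = {x | g.1 x < t} := by
      ext x
      simp only [Set.mem_ofPred_eq, h.exio]
    rw [e]; exact ht
  · intro z _ w _ hne
    by_contra hcon
    push Not at hcon
    exact hne (h.sep z w (fun f => hcon (ex f) ⟨f, rfl⟩))

end Crest.Agent.R224.BdryN
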