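import Crest.Agent.R224.Fam

/-!
Row 224 (helper912): the compactification `Z = G ⊔ T` of a closed family `A` of functions
(closure of `G` in `A → ℝ`).
-/

set_option autoImplicit false
set_option linter.unusedSectionVars false

noncomputable section

namespace Crest.Agent.R224.Cpt

open Relation MeasureTheory Set Filter Topology Crest.Agent.R224.FC Crest.Agent.R224.Fam

variable {G : Type} [Group G] {S : Finset G} {A : Set (G → ℝ)}

/-- evaluation map -/
def ev (A : Set (G → ℝ)) (x : G) : A → ℝ := fun f => f.1 x

/-- closure of the group in the product -/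
def Zs (A : Set (G → ℝ)) : Set (A → ℝ) := closure (Set.range (ev A))

/-- the compactification -/
abbrev Z (A : Set (G → ℝ)) : Type := ↥(Zs A)


/-- the embedding of the group -/
def io (A : Set (G → ℝ)) (x : G) : Z A := ⟨ev A x, subset_closure ⟨x, rfl⟩⟩

/-- extension of `f ∈ A` -/
def ex (f : A) (z : Z A) : ℝ := z.1 f

theorem ex_io (f : A) (x : G) : ex f (io A x) = f.1 x := rfl

theorem continuous_ex (f : A) : Continuous (ex f) :=
  (continuous_apply f).comp continuous_subtype_val

theorem ext_Z {z w : Z A} (h : ∀ f : A, ex f z = ex f w) : z = w :=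
  Subtype.ext (funext h)

theorem dense_io : Dense (Set.range (io A)) := by
  intro z
  have hz : z.1 ∈ closure (Set.range (ev A)) := z.2
  have hr : Set.range (ev A) = Subtype.val '' (Set.range (io A)) := by
    rw [← Set.range_comp]; rfl
  rw [hr] at hz
  exact closure_subtype.2 hz

theorem compact_Z (hA : ClFam S A) : CompactSpace (Z A) := by
  have hb : ∀ f : A, ∃ C, ∀ x, |f.1 x| ≤ C := fun f => (hA.cls f.1 f.2).bdd
  choose C hC using hb
  have hK : IsCompact (Set.pi Set.univ (fun f : A => Set.Icc (-C f) (C f))) :=
    isCompact_univ_pi (fun f => isCompact_Icc)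
  have hsub : Zs A ⊆ Set.pi Set.univ (fun f : A => Set.Icc (-C f) (C f)) := by
    refine closure_minimal ?_ hK.isClosed
    rintro _ ⟨x, rfl⟩ f _
    exact abs_le.1 (hC f x)
  have : IsCompact (Zs A) := hK.of_isClosed_subset isClosed_closure hsub
  exact isCompact_iff_compactSpace.1 this

theorem secondCountable_Z (hA : ClFam S A) : SecondCountableTopology (Z A) := by
  have : Countable A := hA.ctbl.to_subtype
  exact inferInstanceAs (SecondCountableTopology ↥(Zs A))

theorem metrizable_Z (hA : ClFam S A) : TopologicalSpace.MetrizableSpace (Z A) := by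
  have := compact_Z hA
  have := secondCountable_Z hA
  exact TopologicalSpace.metrizableSpace_of_t3_secondCountable (Z A)

/-- translation on indices -/
def tr (hA : ClFam S A) (γ : G) (f : A) : A := ⟨fun x => f.1 (γ * x), hA.trans f.1 f.2 γ⟩

theorem smul_mem (hA : ClFam S A) (γ : G) (z : Z A) : (fun f => z.1 (tr hA γ f)) ∈ Zs A := by
  have hcont : Continuous (fun (z : A → ℝ) (f : A) => z (tr hA γ f)) :=
    continuous_pi (fun f => continuous_apply _)
  have hmap : Set.MapsTo (fun (z : A → ℝ) (f : A) => z (tr hA γ f)) (Set.range (ev A))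
      (Set.range (ev A)) := by
    rintro _ ⟨x, rfl⟩
    exact ⟨γ * x, rfl⟩
  exact (hmap.closure hcont) z.2

/-- the action of the group -/
@[instance_reducible] def act (hA : ClFam S A) : MulAction G (Z A) where
  smul γ z := ⟨fun f => z.1 (tr hA γ f), smul_mem hA γ z⟩
  one_smul z := by
    refine Subtype.ext (funext fun f => ?_)
    show z.1 (tr hA 1 f) = z.1 f
    refine congrArg z.1 (Subtype.ext (funext fun x => ?_))
    show f.1 (1 * x) = f.1 x
    rw [one_mul]
  mul_smul γ δ z := by
    refine Subtype.ext (funext fun f => ?_)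
    show z.1 (tr hA (γ * δ) f) = z.1 (tr hA δ (tr hA γ f))
    refine congrArg z.1 (Subtype.ext (funext fun x => ?_))
    show f.1 (γ * δ * x) = f.1 (γ * (δ * x))
    rw [mul_assoc]

theorem act_cont (hA : ClFam S A) (γ : G) :
    letI := act hA
    Continuous fun z : Z A => γ • z := by
  letI := act hA
  refine Continuous.subtype_mk (f := fun z : Z A => fun f : A => z.1 (tr hA γ f)) ?_ _
  exact continuous_pi (fun f => (continuous_apply _).comp continuous_subtype_val)

theorem act_io (hA : ClFam S A) (γ x : G) :
    letI := act hA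
    γ • io A x = io A (γ * x) := rfl

/-- the delta functions as members of the family -/
def dl (hA : ClFam S A) (x : G) : A := ⟨Set.indicator ({x} : Set G) (fun _ => (1 : ℝ)), hA.delta x⟩

theorem ex_dl_io (hA : ClFam S A) (x y : G) :
    ex (dl hA x) (io A y) = Set.indicator ({x} : Set G) (fun _ => (1 : ℝ)) y := rfl

theorem io_inj (hA : ClFam S A) : Function.Injective (io A) := by
  intro x y h
  have h1 : ex (dl hA x) (io A x) = ex (dl hA x) (io A y) := by rw [h]
  rw [ex_dl_io, ex_dl_io, Set.indicator_of_mem (by simp)] at h1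
  by_contra hne
  rw [Set.indicator_of_notMem (by simpa using fun h => hne h.symm)] at h1
  exact one_ne_zero h1

theorem eq_io_of_dl (hA : ClFam S A) (x : G) (z : Z A) (h : 1 / 2 < ex (dl hA x) z) :
    z = io A x := by
  have hopen : IsOpen {w : Z A | 1 / 2 < ex (dl hA x) w} :=
    isOpen_lt continuous_const (continuous_ex _)
  have h1 : z ∈ closure ({w : Z A | 1 / 2 < ex (dl hA x) w} ∩ Set.range (io A)) :=
    hopen.inter_closure ⟨h, dense_io z⟩
  have h2 : {w : Z A | 1 / 2 < ex (dl hA x) w} ∩ Set.range (io A) ⊆ {io A x} := by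
    rintro _ ⟨hw, y, rfl⟩
    by_cases hy : y = x
    · subst hy; rfl
    · exfalso
      have : (1 : ℝ) / 2 < ex (dl hA x) (io A y) := hw
      rw [ex_dl_io, Set.indicator_of_notMem (by simpa using hy)] at this
      norm_num at this
  have h3 := closure_mono h2 h1
  simpa using h3

theorem isol (hA : ClFam S A) (x : G) : IsOpen ({io A x} : Set (Z A)) := by
  have : ({io A x} : Set (Z A)) = {w : Z A | 1 / 2 < ex (dl hA x) w} := by
    ext w
    constructor
    · intro hw
      rw [Set.mem_singleton_iff] at hw
      subst hw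
      show (1 : ℝ) / 2 < ex (dl hA x) (io A x)
      rw [ex_dl_io, Set.indicator_of_mem (by simp)]
      norm_num
    · intro hw
      exact eq_io_of_dl hA x w hw
  rw [this]
  exact isOpen_lt continuous_const (continuous_ex _)

theorem ex_dl_T (hA : ClFam S A) (x : G) {z : Z A} (hz : z ∉ Set.range (io A)) :
    ex (dl hA x) z = 0 := by
  -- the coordinate takes only the values `0` and `1`
  have hcl : IsClosed ({w : Z A | ex (dl hA x) w = 0} ∪ {w | ex (dl hA x) w = 1}) :=
    (isClosed_eq (continuous_ex _) continuous_const).union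
      (isClosed_eq (continuous_ex _) continuous_const)
  have hall : ∀ w : Z A, ex (dl hA x) w = 0 ∨ ex (dl hA x) w = 1 := by
    intro w
    have : w ∈ closure (Set.range (io A)) := dense_io w
    refine hcl.closure_subset_iff.2 ?_ this
    rintro _ ⟨y, rfl⟩
    by_cases hy : y = x
    · right
      show ex (dl hA x) (io A y) = 1
      rw [ex_dl_io, Set.indicator_of_mem (by simpa using hy)]
    · left
      show ex (dl hA x) (io A y) = 0
      rw [ex_dl_io, Set.indicator_of_notMem (by simpa using hy)]
  rcases hall z with h | h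
  · exact h
  · exfalso
    exact hz ⟨x, (eq_io_of_dl hA x z (by rw [h]; norm_num)).symm⟩

/-- infinite subsets of the group accumulate at the boundary -/
theorem exists_acc (hA : ClFam S A) {E : Set G} (hE : E.Infinite) :
    ∃ z : Z A, z ∉ Set.range (io A) ∧ z ∈ closure (io A '' E) := by
  have := compact_Z hA
  by_contra hcon
  push Not at hcon
  have hsub : closure (io A '' E) ⊆ Set.range (io A) := by
    intro z hz
    by_contra h
    exact hcon z h hz
  have hK : IsCompact (closure (io A '' E)) := isClosed_closure.isCompact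
  obtain ⟨t, ht⟩ := hK.elim_finite_subcover (fun x : G => ({io A x} : Set (Z A)))
    (fun x => isol hA x) (by
      intro z hz
      obtain ⟨x, rfl⟩ := hsub hz
      exact Set.mem_iUnion.2 ⟨x, rfl⟩)
  apply hE
  refine t.finite_toSet.subset (fun x hx => ?_)
  have hx' := ht (subset_closure ⟨x, hx, rfl⟩)
  simp only [Set.mem_iUnion] at hx'
  obtain ⟨y, hy, hxy⟩ := hx'
  have := io_inj hA hxy
  rw [this]; exact hy

end Crest.Agent.R224.Cpt
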