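/-
R224 / S0346, node NThmB : cuts and the family of limit walls (helper630), after note 9910 (473).
-/
import Crest.Agent.R224.DBas

set_option autoImplicit false
set_option linter.deprecated false

noncomputable section

open MeasureTheory Set Filter Topology

namespace Crest.Agent.R224

/-- a cut: a clopen subset `U` of `T \ {η}` -/
structure CutP (s : Sys) where
  η : s.Z
  U : Set s.Z
  clp : Clp s.ι η U

theorem Sys.hh_pos_of_ro (s : Sys) {U : Set s.Z} (h : RO s.ι U) (hne : U.Nonempty) (x : s.G) :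
    0 < hh s.ν U x := by
  obtain ⟨O, hO, rfl⟩ := h
  have h1 := s.harm.full x O hO hne
  have h2 : (s.ν x).real O ≤ (s.ν x).real (O ∩ T s.ι) + (s.ν x).real (T s.ι)ᶜ := by
    refine (measureReal_mono ?_).trans (measureReal_union_le _ _)
    intro z hz
    by_cases hT : z ∈ T s.ι
    · exact Or.inl ⟨hz, hT⟩
    · exact Or.inr hT
  have h3 : (s.ν x).real (T s.ι)ᶜ = 0 := by
    simp [Measure.real, s.harm.supp x]
  rw [h3, add_zero] at h2
  exact lt_of_lt_of_le h1 h2

theorem Sys.hh_add_disj (s : Sys) {U V W : Set s.Z} (hV : MeasurableSet V)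
    (hd : Disjoint U V) (hU : U ⊆ W) (hVW : V ⊆ W) (x : s.G) :
    hh s.ν U x + hh s.ν V x ≤ hh s.ν W x := by
  have h1 : (s.ν x).real (U ∪ V) = hh s.ν U x + hh s.ν V x := measureReal_union hd hV
  rw [← h1]
  exact measureReal_mono (union_subset hU hVW)

namespace CutP

variable {s : Sys}

/-- the vertices on the majority side -/
def D (c : CutP s) : Set s.G := {x | 1 / 2 < hh s.ν c.U x}

/-- strict order of cuts -/
def Lt (c d : CutP s) : Prop := insert c.η c.U ⊆ d.U

theorem mem_D {c : CutP s} {x : s.G} : x ∈ c.D ↔ 1 / 2 < hh s.ν c.U x := Iff.rfl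

theorem Lt.ne {c d : CutP s} (h : Lt c d) : c.η ≠ d.η := by
  intro he
  apply d.clp.notMem
  rw [← he]
  exact h (mem_insert _ _)

theorem Lt.trans {a b c : CutP s} (h : Lt a b) (h' : Lt b c) : Lt a c := by
  intro z hz
  exact h' (mem_insert_of_mem _ (h hz))

theorem Lt.sub {c d : CutP s} (h : Lt c d) : c.U ⊆ d.U := (subset_insert _ _).trans h

theorem Lt.D_subset {c d : CutP s} (h : Lt c d) : c.D ⊆ d.D := fun x hx =>
  lt_of_lt_of_le hx (s.hh_mono h.sub x)

theorem Lt.gap (hP : PConn s) {c d : CutP s} (h : Lt c d) :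
    (d.U ∩ cmp s.ι c.η c.U).Nonempty := by
  by_contra hemp
  rw [not_nonempty_iff_eq_empty] at hemp
  have hEq : T s.ι \ d.U = cmp s.ι c.η c.U := by
    ext z
    constructor
    · rintro ⟨hz, hzd⟩
      refine ⟨hz, ?_, ?_⟩
      · rintro rfl; exact hzd (h (mem_insert _ _))
      · intro hzc; exact hzd (h.sub hzc)
    · rintro ⟨hz, h1, h2⟩
      refine ⟨hz, fun hzd => ?_⟩
      have : z ∈ d.U ∩ cmp s.ι c.η c.U := ⟨hzd, hz, h1, h2⟩
      rw [hemp] at this
      exact this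
  exact hP d.U d.clp.ro (by rw [hEq]; exact c.clp.ro') ⟨c.η, h (mem_insert _ _)⟩
    ⟨d.η, d.clp.mem, d.clp.notMem⟩

theorem Lt.hh_lt (hP : PConn s) {c d : CutP s} (h : Lt c d) (x : s.G) :
    hh s.ν c.U x < hh s.ν d.U x := by
  have h1 : RO s.ι (d.U ∩ cmp s.ι c.η c.U) := d.clp.ro.inter c.clp.ro'
  have h2 := s.hh_pos_of_ro h1 (h.gap hP) x
  have h3 := s.hh_add_disj (U := c.U) (V := d.U ∩ cmp s.ι c.η c.U) (W := d.U) h1.meas ?_ h.sub
    inter_subset_left x
  · linarith
  · rw [Set.disjoint_left]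
    rintro z hz ⟨_, _, _, h4⟩
    exact h4 hz

theorem Lt.D_ssubset (hP : PConn s) (hL : PLim s) {c d : CutP s} (h : Lt c d) :
    ∃ v, v ∈ d.D ∧ v ∉ c.D := by
  obtain ⟨θ, hθd, hθc⟩ := h.gap hP
  obtain ⟨δ1, hδ1, h1⟩ := (hL d.η d.U d.clp (1 / 4) (by norm_num)).1 θ hθd
  obtain ⟨δ2, hδ2, h2⟩ := (hL c.η c.U c.clp (1 / 4) (by norm_num)).2 θ hθc
  obtain ⟨x, hx⟩ := s.exists_near θ (lt_min hδ1 hδ2)
  refine ⟨x, ?_, ?_⟩
  · rw [mem_D]
    have := h1 x (hx.trans_le (min_le_left _ _))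
    linarith
  · rw [mem_D]
    have := h2 x (hx.trans_le (min_le_right _ _))
    linarith

/-- (L1) -/
theorem comparable (hP : PConn s) (hH : PHalf s) (hA : PAlg s) {c d : CutP s} (hne : c.η ≠ d.η)
    {x y : s.G} (hxc : x ∈ c.D) (hxd : x ∈ d.D) (hyc : y ∉ c.D) (hyd : y ∉ d.D) :
    Lt c d ∨ Lt d c := by
  have hins : ∀ (η : s.Z) (U : Set s.Z), U ∪ {η} = insert η U := fun η U => by
    rw [union_comm]; rfl
  by_cases h1 : d.η ∈ c.U
  · by_cases h2 : c.η ∈ d.U
    · exfalso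
      -- complements
      have hc := (hA c.η c.U c.U c.clp c.clp).1
      have hnot : d.η ∉ cmp s.ι c.η c.U := fun h => h.2.2 h1
      rcases hH c.η (cmp s.ι c.η c.U) d.η d.U hc d.clp hne hnot with h | h
      · -- `cmp U ∪ {η} ⊆ W`
        have hcov : T s.ι ⊆ c.U ∪ d.U := by
          intro z hz
          by_cases hzU : z ∈ c.U
          · exact Or.inl hzU
          · right
            by_cases hzη : z = c.η
            · rw [hzη]; exact h2
            · exact h (Or.inl ⟨hz, hzη, hzU⟩)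
        have hro : RO s.ι (c.U ∩ d.U) := c.clp.ro.inter d.clp.ro
        have hnonempty : (c.U ∩ d.U).Nonempty := by
          by_contra hemp
          rw [not_nonempty_iff_eq_empty] at hemp
          have hEq : T s.ι \ c.U = d.U := by
            ext z
            constructor
            · rintro ⟨hz, hzc⟩
              rcases hcov hz with h' | h'
              · exact absurd h' hzc
              · exact h'
            · intro hz
              refine ⟨d.clp.ro.sub hz, fun hzc => ?_⟩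
              have : z ∈ c.U ∩ d.U := ⟨hzc, hz⟩
              rw [hemp] at this
              exact this
          exact hP c.U c.clp.ro (by rw [hEq]; exact d.clp.ro) ⟨d.η, h1⟩
            (by rw [hEq]; exact ⟨c.η, h2⟩)
        have hpos := s.hh_pos_of_ro hro hnonempty y
        have hsum : 1 + hh s.ν (c.U ∩ d.U) y ≤ hh s.ν c.U y + hh s.ν d.U y := by
          have e1 := c.clp.hh_add y
          have e2 : hh s.ν (cmp s.ι c.η c.U) y + hh s.ν (c.U ∩ d.U) y ≤ hh s.ν d.U y := by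
            apply s.hh_add_disj hro.meas
            · rw [Set.disjoint_left]
              rintro z ⟨_, _, h4⟩ ⟨h5, _⟩
              exact h4 h5
            · intro z hz
              exact h (Or.inl hz)
            · exact inter_subset_right
          linarith
        rw [mem_D, not_lt] at hyc hyd
        linarith
      · rw [Set.disjoint_left] at h
        exact h (Or.inr rfl) h2
    · -- η ∉ W
      rcases hH d.η d.U c.η c.U d.clp c.clp hne.symm h2 with h | h
      · right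
        rw [hins] at h
        exact h
      · exfalso
        have hd : Disjoint d.U c.U := h.mono_left (subset_union_left)
        have := s.hh_add_disj (U := d.U) (V := c.U) (W := univ) c.clp.meas hd (subset_univ _)
          (subset_univ _) x
        have h1' := s.hh_le_one univ x
        rw [mem_D] at hxc hxd
        linarith
  · rcases hH c.η c.U d.η d.U c.clp d.clp hne h1 with h | h
    · left
      rw [hins] at h
      exact h
    · exfalso
      have hd : Disjoint c.U d.U := h.mono_left (subset_union_left)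
      have := s.hh_add_disj (U := c.U) (V := d.U) (W := univ) d.clp.meas hd (subset_univ _)
        (subset_univ _) x
      have h1' := s.hh_le_one univ x
      rw [mem_D] at hxc hxd
      linarith

theorem bal_of_bd (c : CutP s) {p : s.G × s.G} (hp : p ∈ bd s.S c.D) :
    p.1 ∈ Bal s.ν (1 / (2 * (s.S.card : ℝ))) c.U := by
  obtain ⟨h1, h2, h3⟩ := hp
  rw [mem_D] at h2
  rw [mem_D, not_lt] at h3
  have hS := s.one_le_card
  have hpos := s.card_pos
  have hle : 1 / (2 * (s.S.card : ℝ)) ≤ 1 / 2 := by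
    rw [div_le_div_iff₀ (by positivity) (by norm_num)]
    linarith
  refine ⟨hle.trans h2.le, ?_⟩
  have e1 := c.clp.hh_add p.1
  have e2 := c.clp.hh_add p.2
  have h4 := s.harnack h1 c.clp.ro'.meas
  have h5 : (1 : ℝ) / 2 ≤ s.S.card * hh s.ν (cmp s.ι c.η c.U) p.1 := by linarith
  have h6 : 1 / (2 * (s.S.card : ℝ)) ≤ hh s.ν (cmp s.ι c.η c.U) p.1 := by
    rw [div_le_iff₀ (by positivity)]
    linarith
  linarith

/-- (L2) -/
theorem bd_finite (hB : PBal s) {c d : CutP s} (hne : c.η ≠ d.η) :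
    (bd s.S c.D ∩ bd s.S d.D).Finite := by
  have hS := s.card_pos
  have hε : 0 < dist c.η d.η / 2 := half_pos (dist_pos.2 hne)
  have hc0 : 0 < 1 / (2 * (s.S.card : ℝ)) := by positivity
  have f1 := hB c.η c.U c.clp _ _ hc0 hε
  have f2 := hB d.η d.U d.clp _ _ hc0 hε
  have f3 := ((f1.union f2).prod s.S.finite_toSet).image (fun q : s.G × s.G => (q.1, q.1 * q.2))
  refine f3.subset ?_
  rintro ⟨a, b⟩ ⟨h1, h2⟩
  refine ⟨(a, a⁻¹ * b), ⟨?_, h1.1⟩, ?_⟩
  · have b1 := c.bal_of_bd h1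
    have b2 := d.bal_of_bd h2
    by_cases hd : dist c.η d.η / 2 ≤ dist (s.ι a) c.η
    · exact Or.inl ⟨b1, hd⟩
    · right
      refine ⟨b2, ?_⟩
      have := dist_triangle c.η (s.ι a) d.η
      rw [dist_comm c.η (s.ι a)] at this
      push Not at hd
      change dist c.η d.η / 2 ≤ dist (s.ι a) d.η
      linarith
  · simp

/-- translate of a cut -/
def smul (hA : PAlg s) (g : s.G) (c : CutP s) : CutP s where
  η := g • c.η
  U := (fun z => g • z) '' c.U
  clp := (hA c.η c.U c.U c.clp c.clp).2.2.2.2 g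

theorem smul_η (hA : PAlg s) (g : s.G) (c : CutP s) : (smul hA g c).η = g • c.η := rfl

theorem mem_smul_D (hA : PAlg s) (g : s.G) (c : CutP s) (x : s.G) :
    x ∈ (smul hA g c).D ↔ g⁻¹ * x ∈ c.D := by
  rw [mem_D, mem_D]
  have := s.hh_smul g (g⁻¹ * x) c.clp.meas
  rw [mul_inv_cancel_left] at this
  change 1 / 2 < hh s.ν ((fun z => g • z) '' c.U) x ↔ _
  rw [this]

theorem Lt.smul (hA : PAlg s) (g : s.G) {c d : CutP s} (h : Lt c d) :
    Lt (smul hA g c) (smul hA g d) := by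
  intro z hz
  rcases hz with rfl | ⟨w, hw, rfl⟩
  · exact ⟨c.η, h (mem_insert _ _), rfl⟩
  · exact ⟨w, h (mem_insert_of_mem _ hw), rfl⟩

end CutP

/-- limit walls from below -/
def LimF (s : Sys) : Set (Set s.G) :=
  {M | M ≠ univ ∧ ∀ K : Finset s.G, (∀ x ∈ K, x ∈ M) →
    ∃ c1 c2 c3 c4 : CutP s, c1.Lt c2 ∧ c2.Lt c3 ∧ c3.Lt c4 ∧ (∀ x ∈ K, x ∈ c1.D) ∧ c4.D ⊆ M}

section limF

open CutP

variable {s : Sys}

theorem LimF.nonempty (hP : PConn s) (hL : PLim s) {M : Set s.G} (hM : M ∈ LimF s) :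
    M.Nonempty := by
  obtain ⟨c1, c2, c3, c4, h12, h23, h34, _, h4⟩ := hM.2 ∅ (by simp)
  obtain ⟨v, hv, _⟩ := h34.D_ssubset hP hL
  exact ⟨v, h4 hv⟩

theorem LimF.exists_notMem {M : Set s.G} (hM : M ∈ LimF s) : ∃ y, y ∉ M := by
  by_contra h
  push Not at h
  exact hM.1 (eq_univ_of_forall h)

/-- cuts with prescribed finite part and label different from a given one -/
theorem LimF.cut_ne {M : Set s.G} (hM : M ∈ LimF s) (K : Finset s.G) (hK : ∀ x ∈ K, x ∈ M)
    (η : s.Z) : ∃ d e f : CutP s, d.η ≠ η ∧ d.Lt e ∧ e.Lt f ∧ (∀ x ∈ K, x ∈ d.D) ∧ f.D ⊆ M := by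
  obtain ⟨c1, c2, c3, c4, h12, h23, h34, h1, h4⟩ := hM.2 K hK
  by_cases h : c1.η = η
  · refine ⟨c2, c3, c4, ?_, h23, h34, fun x hx => h12.D_subset (h1 x hx), h4⟩
    rw [← h]
    exact h12.ne.symm
  · exact ⟨c1, c2, c3, h, h12, h23, h1, h34.D_subset.trans h4⟩

theorem LimF.inv (hA : PAlg s) (g : s.G) {M : Set s.G} (hM : M ∈ LimF s) :
    {x | g⁻¹ * x ∈ M} ∈ LimF s := by
  refine ⟨?_, fun K hK => ?_⟩
  · obtain ⟨y, hy⟩ := LimF.exists_notMem hM
    intro h
    have : g * y ∈ {x | g⁻¹ * x ∈ M} := by rw [h]; trivial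
    simp only [mem_setOf_eq, inv_mul_cancel_left] at this
    exact hy this
  · classical
    obtain ⟨c1, c2, c3, c4, h12, h23, h34, h1, h4⟩ := hM.2 (K.image fun x => g⁻¹ * x) (by
      intro x hx
      obtain ⟨k, hk, rfl⟩ := Finset.mem_image.1 hx
      exact hK k hk)
    refine ⟨smul hA g c1, smul hA g c2, smul hA g c3, smul hA g c4, h12.smul hA g, h23.smul hA g,
      h34.smul hA g, ?_, ?_⟩
    · intro x hx
      rw [mem_smul_D]
      exact h1 _ (Finset.mem_image_of_mem _ hx)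
    · intro x hx
      rw [mem_smul_D] at hx
      exact h4 hx

theorem LimF.chain (hP : PConn s) (hH : PHalf s) (hA : PAlg s) {M M' : Set s.G}
    (hM : M ∈ LimF s) (hM' : M' ∈ LimF s) {x y : s.G} (hx : x ∈ M) (hx' : x ∈ M') (hy : y ∉ M)
    (hy' : y ∉ M') : M ⊆ M' ∨ M' ⊆ M := by
  classical
  by_contra hcon
  rw [not_or, not_subset, not_subset] at hcon
  obtain ⟨⟨a, ha, ha'⟩, ⟨b, hb, hb'⟩⟩ := hcon
  obtain ⟨c1, c2, c3, c4, h12, h23, h34, h1, h4⟩ := hM.2 {x, a} (by
    intro z hz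
    rw [Finset.mem_insert, Finset.mem_singleton] at hz
    rcases hz with rfl | rfl
    · exact hx
    · exact ha)
  obtain ⟨d, e, f, hne, hde, hef, h5, h6⟩ := LimF.cut_ne hM' {x, b} (by
    intro z hz
    rw [Finset.mem_insert, Finset.mem_singleton] at hz
    rcases hz with rfl | rfl
    · exact hx'
    · exact hb) c1.η
  have hc1M : c1.D ⊆ M := (h12.D_subset.trans (h23.D_subset.trans h34.D_subset)).trans h4
  have hdM' : d.D ⊆ M' := (hde.D_subset.trans hef.D_subset).trans h6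
  have hxc : x ∈ c1.D := h1 x (by simp)
  have hac : a ∈ c1.D := h1 a (by simp)
  have hxd : x ∈ d.D := h5 x (by simp)
  have hbd : b ∈ d.D := h5 b (by simp)
  rcases comparable hP hH hA hne hxd hxc (fun h => hy' (hdM' h)) (fun h => hy (hc1M h)) with h | h
  · exact hb' (hc1M (h.D_subset hbd))
  · exact ha' (hdM' (h.D_subset hac))

/-- between two limit walls there are two cuts at different points, avoiding a given label -/
theorem LimF.between (hP : PConn s) (hH : PHalf s) (hA : PAlg s) {M M' : Set s.G}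
    (hM : M ∈ LimF s) (hM' : M' ∈ LimF s) {x y : s.G} (hx : x ∈ M) (hy' : y ∉ M') {v : s.G}
    (hx' : x ∈ M') (hv : v ∉ M) (hv' : v ∈ M') (K : Finset s.G) (hK : ∀ z ∈ K, z ∈ M')
    (hyM : y ∉ M) :
    ∃ d e f : CutP s, d.Lt e ∧ e.Lt f ∧ M ⊆ d.D ∧ f.D ⊆ M' ∧ ∀ z ∈ K, z ∈ d.D := by
  classical
  obtain ⟨c1, c2, c3, c4, h12, h23, h34, h1, h4⟩ := hM'.2 (insert x (insert v K)) (by
    intro z hz
    rw [Finset.mem_insert, Finset.mem_insert] at hz
    rcases hz with rfl | rfl | h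
    · exact hx'
    · exact hv'
    · exact hK z h)
  refine ⟨c2, c3, c4, h23, h34, ?_, h4, fun z hz => h12.D_subset (h1 z (by simp [hz]))⟩
  intro m hm
  by_contra hm2
  -- a cut below `M` containing `x` and `m`
  obtain ⟨d, e, f, hne, hde, hef, h5, h6⟩ := LimF.cut_ne hM {x, m} (by
    intro z hz
    rw [Finset.mem_insert, Finset.mem_singleton] at hz
    rcases hz with rfl | rfl
    · exact hx
    · exact hm) c2.η
  have hdM : d.D ⊆ M := (hde.D_subset.trans hef.D_subset).trans h6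
  have hc2M' : c2.D ⊆ M' := (h23.D_subset.trans h34.D_subset).trans h4
  have hxc : x ∈ c2.D := h12.D_subset (h1 x (by simp))
  have hvc : v ∈ c2.D := h12.D_subset (h1 v (by simp))
  have hxd : x ∈ d.D := h5 x (by simp)
  have hmd : m ∈ d.D := h5 m (by simp)
  rcases comparable hP hH hA hne hxd hxc (fun h => hyM (hdM h)) (fun h => hy' (hc2M' h)) with h | h
  · exact hm2 (h.D_subset hmd)
  · exact hv (hdM (h.D_subset hvc))

theorem LimF.fin (hP : PConn s) (hH : PHalf s) (hA : PAlg s) (hB : PBal s) {M M' : Set s.G}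
    (hM : M ∈ LimF s) (hM' : M' ∈ LimF s) {x y : s.G} (hx : x ∈ M) (hx' : x ∈ M') (hy : y ∉ M)
    (hy' : y ∉ M') (hne : M ≠ M') :
    {p : s.G × s.G | Adj s.S p.1 p.2 ∧ p.1 ∈ M ∧ p.1 ∈ M' ∧ p.2 ∉ M ∧ p.2 ∉ M'}.Finite := by
  have key : ∀ {M M' : Set s.G}, M ∈ LimF s → M' ∈ LimF s → x ∈ M → x ∈ M' → y ∉ M → y ∉ M' →
      M ⊆ M' → M ≠ M' →
      {p : s.G × s.G | Adj s.S p.1 p.2 ∧ p.1 ∈ M ∧ p.1 ∈ M' ∧ p.2 ∉ M ∧ p.2 ∉ M'}.Finite := by
    intro M M' hM hM' hx hx' hy hy' hsub hne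
    obtain ⟨v, hv', hv⟩ := exists_of_ssubset (ssubset_iff_subset_ne.2 ⟨hsub, hne⟩)
    obtain ⟨d, e, f, hde, hef, h1, h2, _⟩ := LimF.between hP hH hA hM hM' hx hy' hx' hv hv' ∅
      (by simp) hy
    refine (bd_finite hB hde.ne).subset ?_
    rintro ⟨a, b⟩ ⟨hab, ha, _, _, hb'⟩
    have haD : a ∈ d.D := h1 ha
    have hbe : b ∉ e.D := fun h => hb' (h2 (hef.D_subset h))
    exact ⟨⟨hab, haD, fun h => hbe (hde.D_subset h)⟩, ⟨hab, hde.D_subset haD, hbe⟩⟩
  rcases LimF.chain hP hH hA hM hM' hx hx' hy hy' with h | h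
  · exact key hM hM' hx hx' hy hy' h hne
  · refine (key hM' hM hx' hx hy' hy h hne.symm).subset ?_
    rintro p ⟨h1, h2, h3, h4, h5⟩
    exact ⟨h1, h3, h2, h5, h4⟩

theorem LimF.sUnion {C : Set (Set s.G)} (hC : C ⊆ LimF s) (hne : ⋃₀ C ≠ univ)
    (hn : C.Nonempty) (hdir : DirectedOn (· ⊆ ·) C) : ⋃₀ C ∈ LimF s := by
  refine ⟨hne, fun K hK => ?_⟩
  have : ∃ M ∈ C, ∀ x ∈ K, x ∈ M := by
    classical
    induction K using Finset.induction_on with
    | empty => obtain ⟨M, hM⟩ := hn; exact ⟨M, hM, by simp⟩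
    | insert a K _ ih =>
      obtain ⟨M1, hM1, h1⟩ := ih fun x hx => hK x (Finset.mem_insert_of_mem hx)
      obtain ⟨M2, hM2, h2⟩ := hK a (Finset.mem_insert_self _ _)
      obtain ⟨M3, hM3, h3, h4⟩ := hdir M1 hM1 M2 hM2
      refine ⟨M3, hM3, fun x hx => ?_⟩
      rcases Finset.mem_insert.1 hx with rfl | hx
      · exact h4 h2
      · exact h3 (h1 x hx)
  obtain ⟨M, hM, h1⟩ := this
  obtain ⟨c1, c2, c3, c4, h12, h23, h34, h5, h6⟩ := (hC hM).2 K h1
  exact ⟨c1, c2, c3, c4, h12, h23, h34, h5, h6.trans (subset_sUnion_of_mem hM)⟩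

end limF

end Crest.Agent.R224
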