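/-
R224 / S0346, node NFam : the family of limit walls is a nested family (helper630), after note 9910.
-/
import Crest.Agent.R224.CutFam
import Crest.Agent.R224.BDefs

set_option autoImplicit false
set_option linter.deprecated false

noncomputable section

open MeasureTheory Set Filter Topology

namespace Crest.Agent.R224

open CutP

variable {s : Sys}

theorem pow_inj_of_tf (s : Sys) {g : s.G} (hg : g ≠ 1) : Function.Injective fun n : ℕ => g ^ n := by
  rw [injective_pow_iff_not_isOfFinOrder, isOfFinOrder_iff_pow_eq_one]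
  rintro ⟨n, hn, h⟩
  exact s.top.tf g hg n hn h

theorem exists_edge {s : Sys} {M : Set s.G} {x y : s.G} (hx : x ∈ M) (hy : y ∉ M) :
    ∃ a b, Adj s.S a b ∧ a ∈ M ∧ b ∉ M := by
  obtain ⟨c, d, _, h2, _, h4, h5⟩ := exists_step (P := fun z => z ∈ M) (s.conn_univ x y) hx hy
  exact ⟨c, d, h2, h4, h5⟩

theorem stab_aux (hP : PConn s) (hH : PHalf s) (hA : PAlg s) (hB : PBal s) {M : Set s.G}
    {g : s.G} (hg : g ≠ 1) (hM : ∀ x, g * x ∈ M ↔ x ∈ M) {x y : s.G} (hxy : Adj s.S x y)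
    (hy : y ∉ M) {c d : CutP s} (hcd : c.Lt d) (hd : d.D ⊆ M) (hx : x ∈ c.D)
    (hgx : g * x ∈ c.D) : g • c.η = c.η := by
  by_contra hne
  have hcM : c.D ⊆ M := hcd.D_subset.trans hd
  have hgy : g * y ∉ M := fun h => hy ((hM y).1 h)
  have hfin := bd_finite hB hcd.ne
  have e1 : g * x ∈ (CutP.smul hA g c).D := by
    rw [mem_smul_D, inv_mul_cancel_left]; exact hx
  have e2 : g * y ∉ (CutP.smul hA g c).D := by
    rw [mem_smul_D, inv_mul_cancel_left]; exact fun h => hy (hcM h)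
  have key : ∀ k : s.G, k ≠ 1 → (∀ z, k * z ∈ M ↔ z ∈ M) → (∀ z ∈ c.D, k * z ∈ c.D) → False := by
    intro k hk hkM hkD
    have h1 : ∀ n : ℕ, k ^ n * x ∈ c.D := by
      intro n
      induction n with
      | zero => simpa using hx
      | succ n ih =>
        rw [pow_succ', mul_assoc]
        exact hkD _ ih
    have h2 : ∀ n : ℕ, k ^ n * y ∉ M := by
      intro n
      induction n with
      | zero => simpa using hy
      | succ n ih =>
        rw [pow_succ', mul_assoc, hkM]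
        exact ih
    have h3 : Function.Injective fun n : ℕ => ((k ^ n * x, k ^ n * y) : s.G × s.G) := by
      intro m n h
      simp only [Prod.mk.injEq, mul_left_inj] at h
      exact pow_inj_of_tf s hk h.1
    apply Set.infinite_range_of_injective h3
    refine hfin.subset ?_
    rintro _ ⟨n, rfl⟩
    refine ⟨⟨s.adj_mul _ hxy, h1 n, fun h => h2 n (hcM h)⟩,
      ⟨s.adj_mul _ hxy, hcd.D_subset (h1 n), fun h => h2 n (hd h)⟩⟩
  rcases comparable (c := c) (d := CutP.smul hA g c) hP hH hA (fun h => hne h.symm) hgx e1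
    (fun h => hgy (hcM h)) e2 with h | h
  · refine key g⁻¹ (inv_ne_one.2 hg) (fun z => ?_) (fun z hz => ?_)
    · rw [← hM (g⁻¹ * z), mul_inv_cancel_left]
    · have := h.D_subset hz
      rwa [mem_smul_D] at this
  · refine key g hg hM (fun z hz => ?_)
    apply h.D_subset
    rw [mem_smul_D, inv_mul_cancel_left]
    exact hz

theorem smul_pow_fix {s : Sys} {g : s.G} {a : s.Z} (h : g • a = a) (n : ℕ) : g ^ n • a = a := by
  induction n with
  | zero => simp
  | succ n ih => rw [pow_succ, mul_smul, h, ih]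

theorem LimF.stab (hP : PConn s) (hH : PHalf s) (hA : PAlg s) (hL : PLim s) (hB : PBal s)
    (hT : NTriple s) {M : Set s.G} (hM : M ∈ LimF s) {g : s.G}
    (hgM : ∀ x, g * x ∈ M ↔ x ∈ M) : g = 1 := by
  classical
  by_contra hg
  obtain ⟨x0, hx0⟩ := LimF.nonempty hP hL hM
  obtain ⟨y0, hy0⟩ := LimF.exists_notMem hM
  obtain ⟨x, y, hxy, hx, hy⟩ := exists_edge hx0 hy0
  obtain ⟨c1, c2, c3, c4, h12, h23, h34, h1, h4⟩ := hM.2 {x, g * x} (by
    intro z hz
    rw [Finset.mem_insert, Finset.mem_singleton] at hz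
    rcases hz with rfl | rfl
    · exact hx
    · exact (hgM x).2 hx)
  have a1 : x ∈ c1.D := h1 x (by simp)
  have b1 : g * x ∈ c1.D := h1 _ (by simp)
  have f1 := stab_aux hP hH hA hB hg hgM hxy hy h12
    ((h23.D_subset.trans h34.D_subset).trans h4) a1 b1
  have f2 := stab_aux hP hH hA hB hg hgM hxy hy h23 (h34.D_subset.trans h4)
    (h12.D_subset a1) (h12.D_subset b1)
  have f3 := stab_aux hP hH hA hB hg hgM hxy hy h34 h4
    (h23.D_subset (h12.D_subset a1)) (h23.D_subset (h12.D_subset b1))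
  have n12 := h12.ne
  have n23 := h23.ne
  have n13 := (h12.trans h23).ne
  let ε := min (dist c1.η c2.η) (min (dist c1.η c3.η) (dist c2.η c3.η))
  have hε : 0 < ε := lt_min (dist_pos.2 n12) (lt_min (dist_pos.2 n13) (dist_pos.2 n23))
  have e12 : ε ≤ dist c1.η c2.η := min_le_left _ _
  have e13 : ε ≤ dist c1.η c3.η := (min_le_right _ _).trans (min_le_left _ _)
  have e23 : ε ≤ dist c2.η c3.η := (min_le_right _ _).trans (min_le_right _ _)
  apply Set.infinite_range_of_injective (pow_inj_of_tf s hg)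
  refine (hT ε hε).subset ?_
  rintro _ ⟨n, rfl⟩
  refine ⟨c1.η, c1.clp.mem, c2.η, c2.clp.mem, c3.η, c3.clp.mem, e12, e13, e23, ?_, ?_, ?_⟩
  · simp only [smul_pow_fix f1, smul_pow_fix f2]; exact e12
  · simp only [smul_pow_fix f1, smul_pow_fix f3]; exact e13
  · simp only [smul_pow_fix f2, smul_pow_fix f3]; exact e23

/-! ### harmonic functions of limit walls -/

theorem pop_hh (s : Sys) {A : Set s.Z} (hA : MeasurableSet A) (x : s.G) :
    Pop s.S (fun y => hh s.ν A y) x = hh s.ν A x := (s.harm.harm x A hA).symm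

theorem har_of_seq (W : Set s.Z) (hW : MeasurableSet W) {M : Set s.G}
    (h1 : ∀ x, 1 / 2 < hh s.ν W x → x ∈ M) (h2 : ∀ x ∈ M, 1 / 2 ≤ hh s.ν W x)
    {x y : s.G} (hx : 1 / 2 ≤ hh s.ν W x) (hy : hh s.ν W y ≤ 1 / 2) : Har s.S M := by
  refine ⟨fun x => hh s.ν W x, fun x => pop_hh s hW x, fun x => s.hh_nonneg W x,
    fun x => s.hh_le_one W x, fun x hx => h1 x hx, fun x hx => h2 x hx, ?_, ?_⟩
  · obtain ⟨z, hz⟩ := s.harm.zeroone W hW ⟨x, by
      change 0 < hh s.ν W x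
      linarith⟩ (3 / 4) (by norm_num)
    exact ⟨z, hz⟩
  · have hc : ∀ z, (s.ν z).real Wᶜ = 1 - hh s.ν W z := fun z => by
      unfold hh
      rw [probReal_compl_eq_one_sub hW]
    obtain ⟨z, hz⟩ := s.harm.zeroone Wᶜ hW.compl ⟨y, by rw [hc]; linarith⟩ (3 / 4) (by norm_num)
    rw [hc] at hz
    exact ⟨z, by linarith⟩

theorem hh_iUnion_le {U : ℕ → Set s.Z} (hmono : Monotone U) {x : s.G} {r : ℝ}
    (h : ∀ n, hh s.ν (U n) x ≤ r) : hh s.ν (⋃ n, U n) x ≤ r := by
  have h1 := tendsto_measure_iUnion_atTop (μ := s.ν x) hmono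
  have h2 : Tendsto (fun n => hh s.ν (U n) x) atTop (𝓝 (hh s.ν (⋃ n, U n) x)) := by
    unfold hh Measure.real
    exact (ENNReal.tendsto_toReal (measure_ne_top _ _)).comp h1
  exact le_of_tendsto' h2 h

theorem le_hh_iInter {U : ℕ → Set s.Z} (hanti : Antitone U) (hm : ∀ n, MeasurableSet (U n))
    {x : s.G} {r : ℝ} (h : ∀ n, r ≤ hh s.ν (U n) x) : r ≤ hh s.ν (⋂ n, U n) x := by
  have h1 := tendsto_measure_iInter_atTop (μ := s.ν x) (fun n => (hm n).nullMeasurableSet) hanti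
    ⟨0, measure_ne_top _ _⟩
  have h2 : Tendsto (fun n => hh s.ν (U n) x) atTop (𝓝 (hh s.ν (⋂ n, U n) x)) := by
    unfold hh Measure.real
    exact (ENNReal.tendsto_toReal (measure_ne_top _ _)).comp h1
  exact ge_of_tendsto' h2 h

theorem LimF.har (hP : PConn s) (hH : PHalf s) (hA : PAlg s) (hL : PLim s) {M : Set s.G}
    (hM : M ∈ LimF s) : Har s.S M := by
  classical
  obtain ⟨x0, hx0⟩ := LimF.nonempty hP hL hM
  obtain ⟨y0, hy0⟩ := LimF.exists_notMem hM
  haveI := s.countable_G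
  obtain ⟨e, he⟩ := exists_surjective_nat s.G
  -- good cuts
  let Good := {c : CutP s // x0 ∈ c.D ∧ ∃ d, c.Lt d ∧ d.D ⊆ M}
  have step : ∀ (n : ℕ) (c : Good), ∃ d : Good, c.1.Lt d.1 ∧ (e n ∈ M → e n ∈ d.1.D) := by
    rintro n ⟨c, hxc, c', hcc', hc'M⟩
    obtain ⟨v, hv, hvc⟩ := hcc'.D_ssubset hP hL
    have hvM : v ∈ M := hc'M hv
    let K : Finset s.G := insert x0 (insert v (if e n ∈ M then {e n} else ∅))
    obtain ⟨d, d', d'', hne, hdd', hd'd'', hK, hd''⟩ := LimF.cut_ne hM K (by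
      intro z hz
      simp only [K, Finset.mem_insert] at hz
      rcases hz with rfl | rfl | h
      · exact hx0
      · exact hvM
      · split_ifs at h with hen
        · rw [Finset.mem_singleton] at h
          rw [h]; exact hen
        · simp at h) c.η
    have hd'M : d'.D ⊆ M := hd'd''.D_subset.trans hd''
    refine ⟨⟨d, hK x0 (by simp [K]), d', hdd', hd'M⟩, ?_, ?_⟩
    · rcases comparable hP hH hA hne (hK x0 (by simp [K])) hxc
        (fun h => hy0 (hd'M (hdd'.D_subset h))) (fun h => hy0 (hc'M (hcc'.D_subset h))) with h | h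
      · exact absurd (h.D_subset (hK v (by simp [K]))) hvc
      · exact h
    · intro hen
      exact hK _ (by simp [K, hen])
  have start : Nonempty Good := by
    obtain ⟨c1, c2, c3, c4, h12, h23, h34, h1, h4⟩ := hM.2 {x0} (by simpa using hx0)
    exact ⟨⟨c1, h1 x0 (by simp), c2, h12, (h23.D_subset.trans h34.D_subset).trans h4⟩⟩
  choose nxt hnxt using step
  let c : ℕ → Good := fun n => Nat.rec start.some (fun n c => nxt n c) n
  have hc : ∀ n, c (n + 1) = nxt n (c n) := fun n => rfl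
  have hlt : ∀ n, (c n).1.Lt (c (n + 1)).1 := fun n => by rw [hc]; exact (hnxt n (c n)).1
  have hmono : Monotone fun n => (c n).1.U := monotone_nat_of_le_succ fun n => (hlt n).sub
  have hcM : ∀ n, (c n).1.D ⊆ M := fun n => by
    obtain ⟨_, d, hd, hdM⟩ := (c n).2
    exact hd.D_subset.trans hdM
  refine har_of_seq (⋃ n, (c n).1.U) (MeasurableSet.iUnion fun n => (c n).1.clp.meas) ?_ ?_
    (x := x0) (y := y0) ?_ ?_
  · intro x hx
    by_contra hxM
    refine absurd (hh_iUnion_le hmono fun n => ?_) (not_le.2 hx)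
    by_contra h
    exact hxM (hcM n (not_le.1 h))
  · intro x hx
    obtain ⟨n, rfl⟩ := he x
    have h1 : e n ∈ (c (n + 1)).1.D := by rw [hc]; exact (hnxt n (c n)).2 hx
    exact (le_of_lt h1).trans (s.hh_mono (subset_iUnion (fun n => (c n).1.U) (n + 1)) _)
  · exact (le_of_lt (c 0).2.1).trans (s.hh_mono (subset_iUnion (fun n => (c n).1.U) 0) _)
  · refine hh_iUnion_le hmono fun n => ?_
    by_contra h
    exact hy0 (hcM n (not_le.1 h))

theorem LimF.harAnti (hP : PConn s) (hH : PHalf s) (hA : PAlg s) (hL : PLim s)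
    {M : ℕ → Set s.G} (hM : ∀ n, M n ∈ LimF s) (hanti : StrictAnti M) {x y : s.G}
    (hx : ∀ n, x ∈ M n) (hy : ∀ n, y ∉ M n) : Har s.S (⋂ n, M n) := by
  classical
  -- cuts between consecutive members
  have step : ∀ (n : ℕ) (c : {c : CutP s // M (n + 1) ⊆ c.D ∧ c.D ⊆ M n}),
      ∃ d : {c : CutP s // M (n + 1 + 1) ⊆ c.D ∧ c.D ⊆ M (n + 1)}, d.1.Lt c.1 := by
    rintro n ⟨c, hc1, hc2⟩
    obtain ⟨v, hv, hv'⟩ := exists_of_ssubset (hanti (Nat.lt_succ_self (n + 1)))
    obtain ⟨d, e, f, hde, hef, h1, h2, _⟩ := LimF.between hP hH hA (hM (n + 1 + 1)) (hM (n + 1))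
      (hx _) (hy _) (hx _) hv' hv ∅ (by simp) (hy _)
    -- choose a cut with a different label
    have : ∃ d : CutP s, d.η ≠ c.η ∧ M (n + 1 + 1) ⊆ d.D ∧ ∃ d', d.Lt d' ∧ d'.D ⊆ M (n + 1) := by
      by_cases h : d.η = c.η
      · refine ⟨e, ?_, h1.trans hde.D_subset, f, hef, h2⟩
        rw [← h]; exact hde.ne.symm
      · exact ⟨d, h, h1, e, hde, hef.D_subset.trans h2⟩
    obtain ⟨d, hne, hd1, d', hdd', hd'⟩ := this
    have hdM : d.D ⊆ M (n + 1) := hdd'.D_subset.trans hd'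
    refine ⟨⟨d, hd1, hdM⟩, ?_⟩
    have hxd : x ∈ d.D := hd1 (hx _)
    have hxc : x ∈ c.D := hc1 (hx _)
    rcases comparable hP hH hA hne hxd hxc (fun h => hy _ (hdM h)) (fun h => hy _ (hc2 h))
      with h | h
    · exact h
    · exfalso
      obtain ⟨v, hv, hvc⟩ := (h.trans hdd').D_ssubset hP hL
      exact hvc (hc1 (hd' hv))
  have start : Nonempty {c : CutP s // M (0 + 1) ⊆ c.D ∧ c.D ⊆ M 0} := by
    obtain ⟨v, hv, hv'⟩ := exists_of_ssubset (hanti (Nat.lt_succ_self 0))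
    obtain ⟨d, e, f, hde, hef, h1, h2, _⟩ := LimF.between hP hH hA (hM (0 + 1)) (hM 0)
      (hx _) (hy _) (hx _) hv' hv ∅ (by simp) (hy _)
    exact ⟨⟨d, h1, (hde.D_subset.trans hef.D_subset).trans h2⟩⟩
  choose nxt hnxt using step
  let c : ∀ n : ℕ, {c : CutP s // M (n + 1) ⊆ c.D ∧ c.D ⊆ M n} := fun n =>
    Nat.rec (motive := fun n => {c : CutP s // M (n + 1) ⊆ c.D ∧ c.D ⊆ M n}) start.some
      (fun n c => nxt n c) n
  have hc : ∀ n, c (n + 1) = nxt n (c n) := fun n => rfl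
  have hlt : ∀ n, (c (n + 1)).1.Lt (c n).1 := fun n => by rw [hc]; exact hnxt n (c n)
  have hmono : Antitone fun n => (c n).1.U := antitone_nat_of_succ_le fun n => (hlt n).sub
  have hmeas : ∀ n, MeasurableSet (c n).1.U := fun n => (c n).1.clp.meas
  refine har_of_seq (⋂ n, (c n).1.U) (MeasurableSet.iInter hmeas) ?_ ?_ (x := x) (y := y) ?_ ?_
  · intro z hz
    rw [mem_iInter]
    intro n
    apply (c n).2.2
    exact lt_of_lt_of_le hz (s.hh_mono (iInter_subset _ n) _)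
  · intro z hz
    rw [mem_iInter] at hz
    exact le_hh_iInter hmono hmeas fun n => le_of_lt ((c n).2.1 (hz (n + 1)))
  · exact le_hh_iInter hmono hmeas fun n => le_of_lt ((c n).2.1 (hx (n + 1)))
  · refine (s.hh_mono (iInter_subset _ 0) _).trans ?_
    by_contra h
    exact hy 0 ((c 0).2.2 (not_le.1 h))

/-! ### the node -/

theorem limFam_eq (s : Sys) : LimFam s.ι s.ν = LimF s := by
  ext M
  constructor
  · rintro ⟨h1, h2⟩
    refine ⟨h1, fun K hK => ?_⟩
    obtain ⟨c1, c2, c3, c4, k1, k2, k3, k4, l1, l2, l3, h5, h6⟩ := h2 K hK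
    exact ⟨⟨c1.1, c1.2, k1⟩, ⟨c2.1, c2.2, k2⟩, ⟨c3.1, c3.2, k3⟩, ⟨c4.1, c4.2, k4⟩, l1, l2, l3,
      fun x hx => h5 hx, h6⟩
  · rintro ⟨h1, h2⟩
    refine ⟨h1, fun K hK => ?_⟩
    obtain ⟨c1, c2, c3, c4, l1, l2, l3, h5, h6⟩ := h2 K hK
    exact ⟨(c1.η, c1.U), (c2.η, c2.U), (c3.η, c3.U), (c4.η, c4.U), c1.clp, c2.clp, c3.clp, c4.clp,
      l1, l2, l3, fun x hx => h5 x hx, h6⟩

theorem image_mul_eq {G : Type} [Group G] (g : G) (M : Set G) :
    (fun x => g * x) '' M = {x | g⁻¹ * x ∈ M} := by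
  ext x
  constructor
  · rintro ⟨y, hy, rfl⟩
    simpa using hy
  · intro hx
    exact ⟨g⁻¹ * x, hx, by simp⟩

/-- (630) node NFam of BDefs -/
theorem nFam (s : Sys) (hP : PConn s) (hH : PHalf s) (hA : PAlg s) (hL : PLim s) (hB : PBal s)
    (hT : NTriple s) : NFam s := by
  unfold NFam
  rw [limFam_eq]
  refine ⟨?_, ?_, ?_, ?_, ?_, ?_, ?_⟩
  · intro g M hM
    rw [image_mul_eq]
    exact LimF.inv hA g hM
  · intro M hM M' hM' x y _ hx hx' hy hy'
    exact LimF.chain hP hH hA hM hM' hx hx' hy hy'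
  · intro M hM M' hM' hsub hne x y _ hx hy'
    refine (LimF.fin hP hH hA hB hM hM' hx (hsub hx) (fun h => hy' (hsub h)) hy' hne).subset ?_
    rintro p ⟨h1, h2, h3⟩
    exact ⟨h1, h2, hsub h2, fun h => h3 (hsub h), h3⟩
  · intro M hM g hg
    refine LimF.stab hP hH hA hL hB hT hM fun x => ?_
    constructor
    · intro h
      rw [← hg] at h
      obtain ⟨y, hy, hxy⟩ := h
      have : y = x := mul_left_cancel hxy
      rw [← this]; exact hy
    · intro h
      rw [← hg]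
      exact ⟨x, h, rfl⟩
  · intro M hM hmono hne
    have hr : (⋃ k, M k) = ⋃₀ (range M) := (sUnion_range M).symm
    rw [hr] at hne ⊢
    refine LimF.sUnion ?_ hne (range_nonempty M) ?_
    · rintro _ ⟨k, rfl⟩; exact hM k
    · rintro _ ⟨k, rfl⟩ _ ⟨l, rfl⟩
      exact ⟨M (max k l), ⟨_, rfl⟩, hmono (le_max_left _ _), hmono (le_max_right _ _)⟩
  · intro M hM
    exact LimF.har hP hH hA hL hM
  · intro M hM hanti x y _ hx hy
    exact LimF.harAnti hP hH hA hL hM hanti hx hy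

end Crest.Agent.R224
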