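/-
R224 / S0346 : basic facts on walls with finitely many components and on Dirichlet functions
(helper476).  Everything is in the sub-namespace `K476`.
-/
import Crest.Agent.R224.Iface

set_option autoImplicit false

open MeasureTheory Set Filter Topology Relation

namespace Crest.Agent.R224.K476

variable {G : Type} [Group G] {S : Finset G}

/-! ### The Cayley graph -/

lemma adj_symm (hS : Std S) {x y : G} (h : Adj S x y) : Adj S y x := by
  have := hS.inv _ h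
  simpa [Adj, mul_inv_rev] using this

lemma adj_refl (hS : Std S) (x : G) : Adj S x x := by
  simp [Adj, hS.one]

lemma adj_mul {x s : G} (hs : s ∈ S) : Adj S x (x * s) := by
  simpa [Adj] using hs

lemma adj_iff {x y : G} : Adj S x y ↔ ∃ s ∈ S, y = x * s := by
  constructor
  · intro h
    exact ⟨x⁻¹ * y, h, by group⟩
  · rintro ⟨s, hs, rfl⟩
    exact adj_mul hs

lemma adj_left (g : G) {x y : G} : Adj S (g * x) (g * y) ↔ Adj S x y := by
  simp [Adj]

lemma tstep_symm (hS : Std S) {p q : G × G} (h : tstep S p q) : tstep S q p := by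
  rcases h with ⟨h1, h2⟩ | ⟨h1, h2⟩
  · exact Or.inl ⟨h1.symm, adj_symm hS h2⟩
  · exact Or.inr ⟨h1.symm, adj_symm hS h2⟩

lemma tstep_swap {p q : G × G} (h : tstep S p q) : tstep S p.swap q.swap := by
  rcases h with ⟨h1, h2⟩ | ⟨h1, h2⟩
  · exact Or.inr ⟨h1, h2⟩
  · exact Or.inl ⟨h1, h2⟩

lemma exists_list (hS : Std S) (g : G) : ∃ l : List S, (l.map (fun s : S => (s : G))).prod = g := by
  have hg : g ∈ Subgroup.closure (S : Set G) := by rw [hS.gen]; trivial
  induction hg using Subgroup.closure_induction with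
  | mem x hx => exact ⟨[⟨x, hx⟩], by simp⟩
  | one => exact ⟨[], by simp⟩
  | mul x y _ _ hx hy =>
    obtain ⟨l, hl⟩ := hx
    obtain ⟨m, hm⟩ := hy
    exact ⟨l ++ m, by rw [List.map_append, List.prod_append, hl, hm]⟩
  | inv x _ hx =>
    obtain ⟨l, hl⟩ := hx
    refine ⟨(l.map (fun s : S => (⟨(s : G)⁻¹, hS.inv _ s.2⟩ : S))).reverse, ?_⟩
    rw [← hl, List.prod_inv_reverse]
    simp [List.map_map, Function.comp_def]

lemma countable (hS : Std S) : Countable G := by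
  have : Function.Surjective (fun l : List S => (l.map (fun s : S => (s : G))).prod) :=
    fun g => exists_list hS g
  exact this.countable

/-- The Cayley graph is connected. -/
lemma mem_of_bd_empty (hS : Std S) {A : Set G} (h : ∀ p, p ∉ bd S A) {x : G} (hx : x ∈ A)
    (y : G) : y ∈ A := by
  obtain ⟨l, hl⟩ := exists_list hS (x⁻¹ * y)
  have key : ∀ (l : List S) (x : G), x ∈ A → x * (l.map (fun s : S => (s : G))).prod ∈ A := by
    intro l
    induction l with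
    | nil => intro x hx; simpa using hx
    | cons s l ih =>
      intro x hx
      have h1 : x * (s : G) ∈ A := by
        by_contra hc
        exact h (x, x * (s : G)) ⟨adj_mul s.2, hx, hc⟩
      have := ih _ h1
      simpa [mul_assoc] using this
  have := key l x hx
  rw [hl] at this
  simpa using this

/-! ### Walls -/

lemma mem_bd {A : Set G} {p : G × G} : p ∈ bd S A ↔ Adj S p.1 p.2 ∧ p.1 ∈ A ∧ p.2 ∉ A := Iff.rfl

lemma swap_mem_bd_compl (hS : Std S) {A : Set G} {p : G × G} (hp : p ∈ bd S A) :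
    p.swap ∈ bd S Aᶜ := ⟨adj_symm hS hp.1, hp.2.2, fun h => h hp.2.1⟩

lemma swap_mem_bd (hS : Std S) {A : Set G} {p : G × G} (hp : p ∈ bd S Aᶜ) :
    p.swap ∈ bd S A := by
  have := swap_mem_bd_compl hS hp
  rwa [compl_compl] at this

/-- step inside the wall -/
abbrev WS (S : Finset G) (A : Set G) (a b : G × G) : Prop := tstep S a b ∧ a ∈ bd S A ∧ b ∈ bd S A

lemma ws_symm (hS : Std S) {A : Set G} {a b : G × G} (h : WS S A a b) : WS S A b a :=
  ⟨tstep_symm hS h.1, h.2.2, h.2.1⟩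

lemma rtg_symm (hS : Std S) {A : Set G} {a b : G × G} (h : ReflTransGen (WS S A) a b) :
    ReflTransGen (WS S A) b a := by
  induction h with
  | refl => exact ReflTransGen.refl
  | tail _ h2 ih => exact ReflTransGen.head (ws_symm hS h2) ih

lemma finC_empty : FinC S (∅ : Set G) :=
  ⟨∅, finite_empty, empty_subset _, fun _ hp => absurd hp.2.1 (notMem_empty _)⟩

lemma finC_univ : FinC S (univ : Set G) :=
  ⟨∅, finite_empty, empty_subset _, fun _ hp => absurd (mem_univ _) hp.2.2⟩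

lemma finC_compl (hS : Std S) {A : Set G} (h : FinC S A) : FinC S Aᶜ := by
  obtain ⟨F, hF, hFs, hFp⟩ := h
  refine ⟨Prod.swap '' F, hF.image _, ?_, ?_⟩
  · rintro _ ⟨p, hp, rfl⟩
    exact swap_mem_bd_compl hS (hFs hp)
  · intro p hp
    obtain ⟨q, hq, hqp⟩ := hFp p.swap (swap_mem_bd hS hp)
    refine ⟨q.swap, ⟨q, hq, rfl⟩, ?_⟩
    have key : ∀ a b : G × G, ReflTransGen (WS S A) a b →
        ReflTransGen (WS S Aᶜ) a.swap b.swap := by
      intro a b hab
      induction hab with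
      | refl => exact ReflTransGen.refl
      | tail _ h2 ih =>
        exact ih.tail ⟨tstep_swap h2.1, swap_mem_bd_compl hS h2.2.1, swap_mem_bd_compl hS h2.2.2⟩
    have := key _ _ hqp
    simpa using this

lemma finC_compl_iff (hS : Std S) {A : Set G} : FinC S Aᶜ ↔ FinC S A :=
  ⟨fun h => by simpa using finC_compl hS h, finC_compl hS⟩

/-- crossing vertices of two walls -/
def CrossV (S : Finset G) (A B : Set G) : Set G :=
  {x | (∃ y, (x, y) ∈ bd S A) ∧ ∃ z, (x, z) ∈ bd S B}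

lemma crossV_comm {A B : Set G} : CrossV S A B = CrossV S B A := by
  ext x; exact and_comm

lemma finC_inter_aux (hS : Std S) {A B : Set G} {FA : Set (G × G)} (q0 p : G × G)
    (hq0 : q0 ∈ FA) (h : ReflTransGen (WS S A) q0 p) :
    p.1 ∈ B → ∃ q, (q ∈ FA ∧ q.1 ∈ B ∨ q ∈ bd S (A ∩ B) ∧ q.1 ∈ CrossV S A B) ∧
      ReflTransGen (WS S (A ∩ B)) q p := by
  induction h with
  | refl => intro hp; exact ⟨q0, Or.inl ⟨hq0, hp⟩, ReflTransGen.refl⟩
  | @tail b c hb hbc ih =>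
    intro hc
    have hbA := hbc.2.1
    have hcA := hbc.2.2
    by_cases hb1 : b.1 ∈ B
    · obtain ⟨q, hq, hqb⟩ := ih hb1
      refine ⟨q, hq, hqb.tail ⟨hbc.1, ?_, ?_⟩⟩
      · exact ⟨hbA.1, ⟨hbA.2.1, hb1⟩, fun h => hbA.2.2 h.1⟩
      · exact ⟨hcA.1, ⟨hcA.2.1, hc⟩, fun h => hcA.2.2 h.1⟩
    · refine ⟨c, Or.inr ⟨⟨hcA.1, ⟨hcA.2.1, hc⟩, fun h => hcA.2.2 h.1⟩, ⟨⟨c.2, hcA⟩, b.1, ?_⟩⟩,
        ReflTransGen.refl⟩
      rcases hbc.1 with ⟨h1, _⟩ | ⟨_, h2⟩
      · exact absurd (h1 ▸ hc) hb1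
      · exact ⟨adj_symm hS h2, hc, hb1⟩

lemma finC_inter (hS : Std S) {A B : Set G} (hA : FinC S A) (hB : FinC S B)
    (hX : (CrossV S A B).Finite) : FinC S (A ∩ B) := by
  obtain ⟨FA, hFA, hFAs, hFAp⟩ := hA
  obtain ⟨FB, hFB, hFBs, hFBp⟩ := hB
  have hX' : {q : G × G | q ∈ bd S (A ∩ B) ∧ q.1 ∈ CrossV S A B}.Finite := by
    have : ((fun p : G × G => (p.1, p.1 * p.2)) '' ((CrossV S A B) ×ˢ (S : Set G))).Finite :=
      (hX.prod S.finite_toSet).image _
    refine this.subset ?_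
    rintro ⟨x, y⟩ ⟨h1, h2⟩
    exact ⟨(x, x⁻¹ * y), ⟨h2, h1.1⟩, by simp⟩
  refine ⟨{q | q ∈ FA ∧ q.1 ∈ B} ∪ {q | q ∈ FB ∧ q.1 ∈ A} ∪
    {q : G × G | q ∈ bd S (A ∩ B) ∧ q.1 ∈ CrossV S A B}, ?_, ?_, ?_⟩
  · exact ((hFA.subset fun q hq => hq.1).union (hFB.subset fun q hq => hq.1)).union hX'
  · rintro q ((⟨h1, h2⟩ | ⟨h1, h2⟩) | ⟨h1, _⟩)
    · have := hFAs h1
      exact ⟨this.1, ⟨this.2.1, h2⟩, fun h => this.2.2 h.1⟩
    · have := hFBs h1
      exact ⟨this.1, ⟨h2, this.2.1⟩, fun h => this.2.2 h.2⟩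
    · exact h1
  · rintro p ⟨hp1, hp2, hp3⟩
    by_cases hpA : p.2 ∈ A
    · have hpB : p ∈ bd S B := ⟨hp1, hp2.2, fun h => hp3 ⟨hpA, h⟩⟩
      obtain ⟨q0, hq0, hq0p⟩ := hFBp p hpB
      obtain ⟨q, hq, hqp⟩ := finC_inter_aux (B := A) hS q0 p hq0 hq0p hp2.1
      rw [inter_comm B A, crossV_comm] at hq
      rw [inter_comm B A] at hqp
      rcases hq with hq | hq
      · exact ⟨q, Or.inl (Or.inr hq), hqp⟩
      · exact ⟨q, Or.inr hq, hqp⟩
    · have hpA' : p ∈ bd S A := ⟨hp1, hp2.1, hpA⟩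
      obtain ⟨q0, hq0, hq0p⟩ := hFAp p hpA'
      obtain ⟨q, hq, hqp⟩ := finC_inter_aux (B := B) hS q0 p hq0 hq0p hp2.2
      rcases hq with hq | hq
      · exact ⟨q, Or.inl (Or.inl hq), hqp⟩
      · exact ⟨q, Or.inr hq, hqp⟩

end Crest.Agent.R224.K476
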