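/-
R224 / S0346 : Dirichlet functions, local oscillation `Df`, class `S` under negation; node NComp
(helper476).  Sub-namespace `K476`, except for the node theorem.
-/
import Crest.Agent.R224.FinK476

set_option autoImplicit false

noncomputable section

open MeasureTheory Set Filter Topology Relation

namespace Crest.Agent.R224.K476

variable {G : Type} [Group G] {S : Finset G}

/-! ### Dirichlet functions -/

lemma dir_of_le {f u : G → ℝ} (hf : Dir S f)
    (h : ∀ x y, Adj S x y → |u y - u x| ≤ |f y - f x|) : Dir S u := by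
  refine Summable.of_nonneg_of_le (fun p => sq_nonneg _) (fun p => ?_) hf
  exact sq_le_sq.2 (h _ _ (adj_mul p.2.2))

lemma dir_of_le_add {f g u : G → ℝ} (hf : Dir S f) (hg : Dir S g)
    (h : ∀ x y, Adj S x y → |u y - u x| ≤ |f y - f x| ∨ |u y - u x| ≤ |g y - g x|) :
    Dir S u := by
  refine Summable.of_nonneg_of_le (fun p => sq_nonneg _) (fun p => ?_) (Summable.add hf hg)
  rcases h _ _ (adj_mul (S := S) (x := p.1) p.2.2) with h | h
  · have := sq_le_sq.2 h
    nlinarith [sq_nonneg (g (p.1 * (p.2 : G)) - g p.1)]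
  · have := sq_le_sq.2 h
    nlinarith [sq_nonneg (f (p.1 * (p.2 : G)) - f p.1)]

/-- local oscillation -/
def Df (S : Finset G) (f : G → ℝ) (x : G) : ℝ := ∑ s ∈ S, |f (x * s) - f x|

lemma Df_nonneg (f : G → ℝ) (x : G) : 0 ≤ Df S f x :=
  Finset.sum_nonneg fun _ _ => abs_nonneg _

lemma abs_le_Df {f : G → ℝ} {x y : G} (h : Adj S x y) : |f y - f x| ≤ Df S f x := by
  obtain ⟨s, hs, rfl⟩ := adj_iff.1 h
  exact Finset.single_le_sum (f := fun s => |f (x * s) - f x|) (fun _ _ => abs_nonneg _) hs

lemma Df_left (g : G → ℝ) (x z : G) : Df S (fun z => g (x * z)) z = Df S g (x * z) := by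
  simp only [Df, mul_assoc]

lemma summable_one {f : G → ℝ} (hf : Dir S f) {s : G} (hs : s ∈ S) :
    Summable fun x => (f (x * s) - f x) ^ 2 := by
  have h : Summable fun p : G × S => (f (p.1 * (p.2 : G)) - f p.1) ^ 2 := hf
  have hinj : Function.Injective (fun x : G => ((x, ⟨s, hs⟩) : G × S)) := by
    intro x y h
    exact congrArg Prod.fst h
  have h2 := h.comp_injective hinj
  refine h2.congr fun x => ?_
  rfl

lemma Df_sq_summable {f : G → ℝ} (hf : Dir S f) : Summable fun x => Df S f x ^ 2 := by
  have h1 : Summable fun x => (S.card : ℝ) * ∑ s ∈ S, (f (x * s) - f x) ^ 2 := by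
    refine Summable.mul_left _ ?_
    exact summable_sum fun s hs => summable_one hf hs
  refine Summable.of_nonneg_of_le (fun x => sq_nonneg _) (fun x => ?_) h1
  have := sq_sum_le_card_mul_sum_sq (s := S) (f := fun s => |f (x * s) - f x|)
  simpa [Df, sq_abs] using this

/-- A Dirichlet function has small increments at infinity. -/
lemma tendsto_osc (hS : Std S) {f : G → ℝ} (hf : Dir S f) (k : G) :
    Tendsto (fun x => f (x * k) - f x) cofinite (𝓝 0) := by
  have hk : k ∈ Subgroup.closure (S : Set G) := by rw [hS.gen]; trivial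
  induction hk using Subgroup.closure_induction with
  | mem s hs =>
    have h1 := (summable_one hf hs).tendsto_cofinite_zero
    have h2 : Tendsto (fun x => |f (x * s) - f x|) cofinite (𝓝 0) := by
      have := (Real.continuous_sqrt.tendsto 0).comp h1
      simpa [Function.comp_def, Real.sqrt_sq_eq_abs] using this
    exact (tendsto_zero_iff_abs_tendsto_zero _).2 h2
  | one => simpa using tendsto_const_nhds
  | mul a b _ _ ha hb =>
    have h1 : Tendsto (fun x => f ((x * a) * b) - f (x * a)) cofinite (𝓝 0) :=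
      hb.comp (mul_left_injective a).tendsto_cofinite
    have h2 := h1.add ha
    simp only [add_zero] at h2
    refine h2.congr fun x => ?_
    rw [mul_assoc]; ring
  | inv a _ ha =>
    have h1 : Tendsto (fun x => f ((x * a⁻¹) * a) - f (x * a⁻¹)) cofinite (𝓝 0) :=
      ha.comp (mul_left_injective a⁻¹).tendsto_cofinite
    have h2 := h1.neg
    simp only [neg_zero] at h2
    refine h2.congr fun x => ?_
    simp

lemma osc_finite (hS : Std S) {f : G → ℝ} (hf : Dir S f) (K : Finset G) {δ : ℝ} (hδ : 0 < δ) :
    ∃ K' : Finset G, ∀ x, x ∉ K' → ∀ k ∈ K, |f (x * k) - f x| < δ := by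
  have h : ∀ᶠ x in cofinite, ∀ k ∈ K, |f (x * k) - f x| < δ := by
    rw [Filter.eventually_all_finset]
    intro k _
    have := (tendsto_osc hS hf k).abs
    rw [abs_zero] at this
    exact this.eventually (gt_mem_nhds hδ)
  rw [eventually_cofinite] at h
  refine ⟨h.toFinset, fun x hx => ?_⟩
  by_contra hc
  exact hx (h.mem_toFinset.2 hc)

/-! ### Almost every level -/

omit [Group G] in
lemma ae_notMem_range [Countable G] (f : G → ℝ) : ∀ᵐ t : ℝ, ∀ x, f x ≠ t := by
  have h : (range f).Countable := countable_range f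
  filter_upwards [h.ae_notMem volume] with t ht x hx
  exact ht ⟨x, hx⟩

lemma ae_neg {p : ℝ → Prop} (h : ∀ᵐ t : ℝ, p t) : ∀ᵐ t : ℝ, p (-t) :=
  (Measure.measurePreserving_neg (volume : Measure ℝ)).quasiMeasurePreserving.ae h

lemma ae_sub_left {p : ℝ → Prop} (h : ∀ᵐ t : ℝ, p t) (a : ℝ) : ∀ᵐ t : ℝ, p (a - t) :=
  (Measure.measurePreserving_sub_left (volume : Measure ℝ) a).quasiMeasurePreserving.ae h

lemma ae_sub_right {p : ℝ → Prop} (h : ∀ᵐ t : ℝ, p t) (a : ℝ) : ∀ᵐ t : ℝ, p (t - a) :=
  (measurePreserving_sub_right (volume : Measure ℝ) a).quasiMeasurePreserving.ae h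

lemma ae_add_right {p : ℝ → Prop} (h : ∀ᵐ t : ℝ, p t) (a : ℝ) : ∀ᵐ t : ℝ, p (t + a) :=
  (measurePreserving_add_right (volume : Measure ℝ) a).quasiMeasurePreserving.ae h

/-! ### Class `S` -/

lemma clsS_neg (hS : Std S) {f : G → ℝ} (hf : ClsS S f) : ClsS S (fun x => -f x) := by
  have := countable hS
  refine ⟨dir_of_le hf.dir fun x y _ => ?_, ?_, ?_⟩
  · rw [show -f y - -f x = -(f y - f x) by ring, abs_neg]
  · obtain ⟨C, hC⟩ := hf.bdd
    exact ⟨C, fun x => by rw [abs_neg]; exact hC x⟩
  · filter_upwards [ae_neg hf.fin, ae_neg (ae_notMem_range f)] with t h1 h2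
    have : {x : G | -f x < t} = {x | f x < -t}ᶜ := by
      ext x
      have := h2 x
      simp only [mem_compl_iff, mem_ofPred_eq, not_lt]
      constructor
      · intro h; linarith
      · intro h
        have : -t < f x := lt_of_le_of_ne h (Ne.symm this)
        linarith
    rw [this]
    exact finC_compl hS h1

end Crest.Agent.R224.K476

namespace Crest.Agent.R224

open K476

/-- Node N6. -/
theorem nComp : NComp := by
  intro G _ S hT _ f hf t Y hYs _ hYc
  have hS : Std S := hT.toStd
  classical
  have := countable hS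
  have hu : (open Classical in fun x => if x ∈ Y then t - f x else 0) =
      fun x => if x ∈ Y then t - f x else (0 : ℝ) := by
    funext x; congr
  rw [hu]
  have key : ∀ x y, Adj S x y → x ∈ Y →
      |(if y ∈ Y then t - f y else (0 : ℝ)) - (if x ∈ Y then t - f x else 0)| ≤ |f y - f x| := by
    intro x y hxy hx
    by_cases hy : y ∈ Y
    · rw [if_pos hx, if_pos hy]
      rw [show t - f y - (t - f x) = -(f y - f x) by ring, abs_neg]
    · rw [if_pos hx, if_neg hy]
      have h1 : t ≤ f y := by
        by_contra hc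
        exact hy (hYc x hx y hxy (not_le.1 hc))
      have h2 : f x < t := hYs hx
      rw [abs_of_nonpos (by linarith), abs_of_nonneg (by linarith)]
      linarith
  refine ⟨dir_of_le hf.dir fun x y hxy => ?_, ?_, ?_⟩
  · by_cases hx : x ∈ Y
    · exact key x y hxy hx
    · by_cases hy : y ∈ Y
      · have := key y x (adj_symm hS hxy) hy
        rw [abs_sub_comm, abs_sub_comm (f y)]
        exact this
      · simp [hx, hy]
  · obtain ⟨C, hC⟩ := hf.bdd
    refine ⟨|t| + C, fun x => ?_⟩
    have hC0 : 0 ≤ C := (abs_nonneg _).trans (hC x)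
    show |if x ∈ Y then t - f x else 0| ≤ _
    by_cases hx : x ∈ Y
    · rw [if_pos hx]
      exact (abs_sub _ _).trans (by linarith [hC x])
    · rw [if_neg hx, abs_zero]; positivity
  · filter_upwards [ae_sub_left hf.fin t, ae_sub_left (ae_notMem_range f) t] with s h1 h2
    rcases le_or_gt s 0 with hs | hs
    · have : {x : G | (if x ∈ Y then t - f x else (0 : ℝ)) < s} = ∅ := by
        ext x
        simp only [mem_ofPred_eq, mem_empty_iff_false, iff_false, not_lt]
        by_cases hx : x ∈ Y
        · rw [if_pos hx]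
          have : f x < t := hYs hx
          linarith
        · rw [if_neg hx]; exact hs
      rw [this]
      exact finC_empty
    · have hW : {x : G | (if x ∈ Y then t - f x else (0 : ℝ)) < s} =
          (Y ∩ {x | f x < t - s})ᶜ := by
        ext x
        simp only [mem_ofPred_eq, mem_compl_iff, mem_inter_iff, not_and, not_lt]
        by_cases hx : x ∈ Y
        · rw [if_pos hx]
          have := h2 x
          constructor
          · intro h _; linarith
          · intro h
            have h3 := h hx
            have : t - s < f x := lt_of_le_of_ne h3 (Ne.symm this)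
            linarith
        · rw [if_neg hx]
          simp [hx, hs]
      rw [hW]
      apply finC_compl hS
      set A : Set G := {x | f x < t - s} with hA
      have hout : ∀ p, p ∈ bd S A → p.1 ∈ Y → p ∈ bd S (Y ∩ A) := fun p hp hpY =>
        ⟨hp.1, ⟨hpY, hp.2.1⟩, fun h => hp.2.2 h.2⟩
      have hin : ∀ p, p ∈ bd S (Y ∩ A) → p ∈ bd S A := by
        rintro p ⟨h1, h2, h3⟩
        refine ⟨h1, h2.2, fun h4 => h3 ⟨?_, h4⟩⟩
        have : f p.2 < t - s := h4
        exact hYc _ h2.1 _ h1 (by linarith)
      obtain ⟨F, hF, hFs, hFp⟩ := h1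
      refine ⟨{q | q ∈ F ∧ q.1 ∈ Y}, hF.subset fun q hq => hq.1, ?_, ?_⟩
      · rintro q ⟨h3, h4⟩
        exact hout q (hFs h3) h4
      · intro p hp
        obtain ⟨q, hq, hqp⟩ := hFp p (hin p hp)
        have key2 : ReflTransGen (WS S A) q p → p.1 ∈ Y →
            q.1 ∈ Y ∧ ReflTransGen (WS S (Y ∩ A)) q p := by
          intro h
          clear hp hqp
          induction h with
          | refl => exact fun h => ⟨h, ReflTransGen.refl⟩
          | @tail b c _ hbc ih =>
            intro hc
            have hb : b.1 ∈ Y := by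
              rcases hbc.1 with ⟨h3, _⟩ | ⟨_, h3⟩
              · rw [h3]; exact hc
              · refine hYc _ hc _ (adj_symm hS h3) ?_
                have : f b.1 < t - s := hbc.2.1.2.1
                linarith
            obtain ⟨h4, h5⟩ := ih hb
            exact ⟨h4, h5.tail ⟨hbc.1, hout _ hbc.2.1 hb, hout _ hbc.2.2 hc⟩⟩
        obtain ⟨h3, h4⟩ := key2 hqp hp.2.1.1
        exact ⟨q, ⟨hq, h3⟩, h4⟩

end Crest.Agent.R224
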