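import Mathlib

/-!
Row 224 (S0346), modules E + F of note 9216: abstract interface (owner helper601).

`Sys G F T X` = the data and the facts about the boundary `T` of the compactification
`X = ι G ∪ j T` that modules E and F use.
-/

set_option autoImplicit false

namespace Crest.Agent.R224.EF

open MeasureTheory Filter Topology Set

/-- one step of the Cayley graph inside a set `A` of vertices -/
def StepIn {G : Type} [Group G] (F : Finset G) (A : Set G) (u v : G) : Prop :=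
  u ∈ A ∧ v ∈ A ∧ ∃ s ∈ F, v = u * s

/-- `x` and `y` are joined by a path in `A` (`x = y` is allowed, also outside `A`) -/
def Joined {G : Type} [Group G] (F : Finset G) (A : Set G) (x y : G) : Prop :=
  Relation.ReflTransGen (StepIn F A) x y

/-- `A` is connected in the Cayley graph (empty set allowed) -/
def Conn {G : Type} [Group G] (F : Finset G) (A : Set G) : Prop :=
  ∀ x ∈ A, ∀ y ∈ A, Joined F A x y

/-- outer vertex boundary -/
def Outer {G : Type} [Group G] (F : Finset G) (A : Set G) : Set G :=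
  {x | x ∉ A ∧ ∃ s ∈ F, x * s ∈ A}

/-- the component of `T \ {η}` containing `x` (empty if `x = η`) -/
abbrev Comp {T : Type} [TopologicalSpace T] (η x : T) : Set T := connectedComponentIn {η}ᶜ x

/-- true cut point -/
def IsCut {T : Type} [TopologicalSpace T] (η : T) : Prop := ¬ IsPreconnected ({η}ᶜ : Set T)

/-- a system: compactification with boundary measures -/
structure Sys (G : Type) [Group G] (F : Finset G)
    (T : Type) [MetricSpace T] [CompactSpace T] [ConnectedSpace T] [MeasurableSpace T]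
      [BorelSpace T] [MulAction G T]
    (X : Type) [MetricSpace X] [CompactSpace X] [MulAction G X] where
  ι : G → X
  j : T → X
  ν : G → Measure T
  -- the group
  infinite : Infinite G
  symm : ∀ s ∈ F, s⁻¹ ∈ F
  gen : Conn F (Set.univ : Set G)
  /-- (T0'): consequence of (T0) (walls of connected sets with connected complement are connected) -/
  outer_conn : ∀ A : Set G, Conn F A → Conn F Aᶜ → Conn F (Outer F A)
  -- the compactification
  ι_inj : Function.Injective ι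
  j_iso : Isometry j
  cover : ∀ p : X, (∃ x, ι x = p) ∨ ∃ θ, j θ = p
  disj : ∀ x θ, ι x ≠ j θ
  isolated : ∀ x, IsOpen ({ι x} : Set X)
  dense : ∀ θ : T, ∀ N ∈ 𝓝 (j θ), ∃ x, ι x ∈ N
  contT : ∀ g : G, Continuous (fun θ : T => g • θ)
  contX : ∀ g : G, Continuous (fun p : X => g • p)
  ι_smul : ∀ g x : G, g • ι x = ι (g * x)
  j_smul : ∀ (g : G) (θ : T), g • j θ = j (g • θ)
  -- the measures
  prob : ∀ x, IsProbabilityMeasure (ν x)
  equi : ∀ g x : G, ν (g * x) = (ν x).map (fun θ => g • θ)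
  harm : ∀ (x : G) (A : Set T), MeasurableSet A →
    ∑ s ∈ F, (ν (x * s)).real A = F.card * (ν x).real A
  reg : ∀ (θ : T) (U : Set T), IsOpen U → θ ∈ U →
    Tendsto (fun x => (ν x).real U) (comap ι (𝓝 (j θ))) (𝓝 1)
  supp : ∀ (x : G) (U : Set T), IsOpen U → U.Nonempty → 0 < (ν x).real U
  noatom : ∀ (x : G) (θ : T), ν x {θ} = 0
  /-- (CP) -/
  cp : ∀ ε : ℝ, 0 < ε →
    {x : G | ¬ ∀ y : X, dist y (ι x) ≤ ε ∨ dist (x⁻¹ • y) (ι x⁻¹) ≤ ε}.Finite
  /-- (LC) -/
  lc : ∀ (θ : T), ∀ N ∈ 𝓝 (j θ), ∃ N' ∈ 𝓝 (j θ), N' ⊆ N ∧ Conn F (ι ⁻¹' N')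
  /-- (LF) -/
  lf : ∀ c : ℝ, 0 < c → {η : T | ∃ U : Set T, IsOpen U ∧ U ⊆ {η}ᶜ ∧ IsOpen ({η}ᶜ \ U) ∧
    c ≤ (ν 1).real U ∧ (ν 1).real U ≤ 1 - c}.Finite
  /-- (D1) components of `T \ {η}` are open -/
  comp_open : ∀ η x : T, IsOpen (Comp η x)
  /-- (D2) null lemma -/
  null : ∀ c ε : ℝ, 0 < c → 0 < ε → {p : T × Set T | IsCut p.1 ∧ (∃ x, x ≠ p.1 ∧ p.2 = Comp p.1 x) ∧
    ∃ x : G, c ≤ (ν x).real p.2 ∧ (ν x).real p.2 ≤ 1 - c ∧ ε ≤ dist (ι x) (j p.1)}.Finite
  /-- (D3) strictly decreasing sequences of components shrink to a point -/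
  shrink : ∀ (η x : ℕ → T), (∀ n, x n ≠ η n) →
    (∀ n, Comp (η (n + 1)) (x (n + 1)) ∪ {η (n + 1)} ⊆ Comp (η n) (x n)) →
    ∀ a b : T, (∀ n, a ∈ Comp (η n) (x n)) → (∀ n, b ∈ Comp (η n) (x n)) → a = b

/-- the order lemma (module of helper921), in the form used by F -/
def OrderLemma {G : Type} [Group G] {X : Type} [MetricSpace X] (ι : G → X) : Prop :=
  ∀ ε : ℕ → ℝ, (∀ n, 0 < ε n) → ∃ Λ : ℕ → Finset G, ∀ J : ℕ, ∀ ε' : ℝ, 0 < ε' →
    ∃ R : Finset G, ∀ Q : Set G, Q.Finite → ∀ y ∈ Q, y ∉ R →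
      ∃ x ∈ Q, dist (ι x) (ι y) ≤ ε' ∧
        ∀ j ≤ J, ∀ z ∈ Q, x⁻¹ * z ∉ Λ j → dist (ι x⁻¹) (ι (x⁻¹ * z)) < ε j

/-- (LT) level cuts of a continuous function on the boundary (module of helper821):
for almost every level `t`, whenever `φ a < t < φ b`, there are closed pieces `K n` of the level
set shrinking to one point, each separating `a` from `b`. -/
def LevelCuts {T : Type} [TopologicalSpace T] (φ : T → ℝ) : Prop :=
  Continuous φ ∧ ∀ᵐ t : ℝ, ∀ a b : T, φ a < t → t < φ b →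
    ∃ (ζ : T) (K U V : ℕ → Set T), (∀ n, IsClosed (K n)) ∧ Antitone K ∧ (⋂ n, K n) = {ζ} ∧
      (∀ n, ∀ θ ∈ K n, φ θ = t) ∧ (∀ n, IsOpen (U n)) ∧ (∀ n, IsOpen (V n)) ∧
      (∀ n, Disjoint (U n) (V n)) ∧ (∀ n, U n ∪ V n = (K n)ᶜ) ∧ (∀ n, a ∈ V n) ∧ (∀ n, b ∈ U n)

/-- the final theorem of E + F -/
def FinalStatement : Prop :=
  ∀ (G : Type) [Group G] (F : Finset G)
    (T : Type) [MetricSpace T] [CompactSpace T] [ConnectedSpace T] [MeasurableSpace T]
      [BorelSpace T] [MulAction G T]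
    (X : Type) [MetricSpace X] [CompactSpace X] [MulAction G X]
    (S : Sys G F T X) (_ : OrderLemma S.ι) (φ : T → ℝ) (_ : LevelCuts φ) (a b : T), φ a = φ b

end Crest.Agent.R224.EF
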