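import Crest.Agent.R224.Amen
import Crest.Agent.R224.Defs

/-!
Row 224 (S0346), helper792.  Comparison of energies for two finite sets, and the reduction of
S0346 to `HD T = ⊥` for one finite generating set `T`; dichotomy with the isoperimetric
inequality.
-/

set_option autoImplicit false
set_option maxHeartbeats 400000
set_option linter.unusedVariables false
set_option linter.unusedSectionVars false
open scoped BigOperators RealInnerProductSpace Topology
open Filter

namespace Crest.Agent.R224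

variable {G : Type} [Group G]

theorem En_nonneg (T : Finset G) (f : G → ℝ) : 0 ≤ En T f := tsum_nonneg fun p => sq_nonneg _

theorem dir_elem {T : Finset G} {f : G → ℝ} (hf : Dir T f) {t : G} (ht : t ∈ T) :
    Summable (fun g => (f (g * t) - f g) ^ 2) ∧ ∑' g, (f (g * t) - f g) ^ 2 ≤ En T f := by
  have hi : Function.Injective (fun g : G => ((g, ⟨t, ht⟩) : G × T)) := by
    intro a b h; simpa using h
  have h1 : Summable ((fun p : G × T => (f (p.1 * (p.2 : G)) - f p.1) ^ 2) ∘
      (fun g : G => ((g, ⟨t, ht⟩) : G × T))) := Summable.comp_injective hf hi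
  refine ⟨h1, ?_⟩
  have h2 := tsum_comp_le_tsum_of_inj (f := fun p : G × T => (f (p.1 * (p.2 : G)) - f p.1) ^ 2)
    hf (fun p => sq_nonneg _) hi
  exact h2

theorem dir_of_elem {T : Finset G} {f : G → ℝ}
    (h : ∀ t ∈ T, Summable (fun g => (f (g * t) - f g) ^ 2)) : Dir T f := by
  have h1 : Summable fun p : T × G => (f (p.2 * (p.1 : G)) - f p.2) ^ 2 := by
    rw [summable_prod_of_nonneg (fun p => sq_nonneg _)]
    exact ⟨fun t => h t t.2, Summable.of_finite⟩
  exact ((Equiv.prodComm G T).summable_iff (f := fun p : T × G =>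
    (f (p.2 * (p.1 : G)) - f p.2) ^ 2)).2 h1

theorem En_eq_sum {T : Finset G} {f : G → ℝ} (hf : Dir T f) :
    En T f = ∑ t : T, ∑' g, (f (g * (t : G)) - f g) ^ 2 := by
  have h1 := (Equiv.prodComm T G).tsum_eq (fun p : G × T => (f (p.1 * (p.2 : G)) - f p.1) ^ 2)
  rw [En, ← h1]
  have h2 : Summable fun p : T × G => (f (p.2 * (p.1 : G)) - f p.2) ^ 2 :=
    ((Equiv.prodComm T G).summable_iff (f := fun p : G × T =>
      (f (p.1 * (p.2 : G)) - f p.1) ^ 2)).2 hf
  have h3 := h2.tsum_prod
  rw [show (∑' c : T × G, (fun p : G × T => (f (p.1 * (p.2 : G)) - f p.1) ^ 2)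
    ((Equiv.prodComm T G) c)) = ∑' p : T × G, (f (p.2 * (p.1 : G)) - f p.2) ^ 2 from rfl, h3,
    tsum_fintype]

/-- every translation difference of a Dirichlet function is square summable, with a constant that
only depends on the translation -/
theorem elem_bound {S : Finset G} (hS : Subgroup.closure (S : Set G) = ⊤) (t : G) :
    ∃ C : ℝ, 0 ≤ C ∧ ∀ f : G → ℝ, Dir S f →
      Summable (fun g => (f (g * t) - f g) ^ 2) ∧ ∑' g, (f (g * t) - f g) ^ 2 ≤ C * En S f := by
  have ht : t ∈ Subgroup.closure (S : Set G) := by rw [hS]; trivial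
  induction ht using Subgroup.closure_induction with
  | mem x hx =>
    refine ⟨1, zero_le_one, fun f hf => ?_⟩
    rw [one_mul]
    exact dir_elem hf hx
  | one => exact ⟨0, le_rfl, fun f hf => by simpa using summable_zero⟩
  | mul x y _ _ hx hy =>
    obtain ⟨C, hC0, hC⟩ := hx
    obtain ⟨D, hD0, hD⟩ := hy
    refine ⟨2 * (C + D), by positivity, fun f hf => ?_⟩
    obtain ⟨h1, h2⟩ := hC f hf
    obtain ⟨h3, h4⟩ := hD f hf
    have h5 : Summable (fun g => (f (g * x * y) - f (g * x)) ^ 2) :=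
      h3.comp_injective (mul_left_injective x)
    have h6 : ∑' g, (f (g * x * y) - f (g * x)) ^ 2 = ∑' g, (f (g * y) - f g) ^ 2 :=
      (Equiv.mulRight x).tsum_eq (fun g => (f (g * y) - f g) ^ 2)
    have hle : ∀ g, (f (g * (x * y)) - f g) ^ 2 ≤
        2 * (f (g * x * y) - f (g * x)) ^ 2 + 2 * (f (g * x) - f g) ^ 2 := by
      intro g
      rw [← mul_assoc]
      nlinarith [sq_nonneg ((f (g * x * y) - f (g * x)) - (f (g * x) - f g))]
    have h7 : Summable (fun g => 2 * (f (g * x * y) - f (g * x)) ^ 2 + 2 * (f (g * x) - f g) ^ 2) :=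
      (h5.mul_left 2).add (h1.mul_left 2)
    have h8 : Summable (fun g => (f (g * (x * y)) - f g) ^ 2) :=
      Summable.of_nonneg_of_le (fun g => sq_nonneg _) hle h7
    refine ⟨h8, (h8.tsum_le_tsum hle h7).trans ?_⟩
    rw [(h5.mul_left 2).tsum_add (h1.mul_left 2), tsum_mul_left, tsum_mul_left, h6]
    nlinarith
  | inv x _ hx =>
    obtain ⟨C, hC0, hC⟩ := hx
    refine ⟨C, hC0, fun f hf => ?_⟩
    obtain ⟨h1, h2⟩ := hC f hf
    have e : ∀ g, (f (g * x⁻¹) - f g) ^ 2 = (f ((g * x⁻¹) * x) - f (g * x⁻¹)) ^ 2 := by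
      intro g; rw [inv_mul_cancel_right]; ring
    simp only [e]
    refine ⟨h1.comp_injective (mul_left_injective x⁻¹), ?_⟩
    have h6 : ∑' g, (f (g * x⁻¹ * x) - f (g * x⁻¹)) ^ 2 = ∑' g, (f (g * x) - f g) ^ 2 :=
      (Equiv.mulRight x⁻¹).tsum_eq (fun g => (f (g * x) - f g) ^ 2)
    rw [h6]
    exact h2

/-- comparison of energies -/
theorem dir_transfer {S : Finset G} (hS : Subgroup.closure (S : Set G) = ⊤) (T : Finset G) :
    ∃ C : ℝ, 0 ≤ C ∧ ∀ f : G → ℝ, Dir S f → Dir T f ∧ En T f ≤ C * En S f := by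
  choose C hC0 hC using fun t : G => elem_bound hS t
  refine ⟨∑ t : T, C t, Finset.sum_nonneg fun t _ => hC0 t, fun f hf => ?_⟩
  have h1 : Dir T f := dir_of_elem fun t _ => (hC t f hf).1
  refine ⟨h1, ?_⟩
  rw [En_eq_sum h1, Finset.sum_mul]
  exact Finset.sum_le_sum fun t _ => (hC t f hf).2

theorem finsupp_dir (T : Finset G) {u : G → ℝ} (hu : (Function.support u).Finite) : Dir T u :=
  Amen.memlp_iff.1 (Amen.memlp_of_finite (Amen.support_grad_finite (S := T) hu))

theorem Dir.sub {T : Finset G} {f u : G → ℝ} (hf : Dir T f) (hu : Dir T u) : Dir T (f - u) := by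
  have h1 : Summable fun p : G × T => 2 * (f (p.1 * (p.2 : G)) - f p.1) ^ 2 +
    2 * (u (p.1 * (p.2 : G)) - u p.1) ^ 2 := (Summable.mul_left 2 hf).add (Summable.mul_left 2 hu)
  refine Summable.of_nonneg_of_le (fun p => sq_nonneg _) (fun p => ?_) h1
  simp only [Pi.sub_apply]
  nlinarith [sq_nonneg ((f (p.1 * (p.2 : G)) - f p.1) + (u (p.1 * (p.2 : G)) - u p.1))]

/-- it suffices to treat one finite generating set -/
theorem reduction {S T : Finset G} (hS : Subgroup.closure (S : Set G) = ⊤)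
    (hT : Subgroup.closure (T : Set G) = ⊤) (hHD : Amen.HD T = ⊥) (f : G → ℝ)
    (hf : Summable fun p : G × S => (f (p.1 * (p.2 : G)) - f p.1) ^ 2) (ε : ℝ) (hε : 0 < ε) :
    ∃ u : G → ℝ, (Function.support u).Finite ∧
      ∃ E : ℝ, HasSum (fun p : G × S =>
        ((f - u) (p.1 * (p.2 : G)) - (f - u) p.1) ^ 2) E ∧ E < ε := by
  obtain ⟨C, hC0, hC⟩ := dir_transfer hS T
  obtain ⟨D, hD0, hD⟩ := dir_transfer hT S
  obtain ⟨u, hu, E, hE, hEε⟩ := Amen.approx_of_HD hT hHD f (hC f hf).1 (ε / (D + 1))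
    (by positivity)
  refine ⟨u, hu, En S (f - u), ?_, ?_⟩
  · exact (Dir.sub (T := S) hf (finsupp_dir S hu)).hasSum
  · have h1 : En T (f - u) = E := hE.tsum_eq
    have h2 := (hD (f - u) hE.summable).2
    rw [h1] at h2
    have h4 : 0 ≤ E := by rw [← h1]; exact En_nonneg _ _
    calc En S (f - u) ≤ D * E := h2
      _ ≤ (D + 1) * E := by nlinarith
      _ < (D + 1) * (ε / (D + 1)) := by
          apply mul_lt_mul_of_pos_left hEε; positivity
      _ = ε := by field_simp

/-- dichotomy: no harmonic Dirichlet functions, or an isoperimetric inequality -/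
theorem dichotomy [Infinite G] [DecidableEq G] {T : Finset G}
    (hT : Subgroup.closure (T : Set G) = ⊤) :
    Amen.HD T = ⊥ ∨ ∃ κ : ℝ, 0 < κ ∧ ∀ F : Finset G, κ * F.card ≤ ((Amen.bd T F).card : ℝ) := by
  by_cases h : ∀ ε : ℝ, 0 < ε → ∃ F : Finset G, F.Nonempty ∧
      ((Amen.bd T F).card : ℝ) ≤ ε * F.card
  · exact Or.inl (Amen.HD_eq_bot hT h)
  · right
    push Not at h
    obtain ⟨κ, hκ, h⟩ := h
    refine ⟨κ, hκ, fun F => ?_⟩
    rcases F.eq_empty_or_nonempty with rfl | hF
    · simp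
    · exact (h F hF).le

/-! ### the reduction used in the final assembly -/

/-- a Dirichlet function that is square summable up to a constant is an energy limit of finitely
supported functions; in terms of `HD` -/
theorem HD_eq_bot_of_l2 {T : Finset G}
    (h : ∀ f : G → ℝ, Dir T f → ∃ c : ℝ, Summable fun x => (f x - c) ^ 2) : Amen.HD T = ⊥ := by
  classical
  rw [eq_bot_iff]
  intro b hb
  rw [Submodule.mem_bot]
  obtain ⟨f, hf⟩ := hb.1
  have hdir : Dir T f := by
    have := Amen.memlp_iff.1 b.2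
    rw [hf] at this
    exact this
  obtain ⟨c, hc⟩ := h f hdir
  -- finite truncations
  let u : Finset G → G → ℝ := fun F g => if g ∈ F then f g - c else 0
  have husupp : ∀ F, (Function.support (u F)).Finite := by
    intro F
    refine F.finite_toSet.subset ?_
    intro g hg
    by_contra hgF
    apply hg
    have hgF' : g ∉ F := fun h => hgF h
    simp only [u]
    rw [if_neg hgF']
  let a : Finset G → Amen.L T := fun F => ⟨Amen.grad T (u F),
    Amen.memlp_of_finite (Amen.support_grad_finite (husupp F))⟩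
  have ha : ∀ F, a F ∈ Amen.D0 T := fun F => ⟨u F, husupp F, rfl⟩
  have horth : ∀ F, ⟪a F, b⟫ = 0 := fun F => (Submodule.mem_orthogonal _ _).1 hb.2 _ (ha F)
  -- energy estimate
  have hen : ∀ w : G → ℝ, Summable (fun x => w x ^ 2) → ∀ B : Amen.L T,
      (B : G × T → ℝ) = Amen.grad T w → ‖B‖ ^ 2 ≤ 4 * T.card * ∑' x, w x ^ 2 := by
    intro w hw B hB
    have h1 : ‖B‖ ^ 2 = ∑' p : G × T, (w (p.1 * (p.2 : G)) - w p.1) ^ 2 := by
      have := lp.norm_rpow_eq_tsum (p := 2) (by norm_num) B
      simp only [hB, Amen.grad] at this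
      simpa using this
    have hdw : Dir T w := by
      have := Amen.memlp_iff.1 B.2
      rw [hB] at this
      exact this
    rw [h1]
    show En T w ≤ _
    rw [En_eq_sum hdw]
    have h2 : ∀ t : T, ∑' g, (w (g * (t : G)) - w g) ^ 2 ≤ 4 * ∑' x, w x ^ 2 := by
      intro t
      have h3 : Summable (fun g => w (g * (t : G)) ^ 2) :=
        hw.comp_injective (mul_left_injective (t : G))
      have h4 : ∑' g, w (g * (t : G)) ^ 2 = ∑' x, w x ^ 2 :=
        (Equiv.mulRight (t : G)).tsum_eq (fun x => w x ^ 2)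
      have h5 := (dir_elem hdw t.2).1
      have h6 : Summable (fun g => 2 * w (g * (t : G)) ^ 2 + 2 * w g ^ 2) :=
        (h3.mul_left 2).add (hw.mul_left 2)
      refine (h5.tsum_le_tsum (fun g => ?_) h6).trans ?_
      · nlinarith [sq_nonneg (w (g * (t : G)) + w g)]
      · rw [(h3.mul_left 2).tsum_add (hw.mul_left 2), tsum_mul_left, tsum_mul_left, h4]
        linarith
    refine (Finset.sum_le_sum fun t _ => h2 t).trans ?_
    rw [Finset.sum_const, Finset.card_univ, Fintype.card_coe, nsmul_eq_mul]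
    linarith
  -- tails
  have htail : Tendsto (fun F : Finset G => ∑' x, (f x - c - u F x) ^ 2) atTop (𝓝 0) := by
    have h1 : ∀ F : Finset G, ∑' x, (f x - c - u F x) ^ 2 =
        ∑' x, (f x - c) ^ 2 - ∑ x ∈ F, (f x - c) ^ 2 := by
      intro F
      have e : ∀ x, (f x - c - u F x) ^ 2 =
          (f x - c) ^ 2 - (if x ∈ F then (f x - c) ^ 2 else 0) := by
        intro x
        simp only [u]
        split_ifs <;> simp
      have hs : Summable (fun x => if x ∈ F then (f x - c) ^ 2 else 0) :=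
        summable_of_hasFiniteSupport (F.finite_toSet.subset (by
          intro x hx
          by_contra h
          apply hx
          simp only [Finset.mem_coe] at h
          simp [h]))
      simp only [e]
      rw [hc.tsum_sub hs]
      congr 1
      rw [tsum_eq_sum (s := F) (fun x (hx : x ∉ F) => if_neg hx)]
      exact Finset.sum_congr rfl fun x hx => if_pos hx
    simp only [h1]
    have h2 : Tendsto (fun F : Finset G => ∑ x ∈ F, (f x - c) ^ 2) atTop
      (𝓝 (∑' x, (f x - c) ^ 2)) := hc.hasSum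
    have h3 := (tendsto_const_nhds (x := ∑' x, (f x - c) ^ 2)).sub h2
    simpa using h3
  have hnorm : ∀ F : Finset G, ‖b‖ ^ 2 ≤ 4 * T.card * ∑' x, (f x - c - u F x) ^ 2 := by
    intro F
    have hs : Summable fun x => (f x - c - u F x) ^ 2 := by
      have h1 : Summable fun x => 2 * (f x - c) ^ 2 + 2 * (u F x) ^ 2 := by
        refine (hc.mul_left 2).add (Summable.mul_left 2 ?_)
        refine summable_of_hasFiniteSupport ((husupp F).subset ?_)
        intro x hx h0
        apply hx
        simp only [h0]; norm_num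
      refine Summable.of_nonneg_of_le (fun x => sq_nonneg _) (fun x => ?_) h1
      nlinarith [sq_nonneg ((f x - c) + u F x)]
    have h1 := hen (fun x => f x - c - u F x) hs (b - a F) (by
      rw [lp.coeFn_sub, hf]
      funext p
      show Amen.grad T f p - Amen.grad T (u F) p = _
      simp only [Amen.grad]; ring)
    refine le_trans ?_ h1
    have h2 : ⟪b - a F, b⟫ = ‖b‖ ^ 2 := by
      rw [inner_sub_left, horth, sub_zero, real_inner_self_eq_norm_sq]
    have h3 := real_inner_le_norm (b - a F) b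
    rw [h2] at h3
    by_cases hb0 : ‖b‖ = 0
    · rw [hb0]; simp only [ne_eq, OfNat.ofNat_ne_zero, not_false_eq_true, zero_pow]
      exact sq_nonneg _
    · have hbpos : 0 < ‖b‖ := lt_of_le_of_ne (norm_nonneg _) (Ne.symm hb0)
      have h4 : ‖b‖ ≤ ‖b - a F‖ := by nlinarith
      exact pow_le_pow_left₀ (norm_nonneg _) h4 2
  have hlim : Tendsto (fun F : Finset G => 4 * (T.card : ℝ) * ∑' x, (f x - c - u F x) ^ 2) atTop
      (𝓝 (4 * (T.card : ℝ) * 0)) := htail.const_mul _
  rw [mul_zero] at hlim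
  have h0 : ‖b‖ ^ 2 ≤ 0 := ge_of_tendsto' hlim hnorm
  have h1 : ‖b‖ = 0 := by
    have : ‖b‖ ^ 2 = 0 := le_antisymm h0 (sq_nonneg _)
    exact pow_eq_zero_iff (two_ne_zero) |>.1 this
  exact norm_eq_zero.1 h1

/-- vertex boundary versus edge boundary -/
theorem vbd_card_le [DecidableEq G] {T : Finset G} (hinv : ∀ s ∈ T, s⁻¹ ∈ T) (F : Finset G) :
    (Amen.bd T F).card ≤ (bd T (F : Set G)).ncard := by
  classical
  have hex : ∀ y ∈ Amen.bd T F, ∃ g ∈ F, g⁻¹ * y ∈ T := by
    intro y hy
    rw [Amen.bd, Finset.mem_sdiff, Finset.mem_biUnion] at hy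
    obtain ⟨⟨s, hs, hy1⟩, hy2⟩ := hy
    rcases Finset.mem_union.1 hy1 with h | h
    · obtain ⟨g, hg, rfl⟩ := Finset.mem_image.1 h
      exact ⟨g, hg, by simpa using hs⟩
    · obtain ⟨g, hg, rfl⟩ := Finset.mem_image.1 h
      exact ⟨g, hg, by simpa using hinv s hs⟩
  choose! p hp1 hp2 using hex
  have hfin : (bd T (F : Set G)).Finite := by
    refine ((F ×ˢ (F.biUnion fun g => T.image (g * ·))).finite_toSet).subset ?_
    rintro ⟨a, b⟩ ⟨h1, h2, h3⟩
    simp only [Finset.coe_product, Set.mem_prod, Finset.mem_coe, Finset.mem_biUnion,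
      Finset.mem_image]
    exact ⟨h2, a, h2, a⁻¹ * b, h1, by simp⟩
  have h1 : ((Amen.bd T F : Finset G) : Set G).ncard ≤ (bd T (F : Set G)).ncard := by
    refine Set.ncard_le_ncard_of_injOn (fun y => (p y, y)) ?_ ?_ hfin
    · intro y hy
      have hy' : y ∈ Amen.bd T F := hy
      refine ⟨hp2 y hy', hp1 y hy', ?_⟩
      rw [Amen.bd, Finset.mem_sdiff] at hy'
      exact hy'.2
    · intro a _ b _ h
      simpa using (Prod.ext_iff.1 h).2
  rwa [Set.ncard_coe_finset] at h1

/-- `¬ Nonam` implies that there are no harmonic Dirichlet functions -/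
theorem HD_eq_bot_of_not_nonam [Infinite G] {T : Finset G} (hT : Std T) (h : ¬ Nonam T) :
    Amen.HD T = ⊥ := by
  classical
  refine Amen.HD_eq_bot hT.gen fun ε hε => ?_
  by_contra hcon
  push Not at hcon
  apply h
  refine ⟨ε, hε, fun F => ?_⟩
  rcases F.eq_empty_or_nonempty with rfl | hF
  · simp
  · refine (hcon F hF).le.trans ?_
    exact_mod_cast vbd_card_le hT.inv F

/-- **Reduction** of the conclusion of S0346 to the group half for one suitable finite set `T`. -/
theorem s0346_of {T : Finset G} (hT : Std T)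
    (hGH : Nonam T → Infinite G → ∀ f : G → ℝ, Dir T f →
      ∃ c : ℝ, Summable fun x => (f x - c) ^ 2)
    {S : Finset G} (hS : Subgroup.closure (S : Set G) = ⊤) (f : G → ℝ)
    (hf : Summable fun p : G × S => (f (p.1 * (p.2 : G)) - f p.1) ^ 2) (ε : ℝ) (hε : 0 < ε) :
    ∃ u : G → ℝ, (Function.support u).Finite ∧
      ∃ E : ℝ, HasSum (fun p : G × S =>
        ((f - u) (p.1 * (p.2 : G)) - (f - u) p.1) ^ 2) E ∧ E < ε := by
  rcases finite_or_infinite G with hfin | hinf
  · exact Amen.finite_case f ε hε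
  · refine reduction hS hT.gen ?_ f hf ε hε
    by_cases h : Nonam T
    · exact HD_eq_bot_of_l2 (hGH h hinf)
    · exact HD_eq_bot_of_not_nonam hT h

end Crest.Agent.R224
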