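import Crest.Agent.R224.Iface
import Crest.Agent.R224.FinC

/-!
Row 224, node NMono (helper912): existence of a function of class `ClsS` without limit at
infinity (monotone trick).
-/

set_option autoImplicit false

noncomputable section

namespace Crest.Agent.R224.Mono

open Relation MeasureTheory Set Crest.Agent.R224.FC

variable {G : Type} [Group G] {S : Finset G}

theorem countable_of_std (hS : Std S) : Countable G := by
  classical
  let R : ℕ → Set G := fun n => Nat.rec ({1} : Set G) (fun _ A => ⋃ b ∈ S, (fun x => x * b) '' A) n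
  have hR0 : R 0 = {1} := rfl
  have hRs : ∀ n, R (n + 1) = ⋃ b ∈ S, (fun x => x * b) '' (R n) := fun n => rfl
  have hRc : ∀ n, (R n).Countable := by
    intro n
    induction n with
    | zero => rw [hR0]; exact Set.countable_singleton 1
    | succ n ih =>
        rw [hRs]
        exact Set.Countable.biUnion S.countable_toSet (fun b _ => ih.image _)
  have hU : (⋃ n, R n) = Set.univ := by
    ext x
    simp only [Set.mem_iUnion, Set.mem_univ, iff_true]
    have := conn_univ hS 1 trivial x trivial
    induction this with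
    | refl => exact ⟨0, rfl⟩
    | @tail b c _ hbc ih =>
        obtain ⟨n, hn⟩ := ih
        refine ⟨n + 1, ?_⟩
        rw [hRs]
        simp only [Set.mem_iUnion]
        exact ⟨b⁻¹ * c, hbc.2.2, b, hn, by simp⟩
  have : (Set.univ : Set G).Countable := by
    rw [← hU]; exact Set.countable_iUnion hRc
  exact Set.countable_univ_iff.1 this

/-- min over paths from `o` to `x` of the max of `k` -/
def mm (S : Finset G) (k : G → ℝ) (o x : G) : ℝ := sInf {t | x ∈ comp S {y | k y ≤ t} o}

theorem comp_mono {A A' : Set G} (h : A ⊆ A') (o : G) : comp S A o ⊆ comp S A' o :=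
  fun _ hy => ⟨h hy.1, rtg_adjIn_mono h hy.2⟩

theorem exists_lt_of_mem (k : G → ℝ) (o x : G) (t : ℝ)
    (hx : x ∈ comp S {y | k y < t} o) : ∃ s < t, x ∈ comp S {y | k y ≤ s} o := by
  obtain ⟨hx1, hx2⟩ := hx
  have key : ∀ z, ReflTransGen (adjIn S {y | k y < t}) o z → k z < t →
      ∃ s < t, z ∈ comp S {y | k y ≤ s} o := by
    intro z hz
    induction hz with
    | refl => intro ho; exact ⟨k o, ho, show k o ≤ k o from le_refl _, ReflTransGen.refl⟩
    | @tail b c _ hbc ih =>
        intro hc
        obtain ⟨s, hs, hb⟩ := ih hbc.1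
        refine ⟨max s (k c), max_lt hs hc, show k c ≤ max s (k c) from le_max_right _ _, ?_⟩
        have h1 : ReflTransGen (adjIn S {y | k y ≤ max s (k c)}) o b :=
          rtg_adjIn_mono (fun y (hy : k y ≤ s) => (le_trans hy (le_max_left _ _) : k y ≤ max s (k c))) hb.2
        exact h1.tail ⟨(le_trans hb.1 (le_max_left _ _) : k b ≤ max s (k c)),
          show k c ≤ max s (k c) from le_max_right _ _, hbc.2.2⟩
  exact key x hx2 hx1

theorem set_nonempty (hS : Std S) (k : G → ℝ) (o x : G) :
    {t | x ∈ comp S {y | k y ≤ t} o}.Nonempty := by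
  have := conn_univ hS o trivial x trivial
  induction this with
  | refl => exact ⟨k o, show k o ≤ k o from le_refl _, ReflTransGen.refl⟩
  | @tail b c _ hbc ih =>
      obtain ⟨s, hb⟩ := ih
      refine ⟨max s (k c), show k c ≤ max s (k c) from le_max_right _ _, ?_⟩
      have h1 : ReflTransGen (adjIn S {y | k y ≤ max s (k c)}) o b :=
        rtg_adjIn_mono (fun y (hy : k y ≤ s) => (le_trans hy (le_max_left _ _) : k y ≤ max s (k c))) hb.2
      exact h1.tail ⟨(le_trans hb.1 (le_max_left _ _) : k b ≤ max s (k c)),
          show k c ≤ max s (k c) from le_max_right _ _, hbc.2.2⟩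

theorem set_bdd (k : G → ℝ) (o x : G) : BddBelow {t | x ∈ comp S {y | k y ≤ t} o} :=
  ⟨k x, fun _ ht => ht.1⟩

theorem le_mm (hS : Std S) (k : G → ℝ) (o x : G) : k x ≤ mm S k o x :=
  le_csInf (set_nonempty hS k o x) (fun _ ht => ht.1)

theorem mm_le (k : G → ℝ) (o x : G) {t : ℝ} (h : x ∈ comp S {y | k y ≤ t} o) :
    mm S k o x ≤ t := csInf_le (set_bdd k o x) h

theorem mm_lt_iff (hS : Std S) (k : G → ℝ) (o x : G) (t : ℝ) :
    mm S k o x < t ↔ x ∈ comp S {y | k y < t} o := by
  constructor
  · intro h
    obtain ⟨s, hs, hst⟩ := (csInf_lt_iff (set_bdd k o x) (set_nonempty hS k o x)).1 h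
    exact comp_mono (fun y hy => lt_of_le_of_lt hy hst) o hs
  · intro h
    obtain ⟨s, hs, hx⟩ := exists_lt_of_mem k o x t h
    exact lt_of_le_of_lt (mm_le k o x hx) hs

theorem mm_step (hS : Std S) (k : G → ℝ) (o : G) {x y : G} (h : Adj S x y) :
    mm S k o y ≤ max (mm S k o x) (k y) := by
  refine le_of_forall_gt fun t ht => ?_
  have h1 : mm S k o x < t := lt_of_le_of_lt (le_max_left _ _) ht
  have h2 : k y < t := lt_of_le_of_lt (le_max_right _ _) ht
  rw [mm_lt_iff hS] at h1 ⊢
  exact (isPiece_comp o).2 x y h1 h2 h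

theorem mm_lip (hS : Std S) (k : G → ℝ) (o : G) {x y : G} (h : Adj S x y) :
    |mm S k o y - mm S k o x| ≤ |k y - k x| := by
  have h1 := mm_step hS k o h
  have h2 := mm_step hS k o (symm hS h)
  have h3 := le_mm hS k o x
  have h4 := le_mm hS k o y
  rw [abs_le]
  have hk1 : k y - k x ≤ |k y - k x| := le_abs_self _
  have hk2 : -(k y - k x) ≤ |k y - k x| := neg_le_abs _
  have hk0 : 0 ≤ |k y - k x| := abs_nonneg _
  constructor
  · rcases le_total (mm S k o y) (k x) with h | h
    · rw [max_eq_right h] at h2
      linarith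
    · rw [max_eq_left h] at h2
      linarith
  · rcases le_total (mm S k o x) (k y) with h | h
    · rw [max_eq_right h] at h1
      linarith
    · rw [max_eq_left h] at h1
      linarith

/-- The complement of a component of the complement of a connected set is connected. -/
theorem conn_compl_comp (hS : Std S) {A : Set G} (hA : CConn S A) (o : G) :
    CConn S (comp S Aᶜ o)ᶜ := by
  rcases A.eq_empty_or_nonempty with h0 | ⟨a, ha⟩
  · subst h0
    have : comp S (∅ᶜ : Set G) o = Set.univ := by
      ext y
      simp only [Set.mem_univ, iff_true, Set.compl_empty]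
      exact ⟨trivial, conn_univ hS o trivial y trivial⟩
    rw [this]
    intro x hx
    exact absurd trivial hx
  · set K := comp S Aᶜ o with hK
    have hAK : A ⊆ Kᶜ := fun x hx hxK => hxK.1 hx
    -- every point of `Kᶜ` is connected to a point of `A`
    have key : ∀ z ∈ Kᶜ, ∃ a' ∈ A, ReflTransGen (adjIn S Kᶜ) z a' := by
      intro z hz
      have hpath := conn_univ hS z trivial a trivial
      have : ∀ w, ReflTransGen (adjIn S (Set.univ : Set G)) z w →
          (∃ a' ∈ A, ReflTransGen (adjIn S Kᶜ) z a') ∨
            (w ∈ Kᶜ ∧ ReflTransGen (adjIn S Kᶜ) z w) := by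
        intro w hw
        induction hw with
        | refl => exact Or.inr ⟨hz, ReflTransGen.refl⟩
        | @tail b c _ hbc ih =>
            rcases ih with h | ⟨hb, hr⟩
            · exact Or.inl h
            · by_cases hbA : b ∈ A
              · exact Or.inl ⟨b, hbA, hr⟩
              · have hcK : c ∈ Kᶜ := by
                  intro hc
                  exact hb ((isPiece_comp o).2 c b hc hbA (symm hS hbc.2.2))
                exact Or.inr ⟨hcK, hr.tail ⟨hb, hcK, hbc.2.2⟩⟩
      rcases this a hpath with h | ⟨h, hr⟩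
      · exact h
      · exact ⟨a, ha, hr⟩
    intro x hx y hy
    obtain ⟨a1, ha1, h1⟩ := key x hx
    obtain ⟨a2, ha2, h2⟩ := key y hy
    exact (h1.trans (rtg_adjIn_mono hAK (hA a1 ha1 a2 ha2))).trans (rtg_adjIn_symm hS h2)

/-- Minimum principle: an infinite component of a sublevel set. -/
theorem infinite_comp (hS : Std S) (hinf : Infinite G) {h : G → ℝ}
    (hh : ∀ x, Pop S h x = h x) (x0 : G) : (comp S {y | h y ≤ h x0} x0).Infinite := by
  intro hfin
  set Y := comp S {y | h y ≤ h x0} x0 with hY
  have hx0 : x0 ∈ Y := ⟨show h x0 ≤ h x0 from le_refl _, ReflTransGen.refl⟩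
  obtain ⟨x, hxY, hmin⟩ := Set.exists_min_image Y h hfin ⟨x0, hx0⟩
  -- all neighbours of a minimum point are minimum points in `Y`
  have step : ∀ z ∈ Y, h z = h x → ∀ w, Adj S z w → w ∈ Y ∧ h w = h x := by
    intro z hz hzx w hzw
    have hall : ∀ s ∈ S, h z ≤ h (z * s) := by
      intro s hs
      have hadj : Adj S z (z * s) := by simpa [Adj] using hs
      by_cases hle : h (z * s) ≤ h x0
      · have : z * s ∈ Y := (isPiece_comp x0).2 z (z * s) hz hle hadj
        rw [hzx]; exact hmin _ this
      · push Not at hle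
        have : h z ≤ h x0 := hz.1
        linarith
    have hsum : ∑ s ∈ S, (h (z * s) - h z) = 0 := by
      have h1 := hh z
      unfold Pop at h1
      have hcard : (0 : ℝ) < S.card := by
        have : 0 < S.card := Finset.card_pos.2 ⟨1, hS.one⟩
        exact_mod_cast this
      rw [div_eq_iff hcard.ne'] at h1
      rw [Finset.sum_sub_distrib, h1]
      simp [mul_comm]
    have hz0 := (Finset.sum_eq_zero_iff_of_nonneg (fun s hs => sub_nonneg.2 (hall s hs))).1 hsum
    have hw : h w - h z = 0 := by
      have := hz0 (z⁻¹ * w) hzw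
      simpa using this
    have hw' : h w = h x := by linarith
    refine ⟨(isPiece_comp x0).2 z w hz ?_ hzw, hw'⟩
    have : h x ≤ h x0 := hxY.1
    show h w ≤ h x0
    linarith
  have huniv : ∀ w : G, w ∈ Y ∧ h w = h x := by
    intro w
    have := conn_univ hS x trivial w trivial
    induction this with
    | refl => exact ⟨hxY, rfl⟩
    | @tail b c _ hbc ih => exact step b ih.1 ih.2 c hbc.2.2
  have : (Set.univ : Set G).Finite := hfin.subset (fun w _ => (huniv w).1)
  exact Set.infinite_univ this

theorem dir_of_lip {f g : G → ℝ} (hf : Dir S f)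
    (h : ∀ x y, Adj S x y → |g y - g x| ≤ |f y - f x|) : Dir S g := by
  unfold Dir at *
  refine Summable.of_nonneg_of_le (fun _ => sq_nonneg _) (fun p => ?_) hf
  exact sq_le_sq.2 (h _ _ (by simp [Adj]))

theorem exists_cls (hS : TopHyp S) (hinf : Infinite G) {h : G → ℝ} (hd : Dir S h)
    (hh : ∀ x, Pop S h x = h x) {x0 y0 : G} (hlt : h x0 < h y0) :
    ∃ f, ClsS S f ∧ ∃ a b : ℝ, a < b ∧ {x | f x ≤ a}.Infinite ∧ {x | b ≤ f x}.Infinite := by
  classical
  have hStd := hS.toStd
  have := countable_of_std hStd
  set f1 : G → ℝ := mm S h x0 with hf1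
  set g2 : G → ℝ := mm S (fun y => - f1 y) y0 with hg2
  set f2 : G → ℝ := fun x => - g2 x with hf2
  have hlip2 : ∀ x y, Adj S x y → |f2 y - f2 x| ≤ |h y - h x| := by
    intro x y hxy
    have h1 := mm_lip hStd (fun y => - f1 y) y0 hxy
    have h2 := mm_lip hStd h x0 hxy
    have e1 : |f2 y - f2 x| = |mm S (fun y => - f1 y) y0 y - mm S (fun y => - f1 y) y0 x| := by
      simp only [hf2, hg2]
      rw [← abs_neg]; congr 1; ring
    have e2 : |(fun y => - f1 y) y - (fun y => - f1 y) x| = |f1 y - f1 x| := by
      rw [← abs_neg]; congr 1; simp only; ring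
    rw [e1]
    refine h1.trans ?_
    rw [e2]
    exact h2
  have hf2_le : ∀ x, f2 x ≤ f1 x := by
    intro x
    have := le_mm hStd (fun y => - f1 y) y0 x
    simp only [hf2, hg2]
    linarith
  -- small on an infinite set
  have hsmall : ∀ x ∈ comp S {y | h y ≤ h x0} x0, f2 x ≤ h x0 := by
    intro x hx
    exact (hf2_le x).trans (mm_le h x0 x hx)
  have hbig : ∀ x ∈ comp S {y | (fun y => - h y) y ≤ (fun y => - h y) y0} y0, h y0 ≤ f2 x := by
    intro x hx
    have hsub : {y | (fun y => - h y) y ≤ (fun y => - h y) y0} ⊆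
        {y | (fun y => - f1 y) y ≤ - h y0} := by
      intro y hy
      have h1 : h y ≤ f1 y := le_mm hStd h x0 y
      have h2 : - h y ≤ - h y0 := hy
      show - f1 y ≤ - h y0
      linarith
    have := mm_le (fun y => - f1 y) y0 x (comp_mono hsub y0 hx)
    simp only [hf2, hg2]
    linarith
  have hinf1 := infinite_comp hStd hinf hh x0
  have hinf2 := infinite_comp (h := fun y => - h y) hStd hinf (by
    intro x
    have := hh x
    unfold Pop at this ⊢
    rw [Finset.sum_neg_distrib, neg_div, this]) y0
  -- the truncated function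
  set a := h x0
  set b := h y0
  set φ : G → ℝ := fun x => max a (min (f2 x) b) with hφ
  have hcomp : ∀ t : ℝ, t ∉ Set.range f1 → t ∉ Set.range f2 → FinC S {x | f2 x < t} := by
    intro t ht1 ht2
    have e1 : {x | f1 x < t} = comp S {y | h y < t} x0 := by
      ext x; exact mm_lt_iff hStd h x0 x t
    have e2 : {x | f1 x < t}ᶜ = {x | - f1 x < - t} := by
      ext x
      simp only [Set.mem_compl_iff, Set.mem_ofPred_eq, not_lt, neg_lt_neg_iff]
      constructor
      · intro h; exact lt_of_le_of_ne h (fun e => ht1 ⟨x, e.symm⟩)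
      · intro h; exact h.le
    have e3 : {x | f2 x < t}ᶜ = comp S {x | f1 x < t}ᶜ y0 := by
      rw [e2]
      ext x
      rw [← mm_lt_iff hStd (fun y => - f1 y) y0 x (-t)]
      simp only [Set.mem_compl_iff, Set.mem_ofPred_eq, not_lt, hf2, hg2]
      constructor
      · intro h
        refine lt_of_le_of_ne (by linarith) (fun e => ht2 ⟨x, ?_⟩)
        simp only [hf2, hg2]; linarith
      · intro h; linarith
    have c1 : CConn S {x | f1 x < t} := by rw [e1]; exact conn_comp hStd x0
    have c2 : CConn S {x | f2 x < t}ᶜ := by rw [e3]; exact conn_comp hStd y0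
    have c3 : CConn S {x | f2 x < t} := by
      have : {x | f2 x < t} = (comp S {x | f1 x < t}ᶜ y0)ᶜ := by rw [← e3, compl_compl]
      rw [this]
      exact conn_compl_comp hStd c1 y0
    exact finC_of_conn hS (conn_iff.2 c3) (conn_iff.2 c2)
  have hφfin : ∀ t : ℝ, t ∉ Set.range f1 → t ∉ Set.range f2 → FinC S {x | φ x < t} := by
    intro t ht1 ht2
    by_cases hta : t ≤ a
    · have : {x | φ x < t} = ∅ := by
        ext x
        simp only [Set.mem_ofPred_eq, Set.mem_empty_iff_false, iff_false, not_lt, hφ]
        exact hta.trans (le_max_left _ _)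
      rw [this]
      refine finC_of_finite hStd ?_
      have : bd S (∅ : Set G) = ∅ := by ext e; simp [bd]
      rw [this]; exact Set.finite_empty
    · push Not at hta
      by_cases htb : b < t
      · have : {x | φ x < t} = Set.univ := by
          ext x
          simp only [Set.mem_ofPred_eq, Set.mem_univ, iff_true, hφ]
          exact max_lt hta (lt_of_le_of_lt (min_le_right _ _) htb)
        rw [this]
        refine finC_of_finite hStd ?_
        have : bd S (Set.univ : Set G) = ∅ := by ext e; simp [bd]
        rw [this]; exact Set.finite_empty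
      · push Not at htb
        have : {x | φ x < t} = {x | f2 x < t} := by
          ext x
          simp only [Set.mem_ofPred_eq, hφ, max_lt_iff, min_lt_iff]
          constructor
          · rintro ⟨_, h | h⟩
            · exact h
            · exact absurd h (not_lt.2 htb)
          · intro h; exact ⟨hta, Or.inl h⟩
        rw [this]; exact hcomp t ht1 ht2
  refine ⟨φ, ⟨?_, ⟨max |a| |b|, ?_⟩, ?_⟩, a, b, hlt, ?_, ?_⟩
  · -- Dirichlet
    refine dir_of_lip hd (fun x y hxy => ?_)
    refine le_trans ?_ (hlip2 x y hxy)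
    simp only [hφ]
    have h1 : |max a (min (f2 y) b) - max a (min (f2 x) b)| ≤ |min (f2 y) b - min (f2 x) b| :=
      by rw [max_comm a, max_comm a]; exact abs_max_sub_max_le_abs _ _ _
    refine h1.trans ?_
    rw [min_def, min_def]; split_ifs <;> rw [abs_le] <;> constructor <;>
      first
      | (have := neg_abs_le (f2 y - f2 x); linarith [le_abs_self (f2 y - f2 x), abs_nonneg (f2 y - f2 x)])
  · intro x
    rw [abs_le]
    have h1 : a ≤ φ x := le_max_left _ _
    have h2 : φ x ≤ b := max_le hlt.le (min_le_right _ _)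
    constructor
    · have := neg_abs_le a
      have := le_max_left |a| |b|
      linarith
    · have := le_abs_self b
      have := le_max_right |a| |b|
      linarith
  · have hc : (Set.range f1 ∪ Set.range f2).Countable :=
      (Set.countable_range f1).union (Set.countable_range f2)
    filter_upwards [hc.ae_notMem volume] with t ht
    exact hφfin t (fun h => ht (Or.inl h)) (fun h => ht (Or.inr h))
  · refine hinf1.mono (fun x hx => ?_)
    have := hsmall x hx
    show φ x ≤ a
    simp only [hφ]
    exact max_le le_rfl ((min_le_left _ _).trans this)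
  · refine hinf2.mono (fun x hx => ?_)
    have := hbig x hx
    show b ≤ φ x
    simp only [hφ]
    exact le_max_of_le_right (le_min this le_rfl)

/-- Node N4. -/
theorem nMono (hD : NDecomp) : NMono := by
  intro G _ S hS hN hinf ⟨f, hf, hnc⟩
  obtain ⟨f0, h, hsum, hf0, hh, hd, _⟩ := hD G S hS.toStd hN hinf f hf
  by_cases hconst : ∃ x y, h x < h y
  · obtain ⟨x0, y0, hlt⟩ := hconst
    exact exists_cls hS hinf hd hh hlt
  · exfalso
    push Not at hconst
    apply hnc
    refine ⟨h 1, ?_⟩
    have : (fun x => (f x - h 1) ^ 2) = fun x => f0 x ^ 2 := by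
      funext x
      have e : h x = h 1 := le_antisymm (hconst 1 x) (hconst x 1)
      rw [hsum x, e]; ring
    rw [this]; exact hf0

end Crest.Agent.R224.Mono
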