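import Crest.Agent.R224.Iface
import Crest.Agent.R224.FinC
import Crest.Agent.R224.Mono

/-!
Row 224 (helper912): the countable family of `ClsS` functions closed under translation, negation,
generic max and component functions (input of the compactification).
-/

set_option autoImplicit false

noncomputable section

namespace Crest.Agent.R224.Fam

open Relation MeasureTheory Set Crest.Agent.R224.FC

/-! ### countable closure -/

theorem exists_countable_closed {α : Type*} (P : α → Prop) (Φ : α → α → Set α)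
    (hc : ∀ a b, (Φ a b).Countable) (hP : ∀ a b, ∀ c ∈ Φ a b, P c)
    (A0 : Set α) (hA0 : A0.Countable) (hA0P : ∀ a ∈ A0, P a) :
    ∃ A : Set α, A.Countable ∧ A0 ⊆ A ∧ (∀ a ∈ A, P a) ∧ ∀ a ∈ A, ∀ b ∈ A, Φ a b ⊆ A := by
  let R : ℕ → Set α := fun n => Nat.rec A0 (fun _ B => B ∪ ⋃ a ∈ B, ⋃ b ∈ B, Φ a b) n
  have hRs : ∀ n, R (n + 1) = R n ∪ ⋃ a ∈ R n, ⋃ b ∈ R n, Φ a b := fun n => rfl
  have hmono : Monotone R := monotone_nat_of_le_succ (fun n => by
    rw [hRs]; exact Set.subset_union_left)
  have hcount : ∀ n, (R n).Countable := by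
    intro n
    induction n with
    | zero => exact hA0
    | succ n ih =>
        rw [hRs]
        exact ih.union (ih.biUnion fun a _ => ih.biUnion fun b _ => hc a b)
  have hPn : ∀ n, ∀ a ∈ R n, P a := by
    intro n
    induction n with
    | zero => exact hA0P
    | succ n ih =>
        rw [hRs]
        rintro a (ha | ha)
        · exact ih a ha
        · simp only [Set.mem_iUnion] at ha
          obtain ⟨b, _, c, _, h⟩ := ha
          exact hP b c a h
  refine ⟨⋃ n, R n, Set.countable_iUnion hcount, Set.subset_iUnion R 0, ?_, ?_⟩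
  · intro a ha
    obtain ⟨n, hn⟩ := Set.mem_iUnion.1 ha
    exact hPn n a hn
  · intro a ha b hb c hc
    obtain ⟨n, hn⟩ := Set.mem_iUnion.1 ha
    obtain ⟨m, hm⟩ := Set.mem_iUnion.1 hb
    refine Set.mem_iUnion.2 ⟨max n m + 1, ?_⟩
    rw [hRs]
    right
    simp only [Set.mem_iUnion]
    exact ⟨a, hmono (le_max_left n m) hn, b, hmono (le_max_right n m) hm, hc⟩

variable {G : Type} [Group G] {S : Finset G}

/-! ### translations -/

theorem bd_translate (A : Set G) (γ : G) (e : G × G) :
    e ∈ bd S {x | γ * x ∈ A} ↔ (γ * e.1, γ * e.2) ∈ bd S A := by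
  simp only [bd, Set.mem_ofPred_eq, adj_smul]

theorem finC_translate {A : Set G} (γ : G) (h : FinC S A) : FinC S {x | γ * x ∈ A} := by
  obtain ⟨F, hF, hFs, h⟩ := h
  refine ⟨(fun e : G × G => (γ⁻¹ * e.1, γ⁻¹ * e.2)) '' F, hF.image _, ?_, ?_⟩
  · rintro _ ⟨e, he, rfl⟩
    rw [bd_translate]
    simpa using hFs he
  · intro p hp
    rw [bd_translate] at hp
    obtain ⟨q, hq, hr⟩ := h _ hp
    refine ⟨(γ⁻¹ * q.1, γ⁻¹ * q.2), ⟨q, hq, rfl⟩, ?_⟩
    have := rtg_map (s := fun a b => tstep S a b ∧ a ∈ bd S {x | γ * x ∈ A} ∧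
      b ∈ bd S {x | γ * x ∈ A}) (fun e : G × G => (γ⁻¹ * e.1, γ⁻¹ * e.2)) (fun a b hab => ?_) hr
    · simpa using this
    · obtain ⟨h1, h2, h3⟩ := hab
      refine ⟨?_, ?_, ?_⟩
      · rcases h1 with ⟨h1, h4⟩ | ⟨h1, h4⟩
        · exact Or.inl ⟨by simp [h1], adj_smul _ |>.2 h4⟩
        · exact Or.inr ⟨by simp [h1], adj_smul _ |>.2 h4⟩
      · rw [bd_translate]; simpa using h2
      · rw [bd_translate]; simpa using h3

theorem dir_translate {f : G → ℝ} (γ : G) (h : Dir S f) : Dir S (fun x => f (γ * x)) := by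
  unfold Dir at *
  have := (Equiv.prodCongr (Equiv.mulLeft γ) (Equiv.refl S)).summable_iff.2 h
  refine this.congr (fun p => ?_)
  simp [Function.comp, mul_assoc]

theorem dir_neg {f : G → ℝ} (h : Dir S f) : Dir S (fun x => - f x) := by
  unfold Dir at *
  refine h.congr (fun p => ?_)
  ring

theorem cls_translate {f : G → ℝ} (γ : G) (h : ClsS S f) : ClsS S (fun x => f (γ * x)) where
  dir := dir_translate γ h.dir
  bdd := by obtain ⟨C, hC⟩ := h.bdd; exact ⟨C, fun x => hC _⟩
  fin := by
    filter_upwards [h.fin] with t ht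
    exact finC_translate γ ht

theorem cls_neg (hS : Std S) {f : G → ℝ} (h : ClsS S f) : ClsS S (fun x => - f x) where
  dir := dir_neg h.dir
  bdd := by obtain ⟨C, hC⟩ := h.bdd; exact ⟨C, fun x => by simpa using hC x⟩
  fin := by
    have := Mono.countable_of_std hS
    have h1 : ∀ᵐ t : ℝ, FinC S {x | f x < -t} :=
      (Measure.measurePreserving_neg (volume : Measure ℝ)).quasiMeasurePreserving.ae h.fin
    have h2 : (Set.range (fun x => - f x)).Countable := Set.countable_range _
    filter_upwards [h1, h2.ae_notMem volume] with t ht ht2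
    have e : {x | - f x < t} = {x | f x < -t}ᶜ := by
      ext x
      simp only [Set.mem_ofPred_eq, Set.mem_compl_iff, not_lt]
      constructor
      · intro h; linarith
      · intro h
        refine lt_of_le_of_ne (by linarith) (fun e => ht2 ⟨x, e⟩)
    rw [e]
    exact finC_compl hS ht

theorem cls_of_finite_support (hS : Std S) {f : G → ℝ} (h : (Function.support f).Finite) :
    ClsS S f where
  dir := by
    classical
    unfold Dir
    refine summable_of_hasFiniteSupport ?_
    -- support inside a finite set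
    have hfin : ((fun p : G × S => p.1) ⁻¹' (Function.support f) ∪
        (fun p : G × S => p.1 * (p.2 : G)) ⁻¹' (Function.support f)).Finite := by
      refine Set.Finite.union ?_ ?_
      · refine Set.Finite.subset (h.prod (Set.finite_univ (α := S))) ?_
        intro p hp
        exact ⟨hp, trivial⟩
      · refine Set.Finite.subset ((h.prod (Set.finite_univ (α := S))).image
          (fun q : G × S => (q.1 * (q.2 : G)⁻¹, q.2))) ?_
        intro p hp
        exact ⟨(p.1 * (p.2 : G), p.2), ⟨hp, trivial⟩, by simp⟩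
    refine hfin.subset ?_
    intro p hp
    by_contra hcon
    simp only [Set.mem_union, Set.mem_preimage, Function.mem_support, not_or, not_not] at hcon
    apply hp
    simp [hcon.1, hcon.2]
  bdd := by
    obtain ⟨C, hC⟩ := (h.image (fun x => |f x|)).bddAbove
    refine ⟨max C 0, fun x => ?_⟩
    by_cases hx : f x = 0
    · rw [hx]; simp
    · exact le_max_of_le_left (hC ⟨x, hx, rfl⟩)
  fin := by
    refine Filter.Eventually.of_forall (fun t => finC_of_finite hS ?_)
    -- the wall consists of edges touching the support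
    have hfin : ((Function.support f) ×ˢ ((S : Set G))).Finite := h.prod S.finite_toSet
    refine Set.Finite.subset ((hfin.image (fun q : G × G => (q.1, q.1 * q.2))).union
      (hfin.image (fun q : G × G => (q.1 * q.2, q.1)))) ?_
    rintro ⟨a, b⟩ ⟨hab, ha, hb⟩
    simp only [Set.mem_ofPred_eq] at ha hb hab
    by_cases hfa : f a = 0
    · have hfb : f b ≠ 0 := by
        intro hfb
        rw [hfa] at ha; rw [hfb] at hb
        exact hb ha
      right
      exact ⟨(b, b⁻¹ * a), ⟨hfb, symm hS hab⟩, by simp⟩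
    · left
      exact ⟨(a, a⁻¹ * b), ⟨hfa, hab⟩, by simp⟩

/-! ### the closed family -/

/-- countable family of `ClsS`-functions closed under the operations of the note -/
structure ClFam (S : Finset G) (A : Set (G → ℝ)) : Prop where
  ctbl : A.Countable
  cls : ∀ f ∈ A, ClsS S f
  delta : ∀ x : G, Set.indicator ({x} : Set G) (fun _ => (1 : ℝ)) ∈ A
  neg : ∀ f ∈ A, (fun x => - f x) ∈ A
  trans : ∀ f ∈ A, ∀ γ : G, (fun x => f (γ * x)) ∈ A
  mx : ∀ f ∈ A, ∀ g ∈ A, ∀ p q : ℝ, p < q → ∃ s, p < s ∧ s < q ∧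
    (fun x => max (f x) (g x + s)) ∈ A
  cmp : ∀ f ∈ A, ∀ p q : ℝ, p < q → ∃ t, p < t ∧ t < q ∧ FinC S {x | f x < t} ∧
    ∀ o : G, Set.indicator (comp S {y | f y < t} o) (fun x => t - f x) ∈ A

open Classical in
/-- choice of shifts -/
def shift (S : Finset G) (f g : G → ℝ) (pq : ℚ × ℚ) : ℝ :=
  if h : ∃ s : ℝ, (pq.1 : ℝ) < s ∧ s < pq.2 ∧ ClsS S (fun x => max (f x) (g x + s)) then
    h.choose else 0

open Classical in
/-- choice of levels -/
def level (S : Finset G) (f : G → ℝ) (pq : ℚ × ℚ) : ℝ :=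
  if h : ∃ t : ℝ, (pq.1 : ℝ) < t ∧ t < pq.2 ∧ FinC S {x | f x < t} then
    h.choose else 0

/-- one step of the closure -/
def Φ (S : Finset G) (f g : G → ℝ) : Set (G → ℝ) :=
  {φ | ClsS S φ} ∩
    ({fun x => - f x} ∪ Set.range (fun γ : G => fun x => f (γ * x)) ∪
      Set.range (fun pq : ℚ × ℚ => fun x => max (f x) (g x + shift S f g pq)) ∪
      Set.range (fun q : (ℚ × ℚ) × G =>
        Set.indicator (comp S {y | f y < level S f q.1} q.2) (fun x => level S f q.1 - f x)))

theorem exists_mem_Ioo_of_ae {P : ℝ → Prop} (h : ∀ᵐ t : ℝ, P t) {p q : ℝ} (hpq : p < q) :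
    ∃ t, p < t ∧ t < q ∧ P t := by
  by_contra hcon
  push Not at hcon
  have hsub : Set.Ioo p q ⊆ {t | ¬ P t} := fun t ht => hcon t ht.1 ht.2
  have h0 : volume {t | ¬ P t} = 0 := h
  have h1 : volume (Set.Ioo p q) = 0 := measure_mono_null hsub h0
  rw [Real.volume_Ioo, ENNReal.ofReal_eq_zero] at h1
  linarith

theorem exists_family (hT : TopHyp S) (hinf : Infinite G) (hMax : NMax) (hComp : NComp)
    (A0 : Set (G → ℝ)) (hA0 : A0.Countable) (hA0c : ∀ f ∈ A0, ClsS S f) :
    ∃ A : Set (G → ℝ), ClFam S A ∧ A0 ⊆ A := by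
  classical
  have hS := hT.toStd
  have hctb := Mono.countable_of_std hS
  obtain ⟨A, hAc, hA0A, hAP, hAcl⟩ := exists_countable_closed (ClsS S) (Φ S)
    (fun f g => by
      refine Set.Countable.mono Set.inter_subset_right ?_
      refine Set.Countable.union (Set.Countable.union (Set.Countable.union ?_ ?_) ?_) ?_
      · exact Set.countable_singleton _
      · exact Set.countable_range _
      · exact Set.countable_range _
      · exact Set.countable_range _)
    (fun f g c hc => hc.1)
    (A0 ∪ Set.range (fun x : G => Set.indicator ({x} : Set G) (fun _ => (1 : ℝ))))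
    (hA0.union (Set.countable_range _)) (by
      rintro f (hf | ⟨x, rfl⟩)
      · exact hA0c f hf
      · refine cls_of_finite_support hS ?_
        refine (Set.finite_singleton x).subset (fun y hy => ?_)
        by_contra hne
        exact hy (Set.indicator_of_notMem hne _))
  refine ⟨A, ⟨hAc, hAP, fun x => hA0A (Or.inr ⟨x, rfl⟩), ?_, ?_, ?_, ?_⟩,
    fun f hf => hA0A (Or.inl hf)⟩
  · intro f hf
    refine hAcl f hf f hf ⟨cls_neg hS (hAP f hf), ?_⟩
    exact Or.inl (Or.inl (Or.inl rfl))
  · intro f hf γ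
    refine hAcl f hf f hf ⟨cls_translate γ (hAP f hf), ?_⟩
    exact Or.inl (Or.inl (Or.inr ⟨γ, rfl⟩))
  · intro f hf g hg p q hpq
    obtain ⟨p', hp1, hp2⟩ := exists_rat_btwn hpq
    obtain ⟨q', hq1, hq2⟩ := exists_rat_btwn hp2
    have hex : ∃ s : ℝ, ((p' : ℚ) : ℝ) < s ∧ s < (q' : ℚ) ∧
        ClsS S (fun x => max (f x) (g x + s)) :=
      exists_mem_Ioo_of_ae (hMax G S hT hinf f g (hAP f hf) (hAP g hg)) hq1
    have hsh : shift S f g (p', q') = hex.choose := by
      unfold shift
      rw [dif_pos hex]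
    obtain ⟨h1, h2, h3⟩ := hex.choose_spec
    refine ⟨shift S f g (p', q'), ?_, ?_, ?_⟩
    · rw [hsh]; linarith
    · rw [hsh]; linarith
    · refine hAcl f hf g hg ⟨?_, Or.inl (Or.inr ⟨(p', q'), rfl⟩)⟩
      show ClsS S _
      rw [hsh]; exact h3
  · intro f hf p q hpq
    obtain ⟨p', hp1, hp2⟩ := exists_rat_btwn hpq
    obtain ⟨q', hq1, hq2⟩ := exists_rat_btwn hp2
    have hex : ∃ t : ℝ, ((p' : ℚ) : ℝ) < t ∧ t < (q' : ℚ) ∧ FinC S {x | f x < t} :=
      exists_mem_Ioo_of_ae (hAP f hf).fin hq1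
    have hsh : level S f (p', q') = hex.choose := by
      unfold level
      rw [dif_pos hex]
    obtain ⟨h1, h2, h3⟩ := hex.choose_spec
    refine ⟨level S f (p', q'), ?_, ?_, ?_, ?_⟩
    · rw [hsh]; linarith
    · rw [hsh]; linarith
    · rw [hsh]; exact h3
    · intro o
      refine hAcl f hf f hf ⟨?_, Or.inr ⟨((p', q'), o), rfl⟩⟩
      have h4 := hComp G S hT hinf f (hAP f hf) (level S f (p', q'))
        (comp S {y | f y < level S f (p', q')} o) (fun x hx => hx.1)
        (conn_iff.2 (conn_comp hS o)) (fun x hx y hxy hy => (isPiece_comp o).2 x y hx hy hxy)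
      show ClsS S _
      convert h4 using 1
      funext x
      simp only [Set.indicator_apply]

end Crest.Agent.R224.Fam
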