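/-
R224 / S0346, node NThmB : the filling lemma (helper630).
-/
import Crest.Agent.R224.Iface

set_option autoImplicit false
set_option linter.deprecated false

noncomputable section

open Set Filter Topology

namespace Crest.Agent.R224

variable {G : Type} [Group G]

/-- bad triangles of a cochain -/
def badC (S : Finset G) (ψ : G → G → ZMod 2) : Set (G × G × G) :=
  {p | Adj S p.1 p.2.1 ∧ Adj S p.2.1 p.2.2 ∧ Adj S p.1 p.2.2 ∧
      ψ p.1 p.2.1 + ψ p.2.1 p.2.2 ≠ ψ p.1 p.2.2}

/-- support of a cochain -/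
def suppC (S : Finset G) (ψ : G → G → ZMod 2) : Set (G × G) :=
  {p | Adj S p.1 p.2 ∧ ψ p.1 p.2 ≠ 0}

/-- filling lemma (helper630) -/
def Filling : Prop := ∀ (G : Type) [Group G] (S : Finset G), TopHyp S → ∀ K : ℕ,
  ∃ m : ℕ, ∃ B : Finset G, ∀ ψ : G → G → ZMod 2, (badC S ψ).Finite → (badC S ψ).ncard ≤ K →
    ∃ q : G → G → ZMod 2, badC S (fun x y => ψ x y + q x y) = ∅ ∧ (suppC S q).Finite ∧
      (suppC S q).ncard ≤ m ∧
      ∀ p ∈ suppC S q, ∃ t ∈ badC S ψ, t.1⁻¹ * p.1 ∈ B ∧ t.1⁻¹ * p.2 ∈ B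

/-- the cochain `ψ` has a filler of size `≤ m` within `B` of its bad triangles -/
def HasFill (S : Finset G) (m : ℕ) (B : Finset G) (ψ : G → G → ZMod 2) : Prop :=
  ∃ q : G → G → ZMod 2, badC S (fun x y => ψ x y + q x y) = ∅ ∧ (suppC S q).Finite ∧
      (suppC S q).ncard ≤ m ∧
      ∀ p ∈ suppC S q, ∃ t ∈ badC S ψ, t.1⁻¹ * p.1 ∈ B ∧ t.1⁻¹ * p.2 ∈ B

theorem adj_mul_left (S : Finset G) (g x y : G) : Adj S (g * x) (g * y) ↔ Adj S x y := by
  unfold Adj
  have : (g * x)⁻¹ * (g * y) = x⁻¹ * y := by group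
  rw [this]

theorem HasFill.mono {S : Finset G} {m m' : ℕ} {B B' : Finset G} {ψ : G → G → ZMod 2}
    (h : HasFill S m B ψ) (hm : m ≤ m') (hB : B ⊆ B') : HasFill S m' B' ψ := by
  obtain ⟨q, h1, h2, h3, h4⟩ := h
  refine ⟨q, h1, h2, h3.trans hm, fun p hp => ?_⟩
  obtain ⟨t, ht, h5, h6⟩ := h4 p hp
  exact ⟨t, ht, hB h5, hB h6⟩

/-- the diagonal translation -/
def trEquiv (g : G) : G × G × G ≃ G × G × G :=
  (Equiv.mulLeft g).prodCongr ((Equiv.mulLeft g).prodCongr (Equiv.mulLeft g))

def trEquiv2 (g : G) : G × G ≃ G × G :=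
  (Equiv.mulLeft g).prodCongr (Equiv.mulLeft g)

theorem badC_tr (S : Finset G) (g : G) (ψ : G → G → ZMod 2) :
    badC S (fun x y => ψ (g * x) (g * y)) = trEquiv g ⁻¹' badC S ψ := by
  ext ⟨x, y, z⟩
  simp only [badC, trEquiv, Set.mem_setOf_eq, Set.mem_preimage, Equiv.prodCongr_apply, Prod.map,
    Equiv.coe_mulLeft, adj_mul_left]

theorem suppC_tr (S : Finset G) (g : G) (ψ : G → G → ZMod 2) :
    suppC S (fun x y => ψ (g * x) (g * y)) = trEquiv2 g ⁻¹' suppC S ψ := by
  ext ⟨x, y⟩
  simp only [suppC, trEquiv2, Set.mem_setOf_eq, Set.mem_preimage, Equiv.prodCongr_apply, Prod.map,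
    Equiv.coe_mulLeft, adj_mul_left]

theorem ncard_preimage_equiv {α β : Type} (e : α ≃ β) (s : Set β) :
    (e ⁻¹' s).ncard = s.ncard := by
  rw [← Equiv.image_symm_eq_preimage]
  exact Set.ncard_image_of_injective s e.symm.injective

theorem finite_preimage_equiv {α β : Type} (e : α ≃ β) {s : Set β} (h : s.Finite) :
    (e ⁻¹' s).Finite := h.preimage e.injective.injOn

theorem HasFill.tr {S : Finset G} {m : ℕ} {B : Finset G} {ψ : G → G → ZMod 2} (g : G)
    (h : HasFill S m B (fun x y => ψ (g * x) (g * y))) : HasFill S m B ψ := by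
  obtain ⟨q, h1, h2, h3, h4⟩ := h
  refine ⟨fun x y => q (g⁻¹ * x) (g⁻¹ * y), ?_, ?_, ?_, ?_⟩
  · have : badC S (fun x y => ψ x y + q (g⁻¹ * x) (g⁻¹ * y)) =
        trEquiv g⁻¹ ⁻¹' badC S (fun x y => ψ (g * x) (g * y) + q x y) := by
      rw [← badC_tr]
      simp
    rw [this, h1]
    simp
  · rw [suppC_tr]
    exact finite_preimage_equiv _ h2
  · rw [suppC_tr, ncard_preimage_equiv]
    exact h3
  · intro p hp
    rw [suppC_tr] at hp
    obtain ⟨t, ht, h5, h6⟩ := h4 _ hp
    rw [badC_tr] at ht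
    refine ⟨trEquiv g t, ht, ?_, ?_⟩
    · convert h5 using 1
      simp only [trEquiv, trEquiv2, Equiv.prodCongr_apply, Prod.map, Equiv.coe_mulLeft]
      group
    · convert h6 using 1
      simp only [trEquiv, trEquiv2, Equiv.prodCongr_apply, Prod.map, Equiv.coe_mulLeft]
      group

theorem zmod2_cases (a : ZMod 2) : a = 0 ∨ a = 1 := by
  revert a; decide

theorem zmod2_self (a : ZMod 2) : a + a = 0 := by
  revert a; decide

theorem exists_lim {ι : Type} (ω : Ultrafilter ι) (f : ι → ZMod 2) :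
    ∃ c : ZMod 2, ∀ᶠ i in ω, f i = c := by
  by_cases h : ∀ᶠ i in ω, f i = 0
  · exact ⟨0, h⟩
  · refine ⟨1, ?_⟩
    have h' := (Ultrafilter.eventually_not (f := ω) (p := fun i => f i = 0)).2 h
    filter_upwards [h'] with i hi
    rcases zmod2_cases (f i) with h0 | h1
    · exact absurd h0 hi
    · exact h1

theorem filling : Filling := by
  intro G _ S hT K
  change ∃ m : ℕ, ∃ B : Finset G, ∀ ψ : G → G → ZMod 2, (badC S ψ).Finite →
    (badC S ψ).ncard ≤ K → HasFill S m B ψ
  classical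
  induction K with
  | zero =>
    refine ⟨0, ∅, fun ψ hf hc => ⟨fun _ _ => 0, ?_, ?_, ?_, ?_⟩⟩
    · have h0 : (badC S ψ).ncard = 0 := Nat.le_zero.1 hc
      rw [Set.ncard_eq_zero hf] at h0
      simpa using h0
    · simp [suppC]
    · simp [suppC]
    · intro p hp
      simp [suppC] at hp
  | succ K ih =>
    obtain ⟨m0, B0, ih⟩ := ih
    by_contra hcon
    push Not at hcon
    choose ψ hfin hcard hno using hcon
    -- index set
    let I := ℕ × Finset G
    have hne : (atTop : Filter I).NeBot := inferInstance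
    let ω : Ultrafilter I := Ultrafilter.of (atTop : Filter I)
    have hω : (ω : Filter I) ≤ atTop := Ultrafilter.of_le _
    -- a bad triangle
    have hex : ∀ i : I, ∃ t, t ∈ badC S (ψ i.1 i.2) := by
      intro i
      by_contra hemp
      push Not at hemp
      have he : badC S (ψ i.1 i.2) = ∅ := Set.eq_empty_of_forall_notMem hemp
      apply hno i.1 i.2
      refine ⟨fun _ _ => 0, ?_, ?_, ?_, ?_⟩
      · simpa using he
      · simp [suppC]
      · simp [suppC]
      · intro p hp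
        simp [suppC] at hp
    choose t ht using hex
    let φ : I → G → G → ZMod 2 := fun i x y => ψ i.1 i.2 ((t i).1 * x) ((t i).1 * y)
    have hφbad : ∀ i, badC S (φ i) = trEquiv (t i).1 ⁻¹' badC S (ψ i.1 i.2) :=
      fun i => badC_tr S _ _
    have hφfin : ∀ i, (badC S (φ i)).Finite := fun i => by
      rw [hφbad]; exact finite_preimage_equiv _ (hfin _ _)
    have hφcard : ∀ i, (badC S (φ i)).ncard ≤ K + 1 := fun i => by
      rw [hφbad, ncard_preimage_equiv]; exact hcard _ _
    have hφno : ∀ i, ¬ HasFill S i.1 i.2 (φ i) := fun i h => hno _ _ (h.tr (t i).1)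
    -- limit
    have hlim : ∀ x y, ∃ c : ZMod 2, ∀ᶠ i in ω, φ i x y = c := fun x y => exists_lim ω _
    choose ψl hψl using hlim
    have hbad : ∀ τ, τ ∈ badC S ψl ↔ ∀ᶠ i in ω, τ ∈ badC S (φ i) := by
      intro τ
      have h1 := hψl τ.1 τ.2.1
      have h2 := hψl τ.2.1 τ.2.2
      have h3 := hψl τ.1 τ.2.2
      constructor
      · intro h
        filter_upwards [h1, h2, h3] with i e1 e2 e3
        simp only [badC, Set.mem_setOf_eq] at h ⊢
        rw [e1, e2, e3]
        exact h
      · intro h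
        obtain ⟨i, hi, e1, e2, e3⟩ := (h.and (h1.and (h2.and h3))).exists
        simp only [badC, Set.mem_setOf_eq] at hi ⊢
        rw [e1, e2, e3] at hi
        exact hi
    have hblfin : (badC S ψl).Finite := by
      by_contra hinf
      obtain ⟨T, hT1, hT2⟩ := (Set.not_finite.1 hinf : (badC S ψl).Infinite).exists_subset_card_eq (K + 2)
      have : ∀ᶠ i in ω, ∀ τ ∈ T, τ ∈ badC S (φ i) := by
        rw [Filter.eventually_all_finset]
        intro τ hτ
        exact (hbad τ).1 (hT1 hτ)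
      obtain ⟨i, hi⟩ := this.exists
      have h1 : (T : Set (G × G × G)) ⊆ badC S (φ i) := fun τ hτ => hi τ hτ
      have h2 := Set.ncard_le_ncard h1 (hφfin i)
      rw [Set.ncard_coe_finset, hT2] at h2
      have := hφcard i
      omega
    -- the base triangle
    have hbase : ∃ τ ∈ badC S ψl, τ.1 = 1 := by
      have hfinite : (({(1:G)} : Set G) ×ˢ ((S : Set G) ×ˢ (S : Set G))).Finite :=
        (Set.finite_singleton _).prod (S.finite_toSet.prod S.finite_toSet)
      have hmem : ∀ i : I, trEquiv (t i).1⁻¹ (t i) ∈ (({(1:G)} : Set G) ×ˢ ((S : Set G) ×ˢ (S : Set G))) := by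
        intro i
        have hb := ht i
        simp only [badC, Set.mem_setOf_eq, Adj] at hb
        simp only [trEquiv, Equiv.prodCongr_apply, Prod.map, Equiv.coe_mulLeft, Set.mem_prod,
          Set.mem_singleton_iff, Finset.mem_coe]
        refine ⟨by group, hb.1, hb.2.2.1⟩
      have hbd : ∀ i : I, trEquiv (t i).1⁻¹ (t i) ∈ badC S (φ i) := by
        intro i
        rw [hφbad]
        simp only [Set.mem_preimage]
        have : trEquiv (t i).1 (trEquiv (t i).1⁻¹ (t i)) = t i := by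
          simp [trEquiv, Prod.map]
        rw [this]
        exact ht i
      have hev : ∀ᶠ i in ω, ∃ τ ∈ (({(1:G)} : Set G) ×ˢ ((S : Set G) ×ˢ (S : Set G))),
          τ = trEquiv (t i).1⁻¹ (t i) := Eventually.of_forall fun i => ⟨_, hmem i, rfl⟩
      rw [Ultrafilter.eventually_exists_mem_iff hfinite] at hev
      obtain ⟨τ, hτ, hτe⟩ := hev
      refine ⟨τ, (hbad τ).2 ?_, ?_⟩
      · filter_upwards [hτe] with i hi
        rw [hi]
        exact hbd i
      · exact hτ.1
    obtain ⟨τ0, hτ0, hτ01⟩ := hbase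
    -- t2
    obtain ⟨E, hE⟩ := hT.t2 ψl hblfin
    let q0 : G → G → ZMod 2 := fun x y => ψl x y + (E x + E y)
    have hq0s : suppC S q0 = {p : G × G | Adj S p.1 p.2 ∧ ψl p.1 p.2 ≠ E p.1 + E p.2} := by
      ext p
      simp only [suppC, Set.mem_setOf_eq, q0]
      have : ψl p.1 p.2 + (E p.1 + E p.2) ≠ 0 ↔ ψl p.1 p.2 ≠ E p.1 + E p.2 := by
        generalize ψl p.1 p.2 = a
        generalize E p.1 + E p.2 = b
        revert a b; decide
      rw [this]
    have hq0fin : (suppC S q0).Finite := by rw [hq0s]; exact hE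
    let Bq : Finset G := B0 ∪ hq0fin.toFinset.image Prod.fst ∪ hq0fin.toFinset.image Prod.snd
    -- eventually
    have hev1 : ∀ᶠ i in ω, ∀ τ ∈ hblfin.toFinset, τ ∈ badC S (φ i) := by
      rw [Filter.eventually_all_finset]
      intro τ hτ
      exact (hbad τ).1 (hblfin.mem_toFinset.1 hτ)
    have hev2 : ∀ᶠ i in ω, ((suppC S q0).ncard + m0, Bq) ≤ i := hω (eventually_ge_atTop _)
    obtain ⟨i, hi1, hi2⟩ := (hev1.and hev2).exists
    apply hφno i
    have hsub : badC S (fun x y => φ i x y + q0 x y) ⊆ badC S (φ i) \ {τ0} := by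
      intro τ hτ
      simp only [badC, Set.mem_setOf_eq, q0] at hτ
      obtain ⟨a1, a2, a3, a4⟩ := hτ
      have key : ¬ (τ ∈ badC S (φ i) ↔ τ ∈ badC S ψl) := by
        simp only [badC, Set.mem_setOf_eq]
        intro hiff
        apply a4
        have hiff' : (φ i τ.1 τ.2.1 + φ i τ.2.1 τ.2.2 ≠ φ i τ.1 τ.2.2) ↔
            (ψl τ.1 τ.2.1 + ψl τ.2.1 τ.2.2 ≠ ψl τ.1 τ.2.2) := by
          constructor
          · intro h; exact (hiff.1 ⟨a1, a2, a3, h⟩).2.2.2
          · intro h; exact (hiff.2 ⟨a1, a2, a3, h⟩).2.2.2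
        revert hiff'
        generalize φ i τ.1 τ.2.1 = a
        generalize φ i τ.2.1 τ.2.2 = b
        generalize φ i τ.1 τ.2.2 = c
        generalize ψl τ.1 τ.2.1 = a'
        generalize ψl τ.2.1 τ.2.2 = b'
        generalize ψl τ.1 τ.2.2 = c'
        generalize E τ.1 = e1
        generalize E τ.2.1 = e2
        generalize E τ.2.2 = e3
        revert a b c a' b' c' e1 e2 e3
        decide
      by_cases hl : τ ∈ badC S ψl
      · exfalso
        apply key
        exact ⟨fun _ => hl, fun _ => hi1 τ (hblfin.mem_toFinset.2 hl)⟩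
      · refine ⟨?_, ?_⟩
        · by_contra h'
          exact key ⟨fun h => absurd h h', fun h => absurd h hl⟩
        · intro h
          rw [Set.mem_singleton_iff] at h
          rw [h] at hl
          exact hl hτ0
    have hτ0i : τ0 ∈ badC S (φ i) := hi1 τ0 (hblfin.mem_toFinset.2 hτ0)
    have hcard' : (badC S (fun x y => φ i x y + q0 x y)).ncard ≤ K := by
      have h1 := Set.ncard_le_ncard hsub ((hφfin i).diff)
      have h2 := Set.ncard_diff_singleton_add_one hτ0i (hφfin i)
      have h3 := hφcard i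
      omega
    obtain ⟨q1, e1, e2, e3, e4⟩ := ih _ ((hφfin i).subset (hsub.trans Set.diff_subset)) hcard'
    have hsupp : suppC S (fun x y => q0 x y + q1 x y) ⊆ suppC S q0 ∪ suppC S q1 := by
      intro p hp
      simp only [suppC, Set.mem_setOf_eq, Set.mem_union] at hp ⊢
      by_cases h0 : q0 p.1 p.2 = 0
      · right
        refine ⟨hp.1, fun h1 => hp.2 (by rw [h0, h1, add_zero])⟩
      · left
        exact ⟨hp.1, h0⟩
    refine ⟨fun x y => q0 x y + q1 x y, ?_, ?_, ?_, ?_⟩
    · have : (fun x y => φ i x y + (q0 x y + q1 x y)) = fun x y => (φ i x y + q0 x y) + q1 x y := by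
        funext x y; ring
      rw [this]
      exact e1
    · exact (hq0fin.union e2).subset hsupp
    · calc (suppC S (fun x y => q0 x y + q1 x y)).ncard ≤ (suppC S q0 ∪ suppC S q1).ncard :=
            Set.ncard_le_ncard hsupp (hq0fin.union e2)
        _ ≤ (suppC S q0).ncard + (suppC S q1).ncard := Set.ncard_union_le _ _
        _ ≤ (suppC S q0).ncard + m0 := by omega
        _ ≤ i.1 := hi2.1
    · intro p hp
      rcases hsupp hp with h | h
      · refine ⟨τ0, hτ0i, hi2.2 ?_, hi2.2 ?_⟩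
        · rw [hτ01]
          simp only [inv_one, one_mul, Bq, Finset.mem_union, Finset.mem_image]
          exact Or.inl (Or.inr ⟨p, hq0fin.mem_toFinset.2 h, rfl⟩)
        · rw [hτ01]
          simp only [inv_one, one_mul, Bq, Finset.mem_union, Finset.mem_image]
          exact Or.inr ⟨p, hq0fin.mem_toFinset.2 h, rfl⟩
      · obtain ⟨τ, hτ, h5, h6⟩ := e4 p h
        refine ⟨τ, (hsub hτ).1, hi2.2 ?_, hi2.2 ?_⟩
        · simp only [Bq, Finset.mem_union]
          exact Or.inl (Or.inl h5)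
        · simp only [Bq, Finset.mem_union]
          exact Or.inl (Or.inl h6)

end Crest.Agent.R224
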