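/- R224 / S0346 : node NFinal (helper276). -/
import Crest.Agent.R224.FinalBase
import Crest.Agent.R224.DBas
import Crest.Agent.R224.Side

set_option autoImplicit false

noncomputable section

open MeasureTheory Set Filter Topology

namespace Crest.Agent.R224

namespace Fin276

variable {s : Sys} {a b : s.Z}

theorem c0_pos (s : Sys) : 0 < s.c0 := by
  have := s.card_pos
  unfold Sys.c0
  positivity

theorem Part_symm {K U V : Set s.Z} (P : Part s a b K U V) : Part s a b K V U :=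
  ⟨P.cl, P.sub, P.nocut, P.null, P.roV, P.roU, P.dis.symm, by rw [Set.union_comm]; exact P.un⟩

theorem Part_ro (hR : NRetr s) (hu : Unsep s.ι a b) {K U V : Set s.Z} (P : Part s a b K U V) :
    RO s.ι (sat s.ι a b U) := by
  obtain ⟨O, hO, hOU⟩ := P.roU
  rw [← hOU]
  exact hR a b hu O hO

theorem sat_diff_meas (hR : NRetr s) (hu : Unsep s.ι a b) {U : Set s.Z} (hU : ROB s a b U)
    (p : s.Z) : MeasurableSet (sat s.ι a b (U \ {p})) := by
  obtain ⟨O, hO, hOU⟩ := hU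
  have : U \ {p} = (O ∩ {p}ᶜ) ∩ Blk s.ι a b := by
    rw [← hOU]; ext z; simp only [Set.mem_sdiff, mem_inter_iff, mem_singleton_iff, mem_compl_iff]; tauto
  rw [this]
  exact (hR a b hu (O ∩ {p}ᶜ) (hO.inter isOpen_compl_singleton)).meas

/-- Fact A -/
theorem factA (hP : NPart s) (hR : NRetr s) (hu : Unsep s.ι a b) {K U V : Set s.Z}
    (P : Part s a b K U V) {δ : ℝ} (hδ : 0 < δ) (ζ : s.Z) {r : ℝ} (hK : ∀ z ∈ K, dist z ζ < r) :
    {x | x ∈ XB s.ι s.ν a b s.c0 ∧ s.WB a b δ U V x ∧ r ≤ dist (s.ι x) ζ}.Finite := by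
  by_contra hinf
  have hinf' : {x | x ∈ XB s.ι s.ν a b s.c0 ∧ s.WB a b δ U V x ∧ r ≤ dist (s.ι x) ζ}.Infinite :=
    hinf
  let x := hinf'.natEmbedding
  obtain ⟨τ, hτ, φ, hφ, hlim⟩ := s.subseq_T (fun n => (x n : s.G)) (by
    intro g
    refine Set.Subsingleton.finite ?_
    intro m hm n hn
    apply x.injective
    apply Subtype.ext
    exact (show (x m : s.G) = g from hm).trans (show (x n : s.G) = g from hn).symm)
  have h1 : r ≤ dist τ ζ :=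
    ge_of_tendsto (hlim.dist tendsto_const_nhds) (Eventually.of_forall fun n => (x (φ n)).2.2.2)
  rcases P.cover hP hu hτ with h | h | h
  · obtain ⟨ρ, hρ, hc⟩ := SideAux.conc_near s (Part_ro hR hu P) h (sat_disj hP hu P.dis)
      sat_sub_T hδ
    obtain ⟨n, hn⟩ := (Metric.tendsto_nhds.1 hlim ρ hρ).exists
    have h2 := hc _ hn
    have h3 := ((x (φ n)).2.2.1 ζ).2
    have h4 := s.hh_mono (sat_mono (s := s) (a := a) (b := b) (Set.sdiff_subset (s := V) (t := {ζ})))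
      (x (φ n) : s.G)
    linarith
  · obtain ⟨ρ, hρ, hc⟩ := SideAux.conc_near s (Part_ro hR hu (Part_symm P)) h
      (sat_disj hP hu P.dis.symm) sat_sub_T hδ
    obtain ⟨n, hn⟩ := (Metric.tendsto_nhds.1 hlim ρ hρ).exists
    have h2 := hc _ hn
    have h3 := ((x (φ n)).2.2.1 ζ).1
    have h4 := s.hh_mono (sat_mono (s := s) (a := a) (b := b) (Set.sdiff_subset (s := U) (t := {ζ})))
      (x (φ n) : s.G)
    linarith
  · exact absurd (hK τ h) (not_lt.2 h1)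

theorem exists_D (hP : NPart s) (hu : Unsep s.ι a b) (k : s.Z) :
    ∃ D : Set s.Z, RO s.ι D ∧ (∀ A : Set s.Z, k ∉ A → Disjoint (sat s.ι a b A) D) ∧
      ∀ θ ∈ T s.ι, θ ≠ k → θ ∉ D →
        ∃ u ∈ Blk s.ι a b, u ≠ k ∧ ∀ A, θ ∈ sat s.ι a b A ↔ u ∈ A := by
  by_cases hc : IsCut s.ι k ∧ k ∈ Blk s.ι a b
  · refine ⟨Dn s.ι a b k, ((hP a b hu).2.2.2.1 k hc.1 hc.2).1.ro, ?_, ?_⟩
    · intro A hA
      rw [Set.disjoint_right]
      intro z hz hz'
      exact hA ((mem_sat_Dn hP hu hc.1 hc.2 hz).1 hz')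
    · intro θ hθ hne hD
      rcases (hP a b hu).2.2.2.2.2 θ hθ with h | ⟨η, h1, h2, h3⟩
      · exact ⟨θ, h, hne, fun A => mem_sat_blk hP hu h⟩
      · refine ⟨η, h2, ?_, fun A => mem_sat_Dn hP hu h1 h2 h3⟩
        rintro rfl
        exact hD h3
  · refine ⟨∅, ⟨∅, isOpen_empty, by simp⟩, fun A _ => Set.disjoint_empty _, ?_⟩
    intro θ hθ hne _
    rcases (hP a b hu).2.2.2.2.2 θ hθ with h | ⟨η, h1, h2, h3⟩
    · exact ⟨θ, h, hne, fun A => mem_sat_blk hP hu h⟩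
    · refine ⟨η, h2, ?_, fun A => mem_sat_Dn hP hu h1 h2 h3⟩
      rintro rfl
      exact hc ⟨h1, h2⟩

theorem small_ball (y : s.G) (k : s.Z) {δ : ℝ} (hδ : 0 < δ) :
    ∃ ρ : ℝ, 0 < ρ ∧ (s.ν y).real (Metric.ball k ρ) < δ := by
  have h0 : s.ν y {k} = 0 := s.harm.atomless y k
  obtain ⟨O, hkO, hO, hlt⟩ := Set.exists_isOpen_lt_of_lt (μ := s.ν y) {k} (ENNReal.ofReal δ)
    (by rw [h0]; exact ENNReal.ofReal_pos.2 hδ)
  obtain ⟨ρ, hρ, hb⟩ := Metric.isOpen_iff.1 hO k (hkO rfl)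
  refine ⟨ρ, hρ, ?_⟩
  have : (s.ν y) (Metric.ball k ρ) < ENNReal.ofReal δ := (measure_mono hb).trans_lt hlt
  exact (ENNReal.toReal_lt_of_lt_ofReal this)

theorem meets (hP : NPart s) (hu : Unsep s.ι a b) {K U V : ℕ → Set s.Z}
    (hPt : ∀ n, Part s a b (K n) (U n) (V n)) {k : s.Z} (l : Ultrafilter ℕ)
    (hloc : ∀ θ ∈ T s.ι, θ ≠ k → ∃ r : ℝ, 0 < r ∧
      ((∀ᶠ n in (l : Filter ℕ), ∀ z ∈ T s.ι, dist z θ < r → z ≠ k → z ∈ sat s.ι a b (U n)) ∨
       (∀ᶠ n in (l : Filter ℕ), ∀ z ∈ T s.ι, dist z θ < r → z ≠ k → z ∈ sat s.ι a b (V n))))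
    {δ : ℝ} (hδ : 0 < δ) {y : s.G}
    (hy : ∀ᶠ n in (l : Filter ℕ), δ ≤ hh s.ν (sat s.ι a b (U n \ {k})) y) :
    ∃ θ ∈ Blk s.ι a b, θ ∈ SideL s a b k l U := by
  by_contra hcon
  push Not at hcon
  obtain ⟨D, hD1, hD2, hD3⟩ := exists_D hP hu k
  obtain ⟨ρ, hρ, hρ'⟩ := small_ball y k hδ
  have loc : ∀ θ ∈ T s.ι, θ ≠ k → θ ∉ D → ∃ r : ℝ, 0 < r ∧
      ∀ᶠ n in (l : Filter ℕ), ∀ z ∈ T s.ι, dist z θ < r → z ≠ k → z ∈ sat s.ι a b (V n) := by
    intro θ h1 h2 h3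
    obtain ⟨r, hr, h | h⟩ := hloc θ h1 h2
    · exfalso
      obtain ⟨u, hu1, hu2, hu3⟩ := hD3 θ h1 h2 h3
      refine hcon u hu1 ⟨Blk_sub_T hu1, hu2, ?_⟩
      filter_upwards [h] with n hn
      have := hn θ h1 (by rwa [dist_self]) h2
      rw [hu3] at this
      exact (mem_sat_blk hP hu hu1).2 this
    · exact ⟨r, hr, h⟩
  have hC : IsCompact {z | z ∈ T s.ι ∧ ρ ≤ dist z k ∧ z ∉ D} := by
    apply IsClosed.isCompact
    obtain ⟨O, hO, hOD⟩ := hD1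
    have : {z | z ∈ T s.ι ∧ ρ ≤ dist z k ∧ z ∉ D} = T s.ι ∩ {z | ρ ≤ dist z k} ∩ Oᶜ := by
      rw [← hOD]
      ext z
      simp only [mem_inter_iff, mem_compl_iff, mem_ofPred_eq]
      tauto
    rw [this]
    exact (s.isClosed_T.inter (isClosed_le continuous_const
      (continuous_id.dist continuous_const))).inter hO.isClosed_compl
  have hCe : ∀ᶠ n in (l : Filter ℕ), ∀ z ∈ {z | z ∈ T s.ι ∧ ρ ≤ dist z k ∧ z ∉ D},
      z ∈ sat s.ι a b (V n) := by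
    refine hC.induction_on (p := fun A => ∀ᶠ n in (l : Filter ℕ), ∀ z ∈ A, z ∈ sat s.ι a b (V n))
      ?_ ?_ ?_ ?_
    · exact Eventually.of_forall fun n z hz => absurd hz (Set.notMem_empty z)
    · intro A B hAB hB
      exact hB.mono fun n hn z hz => hn z (hAB hz)
    · intro A B hA hB
      filter_upwards [hA, hB] with n h1 h2 z hz
      exact hz.elim (h1 z) (h2 z)
    · rintro θ ⟨h1, h2, h3⟩
      have hne : θ ≠ k := by
        rintro rfl
        rw [dist_self] at h2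
        linarith
      obtain ⟨r, hr, h⟩ := loc θ h1 hne h3
      refine ⟨_, inter_mem_nhdsWithin _ (Metric.ball_mem_nhds θ hr), ?_⟩
      filter_upwards [h] with n hn z hz
      refine hn z hz.1.1 hz.2 ?_
      rintro rfl
      have := hz.1.2.1
      rw [dist_self] at this
      linarith
  obtain ⟨n, hn1, hn2⟩ := (hy.and hCe).exists
  have hsub : sat s.ι a b (U n \ {k}) ⊆ Metric.ball k ρ := by
    intro z hz
    by_contra hzb
    have hzT : z ∈ T s.ι := sat_sub_T hz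
    have hzD : z ∉ D := Set.disjoint_left.1 (hD2 (U n \ {k}) (fun h => h.2 rfl)) hz
    have h1 : z ∈ sat s.ι a b (V n) := hn2 z ⟨hzT, not_lt.1 hzb, hzD⟩
    exact Set.disjoint_left.1 (sat_disj hP hu (hPt n).dis) (sat_mono Set.sdiff_subset hz) h1
  have := measureReal_mono (μ := s.ν y) hsub
  unfold hh at hn1
  linarith

/-! ### equivariance -/

theorem cmp_smul (g : s.G) (η : s.Z) (U : Set s.Z) :
    cmp s.ι (g • η) ((fun z => g • z) '' U) = (fun z => g • z) '' cmp s.ι η U := by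
  ext z
  constructor
  · rintro ⟨h1, h2, h3⟩
    refine ⟨g⁻¹ • z, ⟨s.smul_T h1, ?_, ?_⟩, by simp⟩
    · rintro h
      apply h2
      rw [← h, smul_inv_smul]
    · intro h
      exact h3 ⟨_, h, by simp⟩
  · rintro ⟨w, ⟨h1, h2, h3⟩, rfl⟩
    refine ⟨s.smul_T h1, ?_, ?_⟩
    · intro h
      exact h2 (MulAction.injective g h)
    · rintro ⟨w', hw', h⟩
      have := MulAction.injective g h
      exact h3 (this ▸ hw')

theorem isCut_smul (hA : PAlg s) (g : s.G) {η : s.Z} (h : IsCut s.ι η) : IsCut s.ι (g • η) := by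
  obtain ⟨U, h1, h2, h3⟩ := h
  refine ⟨(fun z => g • z) '' U, (hA η U U h1 h1).2.2.2.2 g, h2.image _, ?_⟩
  rw [cmp_smul]
  exact h3.image _

theorem rob_smul {γ : s.G} (hγ : γ ∈ s.StabB a b) {U : Set s.Z} (hU : ROB s a b U) :
    ROB s a b ((fun z => γ • z) '' U) := by
  obtain ⟨O, hO, hOU⟩ := hU
  refine ⟨(fun z => γ⁻¹ • z) ⁻¹' O, hO.preimage (s.bdry.cont γ⁻¹), ?_⟩
  have hγ' : (fun z => γ • z) '' (Blk s.ι a b) = Blk s.ι a b := hγ
  ext z
  constructor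
  · rintro ⟨h1, h2⟩
    rw [← hγ'] at h2
    obtain ⟨w, hw, rfl⟩ := h2
    refine ⟨w, ?_, rfl⟩
    rw [← hOU]
    refine ⟨?_, hw⟩
    simpa using h1
  · rintro ⟨w, hw, rfl⟩
    rw [← hOU] at hw
    refine ⟨by simpa using hw.1, ?_⟩
    rw [← hγ']
    exact ⟨w, hw.2, rfl⟩

theorem Part_smul (hA : PAlg s) {γ : s.G} (hγ : γ ∈ s.StabB a b) {K U V : Set s.Z}
    (P : Part s a b K U V) : Part s a b ((fun z => γ • z) '' K) ((fun z => γ • z) '' U)
      ((fun z => γ • z) '' V) := by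
  have hγ' : (fun z => γ • z) '' (Blk s.ι a b) = Blk s.ι a b := hγ
  have hinj : Function.Injective (fun z : s.Z => γ • z) := MulAction.injective γ
  refine ⟨?_, ?_, ?_, ?_, rob_smul hγ P.roU, rob_smul hγ P.roV, ?_, ?_⟩
  · exact (P.cl.isCompact.image (s.bdry.cont γ)).isClosed
  · rw [← hγ']
    exact Set.image_mono P.sub
  · rintro _ ⟨w, hw, rfl⟩ hc
    have := isCut_smul hA γ⁻¹ hc
    simp only [inv_smul_smul] at this
    exact P.nocut w hw this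
  · intro x
    have := s.hh_smul γ (γ⁻¹ * x) P.cl.measurableSet
    rw [mul_inv_cancel_left] at this
    rw [this]
    exact P.null _
  · exact (Set.disjoint_image_iff hinj).2 P.dis
  · rw [← Set.image_union, P.un, Set.image_sdiff hinj, hγ']

theorem hh_sat_smul (hR : NRetr s) (hE : NEquiv s) (hu : Unsep s.ι a b) {γ : s.G}
    (hγ : γ ∈ s.StabB a b) {U : Set s.Z} (hU : ROB s a b U) (p : s.Z) (x : s.G) :
    hh s.ν (sat s.ι a b (((fun z => γ • z) '' U) \ {γ • p})) (γ * x) =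
      hh s.ν (sat s.ι a b (U \ {p})) x := by
  have hinj : Function.Injective (fun z : s.Z => γ • z) := MulAction.injective γ
  have h1 : ((fun z => γ • z) '' U) \ {γ • p} = (fun z => γ • z) '' (U \ {p}) := by
    rw [Set.image_sdiff hinj, Set.image_singleton]
  have hsub : U \ {p} ⊆ Blk s.ι a b := by
    obtain ⟨O, _, hOU⟩ := hU
    rw [← hOU]
    exact fun z hz => hz.1.2
  rw [h1, (hE a b hu γ hγ).2.1 _ hsub, s.hh_smul γ x (sat_diff_meas hR hu hU p)]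

theorem WB_smul (hR : NRetr s) (hE : NEquiv s) (hu : Unsep s.ι a b) {γ : s.G}
    (hγ : γ ∈ s.StabB a b) {δ : ℝ} {U V : Set s.Z} (hU : ROB s a b U) (hV : ROB s a b V)
    (x : s.G) : s.WB a b δ ((fun z => γ • z) '' U) ((fun z => γ • z) '' V) (γ * x) ↔
      s.WB a b δ U V x := by
  constructor
  · intro h p
    have := h (γ • p)
    rwa [hh_sat_smul hR hE hu hγ hU, hh_sat_smul hR hE hu hγ hV] at this
  · intro h p
    have := h (γ⁻¹ • p)
    rw [← hh_sat_smul hR hE hu hγ hU, ← hh_sat_smul hR hE hu hγ hV, smul_inv_smul] at this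
    exact this

theorem unif (y : s.G) {ε : ℝ} (hε : 0 < ε) : ∃ ε1 : ℝ, 0 < ε1 ∧
    ∀ p q : s.Z, dist (y⁻¹ • p) (y⁻¹ • q) ≤ ε1 → dist p q < ε := by
  have h := CompactSpace.uniformContinuous_of_continuous (s.bdry.cont y)
  obtain ⟨ε1, h1, h2⟩ := Metric.uniformContinuous_iff.1 h ε hε
  refine ⟨ε1 / 2, half_pos h1, fun p q hpq => ?_⟩
  have := h2 (hpq.trans_lt (half_lt_self h1))
  simpa using this


/-- the final contradiction from a Clp set which splits the block -/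
theorem split_false (hA : PAlg s) (hu : Unsep s.ι a b) {k : s.Z} {W : Set s.Z}
    (hW : Clp s.ι k W) {θ1 θ2 : s.Z} (h1 : θ1 ∈ Blk s.ι a b) (h1W : θ1 ∈ W)
    (h2 : θ2 ∈ Blk s.ι a b) (h2W : θ2 ∈ cmp s.ι k W) : False := by
  have hc : IsCut s.ι k := ⟨W, hW, ⟨θ1, h1W⟩, ⟨θ2, h2W⟩⟩
  have hn1 : θ1 ≠ k := by
    rintro rfl
    exact hW.notMem h1W
  have s1 : θ1 ∈ sel s.ι a b k := (h1.2 k hc).resolve_left hn1
  have s2 : θ2 ∈ sel s.ι a b k := (h2.2 k hc).resolve_left h2W.2.1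
  have key : ∀ c ∈ T s.ι, c ≠ k → θ1 ∈ Compo s.ι k c → θ2 ∈ Compo s.ι k c → False := by
    intro c hcT hck k1 k2
    by_cases hcW : c ∈ W
    · exact h2W.2.2 (k2.2.2 W hW hcW)
    · have := k1.2.2 _ (hA k W W hW hW).1 ⟨hcT, hck, hcW⟩
      exact this.2.2 h1W
  unfold sel at s1 s2
  by_cases hka : k = a
  · rw [if_pos hka] at s1 s2
    subst hka
    exact key b hu.hb hu.ne.symm s1 s2
  · rw [if_neg hka] at s1 s2
    exact key a hu.ha (fun h => hka h.symm) s1 s2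

theorem endgame (hA : PAlg s) (hP : NPart s) (hR : NRetr s) (hCf : NCofin s) (hE : NEquiv s)
    (hLL : LimitLemma s) (hu : Unsep s.ι a b) {c3 δ : ℝ} (hδ : 0 < δ)
    (hsm : (1 + (s.S.card : ℝ) ^ 2) * δ < c3)
    (h3 : ∀ x ∈ XB s.ι s.ν a b s.c0, ∀ p q : s.Z,
      c3 ≤ hh s.ν (sat s.ι a b (Blk s.ι a b \ {p, q})) x)
    {K U V : ℕ → Set s.Z} (hPt : ∀ n, Part s a b (K n) (U n) (V n)) {ζ : s.Z}
    (hKζ : ∀ n, ∀ z ∈ K n, dist z ζ < 1 / ((n : ℝ) + 1)) {r : ℝ} (hr : 0 < r)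
    {N : ℕ → ℕ} (hN : ∀ J, J ≤ N J) {X : ℕ → s.G} (hX : ∀ J, X J ∈ XB s.ι s.ν a b s.c0)
    (hW : ∀ J, s.WB a b δ (U (N J)) (V (N J)) (X J)) {L : ℕ → Finset s.G}
    (hmax : ∀ J, ∀ j ≤ J, ∀ z ∈ XB s.ι s.ν a b s.c0, s.WB a b δ (U (N J)) (V (N J)) z →
      r / 2 ≤ dist (s.ι z) ζ → (X J)⁻¹ * z ∈ L j ∨
        dist (s.ι (X J)⁻¹) (s.ι ((X J)⁻¹ * z)) < 1 / ((j : ℝ) + 1))
    {τ : s.Z} (hτ : τ ∈ T s.ι) (hτr : r ≤ dist τ ζ)
    (hlim : Tendsto (fun J => s.ι (X J)) atTop (𝓝 τ)) : False := by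
  classical
  obtain ⟨F, hF⟩ := hCf a b hu s.c0 (c0_pos s)
  choose γ hγ y0 hy0 hXy using fun J => hF (X J) (hX J)
  obtain ⟨l, hl⟩ : ∃ l : Ultrafilter ℕ, (l : Filter ℕ) ≤ atTop :=
    ⟨Filter.hyperfilter ℕ, Nat.hyperfilter_le_atTop⟩
  obtain ⟨y, hy⟩ : ∃ y, ∀ᶠ J in (l : Filter ℕ), y0 J = y := by
    have h1 : ∀ᶠ J in (l : Filter ℕ), ∃ y ∈ (F : Set s.G), y0 J = y :=
      Eventually.of_forall fun J => ⟨_, hy0 J, rfl⟩
    obtain ⟨y, _, h⟩ := (Ultrafilter.eventually_exists_mem_iff F.finite_toSet).1 h1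
    exact ⟨y, h⟩
  obtain ⟨k, hk⟩ : ∃ k, Tendsto (fun J => s.ι (γ J)⁻¹) (l : Filter ℕ) (𝓝 k) := by
    obtain ⟨k, _, h⟩ := isCompact_univ.ultrafilter_le_nhds (l.map fun J => s.ι (γ J)⁻¹) (by simp)
    exact ⟨k, h⟩
  have hlim' := hlim.mono_left hl
  have hkT : k ∈ T s.ι := by
    rintro ⟨g, rfl⟩
    have h1 : ∀ᶠ J in (l : Filter ℕ), s.ι (γ J)⁻¹ = s.ι g := hk ((s.bdry.isol g).mem_nhds rfl)
    obtain ⟨ρ, hρ, hρ'⟩ := s.exists_ball_notMem hτ (finite_singleton (g⁻¹ * y))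
    obtain ⟨J, ⟨h2, h3⟩, h4⟩ := ((h1.and hy).and (Metric.tendsto_nhds.1 hlim' ρ hρ)).exists
    apply hρ' _ h4
    rw [hXy J, h3, ← s.bdry.inj h2, inv_inv]
    rfl
  -- key estimates
  have key : ∀ ε : ℝ, 0 < ε → ∃ ε1 : ℝ, 0 < ε1 ∧ ∀ᶠ J in (l : Filter ℕ), ∀ z : s.Z,
      dist ((X J)⁻¹ • z) (s.ι (X J)⁻¹) ≤ ε1 → dist ((γ J)⁻¹ • z) k < ε := by
    intro ε hε
    obtain ⟨ε1, h1, h2⟩ := unif y (half_pos hε)
    refine ⟨ε1, h1, ?_⟩
    filter_upwards [hy, Metric.tendsto_nhds.1 hk (ε / 2) (half_pos hε)] with J hJ hJ2 z hz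
    have e1 : (X J)⁻¹ • z = y⁻¹ • (γ J)⁻¹ • z := by
      rw [hXy J, hJ, mul_inv_rev, mul_smul]
    have e2 : s.ι (X J)⁻¹ = y⁻¹ • s.ι (γ J)⁻¹ := by
      rw [hXy J, hJ, mul_inv_rev, s.bdry.eqv]
    rw [e1, e2] at hz
    have h4 := h2 _ _ hz
    have h5 := dist_triangle ((γ J)⁻¹ • z) (s.ι (γ J)⁻¹) k
    linarith
  have hfar : ∀ᶠ J in (l : Filter ℕ), 3 * r / 4 < dist (s.ι (X J)) ζ := by
    filter_upwards [Metric.tendsto_nhds.1 hlim' (r / 4) (by positivity)] with J hJ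
    have := dist_triangle_left τ ζ (s.ι (X J))
    linarith
  have key2 : ∀ ε : ℝ, 0 < ε → ∀ᶠ J in (l : Filter ℕ), ∀ z : s.Z,
      r / 4 ≤ dist z (s.ι (X J)) → dist ((γ J)⁻¹ • z) k < ε := by
    intro ε hε
    obtain ⟨ε1, h1, h2⟩ := key ε hε
    obtain ⟨K0, hK0⟩ := s.bdry.cp (min ε1 (r / 8)) (lt_min h1 (by positivity))
    obtain ⟨ρ, hρ, hρ'⟩ := s.exists_ball_notMem hτ K0.finite_toSet
    filter_upwards [h2, Metric.tendsto_nhds.1 hlim' ρ hρ] with J hJ hJ2 z hz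
    apply hJ z
    rcases hK0 (X J) (fun h => hρ' _ hJ2 (Finset.mem_coe.2 h)) z with h | h
    · exfalso
      have := h.trans (min_le_right _ _)
      linarith
    · exact h.trans (min_le_left _ _)
  have hNl : Tendsto N (l : Filter ℕ) atTop := (tendsto_atTop_mono hN tendsto_id).mono_left hl
  have hsmall : ∀ ε : ℝ, 0 < ε → ∀ᶠ J : ℕ in (l : Filter ℕ), 1 / ((J : ℝ) + 1) < ε := by
    intro ε hε
    apply hl
    obtain ⟨n, hn⟩ := exists_nat_one_div_lt hε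
    filter_upwards [eventually_ge_atTop n] with J hJ
    refine lt_of_le_of_lt ?_ hn
    apply one_div_le_one_div_of_le (by positivity)
    have : (n : ℝ) ≤ J := by exact_mod_cast hJ
    linarith
  -- translated partitions
  set K' : ℕ → Set s.Z := fun J => (fun z => (γ J)⁻¹ • z) '' K (N J) with hK'
  set U' : ℕ → Set s.Z := fun J => (fun z => (γ J)⁻¹ • z) '' U (N J) with hU'
  set V' : ℕ → Set s.Z := fun J => (fun z => (γ J)⁻¹ • z) '' V (N J) with hV'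
  have hγi : ∀ J, (γ J)⁻¹ ∈ s.StabB a b := fun J => (hE a b hu (γ J) (hγ J)).1
  have hPt' : ∀ J, Part s a b (K' J) (U' J) (V' J) := fun J => Part_smul hA (hγi J) (hPt (N J))
  have hWB : ∀ J, ∀ x, s.WB a b δ (U' J) (V' J) x ↔
      s.WB a b δ (U (N J)) (V (N J)) (γ J * x) := by
    intro J x
    have := WB_smul (δ := δ) hR hE hu (hγi J) (hPt (N J)).roU (hPt (N J)).roV (γ J * x)
    rw [inv_mul_cancel_left] at this
    exact this
  have hKk : ∀ ε : ℝ, 0 < ε → ∀ᶠ n in (l : Filter ℕ), ∀ z ∈ K' n, dist z k < ε := by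
    intro ε hε
    filter_upwards [key2 ε hε, hfar, hsmall (r / 4) (by positivity)] with J h1 h2 h3
    rintro _ ⟨w, hw, rfl⟩
    apply h1 w
    have h4 := hKζ (N J) w hw
    have h5 : 1 / ((N J : ℝ) + 1) ≤ 1 / ((J : ℝ) + 1) := by
      apply one_div_le_one_div_of_le (by positivity)
      have : (J : ℝ) ≤ N J := by exact_mod_cast hN J
      linarith
    have h6 := dist_triangle_left (s.ι (X J)) ζ w
    linarith
  have hwb : ∀ ε : ℝ, 0 < ε → ∃ F : Finset s.G, ∀ᶠ n in (l : Filter ℕ),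
      ∀ x ∈ XB s.ι s.ν a b s.c0, x ∉ F → s.WB a b δ (U' n) (V' n) x → dist (s.ι x) k < ε := by
    intro ε hε
    obtain ⟨ε1, h1, h2⟩ := key ε hε
    obtain ⟨j, hj⟩ := exists_nat_one_div_lt h1
    refine ⟨(L j).image fun g => y * g, ?_⟩
    filter_upwards [h2, key2 ε hε, hfar, hy, hl (eventually_ge_atTop j)] with J h3 h4 h5 h6 h7
      x hx hxF hwx
    have hz : γ J * x ∈ XB s.ι s.ν a b s.c0 := (hE a b hu (γ J) (hγ J)).2.2 _ x hx
    have hwz := (hWB J x).1 hwx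
    have e1 : (γ J)⁻¹ • s.ι (γ J * x) = s.ι x := by
      rw [s.bdry.eqv, inv_mul_cancel_left]
    rw [← e1]
    by_cases hd : r / 2 ≤ dist (s.ι (γ J * x)) ζ
    · rcases hmax J j h7 _ hz hwz hd with h | h
      · exfalso
        apply hxF
        rw [Finset.mem_image]
        refine ⟨_, h, ?_⟩
        rw [hXy J, h6]
        group
      · apply h3
        rw [s.bdry.eqv, dist_comm]
        exact (h.trans hj).le
    · apply h4
      have h8 := dist_triangle_left (s.ι (X J)) ζ (s.ι (γ J * x))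
      push Not at hd
      linarith
  obtain ⟨c1, c2, c4⟩ := hLL a b hu c3 δ hδ hsm h3 K' U' V' hPt' k hkT l hKk hwb
  have hyW : ∀ᶠ J in (l : Filter ℕ), s.WB a b δ (U' J) (V' J) y := by
    filter_upwards [hy] with J hJ
    rw [hWB, ← hJ, ← hXy J]
    exact hW J
  obtain ⟨θ1, h1, h1'⟩ := meets hP hu hPt' l c4 hδ (hyW.mono fun J hJ => (hJ k).1)
  obtain ⟨θ2, h2, h2'⟩ := meets hP hu (fun n => Part_symm (hPt' n)) l
    (fun θ ht hne => by
      obtain ⟨ρ, hρ, h⟩ := c4 θ ht hne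
      exact ⟨ρ, hρ, h.symm⟩) hδ (hyW.mono fun J hJ => (hJ k).2)
  rw [c2] at h2'
  exact split_false hA hu c1 h1 h1' h2 h2'


theorem caseII (hA : PAlg s) (hP : NPart s) (hR : NRetr s) (hCf : NCofin s) (hE : NEquiv s)
    (hO : NOrder s) (hLL : LimitLemma s) (hu : Unsep s.ι a b) {c3 δ : ℝ} (hδ : 0 < δ)
    (hsm : (1 + (s.S.card : ℝ) ^ 2) * δ < c3)
    (h3 : ∀ x ∈ XB s.ι s.ν a b s.c0, ∀ p q : s.Z,
      c3 ≤ hh s.ν (sat s.ι a b (Blk s.ι a b \ {p, q})) x)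
    {K U V : ℕ → Set s.Z} (hPt : ∀ n, Part s a b (K n) (U n) (V n)) {ζ : s.Z}
    (hKζ : ∀ n, ∀ z ∈ K n, dist z ζ < 1 / ((n : ℝ) + 1)) {r : ℝ} (hr : 0 < r)
    (hII : ∀ F : Finset s.G, ∀ N : ℕ, ∃ n, N ≤ n ∧ ∃ x ∈ XB s.ι s.ν a b s.c0,
      s.WB a b δ (U n) (V n) x ∧ r ≤ dist (s.ι x) ζ ∧ x ∉ F) : False := by
  classical
  obtain ⟨N0, hN0⟩ := exists_nat_one_div_lt (show (0 : ℝ) < r / 2 by positivity)
  obtain ⟨w, hw1, hw2⟩ := exists_seq_of_forall_finset_exists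
    (fun p : ℕ × s.G => N0 ≤ p.1 ∧ p.2 ∈ XB s.ι s.ν a b s.c0 ∧
      s.WB a b δ (U p.1) (V p.1) p.2 ∧ r ≤ dist (s.ι p.2) ζ)
    (fun p q => p.1 < q.1 ∧ p.2 ≠ q.2) (by
      intro t _
      obtain ⟨n, hn, x, hx, hwx, hrx, hxF⟩ := hII (t.image Prod.snd) (max N0 (t.sup Prod.fst + 1))
      refine ⟨(n, x), ⟨(le_max_left _ _).trans hn, hx, hwx, hrx⟩, ?_⟩
      intro p hp
      refine ⟨?_, ?_⟩
      · have h1 : p.1 ≤ t.sup Prod.fst := Finset.le_sup (f := Prod.fst) hp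
        have h2 := (le_max_right N0 (t.sup Prod.fst + 1)).trans hn
        show p.1 < n
        omega
      · intro h
        exact hxF (Finset.mem_image.2 ⟨p, hp, h⟩))
  have hinj : Function.Injective fun m => (w m).2 := by
    intro m m' h
    rcases lt_trichotomy m m' with h1 | h1 | h1
    · exact absurd h (hw2 _ _ h1).2
    · exact h1
    · exact absurd h.symm (hw2 _ _ h1).2
  obtain ⟨τ, hτ, φ, hφ, hlim⟩ := s.subseq_T (fun m => (w m).2) (by
    intro g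
    refine Set.Subsingleton.finite ?_
    intro m hm n hn
    exact hinj ((show (w m).2 = g from hm).trans (show (w n).2 = g from hn).symm))
  have hmono : StrictMono fun m => (w (φ m)).1 := fun m m' h => (hw2 _ _ (hφ h)).1
  have hτr : r ≤ dist τ ζ :=
    ge_of_tendsto (hlim.dist tendsto_const_nhds)
      (Eventually.of_forall fun m => (hw1 (φ m)).2.2.2)
  have hfin : ∀ m, {x | x ∈ XB s.ι s.ν a b s.c0 ∧
      s.WB a b δ (U (w (φ m)).1) (V (w (φ m)).1) x ∧ r / 2 ≤ dist (s.ι x) ζ}.Finite := by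
    intro m
    refine factA hP hR hu (hPt _) hδ ζ ?_
    intro z hz
    refine (hKζ _ z hz).trans_le ?_
    have h1 : N0 ≤ (w (φ m)).1 := (hw1 _).1
    refine le_trans ?_ hN0.le
    apply one_div_le_one_div_of_le (by positivity)
    have : (N0 : ℝ) ≤ ((w (φ m)).1 : ℝ) := by exact_mod_cast h1
    linarith
  obtain ⟨L, hL⟩ := hO (fun j => 1 / ((j : ℝ) + 1)) (fun j => by positivity)
  choose κ hκ hL2 using hL
  have hyQ : ∀ m, (w (φ m)).2 ∈ (hfin m).toFinset := by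
    intro m
    rw [Set.Finite.mem_toFinset]
    have := (hw1 (φ m)).2
    exact ⟨this.1, this.2.1, by linarith [this.2.2]⟩
  choose x hxQ hx1 hx2 using fun J m => hL2 J (hfin m).toFinset (w (φ m)).2 (hyQ m)
  have hclose : ∀ J : ℕ, ∃ m, J ≤ m ∧ dist (s.ι (x J m)) (s.ι (w (φ m)).2) ≤ 1 / ((J : ℝ) + 1) := by
    intro J
    have hpos : (0 : ℝ) < 1 / ((J : ℝ) + 1) := by positivity
    obtain ⟨K0, hK0⟩ := s.bdry.cp (min (1 / ((J : ℝ) + 1)) (κ J / 2))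
      (lt_min hpos (half_pos (hκ J)))
    obtain ⟨ρ, hρ, hρ'⟩ := s.exists_ball_notMem hτ K0.finite_toSet
    obtain ⟨m, h1, h2⟩ := ((Metric.tendsto_nhds.1 hlim ρ hρ).and (eventually_ge_atTop J)).exists
    refine ⟨m, h2, ?_⟩
    rcases hx1 J m with h | h
    · rw [h, dist_self]
      exact hpos.le
    · rcases hK0 (w (φ m)).2 (fun hh => hρ' _ h1 (Finset.mem_coe.2 hh)) (s.ι (x J m)) with h3 | h3
      · exact h3.trans (min_le_left _ _)
      · exfalso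
        rw [s.bdry.eqv] at h3
        have h4 := h3.trans (min_le_right _ _)
        rw [dist_comm] at h4
        have h5 := hκ J
        linarith
  choose m hm1 hm2 using hclose
  have hmemQ : ∀ J m, x J m ∈ XB s.ι s.ν a b s.c0 ∧
      s.WB a b δ (U (w (φ m)).1) (V (w (φ m)).1) (x J m) ∧ r / 2 ≤ dist (s.ι (x J m)) ζ := by
    intro J m
    have := hxQ J m
    rw [Set.Finite.mem_toFinset] at this
    exact this
  refine endgame hA hP hR hCf hE hLL hu hδ hsm h3 hPt hKζ hr (N := fun J => (w (φ (m J))).1) ?_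
    (X := fun J => x J (m J)) (fun J => (hmemQ J (m J)).1) (fun J => (hmemQ J (m J)).2.1)
    (L := L) ?_ hτ hτr ?_
  · intro J
    exact (hm1 J).trans (hmono.le_apply)
  · intro J j hj z hz hwz hrz
    have := hx2 J (m J) j hj z (by
      rw [Set.Finite.mem_toFinset]
      exact ⟨hz, hwz, hrz⟩)
    exact this
  · rw [Metric.tendsto_atTop]
    intro ε hε
    obtain ⟨N1, hN1⟩ := exists_nat_one_div_lt (half_pos hε)
    obtain ⟨N2, hN2⟩ := (Metric.tendsto_atTop.1 hlim) (ε / 2) (half_pos hε)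
    refine ⟨max N1 N2, fun J hJ => ?_⟩
    have h1 := hm2 J
    have h2 := hN2 (m J) (((le_max_right _ _).trans hJ).trans (hm1 J))
    have h4 : 1 / ((J : ℝ) + 1) ≤ 1 / ((N1 : ℝ) + 1) := by
      apply one_div_le_one_div_of_le (by positivity)
      have : (N1 : ℝ) ≤ J := by exact_mod_cast (le_max_left _ _).trans hJ
      linarith
    have h5 := dist_triangle (s.ι (x J (m J))) (s.ι (w (φ (m J))).2) τ
    linarith

theorem core (hSep : PSep s) (hNull : PNullLev s) (hCt : NCtbl s)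
    (hA : PAlg s) (hP : NPart s) (hR : NRetr s) (hCf : NCofin s) (hE : NEquiv s)
    (hSp : NSpread s) (hO : NOrder s) (hLL : LimitLemma s) (hu : Unsep s.ι a b)
    {f : s.Z → ℝ} (hf : f ∈ s.𝓕) {lo hi : s.Z} (hlo : lo ∈ Blk s.ι a b) (hhi : hi ∈ Blk s.ι a b)
    (hlt : f lo < f hi) : False := by
  classical
  have g1 := hSep f hf
  have g2 := hNull f hf
  have g3 : ∀ᵐ t : ℝ, ∀ η, IsCut s.ι η → f η ≠ t := by
    have hc : (f '' {η | IsCut s.ι η}).Countable := hCt.image f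
    filter_upwards [hc.ae_notMem volume] with t ht η hη h
    exact ht ⟨η, hη, h⟩
  have hfreq : ∃ᵐ t : ℝ, t ∈ Ioo (f lo) (f hi) := by
    rw [frequently_ae_mem_iff, Real.volume_Ioo]
    exact (ENNReal.ofReal_pos.2 (by linarith)).ne'
  obtain ⟨t, ⟨htlo, hthi⟩, ht1, ht2, ht3⟩ := (hfreq.and_eventually (g1.and (g2.and g3))).exists
  obtain ⟨ζ, hζT, hfζ, hζ⟩ := ht1 lo hlo.1 hi hhi.1 htlo hthi
  choose K hKc hKT hKt U V hU hV hd hUV hloV hhiU using
    fun n : ℕ => hζ (1 / ((n : ℝ) + 1)) (by positivity)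
  have hBT : Blk s.ι a b ⊆ T s.ι := Blk_sub_T
  have hBc : IsClosed (Blk s.ι a b) := (hP a b hu).2.2.1
  have rob : ∀ W, RO s.ι W → ROB s a b (W ∩ Blk s.ι a b) := by
    rintro W ⟨O, hO, rfl⟩
    refine ⟨O, hO, ?_⟩
    ext z
    simp only [mem_inter_iff]
    constructor
    · rintro ⟨h1, h2⟩; exact ⟨⟨h1, hBT h2⟩, h2⟩
    · rintro ⟨⟨h1, _⟩, h2⟩; exact ⟨h1, h2⟩
  have hPt : ∀ n, Part s a b (K n ∩ Blk s.ι a b) (U n ∩ Blk s.ι a b) (V n ∩ Blk s.ι a b) := by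
    intro n
    refine ⟨(hKc n).inter hBc, inter_subset_right, ?_, ?_, rob _ (hU n), rob _ (hV n), ?_, ?_⟩
    · rintro η ⟨h1, _⟩ hc
      exact ht3 η hc (hKt n η h1).1
    · intro x
      have h1 : s.ν x (K n ∩ Blk s.ι a b) = 0 :=
        measure_mono_null (fun z hz => (hKt n z hz.1).1) (ht2 x)
      simp [hh, Measure.real, h1]
    · exact (hd n).mono inter_subset_left inter_subset_left
    · rw [← Set.union_inter_distrib_right, hUV n]
      ext z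
      simp only [mem_inter_iff, Set.mem_sdiff]
      constructor
      · rintro ⟨⟨_, h2⟩, h3⟩; exact ⟨h3, fun h => h2 h.1⟩
      · rintro ⟨h1, h2⟩; exact ⟨⟨hBT h1, fun h => h2 ⟨h, h1⟩⟩, h1⟩
  obtain ⟨c3, hc3, h3⟩ := hSp a b hu s.c0 (c0_pos s)
  have hcard : 0 < (1 + (s.S.card : ℝ) ^ 2) := by positivity
  obtain ⟨δ, hδ, hsm⟩ : ∃ δ : ℝ, 0 < δ ∧ (1 + (s.S.card : ℝ) ^ 2) * δ < c3 := by
    refine ⟨c3 / (2 * (1 + (s.S.card : ℝ) ^ 2)), by positivity, ?_⟩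
    have : (1 + (s.S.card : ℝ) ^ 2) * (c3 / (2 * (1 + (s.S.card : ℝ) ^ 2))) = c3 / 2 := by
      field_simp
    rw [this]
    linarith
  by_cases hI : ∀ r : ℝ, 0 < r → ∃ F : Finset s.G, ∃ N : ℕ, ∀ n, N ≤ n →
      ∀ x ∈ XB s.ι s.ν a b s.c0, s.WB a b δ (U n ∩ Blk s.ι a b) (V n ∩ Blk s.ι a b) x →
      r ≤ dist (s.ι x) ζ → x ∈ F
  · obtain ⟨l, hl⟩ : ∃ l : Ultrafilter ℕ, (l : Filter ℕ) ≤ atTop :=
      ⟨Filter.hyperfilter ℕ, Nat.hyperfilter_le_atTop⟩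
    obtain ⟨c1, c2, -⟩ := hLL a b hu c3 δ hδ hsm h3 _ _ _ hPt ζ hζT l (by
      intro ε hε
      apply hl
      obtain ⟨n, hn⟩ := exists_nat_one_div_lt hε
      filter_upwards [eventually_ge_atTop n] with J hJ z hz
      refine ((hKt J z hz.1).2.trans_le ?_).trans hn
      apply one_div_le_one_div_of_le (by positivity)
      have : (n : ℝ) ≤ J := by exact_mod_cast hJ
      linarith) (by
      intro ε hε
      obtain ⟨F, N, hF⟩ := hI ε hε
      refine ⟨F, hl ?_⟩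
      filter_upwards [eventually_ge_atTop N] with n hn x hx hxF hw
      by_contra hcon
      exact hxF (hF n hn x hx hw (not_lt.1 hcon)))
    have hcut : IsCut s.ι ζ := by
      refine ⟨_, c1, ⟨hi, hhi.1, ?_, Eventually.of_forall fun n => ?_⟩, ?_⟩
      · rintro rfl
        rw [hfζ] at hthi
        exact lt_irrefl _ hthi
      · exact (mem_sat_blk hP hu hhi).2 ⟨hhiU n, hhi⟩
      · rw [← c2]
        refine ⟨lo, hlo.1, ?_, Eventually.of_forall fun n => ?_⟩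
        · rintro rfl
          rw [hfζ] at htlo
          exact lt_irrefl _ htlo
        · exact (mem_sat_blk hP hu hlo).2 ⟨hloV n, hlo⟩
    exact ht3 ζ hcut hfζ
  · push Not at hI
    obtain ⟨r, hr, hI⟩ := hI
    exact caseII hA hP hR hCf hE hO hLL hu hδ hsm h3 hPt (fun n z hz => (hKt n z hz.1).2) hr hI

end Fin276

open Fin276

/-- node NFinal, given the limit lemma -/
theorem nFinal_of (hLL : ∀ s : Sys, NPart s → NRetr s → NXB s → NSide s → LimitLemma s) :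
    NFinal := by
  intro s hConn hHalf hAlg hLim hBal hSep hNull hLF hCtbl hOpen hNullL hBlock hPart hRetr
    hBlkConn hCofin hEquiv hSpread hXB hOrder hSide
  obtain ⟨p, hp, q, hq, hpq⟩ := s.bdry.two
  obtain ⟨f, hf, hfpq⟩ := s.bdry.fsep p hp q hq hpq
  obtain ⟨a, b, hu, hfab⟩ := hBlock f hf p hp q hq hfpq
  have ha : a ∈ Blk s.ι a b := (hPart a b hu).1
  have hb : b ∈ Blk s.ι a b := (hPart a b hu).2.1
  have hl := hLL s hPart hRetr hXB hSide
  rcases lt_or_gt_of_ne hfab with h | h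
  · exact core hSep hNull hCtbl hAlg hPart hRetr hCofin hEquiv hSpread hOrder hl hu hf ha hb h
  · exact core hSep hNull hCtbl hAlg hPart hRetr hCofin hEquiv hSpread hOrder hl hu hf hb ha h

end Crest.Agent.R224
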