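import Crest.Agent.R224.HarmE

/-!
# R224, node NHarm, part F (helper543): zero-one law, no atoms; the theorem `nHarm`.
-/

set_option autoImplicit false
set_option linter.unusedSectionVars false

noncomputable section

open Set Filter Topology MeasureTheory

namespace Crest.Agent.R224.Roy

variable {G : Type} [Group G] {S : Finset G} {Z : Type} [MetricSpace Z] [CompactSpace Z]
  [MulAction G Z] {ι : G → Z} {𝓕 : Set (Z → ℝ)} [MeasurableSpace Z] [BorelSpace Z]

namespace Rep

variable {ν : G → Measure Z}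

/-- key step of the 0-1 law: compact sets. -/
lemma null_of_compact [Infinite G] (hR : Rep S ι ν) (hS : Std S) {E : Set Z} (hE : IsClosed E)
    {s : ℝ} (hs : s < 1) (hle : ∀ y, (ν y).real E ≤ s) (x : G) : (ν x).real E = 0 := by
  have hp := hR.prob
  by_contra hne
  have hpos : 0 < (ν x).real E := lt_of_le_of_ne measureReal_nonneg (Ne.symm hne)
  set ε : ℝ := (1 - s) / 2 * (ν x).real E with hεdef
  have hs' : 0 < (1 - s) / 2 := by linarith
  have hε : 0 < ε := mul_pos hs' hpos
  -- inner regularity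
  obtain ⟨K, hKE, hK, hKm⟩ := hE.measurableSet.compl.exists_isClosed_sdiff_lt
    (measure_ne_top (ν x) Eᶜ) (ENNReal.ofReal_pos.2 hε).ne'
  have hKm' : (ν x).real (Eᶜ \ K) < ε := by
    rw [Measure.real]
    exact (ENNReal.lt_ofReal_iff_toReal_lt (measure_ne_top _ _)).1 hKm
  have hw := hR.harmonic hS (Eᶜ \ K)
  have hEh := hR.harmonic hS E
  -- separation
  have hdisj : Disjoint E K := by
    rw [Set.disjoint_left]
    intro z hz hz'
    exact hKE hz' hz
  obtain ⟨ρ, hρ, hρd⟩ : ∃ ρ > 0, ∀ e ∈ E, ∀ k ∈ K, 2 * ρ ≤ dist e k := by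
    obtain ⟨r, hr, hrd⟩ := hdisj.exists_thickenings hE.isCompact hK
    refine ⟨r / 2, by positivity, fun e he k hk => ?_⟩
    by_contra hcon
    push Not at hcon
    have h1 : e ∈ Metric.thickening r E := Metric.self_subset_thickening hr E he
    have h2 : e ∈ Metric.thickening r K := Metric.mem_thickening_iff.2 ⟨k, hk, by linarith⟩
    exact (Set.disjoint_left.1 hrd) h1 h2
  have hdecomp : ∀ y, (ν y).real (Eᶜ \ K) = 1 - (ν y).real E - (ν y).real K := by
    intro y
    have h1 : (ν y).real Eᶜ = 1 - (ν y).real E := by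
      rw [measureReal_compl hE.measurableSet]; simp
    rw [measureReal_sdiff hKE hK.measurableSet, h1]
  have hu : ∀ y, (1 - s) / 2 * (ν y).real E - (ν y).real (Eᶜ \ K) ≤ 0 := by
    refine max_principle hS (fun y _ => ?_) fun δ hδ => ?_
    · exact (((hEh.const_mul ((1 - s) / 2)).sub hw) y).ge
    · set ε' : ℝ := min ρ (min (δ / 2) ((1 - s) / 4)) with hε'def
      have hε' : 0 < ε' := by
        have : 0 < (1 - s) / 4 := by linarith
        positivity
      have he1 : ε' ≤ ρ := min_le_left _ _
      have he2 : ε' ≤ δ / 2 := (min_le_right _ _).trans (min_le_left _ _)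
      have he3 : ε' ≤ (1 - s) / 4 := (min_le_right _ _).trans (min_le_right _ _)
      obtain ⟨Q, hQ⟩ := hR.conc ε' hε'
      refine Q.finite_toSet.subset fun y hy => ?_
      by_contra hyQ
      have hc := hQ y hyQ
      simp only [mem_ofPred_eq] at hy
      by_cases hcase : ∀ e ∈ E, ε' ≤ dist e (ι y)
      · have h1 : (ν y).real E ≤ ε' := (measureReal_mono (fun e he => hcase e he)).trans hc
        have h2 : 0 ≤ (ν y).real (Eᶜ \ K) := measureReal_nonneg
        have h3 : 0 ≤ (ν y).real E := measureReal_nonneg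
        have h4 : 0 ≤ s := h3.trans (hle y)
        have h5 : 0 ≤ s * (ν y).real E := mul_nonneg h4 h3
        linarith
      · push Not at hcase
        obtain ⟨e, he, hed⟩ := hcase
        have h1 : (ν y).real K ≤ ε' := by
          refine (measureReal_mono (fun k hk => ?_)).trans hc
          simp only [mem_ofPred_eq]
          have h4 := hρd e he k hk
          have h5 := dist_triangle_right e k (ι y)
          linarith
        have h3 := hdecomp y
        have h4 := hle y
        have h5 : 0 ≤ (ν y).real E := measureReal_nonneg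
        nlinarith
  have := hu x
  linarith

/-- 0-1 law -/
lemma zeroone [Infinite G] (hR : Rep S ι ν) (hS : Std S) (A : Set Z) (hA : MeasurableSet A)
    (hx : ∃ x, 0 < (ν x).real A) (s : ℝ) (hs : s < 1) : ∃ y, s < (ν y).real A := by
  have hp := hR.prob
  by_contra hcon
  push Not at hcon
  obtain ⟨x, hx⟩ := hx
  obtain ⟨E, hEA, hE, hEm⟩ := hA.exists_isClosed_sdiff_lt
    (measure_ne_top (ν x) A) (ENNReal.ofReal_pos.2 hx).ne'
  have hEm' : (ν x).real (A \ E) < (ν x).real A := by
    rw [Measure.real]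
    exact (ENNReal.lt_ofReal_iff_toReal_lt (measure_ne_top _ _)).1 hEm
  have h1 := hR.null_of_compact hS hE hs
    (fun y => (measureReal_mono hEA).trans (hcon y)) x
  rw [measureReal_sdiff hEA hE.measurableSet, h1] at hEm'
  linarith

/-- no atoms -/
lemma atomless [Infinite G] (hR : Rep S ι ν) (hS : Std S)
    (hd : ∀ φ : C(Z, ℝ), Dec S fun x => φ (ι x)) (hB : IsBdry S ι 𝓕) (x : G) (η : Z) :
    ν x {η} = 0 := by
  have hp := hR.prob
  by_contra hne
  have hpos : 0 < (ν x).real {η} := ENNReal.toReal_pos hne (measure_ne_top _ _)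
  have h01 := hR.zeroone hS {η} (measurableSet_singleton _) ⟨x, hpos⟩
  -- translate to the base point
  have htr : ∀ y, (ν 1).real {y⁻¹ • η} = (ν y).real {η} := by
    intro y
    have h1 := hR.equiv hS hd hB y⁻¹ y {η} (measurableSet_singleton _)
    simp only [inv_mul_cancel, image_singleton] at h1
    rw [Measure.real, h1, Measure.real]
  obtain ⟨y, hy⟩ := h01 (1 / 2) (by norm_num)
  rw [← htr y] at hy
  set a := y⁻¹ • η with ha
  have huniq : ∀ y' : G, 1 / 2 < (ν 1).real {y'⁻¹ • η} → y'⁻¹ • η = a := by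
    intro y' hy'
    by_contra hna
    have hdis : Disjoint ({y'⁻¹ • η} : Set Z) {a} := by simpa using hna
    have h1 := measureReal_union (μ := ν 1) hdis (measurableSet_singleton a)
    have h2 : (ν 1).real ({y'⁻¹ • η} ∪ {a}) ≤ 1 := measureReal_le_one
    linarith
  have hmass : (ν 1).real {a} = 1 := by
    refine le_antisymm measureReal_le_one ?_
    by_contra hlt
    push Not at hlt
    obtain ⟨y', hy'⟩ := h01 (max (1 / 2) ((ν 1).real {a})) (max_lt (by norm_num) hlt)
    rw [← htr y'] at hy'
    have h3 := huniq y' ((le_max_left _ _).trans_lt hy')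
    rw [h3] at hy'
    exact absurd ((le_max_right _ _).trans_lt hy') (lt_irrefl _)
  obtain ⟨b, hb, c, hc, hbc⟩ := hB.two
  have hcontra : ∀ θ ∈ T ι, θ = a := by
    intro θ hθ
    by_contra hθa
    have h1 := hR.full hS hB 1 ({a}ᶜ) (isOpen_compl_singleton) ⟨θ, hθa, hθ⟩
    rw [measureReal_compl (measurableSet_singleton a), hmass] at h1
    simp at h1
  exact hbc ((hcontra b hb).trans (hcontra c hc).symm)

/-- all properties -/
theorem isHarm [Infinite G] (hR : Rep S ι ν) (hS : Std S)
    (hd : ∀ φ : C(Z, ℝ), Dec S fun x => φ (ι x)) (hB : IsBdry S ι 𝓕) : IsHarm S ι ν where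
  prob := hR.prob
  supp := hR.supp hS hB
  equiv := hR.equiv hS hd hB
  harm := fun x A _ => ((hR.harmonic hS A) x).symm
  conc := hR.conc
  full := hR.full hS hB
  atomless := hR.atomless hS hd hB
  zeroone := hR.zeroone hS

end Rep

end Roy

/-- Node N9. -/
theorem nHarm (hD : NDecomp) : NHarm := by
  intro G _ S Z _ _ _ _ _ ι 𝓕 hT hN hI hB
  have hd := fun φ => Roy.dec_cont hD hT hN hB φ
  obtain ⟨ν, hR⟩ := Roy.exists_rep hT.toStd hd
  exact ⟨ν, hR.isHarm hT.toStd hd hB⟩

end Crest.Agent.R224
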