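/- R224: the limit lemma in the form of `FinalBase.lean` (helper876). -/
import Crest.Agent.R224.Limit
import Crest.Agent.R224.FinalBase

set_option autoImplicit false

noncomputable section

open MeasureTheory Set Filter Topology

namespace Crest.Agent.R224

theorem limitLemma (s : Sys) (hP : NPart s) (hS : NSide s) : LimitLemma s := by
  intro a b hu c3 δ hδ hsmall h3 K U V hp k hk l hKk hwb
  obtain ⟨h1, h2, h4⟩ := limit_lemma s hP hS hu hδ hsmall h3 K U V
    (fun n => ⟨(hp n).cl, (hp n).sub, (hp n).nocut, (hp n).null⟩) (fun n => (hp n).roU)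
    (fun n => (hp n).roV) (fun n => (hp n).dis) (fun n => (hp n).un) k hk l hKk hwb
  refine ⟨h1, h2, fun θ hθ hθk => ?_⟩
  obtain ⟨r, hr, h | h⟩ := h4 θ hθ hθk
  · exact ⟨r, hr, Or.inl (h.mono fun n hn z hz hzr _ => hn z hz hzr)⟩
  · exact ⟨r, hr, Or.inr (h.mono fun n hn z hz hzr _ => hn z hz hzr)⟩

end Crest.Agent.R224
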