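/-
R224 / S0346 : node NMax (helper476).  Sub-namespace `K476`, except for the node theorem.
-/
import Crest.Agent.R224.DirB

set_option autoImplicit false

noncomputable section

open MeasureTheory Set Filter Topology Relation

namespace Crest.Agent.R224.K476

variable {G : Type} [Group G] {S : Finset G}

/-- levels near the value at `z` -/
def Nr (S : Finset G) (f : G → ℝ) (z : G) : Set ℝ := Icc (f z - Df S f z) (f z + Df S f z)

lemma mem_Nr_of_bd (hS : Std S) {f : G → ℝ} {t : ℝ} {p : G × G} (hp : p ∈ bd S {x | f x < t}) :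
    t ∈ Nr S f p.1 ∧ t ∈ Nr S f p.2 := by
  obtain ⟨h1, h2, h3⟩ := hp
  have h2 : f p.1 < t := h2
  have h3 : t ≤ f p.2 := not_lt.1 h3
  have h4 := abs_le_Df (f := f) h1
  have h5 := abs_le_Df (f := f) (adj_symm hS h1)
  rw [abs_le] at h4 h5
  have h6 := Df_nonneg (S := S) f p.1
  have h7 := Df_nonneg (S := S) f p.2
  exact ⟨⟨by linarith, by linarith⟩, ⟨by linarith, by linarith⟩⟩

lemma volume_Nr (f : G → ℝ) (z : G) : volume (Nr S f z) = ENNReal.ofReal (2 * Df S f z) := by
  rw [Nr, Real.volume_Icc]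
  congr 1
  ring

lemma summable_mul_of_sq {ι : Type} {a b : ι → ℝ} (ha0 : ∀ z, 0 ≤ a z) (hb0 : ∀ z, 0 ≤ b z)
    (ha : Summable fun z => a z ^ 2) (hb : Summable fun z => b z ^ 2) :
    Summable fun z => a z * b z := by
  refine Summable.of_nonneg_of_le (fun z => mul_nonneg (ha0 z) (hb0 z)) (fun z => ?_) (ha.add hb)
  nlinarith [sq_nonneg (a z - b z), mul_nonneg (ha0 z) (hb0 z)]

lemma volume_prod_Nr (f g : G → ℝ) (z w : G) :
    (volume : Measure (ℝ × ℝ)) (Nr S f z ×ˢ Nr S g w) =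
      ENNReal.ofReal (4 * (Df S f z * Df S g w)) := by
  rw [Measure.volume_eq_prod, Measure.prod_prod, volume_Nr, volume_Nr,
    ← ENNReal.ofReal_mul (mul_nonneg (by norm_num) (Df_nonneg f z))]
  congr 1
  ring

lemma ae_cross_finite (hS : Std S) {f g : G → ℝ} (hf : Dir S f) (hg : Dir S g) :
    ∀ᵐ p : ℝ × ℝ, {z | p.1 ∈ Nr S f z ∧ p.2 ∈ Nr S g z}.Finite := by
  have := countable hS
  have hs : Summable fun z => 4 * (Df S f z * Df S g z) :=
    (summable_mul_of_sq (Df_nonneg f) (Df_nonneg g) (Df_sq_summable hf)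
      (Df_sq_summable hg)).mul_left 4
  have h : ∑' z, (volume : Measure (ℝ × ℝ)) (Nr S f z ×ˢ Nr S g z) ≠ ⊤ := by
    simp only [volume_prod_Nr]
    exact hs.tsum_ofReal_ne_top
  filter_upwards [ae_finite_setOfPred_mem h] with p hp
  exact hp

lemma Df_neg (f : G → ℝ) (z : G) : Df S (fun x => -f x) z = Df S f z := by
  unfold Df
  refine Finset.sum_congr rfl fun s _ => ?_
  rw [show -f (z * s) - -f z = -(f (z * s) - f z) by ring, abs_neg]

lemma mem_Nr_neg {f : G → ℝ} {z : G} {t : ℝ} :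
    t ∈ Nr S (fun x => -f x) z ↔ -t ∈ Nr S f z := by
  simp only [Nr, Df_neg, mem_Icc]
  constructor <;> rintro ⟨h1, h2⟩ <;> constructor <;> linarith

lemma ae_ae_cross_finite (hS : Std S) {f g : G → ℝ} (hf : Dir S f) (hg : Dir S g) :
    ∀ᵐ s : ℝ, ∀ᵐ t : ℝ, {z | t ∈ Nr S f z ∧ t - s ∈ Nr S g z}.Finite := by
  have hg' : Dir S (fun x => -g x) := dir_of_le hg fun x y _ => by
    rw [show -g y - -g x = -(g y - g x) by ring, abs_neg]
  have h1 := ae_cross_finite hS hf hg'
  have hmp : MeasurePreserving (fun z : ℝ × ℝ => (z.2, z.1 - z.2))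
      ((volume : Measure ℝ).prod volume) ((volume : Measure ℝ).prod volume) :=
    measurePreserving_prod_sub_swap volume volume
  have h2 := hmp.quasiMeasurePreserving.ae h1
  have h3 := Measure.ae_ae_of_ae_prod h2
  filter_upwards [h3] with s hs
  filter_upwards [hs] with t ht
  refine ht.subset fun z hz => ⟨hz.1, ?_⟩
  rw [mem_Nr_neg]
  have := hz.2
  simpa using this

lemma abs_max_sub_max (a b c d : ℝ) :
    |max a b - max c d| ≤ |a - c| ∨ |max a b - max c d| ≤ |b - d| := by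
  have := abs_max_sub_max_le_max a b c d
  exact le_max_iff.1 this

end Crest.Agent.R224.K476

namespace Crest.Agent.R224

open K476

/-- Node N5. -/
theorem nMax : NMax := by
  intro G _ S hT _ f g hf hg
  have hS : Std S := hT.toStd
  filter_upwards [ae_ae_cross_finite hS hf.dir hg.dir] with s hs
  refine ⟨?_, ?_, ?_⟩
  · have hg' : Dir S (fun x => g x + s) := dir_of_le hg.dir fun x y _ => by
      rw [show g y + s - (g x + s) = g y - g x by ring]
    exact dir_of_le_add hf.dir hg' fun x y _ => abs_max_sub_max _ _ _ _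
  · obtain ⟨C, hC⟩ := hf.bdd
    obtain ⟨D, hD⟩ := hg.bdd
    refine ⟨C + D + |s|, fun x => ?_⟩
    have h1 := hC x
    have h2 := hD x
    have h3 : 0 ≤ |f x| := abs_nonneg _
    have h4 : 0 ≤ |g x| := abs_nonneg _
    have h5 : |g x + s| ≤ |g x| + |s| := abs_add_le _ _
    have h6 : 0 ≤ |s| := abs_nonneg _
    rcases max_choice (f x) (g x + s) with h | h <;> rw [h] <;> linarith
  · filter_upwards [hs, hf.fin, ae_sub_right hg.fin s] with t h1 h2 h3
    have : {x : G | max (f x) (g x + s) < t} = {x | f x < t} ∩ {x | g x < t - s} := by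
      ext x
      simp only [mem_ofPred_eq, mem_inter_iff, max_lt_iff, lt_sub_iff_add_lt]
    rw [this]
    refine finC_inter hS h2 h3 (h1.subset ?_)
    rintro x ⟨⟨y, hy⟩, z, hz⟩
    exact ⟨(mem_Nr_of_bd hS hy).1, (mem_Nr_of_bd hS hz).1⟩

end Crest.Agent.R224
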