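/-
R224 / S0346 : node NCP2 (helper476).  Sub-namespace `K476`, except for the node theorem.
-/
import Crest.Agent.R224.NMax

set_option autoImplicit false

noncomputable section

open MeasureTheory Set Filter Topology Relation

namespace Crest.Agent.R224.K476

variable {G : Type} [Group G] {S : Finset G}

/-! ### Correlation of square summable functions -/

lemma tail_sq {a : G → ℝ} (ha : Summable fun z => a z ^ 2) {δ : ℝ} (hδ : 0 < δ) :
    ∃ F : Finset G, ∃ T : ℝ, T < δ ∧ ∃ a' : G → ℝ, HasSum a' T ∧ (∀ z, 0 ≤ a' z) ∧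
      ∀ z, z ∉ F → a' z = a z ^ 2 := by
  classical
  have h1 : ∀ᶠ F in (atTop : Filter (Finset G)),
      (∑' z, a z ^ 2) - δ < ∑ z ∈ F, a z ^ 2 :=
    ha.hasSum.eventually (lt_mem_nhds (by linarith))
  obtain ⟨F, hF⟩ := h1.exists
  refine ⟨F, (∑' z, a z ^ 2) - ∑ z ∈ F, a z ^ 2, by linarith,
    fun z => a z ^ 2 - (if z ∈ F then a z ^ 2 else 0), ?_, ?_, ?_⟩
  · refine ha.hasSum.sub ?_
    have : ∑ z ∈ F, a z ^ 2 = ∑ z ∈ F, (if z ∈ F then a z ^ 2 else 0) :=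
      Finset.sum_congr rfl fun z hz => by rw [if_pos hz]
    rw [this]
    exact hasSum_sum_of_ne_finset_zero fun z hz => if_neg hz
  · intro z
    by_cases hz : z ∈ F
    · simp [hz]
    · simp [hz, sq_nonneg]
  · intro z hz
    simp [hz]

lemma corr {a b : G → ℝ} (ha : Summable fun z => a z ^ 2) (hb : Summable fun z => b z ^ 2)
    (ha0 : ∀ z, 0 ≤ a z) (hb0 : ∀ z, 0 ≤ b z) {ε : ℝ} (hε : 0 < ε) :
    ∃ K : Finset G, ∀ x, x ∉ K → (Summable fun z => a z * b (x⁻¹ * z)) ∧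
      ∑' z, a z * b (x⁻¹ * z) < ε := by
  classical
  set A := ∑' z, a z ^ 2 with hA
  set B := ∑' z, b z ^ 2 with hB
  have hA0 : 0 ≤ A := tsum_nonneg fun z => sq_nonneg _
  have hB0 : 0 ≤ B := tsum_nonneg fun z => sq_nonneg _
  set c := 2 * (A + B + 1) / ε with hc
  have hc0 : 0 < c := by positivity
  obtain ⟨Fa, Ta, hTa, a', ha', ha'0, ha'F⟩ := tail_sq ha (δ := ε / (4 * c)) (by positivity)
  obtain ⟨Fb, Tb, hTb, b', hb', hb'0, hb'F⟩ := tail_sq hb (δ := ε / (4 * c)) (by positivity)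
  refine ⟨(Fa ×ˢ Fb).image fun p => p.1 * p.2⁻¹, fun x hx => ?_⟩
  have hbx : HasSum (fun z => b (x⁻¹ * z) ^ 2) B :=
    (Equiv.mulLeft x⁻¹).hasSum_iff.2 hb.hasSum
  have hbx' : HasSum (fun z => b' (x⁻¹ * z)) Tb := (Equiv.mulLeft x⁻¹).hasSum_iff.2 hb'
  have hR := ((((ha'.mul_left c).add (hbx.mul_left (1 / c))).add (ha.hasSum.mul_left (1 / c))).add
    (hbx'.mul_left c)).mul_left (1 / 2)
  have hle : ∀ z, a z * b (x⁻¹ * z) ≤ 1 / 2 * (c * a' z + 1 / c * b (x⁻¹ * z) ^ 2 +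
      1 / c * a z ^ 2 + c * b' (x⁻¹ * z)) := by
    intro z
    have key : ∀ u v : ℝ, u * v ≤ 1 / 2 * (c * u ^ 2 + 1 / c * v ^ 2) := by
      intro u v
      have h1 : 1 / 2 * (c * u ^ 2 + 1 / c * v ^ 2) - u * v = 1 / (2 * c) * (c * u - v) ^ 2 := by
        field_simp
        ring
      have h2 : 0 ≤ 1 / (2 * c) * (c * u - v) ^ 2 := by positivity
      linarith
    have h1 : 0 ≤ c * a' z := mul_nonneg hc0.le (ha'0 z)
    have h2 : 0 ≤ c * b' (x⁻¹ * z) := mul_nonneg hc0.le (hb'0 _)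
    have h3 : 0 ≤ 1 / c * a z ^ 2 := by positivity
    have h4 : 0 ≤ 1 / c * b (x⁻¹ * z) ^ 2 := by positivity
    by_cases hz : z ∈ Fa
    · have hz2 : x⁻¹ * z ∉ Fb := by
        intro hz2
        refine hx (Finset.mem_image.2 ⟨(z, x⁻¹ * z), Finset.mem_product.2 ⟨hz, hz2⟩, ?_⟩)
        simp
      rw [hb'F _ hz2] at h2 ⊢
      have := key (b (x⁻¹ * z)) (a z)
      linarith
    · rw [ha'F _ hz] at h1 ⊢
      have := key (a z) (b (x⁻¹ * z))
      linarith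
  have hsum : Summable fun z => a z * b (x⁻¹ * z) :=
    Summable.of_nonneg_of_le (fun z => mul_nonneg (ha0 _) (hb0 _)) hle hR.summable
  refine ⟨hsum, ?_⟩
  have h5 : ∑' z, a z * b (x⁻¹ * z) ≤ 1 / 2 * (c * Ta + 1 / c * B + 1 / c * A + c * Tb) :=
    hasSum_le hle hsum.hasSum hR
  have h6 : c * Ta < ε / 4 := by
    have := mul_lt_mul_of_pos_left hTa hc0
    have h : c * (ε / (4 * c)) = ε / 4 := by field_simp
    linarith
  have h7 : c * Tb < ε / 4 := by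
    have := mul_lt_mul_of_pos_left hTb hc0
    have h : c * (ε / (4 * c)) = ε / 4 := by field_simp
    linarith
  have h8 : 1 / c * B + 1 / c * A ≤ ε / 2 := by
    have h : 1 / c * B + 1 / c * A = ε / 2 * ((A + B) / (A + B + 1)) := by
      rw [hc]; field_simp; ring
    rw [h]
    have h9 : (A + B) / (A + B + 1) ≤ 1 := by
      rw [div_le_one (by positivity)]; linarith
    nlinarith
  linarith

/-! ### Good levels -/

/-- levels whose walls are represented by edges in `K × K` -/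
def Good (S : Finset G) (f : G → ℝ) (K : Finset G) : Set ℝ :=
  {t | ∃ F : Set (G × G), (∀ q ∈ F, q.1 ∈ K ∧ q.2 ∈ K) ∧ F ⊆ bd S {x | f x < t} ∧
    ∀ p ∈ bd S {x | f x < t}, ∃ q ∈ F, ReflTransGen (WS S {x | f x < t}) q p}

lemma good_mono {f : G → ℝ} {K K' : Finset G} (h : K ⊆ K') : Good S f K ⊆ Good S f K' := by
  rintro t ⟨F, h1, h2, h3⟩
  exact ⟨F, fun q hq => ⟨h (h1 q hq).1, h (h1 q hq).2⟩, h2, h3⟩

lemma exists_good {f : G → ℝ} {t : ℝ} (h : FinC S {x | f x < t}) :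
    ∃ K : Finset G, t ∈ Good S f K := by
  classical
  obtain ⟨F, hF, hFs, hFp⟩ := h
  refine ⟨hF.toFinset.image Prod.fst ∪ hF.toFinset.image Prod.snd, F, fun q hq => ?_, hFs, hFp⟩
  have hq' := hF.mem_toFinset.2 hq
  exact ⟨Finset.mem_union_left _ (Finset.mem_image_of_mem _ hq'),
    Finset.mem_union_right _ (Finset.mem_image_of_mem _ hq')⟩

lemma exists_good_pos (hS : Std S) {f : G → ℝ} (hf : ClsS S f) {I : Set ℝ} (hI : volume I ≠ 0) :
    ∃ K : Finset G, volume (I ∩ Good S f K) ≠ 0 := by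
  have := countable hS
  by_contra hc
  push Not at hc
  apply hI
  have h1 : volume (⋃ K : Finset G, I ∩ Good S f K) = 0 := measure_iUnion_null hc
  rw [measure_eq_zero_iff_ae_notMem] at h1 ⊢
  filter_upwards [h1, hf.fin] with t h2 h3 h4
  obtain ⟨K, hK⟩ := exists_good h3
  exact h2 (mem_iUnion.2 ⟨K, h4, hK⟩)

lemma uniform_good (hS : Std S) {f : G → ℝ} (hf : ClsS S f) {C : ℝ} {ε : ℝ} (hε : 0 < ε) :
    ∃ K : Finset G, ∃ c : ENNReal, c ≠ 0 ∧ ∀ a, |a| ≤ C →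
      c ≤ volume (Ioo (a + ε / 8) (a + ε) ∩ Good S f K) := by
  classical
  have h1 : ∀ i : ℤ, ∃ K : Finset G,
      volume (Ioo (i * (ε / 4)) ((i + 1) * (ε / 4)) ∩ Good S f K) ≠ 0 := by
    intro i
    apply exists_good_pos hS hf
    rw [Real.volume_Ioo]
    have : ((i : ℝ) + 1) * (ε / 4) - i * (ε / 4) = ε / 4 := by ring
    rw [this]
    have : 0 < ENNReal.ofReal (ε / 4) := ENNReal.ofReal_pos.2 (by positivity)
    exact this.ne'
  choose K hK using h1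
  set M : Finset ℤ := Finset.Icc ⌈(-C + ε / 8) / (ε / 4)⌉ ⌈(C + ε / 8) / (ε / 4)⌉ with hM
  have h2 : ∃ c : ENNReal, c ≠ 0 ∧ ∀ i ∈ M,
      c ≤ volume (Ioo (i * (ε / 4)) ((i + 1) * (ε / 4)) ∩ Good S f (K i)) := by
    refine ⟨M.inf fun i => volume (Ioo (i * (ε / 4)) ((i + 1) * (ε / 4)) ∩ Good S f (K i)), ?_,
      fun i hi => Finset.inf_le hi⟩
    apply ne_of_gt
    rw [Finset.lt_inf_iff (by exact ENNReal.zero_lt_top)]
    intro i _
    exact pos_iff_ne_zero.2 (hK i)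
  obtain ⟨c, hc, hcM⟩ := h2
  refine ⟨M.biUnion K, c, hc, fun a ha => ?_⟩
  obtain ⟨ha1, ha2⟩ := abs_le.1 ha
  have he : 0 < ε / 4 := by positivity
  set i : ℤ := ⌈(a + ε / 8) / (ε / 4)⌉ with hi
  have hiM : i ∈ M := by
    rw [hM, Finset.mem_Icc]
    constructor
    · apply Int.ceil_le_ceil
      exact div_le_div_of_nonneg_right (by linarith) he.le
    · apply Int.ceil_le_ceil
      exact div_le_div_of_nonneg_right (by linarith) he.le
  refine (hcM i hiM).trans (measure_mono ?_)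
  have h3 : a + ε / 8 ≤ i * (ε / 4) := by
    rw [← div_le_iff₀ he]
    exact Int.le_ceil _
  have h4 : (i : ℝ) * (ε / 4) < a + ε / 8 + ε / 4 := by
    have := Int.ceil_lt_add_one ((a + ε / 8) / (ε / 4))
    rw [← hi] at this
    have h5 := mul_lt_mul_of_pos_right this he
    rw [add_mul, div_mul_cancel₀ _ he.ne'] at h5
    linarith
  rintro t ⟨⟨h5, h6⟩, h7⟩
  refine ⟨⟨by linarith, by linarith⟩, good_mono (Finset.subset_biUnion_of_mem K hiM) h7⟩

/-! ### Two walls without crossing -/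

lemma path_in {A B : Set G} (h : ∀ p ∈ bd S A, ∀ r ∈ bd S B, r.1 ≠ p.1 ∧ r.1 ≠ p.2)
    {q p : G × G} (hq : q.1 ∈ B ∧ q.2 ∈ B) (hqp : ReflTransGen (WS S A) q p) :
    p.1 ∈ B ∧ p.2 ∈ B := by
  induction hqp with
  | refl => exact hq
  | @tail b c _ hbc ih =>
    obtain ⟨hb1, hb2⟩ := ih
    rcases hbc.1 with ⟨h1, h2⟩ | ⟨h1, h2⟩
    · refine ⟨h1 ▸ hb1, ?_⟩
      by_contra hc
      exact (h b hbc.2.1 (b.2, c.2) ⟨h2, hb2, hc⟩).2 rfl
    · refine ⟨?_, h1 ▸ hb2⟩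
      by_contra hc
      exact (h b hbc.2.1 (b.1, c.1) ⟨h2, hb1, hc⟩).1 rfl

lemma exists_noncross (hS : Std S) {f h : G → ℝ} {P Q : Set ℝ}
    (hPQ : ∑' z, ENNReal.ofReal (4 * (Df S f z * Df S h z)) < volume P * volume Q) :
    ∃ t ∈ P, ∃ s ∈ Q, ∀ z, ¬ (t ∈ Nr S f z ∧ s ∈ Nr S h z) := by
  have := countable hS
  by_contra hc
  push Not at hc
  have h1 : P ×ˢ Q ⊆ ⋃ z, Nr S f z ×ˢ Nr S h z := by
    rintro ⟨t, s⟩ ⟨ht, hs⟩
    obtain ⟨z, hz⟩ := hc t ht s hs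
    exact mem_iUnion.2 ⟨z, hz⟩
  have h2 := (measure_mono (μ := (volume : Measure (ℝ × ℝ))) h1).trans (measure_iUnion_le _)
  rw [Measure.volume_eq_prod, Measure.prod_prod] at h2
  refine absurd hPQ (not_lt.2 (h2.trans (le_of_eq ?_)))
  refine tsum_congr fun z => ?_
  rw [← Measure.volume_eq_prod, volume_prod_Nr]

/-- The core of the convergence property, for one choice of signs. -/
lemma cp_core (hS : Std S) {f g : G → ℝ} (hf : ClsS S f) (hg : ClsS S g) {ε : ℝ} (hε : 0 < ε) :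
    ∃ K : Finset G, ∀ x, x ∉ K → ∀ y, ¬ (f x + ε < f y ∧ g x⁻¹ + ε < g (x⁻¹ * y)) := by
  classical
  obtain ⟨Cf, hCf⟩ := hf.bdd
  obtain ⟨Cg, hCg⟩ := hg.bdd
  obtain ⟨K1, c1, hc1, h1⟩ := uniform_good hS hf (C := Cf) hε
  obtain ⟨K2, c2, hc2, h2⟩ := uniform_good hS hg (C := Cg) hε
  have hcc : 0 < c1 * c2 := pos_iff_ne_zero.2 (mul_ne_zero hc1 hc2)
  obtain ⟨r, hr0, hr⟩ := ENNReal.lt_iff_exists_nnreal_btwn.1 hcc
  have hr0' : 0 < (r : ℝ) := by exact_mod_cast hr0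
  obtain ⟨L1, hL1⟩ := osc_finite hS hf.dir K2 (δ := ε / 8) (by positivity)
  obtain ⟨L2, hL2⟩ := osc_finite hS hg.dir K1 (δ := ε / 8) (by positivity)
  obtain ⟨L3, hL3⟩ := corr (Df_sq_summable hf.dir) (Df_sq_summable hg.dir) (Df_nonneg f)
    (Df_nonneg g) (ε := r / 4) (by positivity)
  refine ⟨L1 ∪ L2.image (fun x => x⁻¹) ∪ L3, fun x hx y => ?_⟩
  rw [Finset.mem_union, Finset.mem_union, not_or, not_or] at hx
  obtain ⟨⟨hx1, hx2⟩, hx3⟩ := hx
  have hx2' : x⁻¹ ∉ L2 := fun h => hx2 (Finset.mem_image.2 ⟨x⁻¹, h, inv_inv x⟩)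
  rintro ⟨hy1, hy2⟩
  obtain ⟨hsum, hlt⟩ := hL3 x hx3
  set h : G → ℝ := fun z => g (x⁻¹ * z) with hh
  have hm : ∑' z, ENNReal.ofReal (4 * (Df S f z * Df S h z)) <
      volume (Ioo (f x + ε / 8) (f x + ε) ∩ Good S f K1) *
        volume (Ioo (g x⁻¹ + ε / 8) (g x⁻¹ + ε) ∩ Good S g K2) := by
    have e1 : ∀ z, Df S h z = Df S g (x⁻¹ * z) := fun z => Df_left g x⁻¹ z
    simp only [e1]
    rw [← ENNReal.ofReal_tsum_of_nonneg
      (fun z => mul_nonneg (by norm_num) (mul_nonneg (Df_nonneg _ _) (Df_nonneg _ _)))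
      (hsum.mul_left 4), tsum_mul_left]
    calc ENNReal.ofReal (4 * ∑' z, Df S f z * Df S g (x⁻¹ * z))
        ≤ ENNReal.ofReal r := ENNReal.ofReal_le_ofReal (by linarith)
      _ = (r : ENNReal) := ENNReal.ofReal_coe_nnreal
      _ < c1 * c2 := hr
      _ ≤ _ := mul_le_mul' (h1 _ (hCf x)) (h2 _ (hCg _))
  obtain ⟨t, ⟨ht, htG⟩, s, ⟨hs, hsG⟩, hts⟩ := exists_noncross hS hm
  set A : Set G := {z | f z < t} with hA
  set B : Set G := {z | h z < s} with hB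
  have hno : ∀ p ∈ bd S A, ∀ q ∈ bd S B, q.1 ≠ p.1 ∧ q.1 ≠ p.2 ∧ p.1 ≠ q.2 := by
    intro p hp q hq
    obtain ⟨a1, a2⟩ := mem_Nr_of_bd hS hp
    obtain ⟨b1, b2⟩ := mem_Nr_of_bd hS hq
    refine ⟨fun e => ?_, fun e => ?_, fun e => ?_⟩
    · exact hts _ ⟨a1, e ▸ b1⟩
    · exact hts _ ⟨a2, e ▸ b1⟩
    · exact hts _ ⟨a1, e ▸ b2⟩
  -- edges of `bd A` have their endpoints in `B`
  have hAB : ∀ p ∈ bd S A, p.1 ∈ B ∧ p.2 ∈ B := by
    intro p hp
    obtain ⟨F, hFK, hFs, hFp⟩ := htG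
    obtain ⟨q, hq, hqp⟩ := hFp p hp
    refine path_in (fun p hp r hr => ⟨(hno p hp r hr).1, (hno p hp r hr).2.1⟩) ?_ hqp
    have hk : ∀ k ∈ K1, k ∈ B := by
      intro k hk
      have := (abs_lt.1 (hL2 x⁻¹ hx2' k hk)).2
      have h3 := hs.1
      show g (x⁻¹ * k) < s
      linarith
    exact ⟨hk _ (hFK q hq).1, hk _ (hFK q hq).2⟩
  -- edges of `bd B` have their endpoints in `A`
  have hBA : ∀ p ∈ bd S B, p.1 ∈ A ∧ p.2 ∈ A := by
    intro p hp
    obtain ⟨F, hFK, hFs, hFp⟩ := hsG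
    have hp' : (x⁻¹ * p.1, x⁻¹ * p.2) ∈ bd S {z | g z < s} :=
      ⟨(adj_left x⁻¹).2 hp.1, hp.2.1, hp.2.2⟩
    obtain ⟨q, hq, hqp⟩ := hFp _ hp'
    have hmem : ∀ e : G × G, e ∈ bd S {z | g z < s} → (x * e.1, x * e.2) ∈ bd S B := by
      intro e he
      refine ⟨(adj_left x).2 he.1, ?_, ?_⟩
      · have := he.2.1
        show g (x⁻¹ * (x * e.1)) < s
        rw [inv_mul_cancel_left]
        exact this
      · have := he.2.2
        show ¬ g (x⁻¹ * (x * e.2)) < s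
        rw [inv_mul_cancel_left]
        exact this
    have htr : ∀ e e' : G × G, ReflTransGen (WS S {z | g z < s}) e e' →
        ReflTransGen (WS S B) (x * e.1, x * e.2) (x * e'.1, x * e'.2) := by
      intro e e' hee
      induction hee with
      | refl => exact ReflTransGen.refl
      | @tail b c _ hbc ih =>
        refine ih.tail ⟨?_, hmem b hbc.2.1, hmem c hbc.2.2⟩
        rcases hbc.1 with ⟨h3, h4⟩ | ⟨h3, h4⟩
        · exact Or.inl ⟨by simp [h3], (adj_left x).2 h4⟩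
        · exact Or.inr ⟨by simp [h3], (adj_left x).2 h4⟩
    have hqp' := htr _ _ hqp
    simp only [mul_inv_cancel_left, Prod.mk.eta] at hqp'
    refine path_in (fun p hp r hr => ⟨((hno r hr p hp).1).symm, (hno r hr p hp).2.2⟩) ?_ hqp'
    have hk : ∀ k ∈ K2, x * k ∈ A := by
      intro k hk
      have := (abs_lt.1 (hL1 x hx1 k hk)).2
      have h3 := ht.1
      show f (x * k) < t
      linarith
    exact ⟨hk _ (hFK q hq).1, hk _ (hFK q hq).2⟩
  have hbd : ∀ p, p ∉ bd S (A ∪ B) := by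
    rintro p ⟨h3, h4 | h4, h5⟩
    · exact h5 (Or.inr (hAB p ⟨h3, h4, fun h6 => h5 (Or.inl h6)⟩).2)
    · exact h5 (Or.inl (hBA p ⟨h3, h4, fun h6 => h5 (Or.inr h6)⟩).2)
  have hxA : x ∈ A ∪ B := Or.inl (by
    show f x < t
    have := ht.1
    linarith)
  rcases mem_of_bd_empty hS hbd hxA y with h3 | h3
  · have h3 : f y < t := h3
    have := ht.2
    linarith
  · have h3 : g (x⁻¹ * y) < s := h3
    have := hs.2
    linarith

end Crest.Agent.R224.K476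

namespace Crest.Agent.R224

open K476

/-- Node N7. -/
theorem nCP2 : NCP2 := by
  classical
  intro G _ S hT _ f g hf hg ε hε
  have hS : Std S := hT.toStd
  obtain ⟨K1, h1⟩ := cp_core hS hf hg hε
  obtain ⟨K2, h2⟩ := cp_core hS hf (clsS_neg hS hg) hε
  obtain ⟨K3, h3⟩ := cp_core hS (clsS_neg hS hf) hg hε
  obtain ⟨K4, h4⟩ := cp_core hS (clsS_neg hS hf) (clsS_neg hS hg) hε
  refine ⟨K1 ∪ K2 ∪ K3 ∪ K4, fun x hx y => ?_⟩
  simp only [Finset.mem_union, not_or] at hx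
  obtain ⟨⟨⟨hx1, hx2⟩, hx3⟩, hx4⟩ := hx
  by_contra hc
  rw [not_or, not_le, not_le, lt_abs, lt_abs] at hc
  obtain ⟨ha | ha, hb | hb⟩ := hc
  · exact h1 x hx1 y ⟨by linarith, by linarith⟩
  · exact h2 x hx2 y ⟨by linarith, by linarith⟩
  · exact h3 x hx3 y ⟨by linarith, by linarith⟩
  · exact h4 x hx4 y ⟨by linarith, by linarith⟩

end Crest.Agent.R224
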