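/-
R224 / S0346 : nodes PLim, PBal (helper601) and small general lemmas about the boundary.
-/
import Crest.Agent.R224.Iface

set_option autoImplicit false

noncomputable section

open MeasureTheory Set Filter Topology

namespace Crest.Agent.R224

namespace Sys

variable (s : Sys)

theorem isClosed_T601 : IsClosed (T s.ι) := by
  unfold T
  rw [isClosed_compl_iff]
  have : Set.range s.ι = ⋃ g, {s.ι g} := by
    ext z; simp [eq_comm]
  rw [this]
  exact isOpen_iUnion fun g => s.bdry.isol g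

theorem meas_T601 : MeasurableSet (T s.ι) := s.isClosed_T601.measurableSet

theorem RO.meas601 {s : Sys} {U : Set s.Z} (h : RO s.ι U) : MeasurableSet U := by
  obtain ⟨O, hO, rfl⟩ := h
  exact hO.measurableSet.inter s.meas_T601

theorem RO.subT601 {s : Sys} {U : Set s.Z} (h : RO s.ι U) : U ⊆ T s.ι := by
  obtain ⟨O, hO, rfl⟩ := h
  exact inter_subset_right

instance (x : s.G) : IsProbabilityMeasure (s.ν x) := s.harm.prob x

theorem hh_nonneg601 (U : Set s.Z) (x : s.G) : 0 ≤ hh s.ν U x := measureReal_nonneg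

theorem hh_le_one601 (U : Set s.Z) (x : s.G) : hh s.ν U x ≤ 1 := measureReal_le_one

theorem hh_mono601 {U V : Set s.Z} (h : U ⊆ V) (x : s.G) : hh s.ν U x ≤ hh s.ν V x :=
  measureReal_mono h

theorem hh_T601 (x : s.G) : hh s.ν (T s.ι) x = 1 := by
  have h := s.harm.supp x
  have := prob_compl_eq_zero_iff (μ := s.ν x) s.meas_T601
  rw [this] at h
  simp [hh, Measure.real, h]

theorem hh_inter_T601 (U : Set s.Z) (x : s.G) : hh s.ν (U ∩ T s.ι) x = hh s.ν U x := by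
  unfold hh Measure.real
  congr 1
  exact measure_inter_conull (s.harm.supp x)

theorem conc_open601 {O : Set s.Z} (hO : IsOpen O) {θ : s.Z} (hθ : θ ∈ O) (hT : θ ∈ T s.ι)
    {ε : ℝ} (hε : 0 < ε) : ∃ δ : ℝ, 0 < δ ∧ ∀ x, dist (s.ι x) θ < δ → 1 - ε < hh s.ν O x := by
  obtain ⟨r, hr, hrO⟩ := Metric.isOpen_iff.1 hO θ hθ
  obtain ⟨K, hK⟩ := s.harm.conc (min (ε / 2) (r / 2)) (lt_min (by linarith) (by linarith))
  have hKf : IsClosed (s.ι '' (K : Set s.G)) := (K.finite_toSet.image s.ι).isClosed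
  have hθK : θ ∉ s.ι '' (K : Set s.G) := by
    rintro ⟨g, _, rfl⟩
    exact hT ⟨g, rfl⟩
  obtain ⟨δ, hδ, hδK⟩ := Metric.isOpen_iff.1 hKf.isOpen_compl θ hθK
  refine ⟨min δ (r / 2), lt_min hδ (by linarith), fun x hx => ?_⟩
  have hxK : x ∉ K := fun h => hδK (Metric.mem_ball.2 (hx.trans_le (min_le_left _ _))) ⟨x, h, rfl⟩
  have h1 := hK x hxK
  have hcompl : Oᶜ ⊆ {z | min (ε / 2) (r / 2) ≤ dist z (s.ι x)} := by
    intro z hz
    by_contra hlt
    simp only [Set.mem_ofPred_eq, not_le] at hlt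
    apply hz
    apply hrO
    rw [Metric.mem_ball]
    calc dist z θ ≤ dist z (s.ι x) + dist (s.ι x) θ := dist_triangle _ _ _
      _ < r / 2 + r / 2 := add_lt_add (hlt.trans_le (min_le_right _ _)) (hx.trans_le (min_le_right _ _))
      _ = r := by ring
  have h2 : (s.ν x).real Oᶜ ≤ ε / 2 :=
    (measureReal_mono hcompl).trans (h1.trans (min_le_left _ _))
  have h3 : (s.ν x).real Oᶜ = 1 - (s.ν x).real O := by
    rw [measureReal_compl hO.measurableSet]; simp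
  unfold hh
  linarith

theorem conc_RO601 {U : Set s.Z} (hU : RO s.ι U) {θ : s.Z} (hθ : θ ∈ U)
    {ε : ℝ} (hε : 0 < ε) : ∃ δ : ℝ, 0 < δ ∧ ∀ x, dist (s.ι x) θ < δ → 1 - ε < hh s.ν U x := by
  obtain ⟨O, hO, rfl⟩ := hU
  obtain ⟨δ, hδ, h⟩ := s.conc_open601 hO hθ.1 hθ.2 hε
  refine ⟨δ, hδ, fun x hx => ?_⟩
  rw [s.hh_inter_T601]
  exact h x hx

theorem hh_add_le601 {U V : Set s.Z} (hV : MeasurableSet V) (h : Disjoint U V) (x : s.G) :
    hh s.ν U x + hh s.ν V x ≤ 1 := by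
  unfold hh
  rw [← measureReal_union h hV]
  exact measureReal_le_one

/-- an infinite set of vertices accumulates at a point of the boundary -/
theorem exists_acc601 {A : Set s.G} (hA : A.Infinite) :
    ∃ θ ∈ T s.ι, ∀ δ : ℝ, 0 < δ → {x | x ∈ A ∧ dist (s.ι x) θ < δ}.Infinite := by
  have hne : (cofinite ⊓ 𝓟 A : Filter s.G).NeBot := by
    rw [cofinite_inf_principal_neBot_iff]; exact hA
  obtain ⟨θ, hθ⟩ := exists_clusterPt_of_compactSpace (map s.ι (cofinite ⊓ 𝓟 A))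
  have key : ∀ O ∈ 𝓝 θ, {x | x ∈ A ∧ s.ι x ∈ O}.Infinite := by
    intro O hO hfin
    rw [clusterPt_iff_nonempty] at hθ
    have hmem : (s.ι '' (A \ {x | x ∈ A ∧ s.ι x ∈ O})) ∈ map s.ι (cofinite ⊓ 𝓟 A) := by
      apply image_mem_map
      rw [mem_inf_principal]
      filter_upwards [hfin.compl_mem_cofinite] with x hx hxA
      exact ⟨hxA, hx⟩
    obtain ⟨z, hz1, x, hx, rfl⟩ := hθ hO hmem
    exact hx.2 ⟨hx.1, hz1⟩
  refine ⟨θ, ?_, fun δ hδ => ?_⟩
  · rintro ⟨g, rfl⟩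
    have := key {s.ι g} ((s.bdry.isol g).mem_nhds rfl)
    apply this
    apply (Set.finite_singleton g).subset
    rintro x ⟨_, hx⟩
    exact s.bdry.inj hx
  · exact key _ (Metric.ball_mem_nhds θ hδ)

end Sys

theorem pLim (s : Sys) : PLim s := by
  intro η U hU ε hε
  refine ⟨fun θ hθ => s.conc_RO601 hU.ro hθ hε, fun θ hθ => ?_⟩
  obtain ⟨δ, hδ, h⟩ := s.conc_RO601 hU.ro' hθ hε
  refine ⟨δ, hδ, fun x hx => ?_⟩
  have h1 := h x hx
  have h2 : hh s.ν U x + hh s.ν (cmp s.ι η U) x ≤ 1 :=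
    s.hh_add_le601 (Sys.RO.meas601 hU.ro') (by
      rw [Set.disjoint_left]
      intro z hz hz'
      exact hz'.2.2 hz) x
  linarith

theorem pBal (s : Sys) : PBal s := by
  intro η U hU c ε hc hε
  by_contra hinf
  obtain ⟨θ, hθT, hθ⟩ := s.exists_acc601 hinf
  have hne : θ ≠ η := by
    rintro rfl
    obtain ⟨x, ⟨⟨_, hx⟩, hx'⟩⟩ := (hθ ε hε).nonempty
    linarith
  obtain ⟨h1, h2⟩ := pLim s η U hU c hc
  by_cases hθU : θ ∈ U
  · obtain ⟨δ, hδ, h⟩ := h1 θ hθU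
    obtain ⟨x, ⟨⟨hx, _⟩, hx'⟩⟩ := (hθ δ hδ).nonempty
    have := h x hx'
    have := hx.2
    linarith
  · obtain ⟨δ, hδ, h⟩ := h2 θ ⟨hθT, hne, hθU⟩
    obtain ⟨x, ⟨⟨hx, _⟩, hx'⟩⟩ := (hθ δ hδ).nonempty
    have := h x hx'
    have := hx.1
    linarith

end Crest.Agent.R224
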