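/-
R224 / S0346 : nodes NEquiv, NCofin, NSpread (helper601).
-/
import Crest.Agent.R224.NodeLim

set_option autoImplicit false

noncomputable section

open MeasureTheory Set Filter Topology

namespace Crest.Agent.R224

namespace Sys

variable (s : Sys)

theorem mem_img601 {g : s.G} {A : Set s.Z} {z : s.Z} :
    z ∈ (fun z => g • z) '' A ↔ g⁻¹ • z ∈ A := by
  constructor
  · rintro ⟨w, hw, rfl⟩
    simpa using hw
  · intro h
    exact ⟨g⁻¹ • z, h, by simp⟩

theorem smul_T601 {g : s.G} {θ : s.Z} (h : θ ∈ T s.ι) : g • θ ∈ T s.ι := by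
  rintro ⟨x, hx⟩
  apply h
  refine ⟨g⁻¹ * x, ?_⟩
  rw [← s.bdry.eqv, hx]
  simp

theorem smul_T_iff601 {g : s.G} {θ : s.Z} : g • θ ∈ T s.ι ↔ θ ∈ T s.ι := by
  refine ⟨fun h => ?_, s.smul_T601⟩
  have := s.smul_T601 (g := g⁻¹) h
  simpa using this

variable {s}

theorem Clp.smul601 (hA : PAlg s) (g : s.G) {η : s.Z} {U : Set s.Z} (h : Clp s.ι η U) :
    Clp s.ι (g • η) ((fun z => g • z) '' U) := (hA η U U h h).2.2.2.2 g

theorem img_cmp601 (g : s.G) (η : s.Z) (U : Set s.Z) :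
    (fun z => g • z) '' cmp s.ι η U = cmp s.ι (g • η) ((fun z => g • z) '' U) := by
  ext z
  rw [mem_img601]
  unfold cmp
  simp only [Set.mem_ofPred_eq, mem_img601]
  rw [s.smul_T_iff601]
  refine and_congr Iff.rfl (and_congr ?_ Iff.rfl)
  rw [not_iff_not]
  exact inv_smul_eq_iff

theorem IsCut.smul601 (hA : PAlg s) (g : s.G) {η : s.Z} (h : IsCut s.ι η) :
    IsCut s.ι (g • η) := by
  obtain ⟨U, hU, h1, h2⟩ := h
  refine ⟨_, Clp.smul601 hA g hU, h1.image _, ?_⟩
  rw [← img_cmp601]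
  exact h2.image _

theorem IsCut.smul_iff601 (hA : PAlg s) {g : s.G} {η : s.Z} :
    IsCut s.ι (g • η) ↔ IsCut s.ι η := by
  refine ⟨fun h => ?_, IsCut.smul601 hA g⟩
  simpa using IsCut.smul601 hA g⁻¹ h

theorem compo_img_sub601 (hA : PAlg s) (g : s.G) (η θ : s.Z) :
    (fun z => g • z) '' Compo s.ι η θ ⊆ Compo s.ι (g • η) (g • θ) := by
  rintro _ ⟨z, ⟨h1, h2, h3⟩, rfl⟩
  refine ⟨s.smul_T601 h1, by simpa using h2, fun U hU hθ => ?_⟩
  have := Clp.smul601 hA g⁻¹ hU
  rw [inv_smul_smul] at this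
  have h4 := h3 _ this (by rw [mem_img601]; simpa using hθ)
  rw [mem_img601] at h4
  simpa using h4

theorem compo_img601 (hA : PAlg s) (g : s.G) (η θ : s.Z) :
    (fun z => g • z) '' Compo s.ι η θ = Compo s.ι (g • η) (g • θ) := by
  apply (compo_img_sub601 hA g η θ).antisymm
  intro z hz
  rw [mem_img601]
  have := compo_img_sub601 hA g⁻¹ (g • η) (g • θ) ⟨z, hz, rfl⟩
  simpa using this

theorem mem_compo_self601 {η θ : s.Z} (h : θ ∈ T s.ι) (hne : θ ≠ η) : θ ∈ Compo s.ι η θ :=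
  ⟨h, hne, fun _ _ h => h⟩

theorem compo_eq601 (hA : PAlg s) {η θ u : s.Z} (h : θ ∈ T s.ι) (hne : θ ≠ η)
    (hu : u ∈ Compo s.ι η θ) : Compo s.ι η u = Compo s.ι η θ := by
  ext v
  constructor
  · rintro ⟨h1, h2, h3⟩
    exact ⟨h1, h2, fun U hU hθ => h3 U hU (hu.2.2 U hU hθ)⟩
  · rintro ⟨h1, h2, h3⟩
    refine ⟨h1, h2, fun U hU hu' => h3 U hU ?_⟩
    by_contra hθ
    have := hu.2.2 _ (hA η U U hU hU).1 ⟨h, hne, hθ⟩
    exact this.2.2 hu'

theorem compo_disj601 (hA : PAlg s) {η θ θ' : s.Z} (h : θ ∈ T s.ι) (hne : θ ≠ η)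
    (h' : θ' ∈ T s.ι) (hne' : θ' ≠ η) (hn : Compo s.ι η θ ≠ Compo s.ι η θ') :
    Disjoint (Compo s.ι η θ) (Compo s.ι η θ') := by
  rw [Set.disjoint_left]
  intro u hu hu'
  exact hn ((compo_eq601 hA h hne hu).symm.trans (compo_eq601 hA h' hne' hu'))

theorem IsCut.memT601 {η : s.Z} (h : IsCut s.ι η) : η ∈ T s.ι := by
  obtain ⟨U, hU, _⟩ := h
  exact hU.mem

/-- `sel` is the component of any point of the block -/
theorem sel_eq601 (hA : PAlg s) {a b : s.Z} (hab : Unsep s.ι a b) {η z : s.Z}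
    (hη : IsCut s.ι η) (hz : z ∈ Blk s.ι a b) (hne : z ≠ η) :
    sel s.ι a b η = Compo s.ι η z := by
  have h1 : z ∈ sel s.ι a b η := (hz.2 η hη).resolve_left hne
  unfold sel at h1 ⊢
  split_ifs at h1 ⊢ with h
  · subst h
    exact (compo_eq601 hA hab.hb hab.ne.symm h1).symm
  · exact (compo_eq601 hA hab.ha (Ne.symm h) h1).symm

theorem exists_ne601 {a b : s.Z} (hab : Unsep s.ι a b)
    (ha : a ∈ Blk s.ι a b) (hb : b ∈ Blk s.ι a b) (η : s.Z) : ∃ z ∈ Blk s.ι a b, z ≠ η := by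
  by_cases h : a = η
  · exact ⟨b, hb, fun h' => hab.ne (h.trans h'.symm)⟩
  · exact ⟨a, ha, h⟩

theorem sel_clp601 (hA : PAlg s) (hO : NOpen s) {a b : s.Z} (hab : Unsep s.ι a b)
    (ha : a ∈ Blk s.ι a b) (hb : b ∈ Blk s.ι a b) {η : s.Z} (hη : IsCut s.ι η) :
    Clp s.ι η (sel s.ι a b η) := by
  obtain ⟨z, hz, hne⟩ := exists_ne601 hab ha hb η
  rw [sel_eq601 hA hab hη hz hne]
  exact hO η (IsCut.memT601 hη) z hz.1 hne

theorem img_sel601 (hA : PAlg s) {a b : s.Z} (hab : Unsep s.ι a b)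
    (ha : a ∈ Blk s.ι a b) (hb : b ∈ Blk s.ι a b) {g : s.G} (hg : g ∈ s.StabB a b)
    {η : s.Z} (hη : IsCut s.ι η) :
    (fun z => g • z) '' sel s.ι a b η = sel s.ι a b (g • η) := by
  obtain ⟨z, hz, hne⟩ := exists_ne601 hab ha hb η
  rw [sel_eq601 hA hab hη hz hne, compo_img601 hA]
  rw [sel_eq601 hA hab (IsCut.smul601 hA g hη) (z := g • z) (by
    have : g • z ∈ (fun z => g • z) '' Blk s.ι a b := ⟨z, hz, rfl⟩
    rw [hg] at this; exact this) (by simpa using hne)]

theorem img_Dn601 (hA : PAlg s) {a b : s.Z} (hab : Unsep s.ι a b)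
    (ha : a ∈ Blk s.ι a b) (hb : b ∈ Blk s.ι a b) {g : s.G} (hg : g ∈ s.StabB a b)
    {η : s.Z} (hη : IsCut s.ι η) :
    (fun z => g • z) '' Dn s.ι a b η = Dn s.ι a b (g • η) := by
  unfold Dn
  rw [img_cmp601, img_sel601 hA hab ha hb hg hη]

theorem stab_mem601 {a b : s.Z} {g : s.G} (hg : g ∈ s.StabB a b) {z : s.Z} :
    g • z ∈ Blk s.ι a b ↔ z ∈ Blk s.ι a b := by
  have h : (fun z => g • z) '' Blk s.ι a b = Blk s.ι a b := hg
  conv_lhs => rw [← h]
  rw [mem_img601]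
  simp

theorem stab_inv601 {a b : s.Z} {g : s.G} (hg : g ∈ s.StabB a b) : g⁻¹ ∈ s.StabB a b := by
  show (fun z => g⁻¹ • z) '' Blk s.ι a b = Blk s.ι a b
  ext z
  rw [mem_img601, inv_inv, stab_mem601 hg]

theorem img_sat601 (hA : PAlg s) {a b : s.Z} (hab : Unsep s.ι a b)
    (ha : a ∈ Blk s.ι a b) (hb : b ∈ Blk s.ι a b) {g : s.G} (hg : g ∈ s.StabB a b)
    (A : Set s.Z) :
    sat s.ι a b ((fun z => g • z) '' A) = (fun z => g • z) '' sat s.ι a b A := by
  ext z
  rw [mem_img601]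
  unfold sat
  simp only [Set.mem_union, Set.mem_inter_iff, Set.mem_ofPred_eq, mem_img601]
  refine or_congr ?_ ?_
  · rw [stab_mem601 (stab_inv601 hg)]
  · constructor
    · rintro ⟨η, h1, h2, h3, h4⟩
      refine ⟨g⁻¹ • η, IsCut.smul601 hA _ h1, h2, (stab_mem601 (stab_inv601 hg)).2 h3, ?_⟩
      rw [← img_Dn601 hA hab ha hb (stab_inv601 hg) h1, mem_img601]
      simpa using h4
    · rintro ⟨η, h1, h2, h3, h4⟩
      refine ⟨g • η, IsCut.smul601 hA _ h1, by simpa using h2, (stab_mem601 hg).2 h3, ?_⟩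
      rw [← img_Dn601 hA hab ha hb hg h1, mem_img601]
      exact h4

theorem hh_img601 (g x : s.G) {A : Set s.Z} (hA : MeasurableSet A) :
    hh s.ν ((fun z => g • z) '' A) (g * x) = hh s.ν A x := by
  unfold hh Measure.real
  rw [s.harm.equiv g x A hA]

theorem mem_XB601 (hA : PAlg s) (hP : NPart s) {a b : s.Z} (hab : Unsep s.ι a b)
    {g : s.G} (hg : g ∈ s.StabB a b) {c : ℝ} {x : s.G} (hx : x ∈ XB s.ι s.ν a b c) :
    g * x ∈ XB s.ι s.ν a b c := by
  obtain ⟨ha, hb, -, hD, -⟩ := hP a b hab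
  intro η hη hηB
  have h1 : IsCut s.ι (g⁻¹ • η) := IsCut.smul601 hA _ hη
  have h2 : g⁻¹ • η ∈ Blk s.ι a b := (stab_mem601 (stab_inv601 hg)).2 hηB
  have h3 := hx _ h1 h2
  have h4 : (fun z => g • z) '' Dn s.ι a b (g⁻¹ • η) = Dn s.ι a b η := by
    rw [img_Dn601 hA hab ha hb hg h1]; simp
  rw [← h4, hh_img601 g x (Sys.RO.meas601 (hD _ h1 h2).1.ro)]
  exact h3

theorem one_le_hh_sel_add601 {a b : s.Z} (η : s.Z) (x : s.G) :
    1 ≤ hh s.ν (sel s.ι a b η) x + hh s.ν (Dn s.ι a b η) x := by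
  have h1 : T s.ι ⊆ (sel s.ι a b η ∪ Dn s.ι a b η) ∪ {η} := by
    intro z hz
    by_cases h : z = η
    · right; exact h
    · left
      by_cases h' : z ∈ sel s.ι a b η
      · left; exact h'
      · right; exact ⟨hz, h, h'⟩
  have h2 : (s.ν x).real {η} = 0 := by
    simp [Measure.real, s.harm.atomless]
  calc (1 : ℝ) = hh s.ν (T s.ι) x := (s.hh_T601 x).symm
    _ ≤ (s.ν x).real ((sel s.ι a b η ∪ Dn s.ι a b η) ∪ {η}) := measureReal_mono h1
    _ ≤ (s.ν x).real (sel s.ι a b η ∪ Dn s.ι a b η) + (s.ν x).real {η} := measureReal_union_le _ _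
    _ ≤ (s.ν x).real (sel s.ι a b η) + (s.ν x).real (Dn s.ι a b η) + (s.ν x).real {η} := by
        gcongr; exact measureReal_union_le _ _
    _ = hh s.ν (sel s.ι a b η) x + hh s.ν (Dn s.ι a b η) x := by rw [h2]; simp [hh]

theorem sel_mono601 (hH : PHalf s) (hA : PAlg s) (hO : NOpen s) (hP : NPart s) {a b : s.Z}
    (hab : Unsep s.ι a b) {η η' : s.Z} (hη : IsCut s.ι η) (hη' : IsCut s.ι η')
    (hηB : η ∉ Blk s.ι a b) (hη'B : η' ∈ Blk s.ι a b) (hD : η ∈ Dn s.ι a b η') :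
    sel s.ι a b η' ⊆ sel s.ι a b η := by
  obtain ⟨ha, hb, -⟩ := hP a b hab
  have hne : η' ≠ η := fun h => hηB (h ▸ hη'B)
  have hns : η ∉ sel s.ι a b η' := hD.2.2
  rcases hH η' (sel s.ι a b η') η (sel s.ι a b η) (sel_clp601 hA hO hab ha hb hη')
    (sel_clp601 hA hO hab ha hb hη) hne hns with h | h
  · exact subset_union_left.trans h
  · exfalso
    rw [Set.disjoint_left] at h
    have h1 : a ∈ sel s.ι a b η' ∪ {η'} := by
      rcases ha.2 η' hη' with h1 | h1
      · right; exact h1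
      · left; exact h1
    have h2 : a ∈ sel s.ι a b η := by
      rcases ha.2 η hη with h1 | h1
      · exact absurd ha (h1 ▸ hηB)
      · exact h1
    exact h h1 h2

theorem hh_sel_ge601 (hH : PHalf s) (hA : PAlg s) (hO : NOpen s) (hP : NPart s) {a b : s.Z}
    (hab : Unsep s.ι a b) {c : ℝ} {x : s.G} (hx : x ∈ XB s.ι s.ν a b c) {η : s.Z}
    (hη : IsCut s.ι η) : c ≤ hh s.ν (sel s.ι a b η) x := by
  obtain ⟨ha, hb, -, -, -, h6⟩ := hP a b hab
  have key : ∀ η, IsCut s.ι η → η ∈ Blk s.ι a b → c ≤ hh s.ν (sel s.ι a b η) x := by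
    intro η hη hηB
    have h1 := one_le_hh_sel_add601 (a := a) (b := b) η x
    have h2 := hx η hη hηB
    linarith
  by_cases hηB : η ∈ Blk s.ι a b
  · exact key η hη hηB
  · rcases h6 η (IsCut.memT601 hη) with h | ⟨η', h1, h2, h3⟩
    · exact absurd h hηB
    · exact (key η' h1 h2).trans (s.hh_mono601 (sel_mono601 hH hA hO hP hab hη h1 hηB h2 h3) x)

/-- finitely many components of mass at least `c` -/
theorem fin_compo601 (hA : PAlg s) (hO : NOpen s) (x : s.G) {c : ℝ} (hc : 0 < c) (η : s.Z)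
    (hη : η ∈ T s.ι) :
    {C : Set s.Z | (∃ θ ∈ T s.ι, θ ≠ η ∧ C = Compo s.ι η θ) ∧ c ≤ hh s.ν C x}.Finite := by
  let I := {C : Set s.Z // ∃ θ ∈ T s.ι, θ ≠ η ∧ C = Compo s.ι η θ}
  have h := Measure.finite_const_le_meas_of_disjoint_iUnion (s.ν x)
    (ε := ENNReal.ofReal c) (ENNReal.ofReal_pos.2 hc) (As := fun C : I => C.1)
    (fun C => by
      obtain ⟨θ, h1, h2, h3⟩ := C.2
      rw [h3]
      exact Sys.RO.meas601 (hO η hη θ h1 h2).ro)
    (fun C C' hne => by
      obtain ⟨θ, h1, h2, h3⟩ := C.2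
      obtain ⟨θ', h1', h2', h3'⟩ := C'.2
      show Disjoint C.1 C'.1
      rw [h3, h3']
      apply compo_disj601 hA h1 h2 h1' h2'
      intro h
      apply hne
      apply Subtype.ext
      rw [h3, h3', h])
    (measure_ne_top _ _)
  refine (h.image Subtype.val).subset ?_
  rintro C ⟨h1, h2⟩
  refine ⟨⟨C, h1⟩, ?_, rfl⟩
  show ENNReal.ofReal c ≤ s.ν x C
  rw [ENNReal.ofReal_le_iff_le_toReal (measure_ne_top _ _)]
  exact h2

end Sys

open Sys

theorem nEquiv (s : Sys) (hA : PAlg s) (hP : NPart s) : NEquiv s := by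
  intro a b hab γ hγ
  obtain ⟨ha, hb, -⟩ := hP a b hab
  exact ⟨stab_inv601 hγ, fun A _ => img_sat601 hA hab ha hb hγ A,
    fun c x hx => mem_XB601 hA hP hab hγ hx⟩

theorem nCofin (s : Sys) (hH : PHalf s) (hA : PAlg s) (hL : NLF s) (hO : NOpen s)
    (hP : NPart s) : NCofin s := by
  intro a b hab c hc
  obtain ⟨ha, hb, -, -, -, -⟩ := hP a b hab
  -- the exceptional cut points
  let E : Set s.Z := {η | ∃ U, Clp s.ι η U ∧ (1 : s.G) ∈ Bal s.ν c U}
  have hE : E.Finite := hL c hc 1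
  have : Finite E := hE.to_subtype
  -- the code
  let code : s.G → E → Set s.Z := fun x η =>
    (fun z => x⁻¹ • z) '' sel s.ι a b (x • (η : s.Z))
  -- selection seen from 1
  have hsel : ∀ x ∈ XB s.ι s.ν a b c, ∀ η : s.Z, IsCut s.ι η →
      (∃ θ ∈ T s.ι, θ ≠ η ∧ (fun z => x⁻¹ • z) '' sel s.ι a b (x • η) = Compo s.ι η θ) ∧
      c ≤ hh s.ν ((fun z => x⁻¹ • z) '' sel s.ι a b (x • η)) 1 := by
    intro x hx η hη
    have hxη : IsCut s.ι (x • η) := IsCut.smul601 hA x hη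
    constructor
    · obtain ⟨z, hz, hne⟩ := exists_ne601 hab ha hb (x • η)
      refine ⟨x⁻¹ • z, s.smul_T601 hz.1, ?_, ?_⟩
      · intro h; apply hne; rw [← h]; simp
      · rw [sel_eq601 hA hab hxη hz hne, compo_img601 hA]; simp
    · have h1 := hh_sel_ge601 hH hA hO hP hab hx hxη
      have h2 := hh_img601 x⁻¹ x (Sys.RO.meas601 (sel_clp601 hA hO hab ha hb hxη).ro)
      rw [inv_mul_cancel] at h2
      rw [h2]; exact h1
  -- two codes agreeing gives equal blocks
  have hinj : ∀ x ∈ XB s.ι s.ν a b c, ∀ y ∈ XB s.ι s.ν a b c,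
      (∀ η : E, IsCut s.ι (η : s.Z) → code x η = code y η) →
      ∀ η : s.Z, IsCut s.ι η → (fun z => x⁻¹ • z) '' sel s.ι a b (x • η) =
        (fun z => y⁻¹ • z) '' sel s.ι a b (y • η) := by
    intro x hx y hy hxy η hη
    by_cases hηE : η ∈ E
    · exact hxy ⟨η, hηE⟩ hη
    · obtain ⟨⟨θ, h1, h2, h3⟩, h4⟩ := hsel x hx η hη
      obtain ⟨⟨θ', h1', h2', h3'⟩, h4'⟩ := hsel y hy η hη
      rw [h3] at h4
      rw [h3'] at h4'
      rw [h3, h3']
      by_contra hne
      have hd := compo_disj601 hA h1 h2 h1' h2' hne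
      have hC := hO η (IsCut.memT601 hη) θ h1 h2
      have hC' := hO η (IsCut.memT601 hη) θ' h1' h2'
      have h5 : 1 - c < hh s.ν (Compo s.ι η θ) 1 := by
        by_contra hlt
        exact hηE ⟨_, hC, h4, not_lt.1 hlt⟩
      have h6 := s.hh_add_le601 (Sys.RO.meas601 hC'.ro) hd 1
      linarith
  -- equal selections give equal blocks
  have hblk : ∀ x y : s.G, (∀ η : s.Z, IsCut s.ι η → (fun z => x⁻¹ • z) '' sel s.ι a b (x • η) =
        (fun z => y⁻¹ • z) '' sel s.ι a b (y • η)) →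
      ∀ z, x • z ∈ Blk s.ι a b → y • z ∈ Blk s.ι a b := by
    intro x y hxy z hz
    refine ⟨s.smul_T_iff601.2 (s.smul_T_iff601.1 hz.1), fun η hη => ?_⟩
    have hη' : IsCut s.ι (y⁻¹ • η) := IsCut.smul601 hA _ hη
    rcases hz.2 (x • (y⁻¹ • η)) (IsCut.smul601 hA _ hη') with h | h
    · left
      have : z = y⁻¹ • η := by simpa using h
      rw [this]; simp
    · right
      have h1 : z ∈ (fun z => x⁻¹ • z) '' sel s.ι a b (x • (y⁻¹ • η)) := by
        rw [mem_img601]; simpa using h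
      rw [hxy _ hη', mem_img601] at h1
      simpa using h1
  -- finite set of codes
  open Classical in
  let code' : s.G → E → Set s.Z := fun x η => if IsCut s.ι (η : s.Z) then code x η else ∅
  have hfin : {k : E → Set s.Z | ∃ x ∈ XB s.ι s.ν a b c, k = code' x}.Finite := by
    have hFam : ∀ η : E, ({C : Set s.Z | (∃ θ ∈ T s.ι, θ ≠ (η : s.Z) ∧ C = Compo s.ι η θ) ∧
        c ≤ hh s.ν C 1} ∪ {∅}).Finite := fun η =>
      (fin_compo601 hA hO 1 hc η η.2.choose_spec.1.mem).union (Set.finite_singleton _)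
    refine (Set.Finite.pi hFam).subset ?_
    rintro k ⟨x, hx, rfl⟩ η -
    simp only [code']
    split_ifs with h
    · left
      exact ⟨(hsel x hx η h).1, (hsel x hx η h).2⟩
    · right; rfl
  -- representatives
  have hrep : ∀ k : {k : E → Set s.Z | ∃ x ∈ XB s.ι s.ν a b c, k = code' x},
    ∃ y ∈ XB s.ι s.ν a b c, k.1 = code' y := fun k => k.2
  choose rep hrep1 hrep2 using hrep
  have : Finite {k : E → Set s.Z | ∃ x ∈ XB s.ι s.ν a b c, k = code' x} := hfin.to_subtype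
  refine ⟨(Set.finite_range rep).toFinset, fun x hx => ?_⟩
  let k : {k : E → Set s.Z | ∃ x ∈ XB s.ι s.ν a b c, k = code' x} := ⟨code' x, x, hx, rfl⟩
  have hxk : code' x = code' (rep k) := hrep2 k
  have hcode : ∀ η : E, IsCut s.ι (η : s.Z) → code x η = code (rep k) η := by
    intro η hη
    have := congrFun hxk η
    simp only [code', if_pos hη] at this
    exact this
  have h1 := hinj x hx (rep k) (hrep1 k) hcode
  refine ⟨x * (rep k)⁻¹, ?_, rep k, by simp, by simp⟩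
  show (fun z => (x * (rep k)⁻¹) • z) '' Blk s.ι a b = Blk s.ι a b
  ext z
  rw [mem_img601, mul_inv_rev, inv_inv, mul_smul]
  constructor
  · intro h
    have := hblk (rep k) x (fun η hη => (h1 η hη).symm) (x⁻¹ • z) h
    simpa using this
  · intro h
    apply hblk x (rep k) h1
    simpa using h

/-- the block has a third point -/
theorem Sys.blk_third601 {s : Sys} (hP : NPart s) (hC : NBlkConn s) {a b : s.Z}
    (hab : Unsep s.ι a b) (p q : s.Z) : (Blk s.ι a b \ {p, q}).Nonempty := by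
  obtain ⟨ha, hb, -⟩ := hP a b hab
  by_contra hne
  rw [Set.not_nonempty_iff_eq_empty] at hne
  have hsub : Blk s.ι a b ⊆ {p, q} := by
    intro z hz
    by_contra h
    have : z ∈ Blk s.ι a b \ {p, q} := ⟨hz, h⟩
    rw [hne] at this; exact this
  obtain ⟨O, O', hO, hO', haO, hbO', hd⟩ := t2_separation hab.ne
  have hpq : Blk s.ι a b ⊆ {a, b} := by
    intro z hz
    have h1 := hsub hz
    have h2 := hsub ha
    have h3 := hsub hb
    simp only [Set.mem_insert_iff, Set.mem_singleton_iff] at h1 h2 h3 ⊢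
    have hne' := hab.ne
    rcases h1 with rfl | rfl <;> rcases h2 with rfl | rfl <;> rcases h3 with rfl | rfl <;>
      simp_all
  obtain ⟨z, ⟨h1, h2⟩, h3⟩ := hC a b hab O O' hO hO' (by
    intro z hz
    rcases hpq hz with rfl | h
    · left; exact haO
    · right; rw [Set.mem_singleton_iff] at h; rw [h]; exact hbO') ⟨a, haO, ha⟩ ⟨b, hbO', hb⟩
  exact (Set.disjoint_left.1 hd) h1 h2

theorem nSpread (s : Sys) (hA : PAlg s) (hP : NPart s) (hR : NRetr s)
    (hC : NBlkConn s) (hF : NCofin s) : NSpread s := by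
  intro a b hab c hc
  obtain ⟨ha, hb, -, hD, hdis, hcov⟩ := hP a b hab
  -- relatively open, nonempty, positive mass
  have hRO : ∀ p q : s.Z, RO s.ι (sat s.ι a b (Blk s.ι a b \ {p, q})) := by
    intro p q
    have := hR a b hab ({p, q}ᶜ) (by
      have : IsClosed ({p, q} : Set s.Z) := (Set.toFinite _).isClosed
      exact this.isOpen_compl)
    have h2 : ({p, q}ᶜ ∩ Blk s.ι a b : Set s.Z) = Blk s.ι a b \ {p, q} := by
      ext z; simp [and_comm]
    rwa [h2] at this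
  have hpos : ∀ p q : s.Z, ∀ x, 0 < hh s.ν (sat s.ι a b (Blk s.ι a b \ {p, q})) x := by
    intro p q x
    obtain ⟨O, hO, hOT⟩ := hRO p q
    obtain ⟨z, hz⟩ := Sys.blk_third601 hP hC hab p q
    have h1 : z ∈ sat s.ι a b (Blk s.ι a b \ {p, q}) := Or.inl ⟨hz, hz.1⟩
    have h2 := s.harm.full x O hO ⟨z, by rw [hOT]; exact h1⟩
    rw [← hOT, s.hh_inter_T601]
    exact h2
  -- masses of the branches
  let m : s.G → s.Z → ℝ := fun x p => open Classical in
    if IsCut s.ι p ∧ p ∈ Blk s.ι a b then hh s.ν (Dn s.ι a b p) x else 0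
  have hm_nonneg : ∀ x p, 0 ≤ m x p := by
    intro x p
    simp only [m]
    split_ifs
    · exact s.hh_nonneg601 _ _
    · exact le_rfl
  have hlow : ∀ x p q, 1 - m x p - m x q ≤ hh s.ν (sat s.ι a b (Blk s.ι a b \ {p, q})) x := by
    intro x p q
    classical
    let N : s.Z → Set s.Z := fun p => if IsCut s.ι p ∧ p ∈ Blk s.ι a b then Dn s.ι a b p else ∅
    have hN : ∀ p, (s.ν x).real (N p) = m x p := by
      intro p
      simp only [N, m]
      split_ifs <;> simp [hh]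
    have hcover : T s.ι ⊆ sat s.ι a b (Blk s.ι a b \ {p, q}) ∪ ((N p ∪ N q) ∪ {p, q}) := by
      intro z hz
      rcases hcov z hz with h | ⟨η, h1, h2, h3⟩
      · by_cases hpq : z ∈ ({p, q} : Set s.Z)
        · right; right; exact hpq
        · left; exact Or.inl ⟨⟨h, hpq⟩, h⟩
      · by_cases hpq : η ∈ ({p, q} : Set s.Z)
        · right; left
          rcases hpq with rfl | h
          · left; simp only [N, if_pos (And.intro h1 h2)]; exact h3
          · rw [Set.mem_singleton_iff] at h; subst h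
            right; simp only [N, if_pos (And.intro h1 h2)]; exact h3
        · left; exact Or.inr ⟨η, h1, ⟨h2, hpq⟩, h2, h3⟩
    have h0 : (s.ν x).real ({p, q} : Set s.Z) = 0 := by
      have : s.ν x ({p, q} : Set s.Z) = 0 := by
        rw [Set.insert_eq]
        exact measure_union_null (s.harm.atomless x p) (s.harm.atomless x q)
      simp [Measure.real, this]
    have h1 : (1 : ℝ) ≤ hh s.ν (sat s.ι a b (Blk s.ι a b \ {p, q})) x + (m x p + m x q + 0) := by
      calc (1 : ℝ) = hh s.ν (T s.ι) x := (s.hh_T601 x).symm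
        _ ≤ (s.ν x).real (sat s.ι a b (Blk s.ι a b \ {p, q}) ∪ ((N p ∪ N q) ∪ {p, q})) :=
            measureReal_mono hcover
        _ ≤ (s.ν x).real (sat s.ι a b (Blk s.ι a b \ {p, q})) +
              (s.ν x).real ((N p ∪ N q) ∪ {p, q}) := measureReal_union_le _ _
        _ ≤ (s.ν x).real (sat s.ι a b (Blk s.ι a b \ {p, q})) +
              ((s.ν x).real (N p ∪ N q) + (s.ν x).real {p, q}) := by
            gcongr; exact measureReal_union_le _ _
        _ ≤ (s.ν x).real (sat s.ι a b (Blk s.ι a b \ {p, q})) +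
              ((s.ν x).real (N p) + (s.ν x).real (N q) + (s.ν x).real {p, q}) := by
            gcongr; exact measureReal_union_le _ _
        _ = _ := by rw [hN, hN, h0]; rfl
    linarith
  -- bound at one vertex
  have hone : ∀ x ∈ XB s.ι s.ν a b c, ∃ c3 : ℝ, 0 < c3 ∧ ∀ p q : s.Z,
      c3 ≤ hh s.ν (sat s.ι a b (Blk s.ι a b \ {p, q})) x := by
    intro x hx
    set c' : ℝ := min c 1 / 4 with hc'
    have hc'0 : 0 < c' := by
      have : 0 < min c 1 := lt_min hc one_pos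
      linarith
    have hc'c : c' ≤ c / 4 := by have := min_le_left c 1; linarith
    have hc'1 : c' ≤ 1 / 4 := by have := min_le_right c 1; linarith
    let E : Set s.Z := {η | c' ≤ m x η}
    have hE : E.Finite := by
      let I := {η : s.Z // IsCut s.ι η ∧ η ∈ Blk s.ι a b}
      have h := Measure.finite_const_le_meas_of_disjoint_iUnion (s.ν x)
        (ε := ENNReal.ofReal c') (ENNReal.ofReal_pos.2 hc'0) (As := fun η : I => Dn s.ι a b η.1)
        (fun η => Sys.RO.meas601 (hD η.1 η.2.1 η.2.2).1.ro)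
        (fun η η' hne => hdis η.1 η'.1 η.2.1 η.2.2 η'.2.1 η'.2.2
          (fun h => hne (Subtype.ext h)))
        (measure_ne_top _ _)
      refine (h.image Subtype.val).subset ?_
      intro η hη
      have hη' : c' ≤ m x η := hη
      by_cases hcut : IsCut s.ι η ∧ η ∈ Blk s.ι a b
      · refine ⟨⟨η, hcut⟩, ?_, rfl⟩
        simp only [m, if_pos hcut] at hη'
        show ENNReal.ofReal c' ≤ s.ν x (Dn s.ι a b η)
        rw [ENNReal.ofReal_le_iff_le_toReal (measure_ne_top _ _)]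
        exact hη'
      · simp only [m, if_neg hcut] at hη'
        linarith
    have hmle : ∀ p, m x p ≤ 1 - c ∨ m x p = 0 := by
      intro p
      by_cases hcut : IsCut s.ι p ∧ p ∈ Blk s.ι a b
      · left; simp only [m, if_pos hcut]; exact hx p hcut.1 hcut.2
      · right; simp only [m, if_neg hcut]
    -- finite minimum over pairs in E
    obtain ⟨c1, hc1, hc1'⟩ : ∃ c1 : ℝ, 0 < c1 ∧ ∀ p ∈ E, ∀ q ∈ E,
        c1 ≤ hh s.ν (sat s.ι a b (Blk s.ι a b \ {p, q})) x := by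
      by_cases hEe : E.Nonempty
      · obtain ⟨⟨p0, q0⟩, h0, h1⟩ := Set.exists_min_image (E ×ˢ E)
          (fun r => hh s.ν (sat s.ι a b (Blk s.ι a b \ {r.1, r.2})) x) (hE.prod hE)
          (hEe.prod hEe)
        exact ⟨_, hpos p0 q0 x, fun p hp q hq => h1 (p, q) ⟨hp, hq⟩⟩
      · rw [Set.not_nonempty_iff_eq_empty] at hEe
        exact ⟨1, one_pos, fun p hp => by rw [hEe] at hp; exact absurd hp (by simp)⟩
    refine ⟨min c1 (min (1 / 2) (c / 2)), lt_min hc1 (lt_min (by norm_num) (by linarith)), ?_⟩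
    intro p q
    by_cases hp : p ∈ E
    · by_cases hq : q ∈ E
      · exact (min_le_left _ _).trans (hc1' p hp q hq)
      · have hq' : m x q < c' := not_le.1 hq
        have h1 := hlow x p q
        rcases hmle p with h2 | h2
        · have := (min_le_right c1 (min (1 / 2) (c / 2))).trans (min_le_right _ _)
          linarith
        · have := (min_le_right c1 (min (1 / 2) (c / 2))).trans (min_le_left _ _)
          linarith
    · have hp' : m x p < c' := not_le.1 hp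
      have h1 := hlow x p q
      rcases hmle q with h2 | h2
      · have := (min_le_right c1 (min (1 / 2) (c / 2))).trans (min_le_right _ _)
        linarith
      · have := (min_le_right c1 (min (1 / 2) (c / 2))).trans (min_le_left _ _)
        linarith
  -- finitely many vertices modulo the stabiliser
  obtain ⟨F, hFF⟩ := hF a b hab c hc
  classical
  choose! c3 hc3 hc3' using hone
  let F' := F.filter (fun y => y ∈ XB s.ι s.ν a b c)
  obtain ⟨cm, hcm, hcm'⟩ : ∃ cm : ℝ, 0 < cm ∧ ∀ y ∈ F', cm ≤ c3 y := by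
    by_cases hne : F'.Nonempty
    · obtain ⟨y0, hy0, hmin⟩ := F'.exists_min_image c3 hne
      exact ⟨c3 y0, hc3 y0 (Finset.mem_filter.1 hy0).2, hmin⟩
    · rw [Finset.not_nonempty_iff_eq_empty] at hne
      exact ⟨1, one_pos, fun y hy => by rw [hne] at hy; exact absurd hy (by simp)⟩
  refine ⟨cm, hcm, fun x hx p q => ?_⟩
  obtain ⟨γ, hγ, y, hy, rfl⟩ := hFF x hx
  have hyX : y ∈ XB s.ι s.ν a b c := by
    have := mem_XB601 hA hP hab (stab_inv601 hγ) hx
    simpa using this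
  have h1 := hcm' y (Finset.mem_filter.2 ⟨hy, hyX⟩)
  have h2 := hc3' y hyX (γ⁻¹ • p) (γ⁻¹ • q)
  have h3 : Blk s.ι a b \ {p, q} = (fun z => γ • z) '' (Blk s.ι a b \ {γ⁻¹ • p, γ⁻¹ • q}) := by
    ext z
    rw [mem_img601]
    simp only [Set.mem_sdiff, Set.mem_insert_iff, Set.mem_singleton_iff]
    rw [stab_mem601 (stab_inv601 hγ)]
    simp
  rw [h3, img_sat601 hA hab ha hb hγ, hh_img601 γ y (Sys.RO.meas601 (hRO _ _))]
  linarith

end Crest.Agent.R224
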