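import Crest.Agent.R224.Iface
import Crest.Agent.R224.Conv

/-!
Row 224, group half: nodes `NTriple`, `NC1`, `NNullDyn` (dynamics), from `Conv.lean`.
-/

set_option autoImplicit false
set_option linter.unusedSectionVars false

noncomputable section

open Set Filter Topology

namespace Crest.Agent.R224

/-- the system gives a `ConvSpace`. -/
theorem Sys.convSpace (s : Sys) : ConvSpace s.G s.Z s.ι where
  cont := s.bdry.cont
  equiv g h := (s.bdry.eqv g h).symm
  inj := s.bdry.inj
  isol := s.bdry.isol 1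
  cp ε hε := by
    obtain ⟨K, hK⟩ := s.bdry.cp ε hε
    exact ⟨(K : Set s.G), K.finite_toSet, fun g hg z => hK g (by simpa using hg) z⟩

/-- properness on triples (abstract form). -/
theorem ConvSpace.triple_finite {G : Type*} [Group G] {Z : Type*} [MetricSpace Z] [MulAction G Z]
    {ι : G → Z} [CompactSpace Z] (hC : ConvSpace G Z ι) (ε : ℝ) (hε : 0 < ε) :
    {g : G | ∃ a b c : Z, ε ≤ dist a b ∧ ε ≤ dist a c ∧ ε ≤ dist b c ∧
      ε ≤ dist (g • a) (g • b) ∧ ε ≤ dist (g • a) (g • c) ∧ ε ≤ dist (g • b) (g • c)}.Finite := by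
  by_contra hinf
  have hinf' : {g : G | ∃ a b c : Z, ε ≤ dist a b ∧ ε ≤ dist a c ∧ ε ≤ dist b c ∧
      ε ≤ dist (g • a) (g • b) ∧ ε ≤ dist (g • a) (g • c) ∧ ε ≤ dist (g • b) (g • c)}.Infinite :=
    hinf
  set e := hinf'.natEmbedding with he
  have hcof : Tendsto (fun n => ((e n : {g : G | _}) : G)) atTop cofinite := by
    have h1 : Function.Injective (fun n => ((e n : {g : G | _}) : G)) :=
      Subtype.val_injective.comp e.injective
    have := h1.tendsto_cofinite
    rwa [Nat.cofinite_eq_atTop] at this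
  choose a b c h1 h2 h3 h4 h5 h6 using fun n => (e n).2
  obtain ⟨φ, hφ, u, v, hD⟩ := hC.exists_dyn hcof
  obtain ⟨a0, φ1, hφ1, ha⟩ := CompactSpace.tendsto_subseq (fun n => a (φ n))
  obtain ⟨b0, φ2, hφ2, hb⟩ := CompactSpace.tendsto_subseq (fun n => b (φ (φ1 n)))
  obtain ⟨c0, φ3, hφ3, hc⟩ := CompactSpace.tendsto_subseq (fun n => c (φ (φ1 (φ2 n))))
  have hD' : Dyn ι (fun n => ((e (φ (φ1 (φ2 (φ3 n)))) : {g : G | _}) : G)) u v :=
    ((hD.comp hφ1).comp hφ2).comp hφ3
  have ha' : Tendsto (fun n => a (φ (φ1 (φ2 (φ3 n))))) atTop (𝓝 a0) :=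
    ha.comp ((hφ2.comp hφ3).tendsto_atTop)
  have hb' : Tendsto (fun n => b (φ (φ1 (φ2 (φ3 n))))) atTop (𝓝 b0) :=
    hb.comp hφ3.tendsto_atTop
  have hc' : Tendsto (fun n => c (φ (φ1 (φ2 (φ3 n))))) atTop (𝓝 c0) := hc
  have hab : ε ≤ dist a0 b0 := ge_of_tendsto' (ha'.dist hb') fun n => h1 _
  have hac : ε ≤ dist a0 c0 := ge_of_tendsto' (ha'.dist hc') fun n => h2 _
  have hbc : ε ≤ dist b0 c0 := ge_of_tendsto' (hb'.dist hc') fun n => h3 _
  -- two of the three limits differ from `v`
  by_cases hav : a0 = v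
  · have hbv : b0 ≠ v := by
      rintro rfl
      rw [hav, dist_self] at hab
      linarith
    have hcv : c0 ≠ v := by
      rintro rfl
      rw [hav, dist_self] at hac
      linarith
    have e1 := (hC.dyn_tendsto hD' hb' hbv).dist (hC.dyn_tendsto hD' hc' hcv)
    have e2 : ε ≤ dist u u := ge_of_tendsto' e1 fun n => h6 _
    rw [dist_self] at e2
    linarith
  · by_cases hbv : b0 = v
    · have hcv : c0 ≠ v := by
        rintro rfl
        rw [hbv, dist_self] at hbc
        linarith
      have e1 := (hC.dyn_tendsto hD' ha' hav).dist (hC.dyn_tendsto hD' hc' hcv)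
      have e2 : ε ≤ dist u u := ge_of_tendsto' e1 fun n => h5 _
      rw [dist_self] at e2
      linarith
    · have e1 := (hC.dyn_tendsto hD' ha' hav).dist (hC.dyn_tendsto hD' hb' hbv)
      have e2 : ε ≤ dist u u := ge_of_tendsto' e1 fun n => h4 _
      rw [dist_self] at e2
      linarith

/-- node D1 -/
theorem nTriple (s : Sys) : NTriple s := by
  intro ε hε
  refine (s.convSpace.triple_finite ε hε).subset ?_
  rintro g ⟨a, -, b, -, c, -, h⟩
  exact ⟨a, b, c, h⟩

/-- node D2 -/
theorem nC1 (s : Sys) : NC1 s := by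
  intro η _ τ hτ τ' hτ' hne hne' p p' hp hp' h h'
  exact s.convSpace.stab_limit_unique hτ hτ' hp hp' h h' hne hne'

/-- node D3 -/
theorem nNullDyn (s : Sys) : NNullDyn s := by
  intro P η hη hP x x' hxx τ hτ τ' hτ' hne hx hx'
  by_contra hinf
  have hinf' : (Set.range fun n => ((x n : s.G) : s.G ⧸ P)).Infinite := hinf
  -- a subsequence with pairwise distinct cosets
  have hex : ∃ φ : ℕ → ℕ, StrictMono φ ∧ Function.Injective fun n => ((x (φ n) : s.G) : s.G ⧸ P) := by
    have key : ∀ (F : Finset (s.G ⧸ P)) (N : ℕ), ∃ n, N < n ∧ ((x n : s.G) : s.G ⧸ P) ∉ F := by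
      intro F N
      by_contra hcon
      push Not at hcon
      apply hinf'
      refine ((F.finite_toSet).union
        ((Set.finite_le_nat N).image fun n => ((x n : s.G) : s.G ⧸ P))).subset ?_
      rintro _ ⟨n, rfl⟩
      by_cases hn : N < n
      · exact Or.inl (by simpa using hcon n hn)
      · exact Or.inr ⟨n, by simpa using hn, rfl⟩
    classical
    -- build the sequence recursively, remembering the finite set of used cosets
    choose nx hnx1 hnx2 using key
    let st : ℕ → ℕ × Finset (s.G ⧸ P) := fun n => Nat.rec (0, {((x 0 : s.G) : s.G ⧸ P)})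
      (fun _ q => (nx q.2 q.1, insert ((x (nx q.2 q.1) : s.G) : s.G ⧸ P) q.2)) n
    have hst : ∀ n, st (n + 1) = (nx (st n).2 (st n).1,
      insert ((x (nx (st n).2 (st n).1) : s.G) : s.G ⧸ P) (st n).2) := fun n => rfl
    have hmono : StrictMono fun n => (st n).1 := by
      apply strictMono_nat_of_lt_succ
      intro n
      show (st n).1 < (st (n + 1)).1
      rw [hst]
      exact hnx1 _ _
    have hmem : ∀ n, ((x (st n).1 : s.G) : s.G ⧸ P) ∈ (st n).2 := by
      intro n
      cases n with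
      | zero => exact Finset.mem_singleton_self _
      | succ n =>
        rw [hst]
        exact Finset.mem_insert_self _ _
    have hsub : ∀ n m, n ≤ m → (st n).2 ⊆ (st m).2 := by
      intro n m hnm
      induction m, hnm using Nat.le_induction with
      | base => exact Finset.Subset.refl _
      | succ m _ ih =>
        refine ih.trans ?_
        rw [hst]
        exact Finset.subset_insert _ _
    have hlt : ∀ n m, n < m → ((x (st m).1 : s.G) : s.G ⧸ P) ≠ ((x (st n).1 : s.G) : s.G ⧸ P) := by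
      intro n m hnm hEq
      obtain ⟨m, rfl⟩ : ∃ l, m = l + 1 := ⟨m - 1, by omega⟩
      have h1 : ((x (st n).1 : s.G) : s.G ⧸ P) ∈ (st m).2 := hsub n m (by omega) (hmem n)
      rw [← hEq] at h1
      have h2 : (st (m + 1)).1 = nx (st m).2 (st m).1 := by rw [hst]
      rw [h2] at h1
      exact hnx2 _ _ h1
    refine ⟨fun n => (st n).1, hmono, ?_⟩
    intro n m hnm
    by_contra hcon
    rcases lt_or_gt_of_ne hcon with h | h
    · exact hlt n m h hnm.symm
    · exact hlt m n h hnm
  obtain ⟨φ, hφ, hinj⟩ := hex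
  have htf : ∀ g : s.G, g ≠ 1 → ∀ n : ℕ, n ≠ 0 → g ^ n ≠ 1 :=
    fun g hg n hn => s.top.tf g hg n (Nat.pos_of_ne_zero hn)
  obtain ⟨n, m, hnm, hmem⟩ := s.convSpace.null_lemma htf (H := P) hη hP hτ hτ' hne
    (x := fun n => x (φ n)) (x' := fun n => x' (φ n))
    (hx.comp hφ.tendsto_atTop) (hx'.comp hφ.tendsto_atTop) (fun n => hxx _)
  have h1 : ((x (φ n) : s.G) : s.G ⧸ P) = ((x (φ m) : s.G) : s.G ⧸ P) := QuotientGroup.eq.2 hmem
  exact absurd (hinj h1) (Nat.ne_of_lt hnm)

end Crest.Agent.R224
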