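/-
R224 / S0346, group half: nodes NLF (local finiteness of the true cut points) and NCtbl
(helper255), from NThmB.
-/
import Crest.Agent.R224.DBas

set_option autoImplicit false

noncomputable section

open MeasureTheory Set Filter Topology

namespace Crest.Agent.R224.LF255

variable (s : Sys)

/-- separation of two arbitrary vertices -/
theorem cross_finite (hB : NThmB s) (a b : s.G) : {η | Cross s.ι s.ν a b η}.Finite := by
  have h := s.conn_univ a b
  induction h with
  | refl =>
    refine finite_empty.subset ?_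
    rintro η ⟨U, _, h1, h2⟩
    exact absurd h1 (not_lt.2 h2)
  | @tail c d h1 h2 ih =>
    refine (ih.union (hB c d h2)).subset ?_
    rintro η ⟨U, hU, k1, k2⟩
    by_cases hc : hh s.ν U c ≤ 1 / 2
    · exact Or.inl ⟨U, hU, k1, hc⟩
    · exact Or.inr ⟨U, hU, not_le.1 hc, k2⟩

/-- non-empty relatively open sets have positive mass -/
theorem hh_pos {U : Set s.Z} (h : RO s.ι U) (hne : U.Nonempty) (x : s.G) : 0 < hh s.ν U x := by
  obtain ⟨O, hO, rfl⟩ := h
  have h1 := s.harm.full x O hO hne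
  have h2 : (s.ν x).real (O ∩ T s.ι) = (s.ν x).real O := by
    have h3 : (s.ν x) (O ∩ T s.ι) = s.ν x O := measure_inter_conull (s.harm.supp x)
    simp [measureReal_def, h3]
  unfold hh
  rw [h2]; exact h1

/-- an increasing chain of clopen sets, balanced at the same vertex, is impossible -/
theorem no_chain (hB : NThmB s) {c : ℝ} (hc : 0 < c) (x : s.G) (η : ℕ → s.Z) (A : ℕ → Set s.Z)
    (hinj : Function.Injective η) (hA : ∀ n, Clp s.ι (η n) (A n)) (hmono : Monotone A)
    (h1 : ∀ n, c ≤ hh s.ν (A n) x) (h2 : ∀ n, hh s.ν (A n) x ≤ 1 - c) : False := by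
  have hm : MeasurableSet (⋃ n, A n) := MeasurableSet.iUnion fun n => (hA n).meas
  -- mass of the union
  have h3 : hh s.ν (⋃ n, A n) x ≤ 1 - c := by
    have ht : Tendsto (fun n => s.ν x (A n)) atTop (𝓝 (s.ν x (⋃ n, A n))) :=
      tendsto_measure_iUnion_atTop hmono
    have ht2 : Tendsto (fun n => hh s.ν (A n) x) atTop (𝓝 (hh s.ν (⋃ n, A n) x)) := by
      unfold hh Measure.real
      exact (ENNReal.tendsto_toReal (measure_ne_top _ _)).comp ht
    exact le_of_tendsto' ht2 h2
  have h4 : hh s.ν (⋃ n, A n)ᶜ x = 1 - hh s.ν (⋃ n, A n) x := probReal_compl_eq_one_sub hm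
  obtain ⟨a, ha⟩ := s.harm.zeroone (A 0) (hA 0).meas ⟨x, hc.trans_le (h1 0)⟩ (1 / 2) (by norm_num)
  obtain ⟨b, hb⟩ := s.harm.zeroone (⋃ n, A n)ᶜ hm.compl
    ⟨x, by have : 0 < hh s.ν (⋃ n, A n)ᶜ x := by linarith
           exact this⟩ (1 / 2) (by norm_num)
  have hb2 : hh s.ν (⋃ n, A n)ᶜ b = 1 - hh s.ν (⋃ n, A n) b := probReal_compl_eq_one_sub hm
  refine (infinite_range_of_injective hinj) ((cross_finite s hB a b).subset ?_)
  rintro _ ⟨n, rfl⟩
  refine ⟨A n, hA n, ?_, ?_⟩
  · exact lt_of_lt_of_le ha (s.hh_mono (hmono (Nat.zero_le n)) a)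
  · have h5 : hh s.ν (A n) b ≤ hh s.ν (⋃ n, A n) b := s.hh_mono (subset_iUnion A n) b
    have hb' : 1 / 2 < hh s.ν (⋃ n, A n)ᶜ b := hb
    linarith

variable {s}

/-- relation between two half-spaces which both miss `θ0` -/
theorem trichotomy (hH : PHalf s) (hAl : PAlg s) {θ0 : s.Z} (h0 : θ0 ∈ T s.ι) {η ξ : s.Z}
    {U V : Set s.Z} (hU : Clp s.ι η U) (hV : Clp s.ι ξ V) (hne : η ≠ ξ) (hη0 : θ0 ≠ η)
    (hU0 : θ0 ∉ U) (hV0 : θ0 ∉ V) :
    U ∪ {η} ⊆ V ∨ V ∪ {ξ} ⊆ U ∨ Disjoint U V := by
  by_cases h1 : ξ ∈ U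
  · by_cases h2 : η ∈ V
    · exfalso
      have hU' : Clp s.ι η (cmp s.ι η U) := (hAl η U U hU hU).1
      rcases hH η (cmp s.ι η U) ξ V hU' hV hne (fun h => h.2.2 h1) with h | h
      · exact hV0 (h (Or.inl ⟨h0, hη0, hU0⟩))
      · exact Set.disjoint_left.1 h (Or.inr rfl) h2
    · rcases hH ξ V η U hV hU hne.symm h2 with h | h
      · exact Or.inr (Or.inl h)
      · exact absurd h1 (Set.disjoint_left.1 h (Or.inr rfl))
  · rcases hH η U ξ V hU hV hne h1 with h | h
    · exact Or.inl h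
    · exact Or.inr (Or.inr (h.mono_left subset_union_left))

theorem cmp_mono {η ξ : s.Z} {U V : Set s.Z} (h : U ∪ {η} ⊆ V) : cmp s.ι ξ V ⊆ cmp s.ι η U := by
  rintro z ⟨h1, _, h3⟩
  exact ⟨h1, fun he => h3 (h (Or.inr he)), fun hz => h3 (h (Or.inl hz))⟩

end LF255

open LF255

/-- node C1 -/
theorem nLF (s : Sys) (hB : NThmB s) (hH : PHalf s) (hAl : PAlg s) : NLF s := by
  classical
  intro c hc x
  obtain ⟨θ0, h0, -⟩ := s.bdry.two
  by_contra hinf
  have hinf2 : ({η | ∃ U, Clp s.ι η U ∧ x ∈ Bal s.ν c U} \ {θ0}).Infinite :=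
    Set.Infinite.sdiff hinf (finite_singleton θ0)
  let f := hinf2.natEmbedding
  have hf : ∀ n, ∃ U, Clp s.ι (f n : s.Z) U ∧ x ∈ Bal s.ν c U ∧ θ0 ∉ U := by
    intro n
    obtain ⟨⟨U, hU, hb⟩, -⟩ := (f n).2
    by_cases hθ : θ0 ∈ U
    · refine ⟨cmp s.ι (f n) U, (hAl _ U U hU hU).1, ?_, fun h => h.2.2 hθ⟩
      have := hU.hh_add x
      obtain ⟨b1, b2⟩ := hb
      constructor <;> linarith
    · exact ⟨U, hU, hb, hθ⟩
  choose A hA hbal hA0 using hf
  have hne0 : ∀ n, θ0 ≠ (f n : s.Z) := fun n h => (f n).2.2 h.symm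
  have hinj : Function.Injective fun n => (f n : s.Z) :=
    fun m n h => f.injective (Subtype.ext h)
  let r : ℕ → ℕ → Prop := fun m n => A m ∪ {(f m : s.Z)} ⊆ A n
  have htri : ∀ m n, m ≠ n → r m n ∨ r n m ∨ Disjoint (A m) (A n) := fun m n hmn =>
    trichotomy hH hAl h0 (hA m) (hA n) (fun h => hmn (hinj h)) (hne0 m) (hA0 m) (hA0 n)
  have htr : ∀ {i j k : ℕ}, r i j → r j k → r i k := fun h1 h2 =>
    h1.trans (subset_union_left.trans h2)
  have : IsTrans ℕ r := ⟨fun _ _ _ => htr⟩
  have : IsTrans ℕ (fun m n => r n m) := ⟨fun _ _ _ h1 h2 => htr h2 h1⟩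
  obtain ⟨g, hg⟩ := exists_increasing_or_nonincreasing_subseq r id
  rcases hg with hg | hg
  · -- increasing chain
    refine no_chain s hB hc x (fun n => (f (g n) : s.Z)) (fun n => A (g n))
      (fun m n h => g.injective (hinj h)) (fun n => hA _) ?_ (fun n => (hbal _).1)
      (fun n => (hbal _).2)
    refine monotone_nat_of_le_succ fun n => ?_
    exact subset_union_left.trans (hg n (n + 1) (Nat.lt_succ_self n))
  · obtain ⟨k, hk⟩ := exists_increasing_or_nonincreasing_subseq (fun m n => r n m) (fun n => g n)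
    rcases hk with hk | hk
    · -- decreasing chain
      refine no_chain s hB hc x (fun n => (f (g (k n)) : s.Z))
        (fun n => cmp s.ι (f (g (k n)) : s.Z) (A (g (k n))))
        (fun m n h => k.injective (g.injective (hinj h)))
        (fun n => (hAl _ _ _ (hA _) (hA _)).1) ?_ ?_ ?_
      · refine monotone_nat_of_le_succ fun n => ?_
        exact cmp_mono (hk n (n + 1) (Nat.lt_succ_self n))
      · intro n
        have := (hA (g (k n))).hh_add x
        have := (hbal (g (k n))).2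
        linarith
      · intro n
        have := (hA (g (k n))).hh_add x
        have := (hbal (g (k n))).1
        linarith
    · -- pairwise disjoint
      have hdisj : ∀ m n, m < n → Disjoint (A (g (k m))) (A (g (k n))) := by
        intro m n hmn
        have h1 : ¬ r (g (k m)) (g (k n)) := hg _ _ (k.strictMono hmn)
        have h2 : ¬ r (g (k n)) (g (k m)) := hk m n hmn
        have h3 : g (k m) ≠ g (k n) := fun h => hmn.ne (k.injective (g.injective h))
        rcases htri _ _ h3 with h | h | h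
        · exact absurd h h1
        · exact absurd h h2
        · exact h
      have hpd : Pairwise (Function.onFun Disjoint fun n => A (g (k n))) := by
        intro m n hmn
        rcases lt_or_gt_of_ne hmn with h | h
        · exact hdisj m n h
        · exact (hdisj n m h).symm
      have hfin := Measure.finite_const_le_meas_of_disjoint_iUnion (s.ν x)
        (ε := ENNReal.ofReal c) (ENNReal.ofReal_pos.2 hc) (As := fun n => A (g (k n)))
        (fun n => (hA _).meas) hpd (measure_ne_top _ _)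
      refine (infinite_univ (α := ℕ)) (hfin.subset fun n _ => ?_)
      have h1 := (hbal (g (k n))).1
      unfold hh Measure.real at h1
      exact (ENNReal.ofReal_le_iff_le_toReal (measure_ne_top _ _)).2 h1

/-- node C2 -/
theorem nCtbl (s : Sys) (hL : NLF s) : NCtbl s := by
  have h : {η | IsCut s.ι η} ⊆ ⋃ k : ℕ, {η | ∃ U, Clp s.ι η U ∧
      (1 : s.G) ∈ Bal s.ν (1 / ((k : ℝ) + 1)) U} := by
    rintro η ⟨U, hU, hne, hne'⟩
    have h1 := hh_pos s hU.ro hne 1
    have h2 := hh_pos s hU.ro' hne' 1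
    have h3 := hU.hh_add 1
    obtain ⟨k, hk⟩ := exists_nat_one_div_lt (lt_min h1 h2)
    rw [lt_min_iff] at hk
    refine mem_iUnion.2 ⟨k, U, hU, hk.1.le, ?_⟩
    linarith [hk.2]
  refine Countable.mono h (countable_iUnion fun k => ?_)
  exact (hL _ (by positivity) 1).countable

end Crest.Agent.R224
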