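/-
R224 / S0346: node PNullLev (helper821).
-/
import Crest.Agent.R224.DBas

set_option autoImplicit false

noncomputable section

open MeasureTheory Set Filter Topology

namespace Crest.Agent.R224

theorem pNullLev (s : Sys) : PNullLev s := by
  intro f hf
  have hm : Measurable f := (s.bdry.fcont f hf).measurable
  have : Countable s.G := s.countable_G
  rw [ae_all_iff]
  intro x
  have hc := Measure.countable_meas_level_set_pos (μ := s.ν x) hm
  filter_upwards [hc.ae_notMem volume] with t ht
  simpa using ht

end Crest.Agent.R224
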