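/-
R224 / S0346: node NOpen: components of `T \ {η}` are open; no big teeth (helper821).
-/
import Crest.Agent.R224.DBas

set_option autoImplicit false

noncomputable section

open MeasureTheory Set Filter Topology

namespace Crest.Agent.R224

variable {s : Sys}

/-- a clopen subset `U` of `T \ η` containing a point with `f > t > f η` meets the level `t` -/
theorem Clp.exists_level (hC : PConn s) {η : s.Z} {U : Set s.Z} (hU : Clp s.ι η U)
    {f : s.Z → ℝ} (hf : Continuous f) {t : ℝ} (h1 : f η < t) {θ : s.Z} (hθ : θ ∈ U)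
    (h2 : t < f θ) : ∃ σ ∈ U, f σ = t := by
  by_contra hcon
  push Not at hcon
  have hA : RO s.ι (U ∩ {z | t < f z}) := hU.ro.inter_isOpen (isOpen_lt continuous_const hf)
  have hB : T s.ι \ (U ∩ {z | t < f z}) = cmp s.ι η U ∪ ({z | f z < t} ∩ T s.ι) := by
    ext z
    simp only [Set.mem_sdiff, mem_inter_iff, mem_ofPred_eq, mem_union, cmp, not_and, not_lt]
    constructor
    · rintro ⟨hz, h⟩
      by_cases hzU : z ∈ U
      · exact Or.inr ⟨lt_of_le_of_ne (h hzU) (hcon z hzU), hz⟩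
      · by_cases hzη : z = η
        · right
          exact ⟨by rw [hzη]; exact h1, hz⟩
        · exact Or.inl ⟨hz, hzη, hzU⟩
    · rintro (⟨hz, -, hzU⟩ | ⟨hz, hzT⟩)
      · exact ⟨hz, fun h => absurd h hzU⟩
      · exact ⟨hzT, fun _ => hz.le⟩
  refine hC _ hA ?_ ⟨θ, hθ, h2⟩ ⟨η, hU.mem, ?_⟩
  · rw [hB]
    exact hU.ro'.union (RO.of_isOpen (isOpen_lt hf continuous_const))
  · rintro ⟨h3, -⟩
    exact hU.notMem h3

/-- the constant used for balanced vertices in the crossing argument -/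
def cB (s : Sys) : ℝ := min (1 / 2) ((1 - 1 / 2) / s.S.card)

theorem cB_pos (s : Sys) : 0 < cB s := by
  refine lt_min (by norm_num) (div_pos (by norm_num) s.card_pos)

/-- balanced vertices near a boundary point `σ` which is a limit of points of disjoint clopen
sets -/
theorem exists_bal_near (hL : PLim s) {η : s.Z} {V : ℕ → Set s.Z}
    (hV : ∀ n, Clp s.ι η (V n)) (hd : ∀ m n, m ≠ n → Disjoint (V m) (V n))
    {w : ℕ → s.Z} (hw : ∀ n, w n ∈ V n) {φ : ℕ → ℕ} (hφ : StrictMono φ) {σ : s.Z}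
    (hσ : σ ∈ T s.ι) (hlim : Tendsto (fun n => w (φ n)) atTop (𝓝 σ)) {ε : ℝ} (hε : 0 < ε) :
    ∃ n x, x ∈ Bal s.ν (cB s) (V n) ∧ dist (s.ι x) σ < ε := by
  obtain ⟨Y, hY, hYε, δ, hδ, hYδ⟩ := s.bdry.lc σ hσ ε hε
  obtain ⟨y0, hy0⟩ := s.exists_near σ hδ
  have hy0Y := hYδ y0 hy0
  -- at most one `n` has mass `> 1/2` at `y0`
  obtain ⟨N, hN⟩ : ∃ N, ∀ n ≥ N, hh s.ν (V n) y0 ≤ 1 / 2 := by
    by_contra hcon
    push Not at hcon
    obtain ⟨m, -, hm⟩ := hcon 0
    obtain ⟨n, hn, hn'⟩ := hcon (m + 1)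
    have h1 : hh s.ν (V m ∪ V n) y0 = hh s.ν (V m) y0 + hh s.ν (V n) y0 :=
      measureReal_union (hd m n (by omega)) (hV n).meas
    have h2 := s.hh_le_one (V m ∪ V n) y0
    linarith
  obtain ⟨M, hM⟩ := (Metric.tendsto_atTop.1 hlim) (δ / 2) (half_pos hδ)
  set k := max M N
  have hk1 : dist (w (φ k)) σ < δ / 2 := hM k (le_max_left _ _)
  have hk2 : hh s.ν (V (φ k)) y0 ≤ 1 / 2 := hN _ ((le_max_right M N).trans (hφ.id_le k))
  obtain ⟨δ', hδ', h3⟩ := (hL η (V (φ k)) (hV _) (1 / 2) (by norm_num)).1 (w (φ k)) (hw _)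
  obtain ⟨y, hy⟩ := s.exists_near (w (φ k)) (lt_min hδ' (half_pos hδ))
  have hyY : y ∈ Y := by
    apply hYδ
    calc dist (s.ι y) σ ≤ dist (s.ι y) (w (φ k)) + dist (w (φ k)) σ := dist_triangle _ _ _
      _ < δ / 2 + δ / 2 := add_lt_add (hy.trans_le (min_le_right _ _)) hk1
      _ = δ := by ring
  have h4 := h3 y (hy.trans_le (min_le_left _ _))
  obtain ⟨x, hxY, hx⟩ := Sys.crossing (hV (φ k)).meas hY hy0Y hyY (c := 1 / 2)
    (by linarith) (by linarith)
  exact ⟨φ k, x, hx, hYε x hxY⟩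

/-- balanced vertices of clopen sets at `η` converging to `σ` give elements of the stabiliser
converging to `σ` -/
theorem exists_stab (hA : PAlg s) (hLF : NLF s) {η : s.Z} {c : ℝ} (hc : 0 < c)
    {x : ℕ → s.G} (hx : ∀ n, ∃ U, Clp s.ι η U ∧ x n ∈ Bal s.ν c U) {σ : s.Z} (hσ : σ ∈ T s.ι)
    (hlim : Tendsto (fun n => s.ι (x n)) atTop (𝓝 σ)) :
    ∃ p : ℕ → s.G, (∀ n, p n • η = η) ∧ Tendsto (fun n => s.ι (p n)) atTop (𝓝 σ) := by
  have hF := hLF c hc 1
  have hmem : ∀ n, (x n)⁻¹ • η ∈ {η | ∃ U, Clp s.ι η U ∧ (1 : s.G) ∈ Bal s.ν c U} := by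
    intro n
    obtain ⟨U, hU, hb⟩ := hx n
    refine ⟨(fun z => (x n)⁻¹ • z) '' U, (hA η U U hU hU).2.2.2.2 (x n)⁻¹, ?_⟩
    have := s.hh_smul (x n)⁻¹ (x n) hU.meas
    rw [inv_mul_cancel] at this
    show c ≤ _ ∧ _ ≤ 1 - c
    rw [this]
    exact hb
  -- a value taken infinitely often
  obtain ⟨η', hη'⟩ : ∃ η', {n | (x n)⁻¹ • η = η'}.Infinite := by
    by_contra hcon
    push Not at hcon
    have : (univ : Set ℕ).Finite := by
      refine (hF.biUnion fun z _ => (hcon z)).subset ?_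
      intro n _
      simp only [mem_iUnion]
      exact ⟨_, hmem n, rfl⟩
    exact infinite_univ this
  set φ := Nat.nth (fun n => (x n)⁻¹ • η = η')
  have hφ : StrictMono φ := Nat.nth_strictMono hη'
  have hφ' : ∀ n, (x (φ n))⁻¹ • η = η' := fun n => Nat.nth_mem_of_infinite hη' n
  refine ⟨fun n => x (φ n) * (x (φ 0))⁻¹, fun n => ?_, ?_⟩
  · rw [mul_smul, hφ' 0, ← hφ' n, smul_inv_smul]
  · exact s.tendsto_mul_right hσ (hlim.comp hφ.tendsto_atTop) _

/-- stabiliser elements converging to a point of a given level -/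
theorem exists_stab_level (hC : PConn s) (hA : PAlg s) (hL : PLim s) (hLF : NLF s) {η : s.Z}
    {V : ℕ → Set s.Z} (hV : ∀ n, Clp s.ι η (V n)) (hd : ∀ m n, m ≠ n → Disjoint (V m) (V n))
    {w : ℕ → s.Z} (hw : ∀ n, w n ∈ V n) {θ : s.Z} (hlim : Tendsto w atTop (𝓝 θ))
    {f : s.Z → ℝ} (hf : Continuous f) {t : ℝ} (h1 : f η < t) (h2 : t < f θ) :
    ∃ σ ∈ T s.ι, f σ = t ∧ ∃ p : ℕ → s.G, (∀ n, p n • η = η) ∧
      Tendsto (fun n => s.ι (p n)) atTop (𝓝 σ) := by
  have h3 : ∀ᶠ n in atTop, t < f (w n) :=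
    (hf.continuousAt.tendsto.comp hlim).eventually (lt_mem_nhds h2)
  obtain ⟨N, hN⟩ := eventually_atTop.1 h3
  choose u hu hut using fun n : ℕ => (hV (n + N)).exists_level hC hf h1 (hw _)
    (hN (n + N) (Nat.le_add_left _ _))
  obtain ⟨σ, hσ, φ, hφ, hσlim⟩ := s.subseq_of_mem_T u fun n => (hV _).sub (hu n)
  have hft : f σ = t := by
    have := hf.continuousAt.tendsto.comp hσlim
    refine tendsto_nhds_unique this ?_
    have : (f ∘ fun n => u (φ n)) = fun _ => t := by funext n; exact hut _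
    rw [this]
    exact tendsto_const_nhds
  have key : ∀ k : ℕ, ∃ x : s.G, (∃ U, Clp s.ι η U ∧ x ∈ Bal s.ν (cB s) U) ∧
      dist (s.ι x) σ < 1 / ((k : ℝ) + 1) := by
    intro k
    obtain ⟨n, x, hx, hd'⟩ := exists_bal_near hL (V := fun n => V (n + N)) (fun n => hV _)
      (fun m n hmn => hd _ _ (by omega)) (w := u) hu hφ hσ hσlim
      (ε := 1 / ((k : ℝ) + 1)) (by positivity)
    exact ⟨x, ⟨_, hV _, hx⟩, hd'⟩
  choose x hx hxd using key
  have hxlim : Tendsto (fun n => s.ι (x n)) atTop (𝓝 σ) := by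
    rw [tendsto_iff_dist_tendsto_zero]
    exact squeeze_zero (fun _ => dist_nonneg) (fun n => (hxd n).le)
      tendsto_one_div_add_atTop_nhds_zero_nat
  exact ⟨σ, hσ, hft, exists_stab hA hLF (cB_pos s) hx hσ hxlim⟩

/-- **no big teeth** -/
theorem no_big_teeth (hC : PConn s) (hA : PAlg s) (hL : PLim s) (hLF : NLF s) (hN : NC1 s)
    {η : s.Z} {V : ℕ → Set s.Z} (hV : ∀ n, Clp s.ι η (V n))
    (hd : ∀ m n, m ≠ n → Disjoint (V m) (V n)) {w : ℕ → s.Z} (hw : ∀ n, w n ∈ V n) {θ : s.Z}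
    (hlim : Tendsto w atTop (𝓝 θ)) (hθη : θ ≠ η) : False := by
  have hηT := (hV 0).mem
  have hθ : θ ∈ T s.ι := s.isClosed_T.mem_of_tendsto hlim
    (Eventually.of_forall fun n => (hV n).sub (hw n))
  obtain ⟨f, hf, hne⟩ := s.bdry.fsep θ hθ η hηT hθη
  have hfc := s.bdry.fcont f hf
  -- a continuous function with `g η < g θ`
  obtain ⟨g, hg, hgl⟩ : ∃ g : s.Z → ℝ, Continuous g ∧ g η < g θ := by
    rcases lt_or_gt_of_ne hne with h | h
    · exact ⟨fun z => - f z, hfc.neg, by linarith⟩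
    · exact ⟨f, hfc, h⟩
  obtain ⟨σ, hσ, e1, p, hp, hpl⟩ := exists_stab_level hC hA hL hLF hV hd hw hlim hg
    (t := g η + (g θ - g η) / 3) (by linarith) (by linarith)
  obtain ⟨σ', hσ', e2, p', hp', hpl'⟩ := exists_stab_level hC hA hL hLF hV hd hw hlim hg
    (t := g η + 2 * (g θ - g η) / 3) (by linarith) (by linarith)
  have h1 : σ ≠ η := by
    rintro rfl
    linarith
  have h2 : σ' ≠ η := by
    rintro rfl
    linarith
  have := hN η hηT σ hσ σ' hσ' h1 h2 p p' hp hp' hpl hpl'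
  rw [this] at e1
  linarith

/-- the components of `T \ {η}` are open -/
theorem nOpen (s : Sys) (hC : PConn s) (hA : PAlg s) (hL : PLim s) (hLF : NLF s) (hN : NC1 s) :
    NOpen s := by
  intro η hη θ hθ hθη
  have hsubT : Compo s.ι η θ ⊆ T s.ι := fun z hz => hz.1
  refine ⟨hη, fun h => h.2.1 rfl, ?_, ?_⟩
  · by_contra hcon
    rw [ro_iff] at hcon
    push Not at hcon
    obtain ⟨θ0, hθ0, hbad⟩ := hcon hsubT
    have hne : θ0 ≠ η := hθ0.2.1
    have hdpos : 0 < dist θ0 η := dist_pos.2 hne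
    -- one step
    have step : ∀ (n : ℕ) (W : {W : Set s.Z // Clp s.ι η W ∧ θ ∈ W}),
        ∃ W' : {W : Set s.Z // Clp s.ι η W ∧ θ ∈ W}, W'.1 ⊆ W.1 ∧
          ∃ z ∈ W.1 \ W'.1, dist z θ0 < 1 / ((n : ℝ) + 1) := by
      rintro n ⟨W, hW, hθW⟩
      have hθ0W : θ0 ∈ W := hθ0.2.2 W hW hθW
      obtain ⟨δ, hδ, hWδ⟩ := (ro_iff.1 hW.ro).2 θ0 hθ0W
      have hpos : (0 : ℝ) < 1 / ((n : ℝ) + 1) := by positivity
      obtain ⟨z, hzT, hzd, hzQ⟩ := hbad (min (dist θ0 η) (min δ (1 / ((n : ℝ) + 1))))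
        (lt_min hdpos (lt_min hδ hpos))
      have hzη : z ≠ η := by
        rintro rfl
        rw [dist_comm] at hzd
        exact absurd (hzd.trans_le (min_le_left _ _)) (lt_irrefl _)
      have hzW : z ∈ W := hWδ z hzT
        ((hzd.trans_le (min_le_right _ _)).trans_le (min_le_left _ _))
      have : ∃ U, Clp s.ι η U ∧ θ ∈ U ∧ z ∉ U := by
        by_contra hc
        push Not at hc
        exact hzQ ⟨hzT, hzη, hc⟩
      obtain ⟨U, hU, hθU, hzU⟩ := this
      refine ⟨⟨W ∩ U, (hA η W U hW hU).2.1, hθW, hθU⟩, inter_subset_left, z,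
        ⟨hzW, fun h => hzU h.2⟩,
        (hzd.trans_le (min_le_right _ _)).trans_le (min_le_right _ _)⟩
    -- initial set: all of `T \ η`
    have h0 : ∃ W : {W : Set s.Z // Clp s.ι η W ∧ θ ∈ W}, True := by
      have hO : RO s.ι ({η}ᶜ ∩ T s.ι) := RO.of_isOpen isOpen_compl_singleton
      refine ⟨⟨{η}ᶜ ∩ T s.ι, ⟨hη, fun h => h.1 rfl, hO, ?_⟩, hθη, hθ⟩, trivial⟩
      have : cmp s.ι η ({η}ᶜ ∩ T s.ι) = ∅ := by
        ext z
        simp only [cmp, mem_ofPred_eq, mem_inter_iff, mem_compl_iff, mem_singleton_iff,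
          mem_empty_iff_false, iff_false]
        tauto
      rw [this]
      exact ⟨∅, isOpen_empty, empty_inter _⟩
    obtain ⟨W0, -⟩ := h0
    choose nxt hsub z hz hzd using step
    let W : ℕ → {W : Set s.Z // Clp s.ι η W ∧ θ ∈ W} := fun n => Nat.rec W0 (fun n W => nxt n W) n
    have hW : ∀ n, W (n + 1) = nxt n (W n) := fun n => rfl
    have hanti : Antitone fun n => (W n).1 := by
      refine antitone_nat_of_succ_le fun n => ?_
      rw [hW]
      exact hsub n (W n)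
    refine no_big_teeth hC hA hL hLF hN (η := η) (V := fun n => (W n).1 \ (W (n + 1)).1)
      (w := fun n => z n (W n)) (θ := θ0) (fun n => ?_) ?_ (fun n => ?_) ?_ hne
    · exact (hA η _ _ (W n).2.1 (W (n + 1)).2.1).2.2.2.1
    · have aux : ∀ m n, m < n → Disjoint ((W m).1 \ (W (m + 1)).1) ((W n).1 \ (W (n + 1)).1) := by
        intro m n hmn
        rw [Set.disjoint_left]
        rintro y ⟨-, hy⟩ ⟨hy', -⟩
        exact hy (hanti (Nat.succ_le_of_lt hmn) hy')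
      intro m n hmn
      rcases lt_or_gt_of_ne hmn with h | h
      · exact aux m n h
      · exact (aux n m h).symm
    · exact hz n (W n)
    · rw [tendsto_iff_dist_tendsto_zero]
      exact squeeze_zero (fun _ => dist_nonneg) (fun n => (hzd n (W n)).le)
        tendsto_one_div_add_atTop_nhds_zero_nat
  · have : cmp s.ι η (Compo s.ι η θ) = ⋃₀ {V | ∃ U, Clp s.ι η U ∧ θ ∈ U ∧ V = cmp s.ι η U} := by
      ext z
      constructor
      · rintro ⟨hz, hzη, hzQ⟩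
        have : ∃ U, Clp s.ι η U ∧ θ ∈ U ∧ z ∉ U := by
          by_contra hc
          push Not at hc
          exact hzQ ⟨hz, hzη, hc⟩
        obtain ⟨U, hU, hθU, hzU⟩ := this
        exact ⟨_, ⟨U, hU, hθU, rfl⟩, hz, hzη, hzU⟩
      · rintro ⟨_, ⟨U, hU, hθU, rfl⟩, hz, hzη, hzU⟩
        exact ⟨hz, hzη, fun h => hzU (h.2.2 U hU hθU)⟩
    rw [this]
    apply RO.sUnion
    rintro _ ⟨U, hU, -, rfl⟩
    exact hU.ro'

end Crest.Agent.R224
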