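/-
R224 / S0346, group half: nodes NPart, NRetr, NBlkConn (helper754).
-/
import Crest.Agent.R224.Iface

set_option autoImplicit false
set_option linter.unusedSectionVars false
set_option linter.style.haveILetI false

noncomputable section

open MeasureTheory Set Filter Topology

namespace Crest.Agent.R224.Part754

/-! ### general facts -/

section gen

variable {G : Type} [Group G] {Z : Type} [MetricSpace Z] [MulAction G Z]

lemma ro_sub {ι : G → Z} {U : Set Z} (h : RO ι U) : U ⊆ T ι := by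
  obtain ⟨O, _, rfl⟩ := h; exact inter_subset_right

lemma clp_sub {ι : G → Z} {η : Z} {U : Set Z} (h : Clp ι η U) : U ⊆ T ι := ro_sub h.ro

lemma clp_ne {ι : G → Z} {η : Z} {U : Set Z} (h : Clp ι η U) {z : Z} (hz : z ∈ U) : z ≠ η := by
  rintro rfl; exact h.notMem hz

lemma cmp_cmp {ι : G → Z} {η : Z} {U : Set Z} (h : Clp ι η U) : cmp ι η (cmp ι η U) = U := by
  ext z
  constructor
  · rintro ⟨h1, h2, h3⟩
    by_contra hz
    exact h3 ⟨h1, h2, hz⟩
  · intro hz
    exact ⟨clp_sub h hz, clp_ne h hz, fun hc => hc.2.2 hz⟩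

lemma ro_union {ι : G → Z} {I : Type} {U : I → Set Z} (h : ∀ i, RO ι (U i)) :
    RO ι (⋃ i, U i) := by
  choose O hO hU using h
  refine ⟨⋃ i, O i, isOpen_iUnion hO, ?_⟩
  rw [iUnion_inter]
  exact iUnion_congr hU

lemma ro_of_nhds {ι : G → Z} {U : Set Z} (hU : U ⊆ T ι)
    (h : ∀ z ∈ U, ∃ O : Set Z, IsOpen O ∧ z ∈ O ∧ O ∩ T ι ⊆ U) : RO ι U := by
  choose! O hO hz hs using h
  refine ⟨⋃ z ∈ U, O z, isOpen_biUnion fun z hz => hO z hz, ?_⟩
  ext w
  constructor
  · rintro ⟨hw, hT⟩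
    obtain ⟨z, hz', hw⟩ := mem_iUnion₂.1 hw
    exact hs z hz' ⟨hw, hT⟩
  · intro hw
    exact ⟨mem_iUnion₂.2 ⟨w, hw, hz w hw⟩, hU hw⟩

/-- for `U` clopen at `η` the set `U ∪ {η}` is closed -/
lemma clp_closed {ι : G → Z} {η : Z} {U : Set Z} (hT : IsClosed (T ι)) (h : Clp ι η U) :
    IsClosed (U ∪ {η}) := by
  obtain ⟨O, hO, hOU⟩ := h.ro'
  have : U ∪ {η} = T ι ∩ Oᶜ := by
    ext z
    constructor
    · rintro (hz | hz)
      · refine ⟨clp_sub h hz, fun hzO => ?_⟩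
        have : z ∈ cmp ι η U := hOU ▸ ⟨hzO, clp_sub h hz⟩
        exact this.2.2 hz
      · rw [mem_singleton_iff] at hz
        subst hz
        refine ⟨h.mem, fun hzO => ?_⟩
        have : z ∈ cmp ι z U := hOU ▸ ⟨hzO, h.mem⟩
        exact this.2.1 rfl
    · rintro ⟨hzT, hzO⟩
      by_contra hz
      have hz' : z ∈ cmp ι η U :=
        ⟨hzT, fun hh => hz (Or.inr hh), fun hh => hz (Or.inl hh)⟩
      rw [← hOU] at hz'
      exact hzO hz'.1
  rw [this]
  exact hT.inter hO.isClosed_compl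

end gen

section sys

variable (s : Sys)

lemma T_closed : IsClosed (T s.ι) := by
  have : IsOpen (Set.range s.ι) := by
    rw [← iUnion_singleton_eq_range]
    exact isOpen_iUnion fun g => s.bdry.isol g
  exact this.isClosed_compl

lemma ro_meas {U : Set s.Z} (h : RO s.ι U) : MeasurableSet U := by
  obtain ⟨O, hO, rfl⟩ := h
  exact hO.measurableSet.inter (T_closed s).measurableSet

lemma ro_pos {U : Set s.Z} (h : RO s.ι U) (hne : U.Nonempty) (x : s.G) : 0 < hh s.ν U x := by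
  haveI := s.harm.prob x
  obtain ⟨O, hO, rfl⟩ := h
  have h1 := s.harm.full x O hO hne
  have h2 : (s.ν x).real (O ∩ T s.ι) = (s.ν x).real O := by
    have h3 : (s.ν x) (O ∩ T s.ι) = s.ν x O :=
      measure_inter_conull (s.harm.supp x)
    simp [measureReal_def, h3]
  unfold hh
  rw [h2]; exact h1

lemma hh_nonneg (U : Set s.Z) (x : s.G) : 0 ≤ hh s.ν U x := measureReal_nonneg

lemma hh_add_le {U V : Set s.Z} (hV : MeasurableSet V) (hd : Disjoint U V)
    (x : s.G) : hh s.ν U x + hh s.ν V x ≤ 1 := by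
  haveI := s.harm.prob x
  unfold hh
  rw [← measureReal_union hd hV]
  exact measureReal_le_one

lemma hh_mono {U V : Set s.Z} (h : U ⊆ V) (x : s.G) : hh s.ν U x ≤ hh s.ν V x := by
  haveI := s.harm.prob x
  exact measureReal_mono h

/-- an accumulation property: the boundary is connected, so `η` is in the closure of every
non-empty clopen set at `η` -/
lemma mem_closure_of_clp (hPC : PConn s) {η : s.Z} {U : Set s.Z} (h : Clp s.ι η U)
    (hne : U.Nonempty) : η ∈ closure U := by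
  by_contra hcl
  refine hPC U h.ro ?_ hne ⟨η, h.mem, h.notMem⟩
  refine ⟨(closure U)ᶜ ∪ (Classical.choose h.ro'), ?_, ?_⟩
  · exact isClosed_closure.isOpen_compl.union (Classical.choose_spec h.ro').1
  · have h2 := (Classical.choose_spec h.ro').2
    ext z
    constructor
    · rintro ⟨hz | hz, hzT⟩
      · exact ⟨hzT, fun hzU => hz (subset_closure hzU)⟩
      · have : z ∈ cmp s.ι η U := h2 ▸ ⟨hz, hzT⟩
        exact ⟨hzT, this.2.2⟩
    · rintro ⟨hzT, hzU⟩
      refine ⟨?_, hzT⟩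
      by_cases hz : z = η
      · left; rw [hz]; exact hcl
      · right
        have : z ∈ cmp s.ι η U := ⟨hzT, hz, hzU⟩
        rw [← h2] at this
        exact this.1

/-! ### components -/

lemma mem_compo {η θ : s.Z} (hθ : θ ∈ T s.ι) (hne : θ ≠ η) : θ ∈ Compo s.ι η θ :=
  ⟨hθ, hne, fun _ _ h => h⟩

lemma compo_sub {η θ : s.Z} {U : Set s.Z} (hU : Clp s.ι η U) (h : θ ∈ U) :
    Compo s.ι η θ ⊆ U := fun _ hz => hz.2.2 U hU h

variable {s}

lemma exists_sel {a b : s.Z} (h : Unsep s.ι a b) (η : s.Z) :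
    ∃ θ ∈ T s.ι, θ ≠ η ∧ sel s.ι a b η = Compo s.ι η θ := by
  unfold sel
  by_cases hη : η = a
  · subst hη
    exact ⟨b, h.hb, h.ne.symm, by simp⟩
  · exact ⟨a, h.ha, fun hh => hη hh.symm, by simp [hη]⟩

lemma sel_clp {a b : s.Z} (hO : NOpen s) (h : Unsep s.ι a b) {η : s.Z} (hη : η ∈ T s.ι) :
    Clp s.ι η (sel s.ι a b η) := by
  obtain ⟨θ, h1, h2, h3⟩ := exists_sel h η
  rw [h3]; exact hO η hη θ h1 h2

lemma isCut_mem {η : s.Z} (h : IsCut s.ι η) : η ∈ T s.ι := by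
  obtain ⟨U, hU, _⟩ := h; exact hU.mem

lemma dn_clp {a b : s.Z} (hA : PAlg s) (hO : NOpen s) (h : Unsep s.ι a b) {η : s.Z}
    (hη : η ∈ T s.ι) : Clp s.ι η (Dn s.ι a b η) := by
  have := sel_clp hO h hη
  exact (hA η _ _ this this).1

lemma dn_nonempty {a b : s.Z} (hA : PAlg s) (h : Unsep s.ι a b) {η : s.Z}
    (hη : IsCut s.ι η) : (Dn s.ι a b η).Nonempty := by
  obtain ⟨θ, h1, h2, h3⟩ := exists_sel h η
  obtain ⟨U, hU, hUne, hUc⟩ := hη
  have hUc' := (hA η U U hU hU).1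
  unfold Dn
  rw [h3]
  by_cases hθ : θ ∈ U
  · obtain ⟨z, hz⟩ := hUc
    refine ⟨z, hz.1, hz.2.1, fun hzc => hz.2.2 (compo_sub s hU hθ hzc)⟩
  · obtain ⟨z, hz⟩ := hUne
    have hθ' : θ ∈ cmp s.ι η U := ⟨h1, h2, hθ⟩
    refine ⟨z, clp_sub hU hz, clp_ne hU hz, fun hzc => ?_⟩
    exact (compo_sub s hUc' hθ' hzc).2.2 hz

lemma blk_eq_or {a b : s.Z} {z η : s.Z} (hz : z ∈ Blk s.ι a b) (hη : IsCut s.ι η) :
    z = η ∨ z ∈ sel s.ι a b η := hz.2 η hη

lemma blk_notMem_dn {a b : s.Z} {z η : s.Z} (hz : z ∈ Blk s.ι a b) (hη : IsCut s.ι η) :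
    z ∉ Dn s.ι a b η := by
  intro hd
  rcases blk_eq_or hz hη with h | h
  · exact hd.2.1 h
  · exact hd.2.2 h

lemma a_mem_blk {a b : s.Z} (h : Unsep s.ι a b) : a ∈ Blk s.ι a b := by
  refine ⟨h.ha, fun η hη => ?_⟩
  by_cases ha : a = η
  · exact Or.inl ha
  · right
    unfold sel
    rw [if_neg (fun hh => ha hh.symm)]
    exact mem_compo s h.ha ha

lemma b_mem_blk {a b : s.Z} (h : Unsep s.ι a b) : b ∈ Blk s.ι a b := by
  refine ⟨h.hb, fun η hη => ?_⟩
  by_cases hb : b = η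
  · exact Or.inl hb
  · right
    unfold sel
    by_cases ha : η = a
    · rw [if_pos ha]
      exact mem_compo s h.hb h.ne.symm
    · rw [if_neg ha]
      refine ⟨h.hb, hb, fun U hU haU => ?_⟩
      exact (h.uns η hη ha (fun hh => hb hh.symm) U hU).1 haU

lemma blk_closed {a b : s.Z} (hA : PAlg s) (hO : NOpen s) (h : Unsep s.ι a b) :
    IsClosed (Blk s.ι a b) := by
  have : Blk s.ι a b = T s.ι ∩ ⋂ η ∈ {η | IsCut s.ι η}, (sel s.ι a b η ∪ {η}) := by
    ext z
    simp only [Blk, mem_ofPred_eq, mem_inter_iff, mem_iInter, mem_union, mem_singleton_iff]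
    constructor
    · rintro ⟨h1, h2⟩
      exact ⟨h1, fun η hη => (h2 η hη).symm⟩
    · rintro ⟨h1, h2⟩
      exact ⟨h1, fun η hη => (h2 η hη).symm⟩
  rw [this]
  refine (T_closed s).inter (isClosed_biInter fun η hη => ?_)
  exact clp_closed (T_closed s) (sel_clp hO h (isCut_mem hη))

lemma dn_disj {a b : s.Z} (hH : PHalf s) (hA : PAlg s) (hO : NOpen s) (h : Unsep s.ι a b)
    {η η' : s.Z} (hη : IsCut s.ι η) (hη' : IsCut s.ι η') (hb : η ∈ Blk s.ι a b)
    (hb' : η' ∈ Blk s.ι a b) (hne : η ≠ η') :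
    Disjoint (Dn s.ι a b η) (Dn s.ι a b η') := by
  have h1 := dn_clp hA hO h (isCut_mem hη)
  have h2 := dn_clp hA hO h (isCut_mem hη')
  rcases hH η _ η' _ h1 h2 hne (blk_notMem_dn hb' hη) with h3 | h3
  · exact absurd (h3 (Or.inr rfl)) (blk_notMem_dn hb hη')
  · exact h3.mono_left subset_union_left

/-- if `η₁ ∈ Dn η'` then `Dn η₁ ∪ {η₁} ⊆ Dn η'` -/
lemma dn_nest {a b : s.Z} (hH : PHalf s) (hA : PAlg s) (hO : NOpen s) (h : Unsep s.ι a b)
    {η₁ η' : s.Z} (h₁ : IsCut s.ι η₁) (h' : IsCut s.ι η') (hin : η₁ ∈ Dn s.ι a b η') :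
    Dn s.ι a b η₁ ∪ {η₁} ⊆ Dn s.ι a b η' := by
  have hne : η' ≠ η₁ := fun hh => hin.2.1 hh.symm
  have hs' := sel_clp hO h (isCut_mem h')
  have hs₁ := sel_clp hO h (isCut_mem h₁)
  rcases hH η' _ η₁ _ hs' hs₁ hne hin.2.2 with h3 | h3
  · intro z hz
    rcases hz with hz | hz
    · refine ⟨hz.1, ?_, fun hzs => hz.2.2 (h3 (Or.inl hzs))⟩
      intro hzη
      exact hz.2.2 (h3 (Or.inr hzη))
    · rw [mem_singleton_iff.1 hz]; exact hin
  · exfalso
    rw [Set.disjoint_left] at h3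
    have key : ∀ z, z ∈ Blk s.ι a b → z ≠ η₁ → False := by
      intro z hz hz1
      have hz2 : z ∈ sel s.ι a b η' ∪ {η'} := by
        rcases blk_eq_or hz h' with hh | hh
        · exact Or.inr hh
        · exact Or.inl hh
      have hz3 : z ∈ sel s.ι a b η₁ := (blk_eq_or hz h₁).resolve_left hz1
      exact h3 hz2 hz3
    by_cases ha : a = η₁
    · exact key b (b_mem_blk h) (fun hb => h.ne (ha.trans hb.symm))
    · exact key a (a_mem_blk h) ha

lemma sel_pairs {a b : s.Z} (h : Unsep s.ι a b) {η : s.Z} (hη : IsCut s.ι η) :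
    (η, sel s.ι a b η) ∈ s.Pairs := by
  obtain ⟨θ, h1, h2, h3⟩ := exists_sel h η
  exact ⟨hη, θ, h1, h2, h3⟩

lemma cover {a b : s.Z} (hH : PHalf s) (hA : PAlg s) (hO : NOpen s) (hS : NShrink s)
    (h : Unsep s.ι a b) {z : s.Z} (hz : z ∈ T s.ι) (hzB : z ∉ Blk s.ι a b) :
    ∃ η, IsCut s.ι η ∧ η ∈ Blk s.ι a b ∧ z ∈ Dn s.ι a b η := by
  -- a first cut point
  obtain ⟨η₀, h₀, hz₀⟩ : ∃ η, IsCut s.ι η ∧ z ∈ Dn s.ι a b η := by
    by_contra hcon
    push Not at hcon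
    refine hzB ⟨hz, fun η hη => ?_⟩
    by_contra hcc
    push Not at hcc
    exact hcon η hη ⟨hz, hcc.1, hcc.2⟩
  let Z1 : Set s.Z := {η | IsCut s.ι η ∧ Dn s.ι a b η₀ ⊆ Dn s.ι a b η}
  have hfin : Z1.Finite := by
    set x : s.G := 1
    set c := hh s.ν (Dn s.ι a b η₀) x with hc
    have hd0 := dn_clp hA hO h (isCut_mem h₀)
    have hcpos : 0 < c := ro_pos s hd0.ro (dn_nonempty hA h h₀) x
    have hε : 0 < dist a b := dist_pos.2 h.ne
    have hF := (hS c (dist a b) hcpos hε x).1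
    have hsub : Z1 ⊆ (Prod.fst '' {q | q ∈ s.Pairs ∧ hh s.ν q.2 x ≤ 1 - c ∧
        ∃ z ∈ q.2, ∃ z' ∈ q.2, dist a b ≤ dist z z'}) ∪ {a, b} := by
      rintro η ⟨hη, hsub⟩
      by_cases hab : η = a ∨ η = b
      · right; rcases hab with hh | hh
        · exact Or.inl hh
        · exact Or.inr hh
      · push Not at hab
        left
        refine ⟨(η, sel s.ι a b η), ⟨sel_pairs h hη, ?_, ?_⟩, rfl⟩
        · have h1 : hh s.ν (Dn s.ι a b η₀) x ≤ hh s.ν (Dn s.ι a b η) x := hh_mono s hsub x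
          have h2 : Disjoint (sel s.ι a b η) (Dn s.ι a b η) := by
            rw [Set.disjoint_left]; intro w hw hw'; exact hw'.2.2 hw
          have h3 := hh_add_le s (ro_meas s (dn_clp hA hO h (isCut_mem hη)).ro) h2 x
          show hh s.ν (sel s.ι a b η) x ≤ 1 - c
          linarith
        · refine ⟨a, ?_, b, ?_, le_rfl⟩
          · exact (blk_eq_or (a_mem_blk h) hη).resolve_left (fun hh => hab.1 hh.symm)
          · exact (blk_eq_or (b_mem_blk h) hη).resolve_left (fun hh => hab.2 hh.symm)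
    exact ((hF.image _).union ((finite_singleton b).insert a)).subset hsub
  have hne : Z1.Nonempty := ⟨η₀, h₀, Subset.rfl⟩
  obtain ⟨η₁, ⟨h₁, hsub₁⟩, hmax⟩ :=
    Set.Finite.exists_maximalFor (fun η => Dn s.ι a b η) Z1 hfin hne
  refine ⟨η₁, h₁, ?_, hsub₁ hz₀⟩
  refine ⟨isCut_mem h₁, fun η' h' => ?_⟩
  by_contra hcon
  push Not at hcon
  have hin : η₁ ∈ Dn s.ι a b η' := ⟨isCut_mem h₁, hcon.1, hcon.2⟩
  have hnest := dn_nest hH hA hO h h₁ h' hin
  have hZ : η' ∈ Z1 := ⟨h', hsub₁.trans (subset_union_left.trans hnest)⟩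
  have hle := hmax hZ (subset_union_left.trans hnest)
  exact (hle hin).2.1 rfl

end sys

end Crest.Agent.R224.Part754

namespace Crest.Agent.R224

open Part754

/-- E2 -/
theorem nPart (s : Sys) (hH : PHalf s) (hA : PAlg s) (hO : NOpen s) (hS : NShrink s) :
    NPart s := by
  intro a b h
  refine ⟨a_mem_blk h, b_mem_blk h, blk_closed hA hO h, ?_, ?_, ?_⟩
  · intro η hη _
    refine ⟨dn_clp hA hO h (isCut_mem hη), dn_nonempty hA h hη, ?_⟩
    rw [Set.disjoint_left]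
    intro z hz hzB
    exact blk_notMem_dn hzB hη hz
  · intro η η' hη hb hη' hb' hne
    exact dn_disj hH hA hO h hη hη' hb hb' hne
  · intro z hz
    by_cases hzB : z ∈ Blk s.ι a b
    · exact Or.inl hzB
    · exact Or.inr (cover hH hA hO hS h hz hzB)

/-- E3 -/
theorem nRetr (s : Sys) (hPC : PConn s) (hH : PHalf s) (hA : PAlg s) (hO : NOpen s)
    (hS : NShrink s) : NRetr s := by
  intro a b h O hOo
  have hP := nPart s hH hA hO hS a b h
  obtain ⟨-, -, -, -, hdisj, hcov⟩ := hP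
  refine ro_of_nhds ?_ ?_
  · rintro z (hz | ⟨η, _, _, _, hz⟩)
    · exact hz.1.2.1
    · exact hz.1
  · rintro z (hz | ⟨η, hη, hηO, hηB, hz⟩)
    · -- `z ∈ O ∩ Blk`
      obtain ⟨⟨hzO, hzB⟩, -⟩ := hz
      obtain ⟨ε, hε, hball⟩ := Metric.isOpen_iff.1 hOo z hzO
      set x : s.G := 1
      have hF := (hS (1 / 2) (ε / 4) (by norm_num) (by linarith) x).2
      -- the set of bad cut points
      let W : Set s.Z := {η | IsCut s.ι η ∧ η ∈ Blk s.ι a b ∧ η ∉ O ∧
        ∃ w ∈ Dn s.ι a b η, dist w z < ε / 4}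
      have hbig : {η : s.Z | IsCut s.ι η ∧ η ∈ Blk s.ι a b ∧
          1 / 2 < hh s.ν (Dn s.ι a b η) x}.Subsingleton := by
        rintro η ⟨h1, h2, h3⟩ η' ⟨h1', h2', h3'⟩
        by_contra hne
        have := hh_add_le s (ro_meas s (dn_clp hA hO h (isCut_mem h1')).ro)
          (hdisj η η' h1 h2 h1' h2' hne) x
        linarith
      have hWfin : W.Finite := by
        refine ((hF.image Prod.fst).union hbig.finite).subset ?_
        rintro η ⟨h1, h2, h3, w, hw, hwz⟩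
        by_cases hm : 1 / 2 < hh s.ν (Dn s.ι a b η) x
        · exact Or.inr ⟨h1, h2, hm⟩
        · left
          refine ⟨(η, sel s.ι a b η), ⟨sel_pairs h h1, ?_, ?_⟩, rfl⟩
          · show hh s.ν (Dn s.ι a b η) x ≤ 1 - 1 / 2
            push Not at hm; linarith
          · have hcl := mem_closure_of_clp s hPC (dn_clp hA hO h (isCut_mem h1))
              (dn_nonempty hA h h1)
            obtain ⟨w', hw', hw'η⟩ := Metric.mem_closure_iff.1 hcl (ε / 4) (by linarith)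
            refine ⟨w, hw, w', hw', ?_⟩
            have hzη : ε ≤ dist z η := by
              by_contra hlt
              push Not at hlt
              exact h3 (hball (by rw [Metric.mem_ball, dist_comm]; exact hlt))
            have t1 := dist_triangle z w η
            have t2 := dist_triangle w w' η
            rw [dist_comm z w] at t1
            rw [dist_comm η w'] at hw'η
            linarith
      refine ⟨Metric.ball z (ε / 4) ∩ ⋂ η ∈ W, (Dn s.ι a b η ∪ {η})ᶜ, ?_, ?_, ?_⟩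
      · refine Metric.isOpen_ball.inter (hWfin.isOpen_biInter fun η hη => ?_)
        exact (clp_closed (T_closed s) (dn_clp hA hO h (isCut_mem hη.1))).isOpen_compl
      · refine ⟨Metric.mem_ball_self (by linarith), mem_iInter₂.2 fun η hη => ?_⟩
        rintro (hd | hd)
        · exact blk_notMem_dn hzB hη.1 hd
        · rw [mem_singleton_iff] at hd
          exact hη.2.2.1 (hd ▸ hzO)
      · rintro w ⟨⟨hw1, hw2⟩, hwT⟩
        have hw1' : dist w z < ε / 4 := hw1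
        rcases hcov w hwT with hwB | ⟨η, hη, hηB, hwD⟩
        · refine Or.inl ⟨⟨hball ?_, hwB⟩, hwB⟩
          rw [Metric.mem_ball]; linarith
        · refine Or.inr ⟨η, hη, ⟨?_, hηB⟩, hηB, hwD⟩
          by_contra hηO
          exact (mem_iInter₂.1 hw2 η ⟨hη, hηB, hηO, w, hwD, hw1'⟩) (Or.inl hwD)
    · obtain ⟨O', hO', hOD⟩ := (dn_clp hA hO h (isCut_mem hη)).ro
      refine ⟨O', hO', ?_, ?_⟩
      · rw [← hOD] at hz; exact hz.1
      · intro w hw
        rw [hOD] at hw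
        exact Or.inr ⟨η, hη, hηO, hηB, hw⟩

/-- E4 -/
theorem nBlkConn (s : Sys) (hPC : PConn s) (hH : PHalf s) (hA : PAlg s) (hO : NOpen s)
    (hS : NShrink s) : NBlkConn s := by
  intro a b h O O' hOo hOo' hsub hne hne'
  obtain ⟨-, -, -, hDn, hdisj, hcov⟩ := nPart s hH hA hO hS a b h
  by_contra hcon
  have hr := nRetr s hPC hH hA hO hS a b h O hOo
  have hr' := nRetr s hPC hH hA hO hS a b h O' hOo'
  have heq : T s.ι \ sat s.ι a b (O ∩ Blk s.ι a b) = sat s.ι a b (O' ∩ Blk s.ι a b) := by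
    ext z
    constructor
    · rintro ⟨hzT, hz⟩
      rcases hcov z hzT with hzB | ⟨η, hη, hηB, hzD⟩
      · rcases hsub hzB with hzO | hzO
        · exact absurd (Or.inl ⟨⟨hzO, hzB⟩, hzB⟩) hz
        · exact Or.inl ⟨⟨hzO, hzB⟩, hzB⟩
      · rcases hsub hηB with hzO | hzO
        · exact absurd (Or.inr ⟨η, hη, ⟨hzO, hηB⟩, hηB, hzD⟩) hz
        · exact Or.inr ⟨η, hη, ⟨hzO, hηB⟩, hηB, hzD⟩
    · intro hz
      refine ⟨ro_sub hr' hz, fun hz' => ?_⟩
      rcases hz with hz | ⟨η, hη, hηA, hηB, hzD⟩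
      · rcases hz' with hz' | ⟨η, hη, hηA, hηB, hzD⟩
        · exact hcon ⟨z, ⟨hz'.1.1, hz.1.1⟩, hz.2⟩
        · exact blk_notMem_dn hz.2 hη hzD
      · rcases hz' with hz' | ⟨η', hη', hηA', hηB', hzD'⟩
        · exact blk_notMem_dn hz'.2 hη hzD
        · by_cases he : η = η'
          · subst he
            exact hcon ⟨η, ⟨hηA'.1, hηA.1⟩, hηB⟩
          · exact Set.disjoint_left.1 (hdisj η η' hη hηB hη' hηB' he) hzD hzD'
  refine hPC _ hr (heq ▸ hr') ?_ (heq ▸ ?_)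
  · obtain ⟨z, hz⟩ := hne
    exact ⟨z, Or.inl ⟨hz, hz.2⟩⟩
  · obtain ⟨z, hz⟩ := hne'
    exact ⟨z, Or.inl ⟨hz, hz.2⟩⟩

end Crest.Agent.R224
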