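/-
R224 / S0346: node PSep, part A: pieces of a locally finite graph with finitely many components
(helper821).
-/
import Mathlib

set_option autoImplicit false

noncomputable section

open Set Relation

namespace Crest.Agent.R224.LT

variable {E : Type*} (R : E → E → Prop)

/-- reachability inside `X` -/
def Reach (X : Set E) (p q : E) : Prop := ReflTransGen (fun a b => R a b ∧ a ∈ X ∧ b ∈ X) p q

/-- `X` is an almost closed piece of `W` -/
def Alm (W X : Set E) : Prop :=
  X ⊆ W ∧ {pq : E × E | R pq.1 pq.2 ∧ pq.1 ∈ X ∧ pq.2 ∈ W ∧ pq.2 ∉ X}.Finite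

/-- finitely many components -/
def Rep (X : Set E) : Prop := ∃ F : Set E, F.Finite ∧ ∀ p ∈ X, ∃ q ∈ F, q ∈ X ∧ Reach R X q p

variable {R}

theorem Reach.mem {X : Set E} {p q : E} (h : Reach R X p q) (hp : p ∈ X) : q ∈ X := by
  induction h with
  | refl => exact hp
  | tail _ h2 _ => exact h2.2.2

theorem Reach.mono {X Y : Set E} (hXY : X ⊆ Y) {p q : E} (h : Reach R X p q) : Reach R Y p q := by
  induction h with
  | refl => exact .refl
  | tail _ h2 ih => exact ih.tail ⟨h2.1, hXY h2.2.1, hXY h2.2.2⟩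

theorem Reach.symm (hs : ∀ p q, R p q → R q p) {X : Set E} {p q : E} (h : Reach R X p q) :
    Reach R X q p := by
  induction h with
  | refl => exact .refl
  | tail _ h2 ih => exact ReflTransGen.head ⟨hs _ _ h2.1, h2.2.2, h2.2.1⟩ ih

/-- either reachable in `X` or through an entrance -/
theorem reach_or {W X : Set E} {q p : E} (h : Reach R W q p) (hp : p ∈ X) :
    (q ∈ X ∧ Reach R X q p) ∨ ∃ u v, R u v ∧ u ∈ W ∧ u ∉ X ∧ v ∈ X ∧ Reach R X v p := by
  induction h with
  | refl => exact Or.inl ⟨hp, .refl⟩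
  | @tail b c h1 h2 ih =>
    by_cases hb : b ∈ X
    · rcases ih hb with ⟨h3, h4⟩ | ⟨u, v, h3, h4, h5, h6, h7⟩
      · exact Or.inl ⟨h3, ReflTransGen.tail h4 ⟨h2.1, hb, hp⟩⟩
      · exact Or.inr ⟨u, v, h3, h4, h5, h6, ReflTransGen.tail h7 ⟨h2.1, hb, hp⟩⟩
    · exact Or.inr ⟨b, c, h2.1, h2.2.1, hb, hp, .refl⟩

theorem Alm.rep (hs : ∀ p q, R p q → R q p) {W X : Set E} (hW : Rep R W) (hX : Alm R W X) :
    Rep R X := by
  obtain ⟨F, hF, hFW⟩ := hW
  refine ⟨F ∪ Prod.fst '' {pq : E × E | R pq.1 pq.2 ∧ pq.1 ∈ X ∧ pq.2 ∈ W ∧ pq.2 ∉ X},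
    hF.union (hX.2.image _), fun p hp => ?_⟩
  obtain ⟨q, hq, -, hqp⟩ := hFW p (hX.1 hp)
  rcases reach_or hqp hp with ⟨h1, h2⟩ | ⟨u, v, h1, h2, h3, h4, h5⟩
  · exact ⟨q, Or.inl hq, h1, h2⟩
  · exact ⟨v, Or.inr ⟨(v, u), ⟨hs _ _ h1, h4, h2, h3⟩, rfl⟩, h4, h5⟩

theorem Alm.sdiff_finite (hfin : ∀ q, {p | R p q}.Finite) {W X : Set E} (hX : Alm R W X)
    {F : Set E} (hF : F.Finite) : Alm R W (X \ F) := by
  refine ⟨Set.sdiff_subset.trans hX.1, ?_⟩
  refine (hX.2.union (hF.biUnion fun q _ => (hfin q).image fun p => (p, q))).subset ?_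
  rintro ⟨p, q⟩ ⟨h1, h2, h3, h4⟩
  by_cases hq : q ∈ X
  · right
    have hqF : q ∈ F := by
      by_contra h
      exact h4 ⟨hq, h⟩
    simp only [mem_iUnion]
    exact ⟨q, hqF, p, h1, rfl⟩
  · exact Or.inl ⟨h1, h2.1, h3, hq⟩

theorem Alm.comp {W X : Set E} (hX : Alm R W X) (q : E) (hq : q ∈ X) :
    Alm R W {p | Reach R X q p} := by
  refine ⟨fun p hp => hX.1 (Reach.mem hp hq), hX.2.subset ?_⟩
  rintro ⟨p, p'⟩ ⟨h1, h2, h3, h4⟩
  refine ⟨h1, Reach.mem h2 hq, h3, fun h5 => h4 ?_⟩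
  exact ReflTransGen.tail h2 ⟨h1, Reach.mem h2 hq, h5⟩

theorem Alm.sdiff_comp (hs : ∀ p q, R p q → R q p) {W X : Set E} (hX : Alm R W X) (q : E) :
    Alm R W (X \ {p | Reach R X q p}) := by
  refine ⟨Set.sdiff_subset.trans hX.1, hX.2.subset ?_⟩
  rintro ⟨p, p'⟩ ⟨h1, h2, h3, h4⟩
  refine ⟨h1, h2.1, h3, fun h5 => h4 ⟨h5, fun h6 => h2.2 ?_⟩⟩
  exact ReflTransGen.tail h6 ⟨hs _ _ h1, h5, h2.1⟩

theorem comp_conn (hs : ∀ p q, R p q → R q p) {X : Set E} {q : E} :
    ∀ p ∈ {p | Reach R X q p}, ∀ p' ∈ {p | Reach R X q p}, Reach R {p | Reach R X q p} p p' := by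
  have key : ∀ p, Reach R X q p → Reach R {p | Reach R X q p} q p := by
    intro p hp
    induction hp with
    | refl => exact .refl
    | @tail b c h1 h2 ih => exact ReflTransGen.tail ih ⟨h2.1, h1, ReflTransGen.tail h1 h2⟩
  intro p hp p' hp'
  exact ((key p hp).symm hs).trans (key p' hp')

/-- an additive property of almost closed pieces holds for a connected one -/
theorem exists_conn (hs : ∀ p q, R p q → R q p) {W : Set E} (P : Set E → Prop) (hP0 : ¬ P ∅)
    (hPu : ∀ X1 X2, Alm R W X1 → Alm R W X2 → Disjoint X1 X2 → P (X1 ∪ X2) → P X1 ∨ P X2)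
    {X : Set E} (hX : Alm R W X) (hr : Rep R X) (hP : P X) :
    ∃ C ⊆ X, Alm R W C ∧ P C ∧ ∀ p ∈ C, ∀ q ∈ C, Reach R C p q := by
  obtain ⟨F, hF, hFX⟩ := hr
  induction F, hF using Set.Finite.induction_on generalizing X with
  | empty =>
    exfalso
    apply hP0
    have : X = ∅ := by
      ext p
      simp only [mem_empty_iff_false, iff_false]
      intro hp
      obtain ⟨q, hq, -⟩ := hFX p hp
      exact hq
    rwa [this] at hP
  | @insert q F _ _ ih =>
    by_cases hq : q ∈ X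
    · have hsub : {p | Reach R X q p} ⊆ X := fun p hp => Reach.mem hp hq
      have hunion : {p | Reach R X q p} ∪ (X \ {p | Reach R X q p}) = X :=
        Set.union_sdiff_cancel hsub
      rcases hPu _ _ (hX.comp q hq) (hX.sdiff_comp hs q) disjoint_sdiff_self_right
        (by rw [hunion]; exact hP) with h | h
      · exact ⟨_, hsub, hX.comp q hq, h, comp_conn hs⟩
      · obtain ⟨C, h1, h2, h3, h4⟩ := ih (hX.sdiff_comp hs q) h (by
          rintro p ⟨hp, hnp⟩
          obtain ⟨q', hq', hq'X, hr⟩ := hFX p hp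
          rcases hq' with rfl | hq'
          · exact absurd hr hnp
          · refine ⟨q', hq', ⟨hq'X, fun h => hnp (h.trans hr)⟩, ?_⟩
            have key : ∀ p', Reach R X q' p' → Reach R X p' p →
                Reach R (X \ {p | Reach R X q p}) q' p' := by
              intro p' h1
              induction h1 with
              | refl => intro _; exact .refl
              | @tail b c h1 h2 ih =>
                intro h5
                have hb : Reach R X b p := ReflTransGen.head h2 h5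
                refine ReflTransGen.tail (ih hb) ⟨h2.1, ⟨h2.2.1, fun h => hnp (h.trans hb)⟩,
                  ⟨h2.2.2, fun h => hnp (h.trans h5)⟩⟩
            exact key p hr .refl)
        exact ⟨C, h1.trans Set.sdiff_subset, h2, h3, h4⟩
    · refine ih hX hP fun p hp => ?_
      obtain ⟨q', hq', hq'X, hr⟩ := hFX p hp
      rcases hq' with rfl | hq'
      · exact absurd hq'X hq
      · exact ⟨q', hq', hq'X, hr⟩

end Crest.Agent.R224.LT
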