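/-
R224 / S0346: node PSep, part B: cochains of pieces of a wall (helper821).
-/
import Crest.Agent.R224.Iface
import Crest.Agent.R224.SepA

set_option autoImplicit false

noncomputable section

open Set Filter Topology Relation
open scoped Classical

namespace Crest.Agent.R224.LT

variable {G : Type} [Group G] {S : Finset G}

theorem adj_symm' (hS : Std S) {x y : G} (h : Adj S x y) : Adj S y x := by
  have := hS.inv _ h
  simpa [Adj, mul_inv_rev] using this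

theorem adj_fin (x : G) : {y | Adj S y x}.Finite := by
  refine (S.finite_toSet.image fun u => x * u⁻¹).subset ?_
  intro y hy
  refine ⟨y⁻¹ * x, hy, ?_⟩
  simp [mul_inv_rev]

theorem adj_fin' (x : G) : {y | Adj S x y}.Finite := by
  refine (S.finite_toSet.image fun u => x * u).subset ?_
  intro y hy
  exact ⟨x⁻¹ * y, hy, by simp⟩

theorem tstep_symm (hS : Std S) (p q : G × G) (h : tstep S p q) : tstep S q p := by
  rcases h with ⟨h1, h2⟩ | ⟨h1, h2⟩
  · exact Or.inl ⟨h1.symm, adj_symm' hS h2⟩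
  · exact Or.inr ⟨h1.symm, adj_symm' hS h2⟩

theorem tstep_fin (q : G × G) : {p | tstep S p q}.Finite := by
  refine (((adj_fin (S := S) q.2).image fun y => (q.1, y)).union
    ((adj_fin (S := S) q.1).image fun y => (y, q.2))).subset ?_
  rintro ⟨a, b⟩ (⟨h1, h2⟩ | ⟨h1, h2⟩)
  · left
    simp only at h1 h2
    exact ⟨b, h2, by rw [h1]⟩
  · right
    simp only at h1 h2
    exact ⟨a, h2, by rw [h1]⟩

/-- the `1`-cochain of a set of oriented edges -/
def psi (X : Set (G × G)) (x y : G) : ZMod 2 := if (x, y) ∈ X ∨ (y, x) ∈ X then 1 else 0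

/-- `δ B = psi X` up to a finite set -/
def Cob (S : Finset G) (B : G → ZMod 2) (X : Set (G × G)) : Prop :=
  {p : G × G | Adj S p.1 p.2 ∧ psi X p.1 p.2 ≠ B p.1 + B p.2}.Finite

omit [Group G] in
theorem psi_symm (X : Set (G × G)) (x y : G) : psi X x y = psi X y x := by
  unfold psi; congr 1; exact propext or_comm

theorem psi_same {A : Set G} {X : Set (G × G)} (hX : X ⊆ bd S A) {x y : G}
    (h : x ∈ A ↔ y ∈ A) : psi X x y = 0 := by
  unfold psi
  rw [if_neg]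
  rintro (h1 | h1)
  · have := hX h1
    exact this.2.2 (h.1 this.2.1)
  · have := hX h1
    exact this.2.2 (h.2 this.2.1)

theorem psi_out {A : Set G} {X : Set (G × G)} (hX : X ⊆ bd S A) {x y : G} (hy : y ∉ A) :
    psi X x y = if (x, y) ∈ X then 1 else 0 := by
  unfold psi
  have : (y, x) ∉ X := fun h => hy (hX h).2.1
  simp only [this, or_false]

/-- vertices of the crossing pairs -/
def CV (S : Finset G) (W X : Set (G × G)) : Set G :=
  {v | ∃ pq ∈ {pq : (G × G) × (G × G) | tstep S pq.1 pq.2 ∧ pq.1 ∈ X ∧ pq.2 ∈ W ∧ pq.2 ∉ X},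
    v = pq.1.1 ∨ v = pq.1.2 ∨ v = pq.2.1 ∨ v = pq.2.2}

theorem CV_finite {W X : Set (G × G)} (hX : Alm (tstep S) W X) : (CV S W X).Finite := by
  refine (hX.2.biUnion fun pq _ =>
    (({pq.1.1, pq.1.2, pq.2.1, pq.2.2} : Finset G).finite_toSet)).subset ?_
  rintro v ⟨pq, hpq, h⟩
  simp only [mem_iUnion]
  refine ⟨pq, hpq, ?_⟩
  simpa using h

theorem key1 (hS : Std S) {A : Set G} {X : Set (G × G)} (hX : X ⊆ bd S A) {a b c : G}
    (ha : a ∈ A) (hb : b ∉ A) (hc : c ∉ A) (hab : Adj S a b) (hac : Adj S a c)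
    (hbc : Adj S b c) (h : psi X a b ≠ psi X a c) :
    a ∈ CV S (bd S A) X ∧ b ∈ CV S (bd S A) X ∧ c ∈ CV S (bd S A) X := by
  rw [psi_out hX hb, psi_out hX hc] at h
  by_cases h1 : (a, b) ∈ X
  · by_cases h2 : (a, c) ∈ X
    · simp [h1, h2] at h
    · have : ((a, b), (a, c)) ∈ {pq : (G × G) × (G × G) | tstep S pq.1 pq.2 ∧ pq.1 ∈ X ∧
          pq.2 ∈ bd S A ∧ pq.2 ∉ X} := ⟨Or.inl ⟨rfl, hbc⟩, h1, ⟨hac, ha, hc⟩, h2⟩
      exact ⟨⟨_, this, by simp⟩, ⟨_, this, by simp⟩, ⟨_, this, by simp⟩⟩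
  · by_cases h2 : (a, c) ∈ X
    · have : ((a, c), (a, b)) ∈ {pq : (G × G) × (G × G) | tstep S pq.1 pq.2 ∧ pq.1 ∈ X ∧
          pq.2 ∈ bd S A ∧ pq.2 ∉ X} := ⟨Or.inl ⟨rfl, adj_symm' hS hbc⟩, h2, ⟨hab, ha, hb⟩, h1⟩
      exact ⟨⟨_, this, by simp⟩, ⟨_, this, by simp⟩, ⟨_, this, by simp⟩⟩
    · simp [h1, h2] at h

theorem key2 (hS : Std S) {A : Set G} {X : Set (G × G)} (hX : X ⊆ bd S A) {a b c : G}
    (ha : a ∉ A) (hb : b ∈ A) (hc : c ∈ A) (hab : Adj S a b) (hac : Adj S a c)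
    (hbc : Adj S b c) (h : psi X a b ≠ psi X a c) :
    a ∈ CV S (bd S A) X ∧ b ∈ CV S (bd S A) X ∧ c ∈ CV S (bd S A) X := by
  rw [psi_symm X a b, psi_symm X a c, psi_out hX ha, psi_out hX ha] at h
  by_cases h1 : (b, a) ∈ X
  · by_cases h2 : (c, a) ∈ X
    · simp [h1, h2] at h
    · have : ((b, a), (c, a)) ∈ {pq : (G × G) × (G × G) | tstep S pq.1 pq.2 ∧ pq.1 ∈ X ∧
          pq.2 ∈ bd S A ∧ pq.2 ∉ X} :=
        ⟨Or.inr ⟨rfl, hbc⟩, h1, ⟨adj_symm' hS hac, hc, ha⟩, h2⟩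
      exact ⟨⟨_, this, by simp⟩, ⟨_, this, by simp⟩, ⟨_, this, by simp⟩⟩
  · by_cases h2 : (c, a) ∈ X
    · have : ((c, a), (b, a)) ∈ {pq : (G × G) × (G × G) | tstep S pq.1 pq.2 ∧ pq.1 ∈ X ∧
          pq.2 ∈ bd S A ∧ pq.2 ∉ X} :=
        ⟨Or.inr ⟨rfl, adj_symm' hS hbc⟩, h2, ⟨adj_symm' hS hab, hb, ha⟩, h1⟩
      exact ⟨⟨_, this, by simp⟩, ⟨_, this, by simp⟩, ⟨_, this, by simp⟩⟩
    · simp [h1, h2] at h

theorem key (hS : Std S) {A : Set G} {X : Set (G × G)} (hX : X ⊆ bd S A) {a b c : G}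
    (hab' : ¬ (a ∈ A ↔ b ∈ A)) (hbc' : b ∈ A ↔ c ∈ A) (hab : Adj S a b) (hac : Adj S a c)
    (hbc : Adj S b c) (h : psi X a b ≠ psi X a c) :
    a ∈ CV S (bd S A) X ∧ b ∈ CV S (bd S A) X ∧ c ∈ CV S (bd S A) X := by
  by_cases ha : a ∈ A
  · have hb : b ∉ A := fun h => hab' (iff_of_true ha h)
    exact key1 hS hX ha hb (fun h => hb (hbc'.2 h)) hab hac hbc h
  · have hb : b ∈ A := by
      by_contra h
      exact hab' (iff_of_false ha h)
    exact key2 hS hX ha hb (hbc'.1 hb) hab hac hbc h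

theorem exists_cob (hT : TopHyp S) {A : Set G} {X : Set (G × G)}
    (hX : Alm (tstep S) (bd S A) X) : ∃ B : G → ZMod 2, Cob S B X := by
  apply hT.t2 (psi X)
  have hV := CV_finite hX
  refine ((hV.prod (hV.prod hV))).subset ?_
  rintro ⟨x, y, z⟩ ⟨hxy, hyz, hxz, hne⟩
  simp only at hxy hyz hxz hne
  have hS := hT.toStd
  have hyx := adj_symm' hS hxy
  have hzy := adj_symm' hS hyz
  have hzx := adj_symm' hS hxz
  have goal : x ∈ CV S (bd S A) X ∧ y ∈ CV S (bd S A) X ∧ z ∈ CV S (bd S A) X := by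
    by_cases h1 : x ∈ A ↔ y ∈ A
    · by_cases h2 : y ∈ A ↔ z ∈ A
      · rw [psi_same hX.1 h1, psi_same hX.1 h2, psi_same hX.1 (h1.trans h2)] at hne
        simp at hne
      · rw [psi_same hX.1 h1, zero_add, psi_symm X y z, psi_symm X x z] at hne
        have := key hS hX.1 (a := z) (b := x) (c := y) (fun h => h2 ((h.trans h1).symm)) h1 hzx
          hzy hxy (fun h => hne h.symm)
        tauto
    · by_cases h2 : y ∈ A ↔ z ∈ A
      · rw [psi_same hX.1 h2, add_zero] at hne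
        have := key hS hX.1 (a := x) (b := y) (c := z) h1 h2 hxy hxz hyz hne
        tauto
      · have h3 : x ∈ A ↔ z ∈ A := by tauto
        have hne' : psi X y x ≠ psi X y z := by
          intro h
          apply hne
          rw [psi_symm X x y, h, psi_same hX.1 h3]
          exact CharTwo.add_self_eq_zero _
        have := key hS hX.1 (a := y) (b := x) (c := z) (fun h => h1 h.symm) h3 hyx hyz hxz hne'
        tauto
  exact ⟨goal.1, goal.2.1, goal.2.2⟩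

theorem psi_union {A : Set G} {X1 X2 : Set (G × G)} (h1 : X1 ⊆ bd S A) (h2 : X2 ⊆ bd S A)
    (hd : Disjoint X1 X2) (x y : G) : psi (X1 ∪ X2) x y = psi X1 x y + psi X2 x y := by
  have hd' := Set.disjoint_left.1 hd
  unfold psi
  by_cases a1 : (x, y) ∈ X1
  · have b1 : (x, y) ∉ X2 := hd' a1
    have b2 : (y, x) ∉ X2 := fun h => (h1 a1).2.2 (h2 h).2.1
    simp [a1, b1, b2]
  · by_cases a2 : (y, x) ∈ X1
    · have b1 : (y, x) ∉ X2 := hd' a2
      have b2 : (x, y) ∉ X2 := fun h => (h1 a2).2.2 (h2 h).2.1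
      simp [a2, b1, b2]
    · simp [a1, a2]

theorem Cob.add {A : Set G} {X1 X2 : Set (G × G)} (h1 : X1 ⊆ bd S A) (h2 : X2 ⊆ bd S A)
    (hd : Disjoint X1 X2) {B1 B2 : G → ZMod 2} (hB1 : Cob S B1 X1) (hB2 : Cob S B2 X2) :
    Cob S (fun x => B1 x + B2 x) (X1 ∪ X2) := by
  refine (Set.Finite.union hB1 hB2).subset ?_
  rintro ⟨x, y⟩ ⟨hxy, hne⟩
  by_contra hcon
  simp only [mem_union, mem_ofPred_eq, not_or, not_and, not_not] at hcon
  apply hne
  simp only
  rw [psi_union h1 h2 hd, hcon.1 hxy, hcon.2 hxy]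
  ring

theorem Cob.of_sdiff {X X' : Set (G × G)} (hs : X' ⊆ X) (hf : (X \ X').Finite)
    {B : G → ZMod 2} (hB : Cob S B X') : Cob S B X := by
  refine (Set.Finite.union hB (hf.union (hf.image Prod.swap))).subset ?_
  rintro ⟨x, y⟩ ⟨hxy, hne⟩
  by_contra hcon
  simp only [mem_union, mem_ofPred_eq, not_or, not_and, not_not] at hcon
  apply hne
  simp only
  rw [← hcon.1 hxy]
  unfold psi
  have e1 : (x, y) ∈ X ↔ (x, y) ∈ X' := by
    refine ⟨fun h => ?_, fun h => hs h⟩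
    by_contra h'
    exact hcon.2.1 ⟨h, h'⟩
  have e2 : (y, x) ∈ X ↔ (y, x) ∈ X' := by
    refine ⟨fun h => ?_, fun h => hs h⟩
    by_contra h'
    exact hcon.2.2 ⟨(y, x), ⟨h, h'⟩, rfl⟩
  rw [e1, e2]

/-- the piece `X` separates the "places" `la` and `lb` -/
def Sepd (S : Finset G) (la lb : Filter G) (X : Set (G × G)) : Prop :=
  ∀ B : G → ZMod 2, Cob S B X → ∀ ca cb, (∀ᶠ x in la, B x = ca) → (∀ᶠ x in lb, B x = cb) →
    ca ≠ cb

theorem not_sepd_empty {la lb : Filter G} : ¬ Sepd S la lb ∅ := by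
  intro h
  refine h (fun _ => 0) ?_ 0 0 (by simp) (by simp) rfl
  unfold Cob psi
  simp

theorem sepd_union {A : Set G} {X1 X2 : Set (G × G)} (h1 : X1 ⊆ bd S A) (h2 : X2 ⊆ bd S A)
    (hd : Disjoint X1 X2) {la lb : Filter G} (h : Sepd S la lb (X1 ∪ X2)) :
    Sepd S la lb X1 ∨ Sepd S la lb X2 := by
  by_contra hcon
  rw [not_or] at hcon
  obtain ⟨c1, c2⟩ := hcon
  unfold Sepd at c1 c2
  push Not at c1 c2
  obtain ⟨B1, hB1, a1, b1, ha1, hb1, rfl⟩ := c1
  obtain ⟨B2, hB2, a2, b2, ha2, hb2, rfl⟩ := c2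
  refine h _ (hB1.add h1 h2 hd hB2) (a1 + a2) (a1 + a2) ?_ ?_ rfl
  · filter_upwards [ha1, ha2] with x h1 h2
    rw [h1, h2]
  · filter_upwards [hb1, hb2] with x h1 h2
    rw [h1, h2]

theorem Sepd.of_sdiff {X X' : Set (G × G)} (hs : X' ⊆ X) (hf : (X \ X').Finite)
    {la lb : Filter G} (h : Sepd S la lb X) : Sepd S la lb X' :=
  fun B hB => h B (hB.of_sdiff hs hf)

theorem sepd_infinite {X : Set (G × G)} {la lb : Filter G} (h : Sepd S la lb X) :
    X.Infinite := fun hf =>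
  not_sepd_empty (h.of_sdiff (empty_subset X) (hf.subset Set.sdiff_subset))

/-- the full wall separates -/
theorem sepd_bd (hT : TopHyp S) {A : Set G} {la lb : Filter G} [la.NeBot] [lb.NeBot]
    (hla : la ≤ cofinite) (hlb : lb ≤ cofinite) (ha : ∀ᶠ x in la, x ∈ A)
    (hb : ∀ᶠ x in lb, x ∉ A) : Sepd S la lb (bd S A) := by
  intro B hB ca cb hca hcb hcc
  subst hcc
  let χ : G → ZMod 2 := fun x => if x ∈ A then 0 else 1
  have hψ : ∀ x y, Adj S x y → psi (bd S A) x y = χ x + χ y := by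
    intro x y hxy
    have hyx := adj_symm' hT.toStd hxy
    by_cases hx : x ∈ A <;> by_cases hy : y ∈ A
    · rw [psi_same subset_rfl (iff_of_true hx hy)]; simp [χ, hx, hy]
    · rw [psi_out subset_rfl hy, if_pos ⟨hxy, hx, hy⟩]; simp [χ, hx, hy]
    · rw [psi_symm, psi_out subset_rfl hx, if_pos ⟨hyx, hy, hx⟩]; simp [χ, hx, hy]
    · rw [psi_same subset_rfl (iff_of_false hx hy)]
      simp only [χ, hx, hy, if_false]
      exact (CharTwo.add_self_eq_zero _).symm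
  have hfin : (bd S {x | B x + χ x = 1}).Finite := by
    refine Set.Finite.subset hB ?_
    rintro ⟨x, y⟩ ⟨hxy, hx, hy⟩
    refine ⟨hxy, fun h => hy ?_⟩
    simp only at hxy h
    rw [hψ x y hxy] at h
    have hx' : B x + χ x = 1 := hx
    show B y + χ y = 1
    have h2 : ∀ a b c d : ZMod 2, a + b = c + d → c + a = 1 → d + b = 1 := by decide
    exact h2 _ _ _ _ h hx'
  have aux : ∀ a : ZMod 2, a ≠ 1 → a = 0 := by decide
  have aux2 : ∀ a : ZMod 2, a + 1 ≠ 1 → a = 1 := by decide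
  have aux3 : ∀ a : ZMod 2, a + 1 = 1 → a = 0 := by decide
  rcases hT.oneEnd _ hfin with h | h
  · have e1 : ∀ᶠ x in la, x ∉ {x | B x + χ x = 1} := hla h.compl_mem_cofinite
    have e2 : ∀ᶠ x in lb, x ∉ {x | B x + χ x = 1} := hlb h.compl_mem_cofinite
    obtain ⟨x, h1, h2, h3⟩ := (e1.and (ha.and hca)).exists
    obtain ⟨y, h4, h5, h6⟩ := (e2.and (hb.and hcb)).exists
    simp only [mem_ofPred_eq, χ, h2, if_true, add_zero, h3] at h1
    simp only [mem_ofPred_eq, χ, h5, if_false, h6] at h4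
    rw [aux _ h1] at h4
    simp at h4
  · have e1 : ∀ᶠ x in la, x ∈ {x | B x + χ x = 1} := by
      have := hla h.compl_mem_cofinite
      rwa [compl_compl] at this
    have e2 : ∀ᶠ x in lb, x ∈ {x | B x + χ x = 1} := by
      have := hlb h.compl_mem_cofinite
      rwa [compl_compl] at this
    obtain ⟨x, h1, h2, h3⟩ := (e1.and (ha.and hca)).exists
    obtain ⟨y, h4, h5, h6⟩ := (e2.and (hb.and hcb)).exists
    simp only [mem_ofPred_eq, χ, h2, if_true, add_zero, h3] at h1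
    simp only [mem_ofPred_eq, χ, h5, if_false, h6] at h4
    rw [h1] at h4
    revert h4
    decide

end Crest.Agent.R224.LT
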