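/-
R224 / S0346: node PSep, part C: coarea and diameter of connected pieces of a wall (helper821).
-/
import Crest.Agent.R224.DBas
import Crest.Agent.R224.SepB

set_option autoImplicit false

noncomputable section

open Set Filter Topology Relation MeasureTheory
open scoped Classical ENNReal

namespace Crest.Agent.R224.LT

variable {G : Type} [Group G] {S : Finset G}

/-- weight of an edge of the wall `bd A` -/
def wt (S : Finset G) (A : Set G) (g : G → ℝ) (e : G × G) : ℝ≥0∞ :=
  if e ∈ bd S A then ENNReal.ofReal |g e.2 - g e.1| else 0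

theorem adj_tsum_ne_top {f g : G → ℝ} (hf : Dir S f) (hg : Dir S g) :
    ∑' e : G × G, (if Adj S e.1 e.2 then ENNReal.ofReal (|f e.2 - f e.1| * |g e.2 - g e.1|)
      else 0) ≠ ⊤ := by
  let i : G × S → G × G := fun p => (p.1, p.1 * (p.2 : G))
  have hi : Function.Injective i := by
    rintro ⟨x, u⟩ ⟨y, v⟩ h
    simp only [i, Prod.mk.injEq] at h
    obtain ⟨rfl, h2⟩ := h
    have := mul_left_cancel h2
    rw [Prod.mk.injEq]
    exact ⟨rfl, Subtype.ext this⟩
  have hsupp : Function.support (fun e : G × G => if Adj S e.1 e.2 then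
      ENNReal.ofReal (|f e.2 - f e.1| * |g e.2 - g e.1|) else 0) ⊆ range i := by
    rintro ⟨x, y⟩ h
    simp only [Function.mem_support, ne_eq, ite_eq_right_iff, Classical.not_imp] at h
    exact ⟨(x, ⟨x⁻¹ * y, h.1⟩), by simp [i]⟩
  rw [← hi.tsum_eq hsupp]
  have hsum : Summable fun p : G × S => |f (p.1 * (p.2 : G)) - f p.1| *
      |g (p.1 * (p.2 : G)) - g p.1| := by
    refine Summable.of_nonneg_of_le (fun _ => by positivity) (fun p => ?_)
      (Summable.add hf hg)
    rw [← sq_abs (f (p.1 * (p.2 : G)) - f p.1), ← sq_abs (g (p.1 * (p.2 : G)) - g p.1)]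
    nlinarith [sq_nonneg (|f (p.1 * (p.2 : G)) - f p.1| - |g (p.1 * (p.2 : G)) - g p.1|),
      sq_nonneg (|f (p.1 * (p.2 : G)) - f p.1|), sq_nonneg (|g (p.1 * (p.2 : G)) - g p.1|)]
  have h2 : ∀ p : G × S, (if Adj S (i p).1 (i p).2 then
      ENNReal.ofReal (|f (i p).2 - f (i p).1| * |g (i p).2 - g (i p).1|) else 0) =
      ENNReal.ofReal (|f (p.1 * (p.2 : G)) - f p.1| * |g (p.1 * (p.2 : G)) - g p.1|) := by
    intro p
    rw [if_pos]
    simp [i, Adj]
  simp_rw [h2]
  exact hsum.tsum_ofReal_ne_top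

theorem coarea [Countable G] {f g : G → ℝ} (hf : Dir S f) (hg : Dir S g) :
    ∀ᵐ t : ℝ, ∑' e : G × G, wt S {x | f x < t} g e ≠ ⊤ := by
  have hform : ∀ (e : G × G), (fun t : ℝ => wt S {x | f x < t} g e) =
      if Adj S e.1 e.2 then (Ioc (f e.1) (f e.2)).indicator
        (fun _ => ENNReal.ofReal |g e.2 - g e.1|) else 0 := by
    intro e
    funext t
    unfold wt
    by_cases h : Adj S e.1 e.2
    · rw [if_pos h]
      by_cases ht : t ∈ Ioc (f e.1) (f e.2)
      · rw [indicator_of_mem ht, if_pos]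
        exact ⟨h, ht.1, not_lt.2 ht.2⟩
      · rw [indicator_of_notMem ht, if_neg]
        rintro ⟨-, h1, h2⟩
        exact ht ⟨h1, not_lt.1 h2⟩
    · rw [if_neg h, if_neg]
      · rfl
      · exact fun h' => h h'.1
  have hmeas : ∀ e : G × G, Measurable (fun t : ℝ => wt S {x | f x < t} g e) := by
    intro e
    rw [hform]
    by_cases h : Adj S e.1 e.2
    · rw [if_pos h]
      exact measurable_const.indicator measurableSet_Ioc
    · rw [if_neg h]
      exact measurable_const
  have hint : ∫⁻ t : ℝ, ∑' e : G × G, wt S {x | f x < t} g e ≠ ⊤ := by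
    rw [lintegral_tsum fun e => (hmeas e).aemeasurable]
    refine ne_top_of_le_ne_top (adj_tsum_ne_top hf hg) (ENNReal.tsum_le_tsum fun e => ?_)
    rw [hform]
    by_cases h : Adj S e.1 e.2
    · rw [if_pos h, if_pos h, lintegral_indicator_const measurableSet_Ioc, Real.volume_Ioc,
        mul_comm, ENNReal.ofReal_mul (abs_nonneg _)]
      gcongr
      exact le_abs_self _
    · rw [if_neg h, if_neg h]
      exact (lintegral_zero (μ := (volume : Measure ℝ))).le
  have := ae_lt_top (Measurable.tsum hmeas) hint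
  filter_upwards [this] with t ht
  exact ht.ne

/-- oscillation of `g` on a connected piece -/
theorem osc_le [Countable G] {g : G → ℝ} {C : Set (G × G)}
    (hC : ∀ p ∈ C, ∀ q ∈ C, Reach (tstep S) C p q) {p q : G × G} (hp : p ∈ C) (hq : q ∈ C) :
    ENNReal.ofReal |g p.1 - g q.1| ≤ ∑' e : C, ENNReal.ofReal |g (e : G × G).2 - g (e : G × G).1| := by
  set I : G × G → Set ℝ := fun e => uIcc (g e.1) (g e.2)
  have hpre : IsPreconnected (⋃ e ∈ C, I e) := by
    apply IsPreconnected.biUnion_of_reflTransGen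
    · intro e _
      exact isPreconnected_uIcc
    · intro i hi j hj
      have h := hC i hi j hj
      induction h with
      | refl => exact .refl
      | @tail b c h1 h2 ih =>
        refine (ih h2.2.1).tail ⟨?_, h2.2.1⟩
        rcases h2.1 with ⟨h3, -⟩ | ⟨h3, -⟩
        · exact ⟨g b.1, left_mem_uIcc, by rw [h3]; exact left_mem_uIcc⟩
        · exact ⟨g b.2, right_mem_uIcc, by rw [h3]; exact right_mem_uIcc⟩
  have hord := hpre.ordConnected
  have hpU : g p.1 ∈ ⋃ e ∈ C, I e := mem_biUnion hp left_mem_uIcc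
  have hqU : g q.1 ∈ ⋃ e ∈ C, I e := mem_biUnion hq left_mem_uIcc
  have hsub : uIcc (g q.1) (g p.1) ⊆ ⋃ e ∈ C, I e := hord.uIcc_subset hqU hpU
  calc ENNReal.ofReal |g p.1 - g q.1| = volume (uIcc (g q.1) (g p.1)) :=
        Real.volume_interval.symm
    _ ≤ volume (⋃ e ∈ C, I e) := measure_mono hsub
    _ ≤ ∑' e : C, volume (I e) := measure_biUnion_le _ (Set.to_countable C) _
    _ = _ := by
        refine tsum_congr fun e => ?_
        exact Real.volume_interval

end Crest.Agent.R224.LT
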