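/-
R224 / S0346: node PSep, part D: refinement of pieces (helper821).
-/
import Crest.Agent.R224.SepC

set_option autoImplicit false

noncomputable section

open Set Filter Topology Relation MeasureTheory
open scoped Classical ENNReal

namespace Crest.Agent.R224.LT

/-- finitely many functions of `𝓕` control the distance near infinity -/
theorem control (s : Sys) {ε : ℝ} (hε : 0 < ε) : ∃ (D : Finset (s.Z → ℝ)) (δ : ℝ)
    (K : Finset s.G), 0 < δ ∧ (∀ g ∈ D, g ∈ s.𝓕) ∧ ∀ x ∉ K, ∀ y ∉ K,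
      (∀ g ∈ D, |g (s.ι x) - g (s.ι y)| ≤ δ) → dist (s.ι x) (s.ι y) < ε := by
  have hcomp : IsCompact {p : s.Z × s.Z | ε ≤ dist p.1 p.2} :=
    (isClosed_le continuous_const continuous_dist).isCompact
  have key : (fun A : Set (s.Z × s.Z) => ∃ (D : Finset (s.Z → ℝ)) (δ : ℝ)
    (K : Finset s.G), 0 < δ ∧ (∀ g ∈ D, g ∈ s.𝓕) ∧ ∀ x ∉ K, ∀ y ∉ K,
      (s.ι x, s.ι y) ∈ A → ∃ g ∈ D, δ < |g (s.ι x) - g (s.ι y)|)
      {p : s.Z × s.Z | ε ≤ dist p.1 p.2} := by
    refine hcomp.induction_on ?_ ?_ ?_ ?_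
    · exact ⟨∅, 1, ∅, one_pos, by simp, by simp⟩
    · rintro A B hAB ⟨D, δ, K, h1, h2, h3⟩
      exact ⟨D, δ, K, h1, h2, fun x hx y hy hxy => h3 x hx y hy (hAB hxy)⟩
    · rintro A B ⟨D, δ, K, h1, h2, h3⟩ ⟨D', δ', K', h1', h2', h3'⟩
      refine ⟨D ∪ D', min δ δ', K ∪ K', lt_min h1 h1', ?_, ?_⟩
      · intro g hg
        rcases Finset.mem_union.1 hg with h | h
        · exact h2 g h
        · exact h2' g h
      · intro x hx y hy hxy
        rw [Finset.mem_union, not_or] at hx hy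
        rcases hxy with h | h
        · obtain ⟨g, hg, hg'⟩ := h3 x hx.1 y hy.1 h
          exact ⟨g, Finset.mem_union_left _ hg, (min_le_left _ _).trans_lt hg'⟩
        · obtain ⟨g, hg, hg'⟩ := h3' x hx.2 y hy.2 h
          exact ⟨g, Finset.mem_union_right _ hg, (min_le_right _ _).trans_lt hg'⟩
    · rintro ⟨z, z'⟩ hzz
      simp only [mem_ofPred_eq] at hzz
      by_cases hz : z ∈ T s.ι
      · by_cases hz' : z' ∈ T s.ι
        · have hne : z ≠ z' := by
            rintro rfl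
            rw [dist_self] at hzz
            linarith
          obtain ⟨g, hg, hgne⟩ := s.bdry.fsep z hz z' hz' hne
          have hgc := s.bdry.fcont g hg
          have hpos : 0 < |g z - g z'| := abs_pos.2 (sub_ne_zero.2 hgne)
          have hO : IsOpen {p : s.Z × s.Z | |g z - g z'| / 2 < |g p.1 - g p.2|} :=
            isOpen_lt continuous_const
              ((hgc.comp continuous_fst).sub (hgc.comp continuous_snd)).abs
          refine ⟨_, mem_nhdsWithin_of_mem_nhds (hO.mem_nhds (half_lt_self hpos)),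
            {g}, |g z - g z'| / 2, ∅, half_pos hpos, by simpa using hg, ?_⟩
          intro x _ y _ hxy
          exact ⟨g, by simp, hxy⟩
        · obtain ⟨y0, rfl⟩ : ∃ y0, s.ι y0 = z' := by
            by_contra h
            exact hz' (fun ⟨y, hy⟩ => h ⟨y, hy⟩)
          have hO : IsOpen {p : s.Z × s.Z | p.2 ∈ ({s.ι y0} : Set s.Z)} :=
            (s.bdry.isol y0).preimage continuous_snd
          refine ⟨_, mem_nhdsWithin_of_mem_nhds (hO.mem_nhds rfl), ∅, 1, {y0}, one_pos,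
            by simp, ?_⟩
          intro x _ y hy hxy
          exact absurd (s.bdry.inj hxy) (by simpa using hy)
      · obtain ⟨y0, rfl⟩ : ∃ y0, s.ι y0 = z := by
          by_contra h
          exact hz (fun ⟨y, hy⟩ => h ⟨y, hy⟩)
        have hO : IsOpen {p : s.Z × s.Z | p.1 ∈ ({s.ι y0} : Set s.Z)} :=
          (s.bdry.isol y0).preimage continuous_fst
        refine ⟨_, mem_nhdsWithin_of_mem_nhds (hO.mem_nhds rfl), ∅, 1, {y0}, one_pos,
          by simp, ?_⟩
        intro x hx y _ hxy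
        exact absurd (s.bdry.inj hxy) (by simpa using hx)
  obtain ⟨D, δ, K, h1, h2, h3⟩ := key
  refine ⟨D, δ, K, h1, h2, fun x hx y hy h => ?_⟩
  by_contra hcon
  obtain ⟨g, hg, hg'⟩ := h3 x hx y hy (not_lt.1 hcon)
  exact absurd (h g hg) (not_le.2 hg')

/-- a good level -/
structure Good (s : Sys) (f : s.Z → ℝ) (t : ℝ) : Prop where
  fin : FinC s.S {x : s.G | f (s.ι x) < t}
  sum : ∀ g ∈ s.𝓕, ∑' e : s.G × s.G, wt s.S {x | f (s.ι x) < t} (fun x => g (s.ι x)) e ≠ ⊤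

theorem ae_good (s : Sys) {f : s.Z → ℝ} (hf : f ∈ s.𝓕) : ∀ᵐ t : ℝ, Good s f t := by
  have : Countable s.G := s.countable_G
  have h1 := s.bdry.ffin f hf
  have h2 : ∀ᵐ t : ℝ, ∀ g ∈ s.𝓕,
      ∑' e : s.G × s.G, wt s.S {x | f (s.ι x) < t} (fun x => g (s.ι x)) e ≠ ⊤ := by
    rw [ae_ball_iff s.bdry.ctble]
    intro g hg
    exact coarea (s.bdry.fdir f hf) (s.bdry.fdir g hg)
  filter_upwards [h1, h2] with t a b
  exact ⟨a, b⟩

theorem FinC.toRep {G : Type} [Group G] {S : Finset G} {A : Set G} (h : FinC S A) :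
    Rep (tstep S) (bd S A) := by
  obtain ⟨F, hF, hFA, h⟩ := h
  refine ⟨F, hF, fun p hp => ?_⟩
  obtain ⟨q, hq, hqp⟩ := h p hp
  exact ⟨q, hq, hFA hq, hqp⟩

/-- **refinement lemma** -/
theorem refine_piece (s : Sys) {f : s.Z → ℝ} {t : ℝ} (hg : Good s f t)
    {la lb : Filter s.G} {D : Set (s.G × s.G)}
    (hD : Alm (tstep s.S) (bd s.S {x | f (s.ι x) < t}) D) (hs : Sepd s.S la lb D)
    {ε : ℝ} (hε : 0 < ε) :
    ∃ D' ⊆ D, Alm (tstep s.S) (bd s.S {x | f (s.ι x) < t}) D' ∧ Sepd s.S la lb D' ∧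
      ∀ p ∈ D', ∀ q ∈ D', dist (s.ι p.1) (s.ι q.1) < ε := by
  have : Countable s.G := s.countable_G
  have hS := s.top.toStd
  obtain ⟨Φ, δ, K, hδ, hΦ, hctl⟩ := control s hε
  -- a finite set of edges outside of which the sums are small
  have hev : ∀ᶠ F : Finset (s.G × s.G) in atTop, ∀ g ∈ Φ,
      ∑' e : {e // e ∉ F}, wt s.S {x | f (s.ι x) < t} (fun x => g (s.ι x)) e < ENNReal.ofReal δ := by
    rw [eventually_all_finset]
    intro g hgΦ
    exact (ENNReal.tendsto_tsum_compl_atTop_zero (hg.sum g (hΦ g hgΦ))).eventually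
      (gt_mem_nhds (ENNReal.ofReal_pos.2 hδ))
  obtain ⟨F, hF⟩ := hev.exists
  set F' : Set (s.G × s.G) := ↑F ∪ {e | e.1 ∈ K ∧ Adj s.S e.1 e.2} with hF'
  have hF'fin : F'.Finite := by
    refine F.finite_toSet.union ?_
    refine (K.finite_toSet.biUnion fun x _ => (adj_fin' (S := s.S) x).image
      fun y => (x, y)).subset ?_
    rintro ⟨x, y⟩ ⟨hx, hxy⟩
    simp only [mem_iUnion]
    exact ⟨x, hx, y, hxy, rfl⟩
  have hD0 := hD.sdiff_finite (fun q => tstep_fin q) hF'fin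
  have hs0 : Sepd s.S la lb (D \ F') := hs.of_sdiff Set.sdiff_subset (by
    refine hF'fin.subset ?_
    rintro e ⟨h1, h2⟩
    by_contra h3
    exact h2 ⟨h1, h3⟩)
  obtain ⟨C, hC1, hC2, hC3, hC4⟩ := exists_conn (tstep_symm hS) (Sepd s.S la lb) not_sepd_empty
    (fun X1 X2 h1 h2 hd h => sepd_union h1.1 h2.1 hd h) hD0
    (hD0.rep (tstep_symm hS) (FinC.toRep hg.fin)) hs0
  refine ⟨C, hC1.trans Set.sdiff_subset, hC2, hC3, fun p hp q hq => ?_⟩
  have hnK : ∀ e ∈ C, e.1 ∉ K := by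
    intro e he hK
    exact (hC1 he).2 (Or.inr ⟨hK, (hC2.1 he).1⟩)
  refine hctl _ (hnK p hp) _ (hnK q hq) fun g hgΦ => ?_
  have h1 := osc_le (g := fun x => g (s.ι x)) hC4 hp hq
  have h2 : ∑' e : C, ENNReal.ofReal |g (s.ι (e : s.G × s.G).2) - g (s.ι (e : s.G × s.G).1)| ≤
      ∑' e : {e // e ∉ F}, wt s.S {x | f (s.ι x) < t} (fun x => g (s.ι x)) e := by
    let j : C → {e // e ∉ F} := fun e => ⟨e.1, fun h => (hC1 e.2).2 (Or.inl h)⟩
    have hj : Function.Injective j := by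
      intro a b hab
      have : (j a).1 = (j b).1 := by rw [hab]
      exact Subtype.ext this
    refine le_trans (le_of_eq ?_) (ENNReal.tsum_comp_le_tsum_of_injective hj _)
    refine tsum_congr fun e => ?_
    simp only [j, wt]
    rw [if_pos (hC2.1 e.2)]
  have h3 := (h1.trans h2).trans_lt (hF g hgΦ)
  exact ((ENNReal.ofReal_lt_ofReal_iff hδ).1 h3).le

end Crest.Agent.R224.LT
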