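/-
R224 / S0346: node PSep (helper821).
-/
import Crest.Agent.R224.SepD

set_option autoImplicit false

noncomputable section

open Set Filter Topology Relation MeasureTheory
open scoped Classical ENNReal

namespace Crest.Agent.R224.LT

/-- vertices near `θ` -/
def Fb (s : Sys) (θ : s.Z) : Filter s.G := comap s.ι (𝓝 θ)

theorem ev_iff {s : Sys} {θ : s.Z} {P : s.G → Prop} :
    (∀ᶠ x in Fb s θ, P x) ↔ ∃ δ > 0, ∀ x, dist (s.ι x) θ < δ → P x := by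
  unfold Fb
  rw [eventually_comap, Metric.eventually_nhds_iff]
  constructor
  · rintro ⟨δ, hδ, h⟩
    exact ⟨δ, hδ, fun x hx => h hx x rfl⟩
  · rintro ⟨δ, hδ, h⟩
    refine ⟨δ, hδ, fun y hy x hxy => h x ?_⟩
    rw [hxy]; exact hy

instance fb_neBot (s : Sys) (θ : s.Z) : (Fb s θ).NeBot := by
  rw [Filter.neBot_iff]
  intro h
  have h0 : ∀ᶠ x in Fb s θ, False := by rw [h]; exact eventually_bot
  obtain ⟨δ, hδ, h1⟩ := ev_iff.1 h0
  obtain ⟨x, hx⟩ := s.exists_near θ hδ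
  exact h1 x hx

theorem fb_le {s : Sys} {θ : s.Z} (hθ : θ ∈ T s.ι) : Fb s θ ≤ cofinite := by
  intro A hA
  obtain ⟨δ, hδ, h⟩ := s.exists_ball_notMem hθ (mem_cofinite.1 hA)
  have : ∀ᶠ x in Fb s θ, x ∈ A := ev_iff.2 ⟨δ, hδ, fun x hx => by
    by_contra h'
    exact h x hx h'⟩
  exact this

/-- the neighbours of the vertices near `θ` are near `θ` -/
theorem ev_adj {s : Sys} {θ : s.Z} (hθ : θ ∈ T s.ι) {P : s.G → Prop}
    (h : ∀ᶠ x in Fb s θ, P x) : ∀ᶠ x in Fb s θ, ∀ y, Adj s.S x y → P y := by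
  obtain ⟨δ, hδ, h⟩ := ev_iff.1 h
  obtain ⟨K, hK⟩ := s.near_adj (half_pos hδ)
  obtain ⟨δ', hδ', h'⟩ := s.exists_ball_notMem hθ K.finite_toSet
  refine ev_iff.2 ⟨min δ' (δ / 2), lt_min hδ' (half_pos hδ), fun x hx y hxy => h y ?_⟩
  have h1 := hK x (fun hxK => h' x (hx.trans_le (min_le_left _ _)) (Finset.mem_coe.2 hxK)) y hxy
  have h2 := hx.trans_le (min_le_right δ' (δ / 2))
  calc dist (s.ι y) θ ≤ dist (s.ι y) (s.ι x) + dist (s.ι x) θ := dist_triangle _ _ _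
    _ < δ / 2 + δ / 2 := by linarith
    _ = δ := by ring

theorem ev_lt {s : Sys} {f : s.Z → ℝ} (hf : Continuous f) {θ : s.Z} {t : ℝ} (h : f θ < t) :
    ∀ᶠ x in Fb s θ, f (s.ι x) < t :=
  (tendsto_comap.eventually (hf.continuousAt.eventually (gt_mem_nhds h)))

theorem ev_gt {s : Sys} {f : s.Z → ℝ} (hf : Continuous f) {θ : s.Z} {t : ℝ} (h : t < f θ) :
    ∀ᶠ x in Fb s θ, t < f (s.ι x) :=
  (tendsto_comap.eventually (hf.continuousAt.eventually (lt_mem_nhds h)))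

/-- no wall edges near `θ` if `f θ ≠ t` -/
theorem ev_noWall {s : Sys} {f : s.Z → ℝ} (hf : Continuous f) {θ : s.Z} (hθ : θ ∈ T s.ι) {t : ℝ}
    (h : f θ ≠ t) : ∀ᶠ x in Fb s θ, ∀ y, (x, y) ∉ bd s.S {x | f (s.ι x) < t} := by
  rcases lt_or_gt_of_ne h with h | h
  · filter_upwards [ev_adj hθ (ev_lt hf h)] with x hx y hxy
    exact hxy.2.2 (hx y hxy.1)
  · filter_upwards [ev_gt hf h] with x hx y hxy
    exact absurd hxy.2.1 (not_lt.2 hx.le)

/-- a cochain is locally constant near a boundary point which is not in the limit set of the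
piece -/
theorem ev_const {s : Sys} {θ : s.Z} (hθ : θ ∈ T s.ι) {D : Set (s.G × s.G)} {B : s.G → ZMod 2}
    (hB : Cob s.S B D) (hD : ∀ᶠ x in Fb s θ, ∀ y, (x, y) ∉ D) :
    ∃ c, ∀ᶠ x in Fb s θ, B x = c := by
  have hS := s.top.toStd
  have h1 : ∀ᶠ x in Fb s θ, ∀ y, Adj s.S x y → B x = B y := by
    have hbad : {x | ∃ y, Adj s.S x y ∧ psi D x y ≠ B x + B y}.Finite := by
      refine (Set.Finite.image Prod.fst hB).subset ?_
      rintro x ⟨y, h1, h2⟩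
      exact ⟨(x, y), ⟨h1, h2⟩, rfl⟩
    have h2 : ∀ᶠ x in Fb s θ, x ∉ {x | ∃ y, Adj s.S x y ∧ psi D x y ≠ B x + B y} :=
      fb_le hθ hbad.compl_mem_cofinite
    filter_upwards [h2, hD, ev_adj hθ hD] with x h3 h4 h5 y hxy
    by_contra hne
    apply h3
    refine ⟨y, hxy, ?_⟩
    have : psi D x y = 0 := by
      unfold psi
      rw [if_neg]
      rintro (h | h)
      · exact h4 y h
      · exact h5 y hxy x h
    rw [this]
    intro h0
    exact hne (CharTwo.add_eq_zero.1 h0.symm)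
  obtain ⟨δ, hδ, h⟩ := ev_iff.1 h1
  obtain ⟨Y, hY, hYδ, δ', hδ', hY'⟩ := s.bdry.lc θ hθ δ hδ
  obtain ⟨x0, hx0⟩ := s.exists_near θ hδ'
  refine ⟨B x0, ev_iff.2 ⟨δ', hδ', fun x hx => ?_⟩⟩
  have hp := hY x0 (hY' x0 hx0) x (hY' x hx)
  clear hx
  induction hp with
  | refl => rfl
  | @tail b c _ h2 ih =>
    rw [← ih]
    exact (h b (hYδ b h2.2.1) c h2.1).symm

/-- limit set of a piece -/
def Lim (s : Sys) (D : Set (s.G × s.G)) : Set s.Z :=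
  T s.ι ∩ closure ((fun e : s.G × s.G => s.ι e.1) '' D)

theorem isClosed_lim (s : Sys) (D : Set (s.G × s.G)) : IsClosed (Lim s D) :=
  s.isClosed_T.inter isClosed_closure

theorem ev_of_notMem_lim {s : Sys} {D : Set (s.G × s.G)} {θ : s.Z} (hθ : θ ∈ T s.ι)
    (h : θ ∉ Lim s D) : ∀ᶠ x in Fb s θ, ∀ y, (x, y) ∉ D := by
  have h1 : θ ∉ closure ((fun e : s.G × s.G => s.ι e.1) '' D) := fun h' => h ⟨hθ, h'⟩
  rw [Metric.mem_closure_iff] at h1
  push Not at h1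
  obtain ⟨δ, hδ, h2⟩ := h1
  refine ev_iff.2 ⟨δ, hδ, fun x hx y hxy => ?_⟩
  have := h2 (s.ι x) ⟨(x, y), hxy, rfl⟩
  rw [dist_comm] at this
  linarith

theorem lim_level {s : Sys} {f : s.Z → ℝ} (hf : Continuous f) {t : ℝ} {D : Set (s.G × s.G)}
    (hD : D ⊆ bd s.S {x | f (s.ι x) < t}) {θ : s.Z} (hθ : θ ∈ Lim s D) : f θ = t := by
  by_contra hne
  obtain ⟨δ, hδ, h⟩ := ev_iff.1 (ev_noWall hf hθ.1 hne)
  obtain ⟨_, ⟨e, he, rfl⟩, hd⟩ := Metric.mem_closure_iff.1 hθ.2 δ hδ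
  rw [dist_comm] at hd
  exact h e.1 hd e.2 (hD he)

theorem lim_diam {s : Sys} {D : Set (s.G × s.G)} {ε : ℝ}
    (h : ∀ p ∈ D, ∀ q ∈ D, dist (s.ι p.1) (s.ι q.1) < ε) {z z' : s.Z} (hz : z ∈ Lim s D)
    (hz' : z' ∈ Lim s D) : dist z z' ≤ ε := by
  apply le_of_forall_pos_le_add
  intro η hη
  obtain ⟨_, ⟨e, he, rfl⟩, hd⟩ := Metric.mem_closure_iff.1 hz.2 (η / 2) (half_pos hη)
  obtain ⟨_, ⟨e', he', rfl⟩, hd'⟩ := Metric.mem_closure_iff.1 hz'.2 (η / 2) (half_pos hη)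
  have h1 := h e he e' he'
  simp only at hd hd'
  calc dist z z' ≤ dist z (s.ι e.1) + dist (s.ι e.1) (s.ι e'.1) + dist (s.ι e'.1) z' :=
        dist_triangle4 _ _ _ _
    _ ≤ ε + η := by rw [dist_comm (s.ι e'.1) z']; linarith

/-- a decreasing sequence of separating pieces of diameter tending to `0` -/
theorem exists_seq (s : Sys) {f : s.Z → ℝ} {t : ℝ} (ht : Good s f t) {la lb : Filter s.G}
    (hA0 : Alm (tstep s.S) (bd s.S {x | f (s.ι x) < t}) (bd s.S {x | f (s.ι x) < t}))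
    (hS0 : Sepd s.S la lb (bd s.S {x | f (s.ι x) < t})) :
    ∃ D : ℕ → Set (s.G × s.G), (∀ n, Alm (tstep s.S) (bd s.S {x | f (s.ι x) < t}) (D n)) ∧
      (∀ n, Sepd s.S la lb (D n)) ∧ Antitone D ∧
      ∀ n : ℕ, ∀ p ∈ D (n + 1), ∀ q ∈ D (n + 1), dist (s.ι p.1) (s.ι q.1) < 1 / ((n : ℝ) + 1) := by
  set W := bd s.S {x | f (s.ι x) < t} with hW
  have step : ∀ (n : ℕ) (D : {D : Set (s.G × s.G) // Alm (tstep s.S) W D ∧ Sepd s.S la lb D}),
      ∃ D' : {D : Set (s.G × s.G) // Alm (tstep s.S) W D ∧ Sepd s.S la lb D}, D'.1 ⊆ D.1 ∧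
        ∀ p ∈ D'.1, ∀ q ∈ D'.1, dist (s.ι p.1) (s.ι q.1) < 1 / ((n : ℝ) + 1) := by
    rintro n ⟨D, hD, hs⟩
    obtain ⟨D', h1, h2, h3, h4⟩ := refine_piece s ht hD hs (ε := 1 / ((n : ℝ) + 1)) (by positivity)
    exact ⟨⟨D', h2, h3⟩, h1, h4⟩
  choose nxt hsub hdiam using step
  let D : ℕ → {D : Set (s.G × s.G) // Alm (tstep s.S) W D ∧ Sepd s.S la lb D} :=
    fun n => Nat.rec ⟨W, hA0, hS0⟩ (fun n D => nxt n D) n
  refine ⟨fun n => (D n).1, fun n => (D n).2.1, fun n => (D n).2.2, ?_, ?_⟩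
  · exact antitone_nat_of_succ_le fun n => hsub n (D n)
  · exact fun n => hdiam n (D n)

/-- the limit points of the sequence of pieces -/
theorem exists_zeta (s : Sys) {A : Set s.G} {la lb : Filter s.G} {D : ℕ → Set (s.G × s.G)}
    (hD : ∀ n, D n ⊆ bd s.S A) (hs : ∀ n, Sepd s.S la lb (D n)) (hanti : Antitone D) :
    ∃ ζ ∈ T s.ι, ∀ m, ζ ∈ Lim s (D m) := by
  have : Countable s.G := s.countable_G
  obtain ⟨enc, henc⟩ := Countable.exists_injective_nat s.G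
  have hex : ∀ n, ∃ e ∈ D n, n < enc e.1 := by
    intro n
    by_contra hcon
    push Not at hcon
    apply sepd_infinite (hs n)
    have hfin : {x | enc x ≤ n}.Finite :=
      Set.Finite.preimage (henc.injOn) (finite_le_nat n)
    refine (hfin.biUnion fun x _ => (adj_fin' (S := s.S) x).image fun y => (x, y)).subset ?_
    rintro ⟨x, y⟩ hxy
    simp only [mem_iUnion]
    exact ⟨x, hcon _ hxy, y, (hD n hxy).1, rfl⟩
  choose e he hen using hex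
  obtain ⟨ζ, hζ, φ, hφ, hlim⟩ := s.subseq_T (fun n => (e n).1) (by
    intro g
    refine (finite_lt_nat (enc g)).subset ?_
    intro n hn
    have := hen n
    rw [mem_ofPred_eq] at hn
    rwa [hn] at this)
  refine ⟨ζ, hζ, fun m => ⟨hζ, ?_⟩⟩
  refine mem_closure_of_tendsto hlim ?_
  filter_upwards [eventually_ge_atTop m] with n hn
  exact ⟨e (φ n), hanti (hn.trans (hφ.id_le n)) (he (φ n)), rfl⟩

/-- the partition defined by a cochain which is locally constant off `K` -/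
theorem partition (s : Sys) {K : Set s.Z} (hKc : IsClosed K) {B : s.G → ZMod 2} {a b : s.Z}
    (ha : a ∈ T s.ι) (hb : b ∈ T s.ι) (haK : a ∉ K) (hbK : b ∉ K)
    (hloc : ∀ θ ∈ T s.ι, θ ∉ K → ∃ c, ∀ᶠ x in Fb s θ, B x = c) {ca cb : ZMod 2}
    (hca : ∀ᶠ x in Fb s a, B x = ca) (hcb : ∀ᶠ x in Fb s b, B x = cb) (hcc : ca ≠ cb) :
    ∃ U V, RO s.ι U ∧ RO s.ι V ∧ Disjoint U V ∧ U ∪ V = T s.ι \ K ∧ a ∈ V ∧ b ∈ U := by
  have hRO : ∀ P : ZMod 2 → Prop, RO s.ι {θ | θ ∈ T s.ι ∧ θ ∉ K ∧ ∀ᶠ x in Fb s θ, P (B x)} := by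
    intro P
    rw [ro_iff]
    refine ⟨fun θ h => h.1, ?_⟩
    rintro θ ⟨hθ, hθK, hev⟩
    obtain ⟨δ, hδ, h⟩ := ev_iff.1 hev
    obtain ⟨δ', hδ', h'⟩ := Metric.isOpen_iff.1 hKc.isOpen_compl θ hθK
    refine ⟨min δ' (δ / 2), lt_min hδ' (half_pos hδ), fun z hz hd => ⟨hz, ?_, ?_⟩⟩
    · exact h' (hd.trans_le (min_le_left _ _))
    · refine ev_iff.2 ⟨δ / 2, half_pos hδ, fun x hx => h x ?_⟩
      have h2 := hd.trans_le (min_le_right δ' (δ / 2))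
      calc dist (s.ι x) θ ≤ dist (s.ι x) z + dist z θ := dist_triangle _ _ _
        _ < δ / 2 + δ / 2 := by linarith
        _ = δ := by ring
  refine ⟨{θ | θ ∈ T s.ι ∧ θ ∉ K ∧ ∀ᶠ x in Fb s θ, B x ≠ ca},
    {θ | θ ∈ T s.ι ∧ θ ∉ K ∧ ∀ᶠ x in Fb s θ, B x = ca}, hRO (fun c => c ≠ ca),
    hRO (fun c => c = ca), ?_, ?_, ⟨ha, haK, hca⟩, ⟨hb, hbK, ?_⟩⟩
  · rw [Set.disjoint_left]
    rintro θ ⟨-, -, h1⟩ ⟨-, -, h2⟩
    obtain ⟨x, h3, h4⟩ := (h1.and h2).exists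
    exact h3 h4
  · ext θ
    constructor
    · rintro (⟨h1, h2, -⟩ | ⟨h1, h2, -⟩) <;> exact ⟨h1, h2⟩
    · rintro ⟨h1, h2⟩
      obtain ⟨c, hc⟩ := hloc θ h1 h2
      by_cases h : c = ca
      · right
        refine ⟨h1, h2, ?_⟩
        filter_upwards [hc] with x hx
        rw [hx, h]
      · left
        refine ⟨h1, h2, ?_⟩
        filter_upwards [hc] with x hx
        rwa [hx]
  · filter_upwards [hcb] with x hx
    rw [hx]
    exact hcc.symm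

end LT

open Crest.Agent.R224.LT in
theorem pSep (s : Sys) : PSep s := by
  intro f hf
  have hfc := s.bdry.fcont f hf
  filter_upwards [ae_good s hf] with t ht
  intro a ha b hb hat htb
  set la := Fb s a
  set lb := Fb s b
  have hS0 : Sepd s.S la lb (bd s.S {x | f (s.ι x) < t}) :=
    sepd_bd s.top (fb_le ha) (fb_le hb) (ev_lt hfc hat) (by
      filter_upwards [ev_gt hfc htb] with x hx h
      exact absurd h (not_lt.2 hx.le))
  have hA0 : Alm (tstep s.S) (bd s.S {x | f (s.ι x) < t}) (bd s.S {x | f (s.ι x) < t}) := by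
    refine ⟨subset_rfl, ?_⟩
    convert finite_empty
    ext pq
    simp only [mem_ofPred_eq, mem_empty_iff_false, iff_false]
    tauto
  obtain ⟨D, hDa, hDs, hanti, hdiam⟩ := exists_seq s ht hA0 hS0
  obtain ⟨ζ, hζ, hζm⟩ := exists_zeta s (fun n => (hDa n).1) hDs hanti
  have hlev : ∀ m, ∀ z ∈ Lim s (D m), f z = t := fun m z hz =>
    lim_level hfc (hDa m).1 hz
  refine ⟨ζ, hζ, hlev 0 ζ (hζm 0), fun ε hε => ?_⟩
  obtain ⟨m, hm⟩ := exists_nat_one_div_lt hε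
  have hdm := hdiam m
  have hKc : IsClosed (Lim s (D (m + 1))) := isClosed_lim s _
  obtain ⟨B, hB⟩ := exists_cob s.top (hDa (m + 1))
  have hloc : ∀ θ ∈ T s.ι, θ ∉ Lim s (D (m + 1)) → ∃ c, ∀ᶠ x in Fb s θ, B x = c :=
    fun θ hθ hθK => ev_const hθ hB (ev_of_notMem_lim hθ hθK)
  have haK : a ∉ Lim s (D (m + 1)) := fun h => absurd (hlev _ a h) hat.ne
  have hbK : b ∉ Lim s (D (m + 1)) := fun h => absurd (hlev _ b h) htb.ne'
  obtain ⟨ca, hca⟩ := hloc a ha haK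
  obtain ⟨cb, hcb⟩ := hloc b hb hbK
  have hcc : ca ≠ cb := hDs (m + 1) B hB ca cb hca hcb
  exact ⟨Lim s (D (m + 1)), hKc, fun z hz => hz.1, fun z hz => ⟨hlev _ z hz,
    (lim_diam hdm hz (hζm (m + 1))).trans_lt hm⟩,
    partition s hKc ha hb haK hbK hloc hca hcb hcc⟩

end Crest.Agent.R224
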