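/-
R224 / S0346, group half: node NShrink (helper754).
-/
import Crest.Agent.R224.NodeOpen
import Crest.Agent.R224.NodePart

set_option autoImplicit false

noncomputable section

open MeasureTheory Set Filter Topology

namespace Crest.Agent.R224.Shr754

variable {s : Sys}

lemma bal_mono {c c' : ℝ} (h : c' ≤ c) (U : Set s.Z) : Bal s.ν c U ⊆ Bal s.ν c' U := by
  rintro x ⟨h1, h2⟩
  exact ⟨h.trans h1, h2.trans (by linarith)⟩

lemma bal_cmp {c : ℝ} {η : s.Z} {U : Set s.Z} (hU : Clp s.ι η U) {x : s.G}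
    (hx : x ∈ Bal s.ν c (cmp s.ι η U)) : x ∈ Bal s.ν c U := by
  have := hU.hh_add x
  obtain ⟨h1, h2⟩ := hx
  exact ⟨by linarith, by linarith⟩

/-- levels different from the level of the cut point are attained -/
lemma level (hC : PConn s) {η : s.Z} {U : Set s.Z} (hU : Clp s.ι η U)
    {f : s.Z → ℝ} (hf : Continuous f) {t : ℝ} (ht : f η ≠ t) {z z' : s.Z} (hz : z ∈ U)
    (hz' : z' ∈ U) (h1 : f z < t) (h2 : t < f z') : ∃ σ ∈ U, f σ = t := by
  rcases lt_or_gt_of_ne ht with h | h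
  · exact hU.exists_level hC hf h hz' h2
  · obtain ⟨σ, hσ, hσt⟩ := hU.exists_level hC (f := fun w => - f w) hf.neg
      (t := -t) (by simpa using h) hz (by simpa using h1)
    exact ⟨σ, hσ, by simpa using hσt⟩

/-- balanced vertices near a limit of points of clopen sets of mass `≤ 1 - c` at `x` -/
lemma bal_near (hL : PLim s) {η : ℕ → s.Z} {U : ℕ → Set s.Z}
    (hU : ∀ n, Clp s.ι (η n) (U n)) {c : ℝ} (hc : 0 < c) {x : s.G}
    (hm : ∀ n, hh s.ν (U n) x ≤ 1 - c) {w : ℕ → s.Z} (hw : ∀ n, w n ∈ U n) {σ : s.Z}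
    (hσ : σ ∈ T s.ι) (hlim : Tendsto w atTop (𝓝 σ)) {r : ℝ} (hr : 0 < r) :
    ∃ c' : ℝ, 0 < c' ∧ ∀ᶠ n in atTop, ∃ y ∈ Bal s.ν c' (U n), dist (s.ι y) σ < r := by
  obtain ⟨Y, hY, hYr, δ, hδ, hYδ⟩ := s.bdry.lc σ hσ r hr
  obtain ⟨y0, hy0⟩ := s.exists_near σ hδ
  have hy0Y := hYδ y0 hy0
  obtain ⟨C, hC1, hC⟩ := s.harnack_path y0 x
  have hCpos : 0 < C := by linarith
  set c1 : ℝ := min (c / C) (1 / 2) with hc1
  have hc1pos : 0 < c1 := lt_min (div_pos hc hCpos) (by norm_num)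
  have hc1lt : c1 < 1 := (min_le_right _ _).trans_lt (by norm_num)
  have hc1le : c1 ≤ c / C := min_le_left _ _
  have hmass : ∀ n, hh s.ν (U n) y0 ≤ 1 - c1 := by
    intro n
    have h1 := (hU n).hh_add x
    have h2 := (hU n).hh_add y0
    have h3 := hC (cmp s.ι (η n) (U n)) (hU n).ro'.meas
    have h4 : c ≤ C * hh s.ν (cmp s.ι (η n) (U n)) y0 := by
      have := hm n; linarith
    have h5 : c / C ≤ hh s.ν (cmp s.ι (η n) (U n)) y0 := by
      rw [div_le_iff₀ hCpos, mul_comm]; exact h4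
    linarith
  refine ⟨min c1 ((1 - c1) / s.S.card), lt_min hc1pos (div_pos (by linarith) s.card_pos), ?_⟩
  have hev : ∀ᶠ n in atTop, dist (w n) σ < δ / 2 :=
    (Metric.tendsto_nhds.1 hlim) (δ / 2) (half_pos hδ)
  filter_upwards [hev] with n hn
  obtain ⟨ρ, hρ, hρ'⟩ := (hL (η n) (U n) (hU n) c1 hc1pos).1 (w n) (hw n)
  obtain ⟨y, hy⟩ := s.exists_near (w n) (lt_min hρ (half_pos hδ))
  have hy1 := hρ' y (hy.trans_le (min_le_left _ _))
  have hyY : y ∈ Y := by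
    refine hYδ y ?_
    calc dist (s.ι y) σ ≤ dist (s.ι y) (w n) + dist (w n) σ := dist_triangle _ _ _
      _ < δ / 2 + δ / 2 := by
          have := hy.trans_le (min_le_right _ _)
          linarith
      _ = δ := by ring
  obtain ⟨y', hy'Y, hy'B⟩ := s.crossing (hU n).meas hY hy0Y hyY (hmass n) hy1
  exact ⟨y', hy'B, hYr y' hy'Y⟩

lemma aux (hC : PConn s) (hL : PLim s) {η : ℕ → s.Z} {U : ℕ → Set s.Z}
    (hU : ∀ n, Clp s.ι (η n) (U n)) {c ε : ℝ} (hc : 0 < c) (hε : 0 < ε) {x : s.G}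
    (hm : ∀ n, hh s.ν (U n) x ≤ 1 - c)
    (hz : ∀ n, ∃ z ∈ U n, ∃ z' ∈ U n, ε ≤ dist z z') :
    ∃ c' : ℝ, 0 < c' ∧ ∃ ε' : ℝ, 0 < ε' ∧
      {n | ∃ y ∈ Bal s.ν c' (U n), ∃ y' ∈ Bal s.ν c' (U n),
        ε' ≤ dist (s.ι y) (s.ι y')}.Infinite := by
  choose z hz z' hz' hd using hz
  -- first subsequence
  obtain ⟨a, ha, φ1, hφ1, hl1⟩ := s.subseq_of_mem_T z (fun n => (hU n).sub (hz n))
  obtain ⟨b, hb, φ2, hφ2, hl2⟩ := s.subseq_of_mem_T (fun n => z' (φ1 n))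
    (fun n => (hU _).sub (hz' _))
  obtain ⟨e, he, φ3, hφ3, hl3⟩ := s.subseq_of_mem_T (fun n => η (φ1 (φ2 n)))
    (fun n => (hU _).mem)
  set ψ : ℕ → ℕ := fun n => φ1 (φ2 (φ3 n)) with hψ
  have hψm : StrictMono ψ := hφ1.comp (hφ2.comp hφ3)
  have k1 : Tendsto (fun n => z (ψ n)) atTop (𝓝 a) :=
    hl1.comp (hφ2.comp hφ3).tendsto_atTop
  have k2 : Tendsto (fun n => z' (ψ n)) atTop (𝓝 b) := hl2.comp hφ3.tendsto_atTop
  have k3 : Tendsto (fun n => η (ψ n)) atTop (𝓝 e) := hl3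
  have hab : a ≠ b := by
    have h1 : Tendsto (fun n => dist (z (ψ n)) (z' (ψ n))) atTop (𝓝 (dist a b)) := k1.dist k2
    have h2 : ε ≤ dist a b := ge_of_tendsto' h1 (fun n => hd (ψ n))
    exact dist_pos.1 (hε.trans_le h2)
  -- a function separating a, b
  obtain ⟨f0, hf0, hf0ab⟩ := s.bdry.fsep a ha b hb hab
  obtain ⟨f, hf, hfab⟩ : ∃ f : s.Z → ℝ, Continuous f ∧ f a < f b := by
    rcases lt_or_gt_of_ne hf0ab with h | h
    · exact ⟨f0, s.bdry.fcont f0 hf0, h⟩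
    · exact ⟨fun w => - f0 w, (s.bdry.fcont f0 hf0).neg, by simpa using h⟩
  -- two levels different from `f e`
  obtain ⟨t, t', ht1, htt', ht2, hte, hte'⟩ :
      ∃ t t' : ℝ, f a < t ∧ t < t' ∧ t' < f b ∧ f e ≠ t ∧ f e ≠ t' := by
    set d := (f b - f a) / 4 with hd'
    have hdpos : 0 < d := by rw [hd']; linarith
    by_cases h1 : f e = f a + d
    · exact ⟨f a + 2 * d, f a + 3 * d, by linarith, by linarith, by linarith,
        by rw [h1]; intro h; linarith, by rw [h1]; intro h; linarith⟩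
    · by_cases h2 : f e = f a + 2 * d
      · exact ⟨f a + d, f a + 3 * d, by linarith, by linarith, by linarith, h1,
          by rw [h2]; intro h; linarith⟩
      · exact ⟨f a + d, f a + 2 * d, by linarith, by linarith, by linarith, h1, h2⟩
  have e1 : ∀ᶠ n in atTop, f (z (ψ n)) < t :=
    ((hf.tendsto a).comp k1).eventually (gt_mem_nhds ht1)
  have e2 : ∀ᶠ n in atTop, t' < f (z' (ψ n)) :=
    ((hf.tendsto b).comp k2).eventually (lt_mem_nhds ht2)
  have e3 : ∀ᶠ n in atTop, f (η (ψ n)) ≠ t :=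
    ((hf.tendsto e).comp k3).eventually (isOpen_ne.mem_nhds hte)
  have e4 : ∀ᶠ n in atTop, f (η (ψ n)) ≠ t' :=
    ((hf.tendsto e).comp k3).eventually (isOpen_ne.mem_nhds hte')
  obtain ⟨N, hN⟩ := eventually_atTop.1 (e1.and (e2.and (e3.and e4)))
  have hlev : ∀ n, ∃ σ ∈ U (ψ (n + N)), f σ = t := fun n => by
    obtain ⟨h1, h2, h3, h4⟩ := hN (n + N) (Nat.le_add_left _ _)
    exact level hC (hU _) hf h3 (hz _) (hz' _) h1 (htt'.trans h2)
  have hlev' : ∀ n, ∃ σ ∈ U (ψ (n + N)), f σ = t' := fun n => by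
    obtain ⟨h1, h2, h3, h4⟩ := hN (n + N) (Nat.le_add_left _ _)
    exact level hC (hU _) hf h4 (hz _) (hz' _) (h1.trans htt') h2
  choose σ hσ hσt using hlev
  choose σ' hσ' hσt' using hlev'
  obtain ⟨p, hp, χ1, hχ1, hm1⟩ := s.subseq_of_mem_T σ (fun n => (hU _).sub (hσ n))
  obtain ⟨p', hp', χ2, hχ2, hm2⟩ := s.subseq_of_mem_T (fun n => σ' (χ1 n))
    (fun n => (hU _).sub (hσ' _))
  set χ : ℕ → ℕ := fun n => χ1 (χ2 n) with hχ
  have hχm : StrictMono χ := hχ1.comp hχ2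
  have m1 : Tendsto (fun n => σ (χ n)) atTop (𝓝 p) := hm1.comp hχ2.tendsto_atTop
  have m2 : Tendsto (fun n => σ' (χ n)) atTop (𝓝 p') := hm2
  have hfp : f p = t := by
    have h1 : Tendsto (fun n => f (σ (χ n))) atTop (𝓝 (f p)) := (hf.tendsto p).comp m1
    exact tendsto_nhds_unique h1 (by simp only [hσt]; exact tendsto_const_nhds)
  have hfp' : f p' = t' := by
    have h1 : Tendsto (fun n => f (σ' (χ n))) atTop (𝓝 (f p')) := (hf.tendsto p').comp m2
    exact tendsto_nhds_unique h1 (by simp only [hσt']; exact tendsto_const_nhds)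
  have hpp' : p ≠ p' := by
    rintro rfl
    exact htt'.ne (hfp.symm.trans hfp')
  have hdpos : 0 < dist p p' := dist_pos.2 hpp'
  have hr : 0 < dist p p' / 4 := by linarith
  obtain ⟨c1, hc1, hb1⟩ := bal_near hL (η := fun n => η (ψ (χ n + N)))
    (U := fun n => U (ψ (χ n + N))) (fun n => hU _) hc (fun n => hm _) (fun n => hσ (χ n))
    hp m1 hr
  obtain ⟨c2, hc2, hb2⟩ := bal_near hL (η := fun n => η (ψ (χ n + N)))
    (U := fun n => U (ψ (χ n + N))) (fun n => hU _) hc (fun n => hm _) (fun n => hσ' (χ n))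
    hp' m2 hr
  refine ⟨min c1 c2, lt_min hc1 hc2, dist p p' / 2, by linarith, ?_⟩
  obtain ⟨N', hN'⟩ := eventually_atTop.1 (hb1.and hb2)
  have hinj : StrictMono (fun n => ψ (χ (n + N') + N)) := by
    intro m n hmn
    exact hψm (by
      have := hχm (show m + N' < n + N' by omega)
      omega)
  refine (Set.infinite_range_of_injective hinj.injective).mono ?_
  rintro _ ⟨n, rfl⟩
  obtain ⟨⟨y, hy, hyp⟩, ⟨y', hy', hyp'⟩⟩ := hN' (n + N') (Nat.le_add_left _ _)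
  refine ⟨y, bal_mono (min_le_left _ _) _ hy, y', bal_mono (min_le_right _ _) _ hy', ?_⟩
  have t1 := dist_triangle p (s.ι y) p'
  have t2 := dist_triangle (s.ι y) (s.ι y') p'
  rw [dist_comm p (s.ι y)] at t1
  linarith

end Crest.Agent.R224.Shr754

namespace Crest.Agent.R224

open Shr754 Part754

/-- D6 -/
theorem nShrink (s : Sys) (hC : PConn s) (hA : PAlg s) (hL : PLim s) (hO : NOpen s)
    (hN : NNull s) : NShrink s := by
  have hclp : ∀ q ∈ s.Pairs, Clp s.ι q.1 q.2 := by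
    rintro ⟨η, C⟩ ⟨h1, θ, h2, h3, h4⟩
    simp only at h1 h3 h4
    show Clp s.ι η C
    rw [h4]
    exact hO η (isCut_mem h1) θ h2 h3
  intro c ε hc hε x
  constructor
  · by_contra hinf
    have hinf' : {q | q ∈ s.Pairs ∧ hh s.ν q.2 x ≤ 1 - c ∧
        ∃ z ∈ q.2, ∃ z' ∈ q.2, ε ≤ dist z z'}.Infinite := hinf
    set q := hinf'.natEmbedding with hq
    have hmem : ∀ n, (q n : s.Z × Set s.Z) ∈ s.Pairs := fun n => (q n).2.1
    obtain ⟨c', hc', ε', hε', h⟩ := aux hC hL (η := fun n => (q n).1.1)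
      (U := fun n => (q n).1.2) (fun n => hclp _ (hmem n)) hc hε (x := x)
      (fun n => (q n).2.2.1) (fun n => (q n).2.2.2)
    refine ((h.image (f := fun n => ((q n : s.Z × Set s.Z))) ?_).mono ?_) (hN c' ε' hc' hε')
    · intro m _ n _ hmn
      exact q.injective (Subtype.ext hmn)
    · rintro _ ⟨n, hn, rfl⟩
      exact ⟨hmem n, hn⟩
  · by_contra hinf
    have hinf' : {q | q ∈ s.Pairs ∧ hh s.ν (cmp s.ι q.1 q.2) x ≤ 1 - c ∧
        ∃ z ∈ cmp s.ι q.1 q.2, ∃ z' ∈ cmp s.ι q.1 q.2, ε ≤ dist z z'}.Infinite := hinf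
    set q := hinf'.natEmbedding with hq
    have hmem : ∀ n, (q n : s.Z × Set s.Z) ∈ s.Pairs := fun n => (q n).2.1
    obtain ⟨c', hc', ε', hε', h⟩ := aux hC hL (η := fun n => (q n).1.1)
      (U := fun n => cmp s.ι (q n).1.1 (q n).1.2)
      (fun n => (hA _ _ _ (hclp _ (hmem n)) (hclp _ (hmem n))).1) hc hε (x := x)
      (fun n => (q n).2.2.1) (fun n => (q n).2.2.2)
    refine ((h.image (f := fun n => ((q n : s.Z × Set s.Z))) ?_).mono ?_) (hN c' ε' hc' hε')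
    · intro m _ n _ hmn
      exact q.injective (Subtype.ext hmn)
    · rintro _ ⟨n, ⟨y, hy, y', hy', hd⟩, rfl⟩
      exact ⟨hmem n, y, bal_cmp (hclp _ (hmem n)) hy, y', bal_cmp (hclp _ (hmem n)) hy', hd⟩

end Crest.Agent.R224
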