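/-
R224 / S0346 : Theorem B' (NThmB) from the emptiness of the family of limit walls (helper480).
-/
import Crest.Agent.R224.BDefs
import Crest.Agent.R224.DBas

set_option autoImplicit false

noncomputable section

open MeasureTheory Set Filter Topology

namespace Crest.Agent.R224

theorem cutLt.trans {Z : Type} {c d e : Z × Set Z} (h1 : cutLt c d) (h2 : cutLt d e) :
    cutLt c e := by
  unfold cutLt at *
  exact h1.trans ((subset_insert d.1 d.2).trans h2)

theorem cutLt.sub {Z : Type} {c d : Z × Set Z} (h : cutLt c d) : c.2 ⊆ d.2 :=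
  (subset_insert _ _).trans h

namespace ThmB

variable (s : Sys)

theorem cutD_mono {c d : s.Z × Set s.Z} (h : cutLt c d) : cutD s.ν c ⊆ cutD s.ν d := by
  intro x hx
  exact lt_of_lt_of_le hx (s.hh_mono h.sub x)

theorem hh_union_inter {U V : Set s.Z} (hV : MeasurableSet V) (x : s.G) :
    hh s.ν (U ∪ V) x + hh s.ν (U ∩ V) x = hh s.ν U x + hh s.ν V x := by
  unfold hh
  exact measureReal_union_add_inter hV

theorem hh_T (x : s.G) : hh s.ν (T s.ι) x = 1 := by
  have h1 : s.ν x (T s.ι)ᶜ = 0 := s.harm.supp x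
  have h2 : (s.ν x).real (T s.ι)ᶜ = 0 := by simp [Measure.real, h1]
  have hm : MeasurableSet (T s.ι) := s.isClosed_T.measurableSet
  have h3 := measureReal_add_measureReal_compl (μ := s.ν x) hm
  rw [h2, probReal_univ, add_zero] at h3
  exact h3

/-- (L1) of note 9910 -/
theorem compare (hC : PConn s) (hH : PHalf s) (hP : PAlg s) {c d : s.Z × Set s.Z}
    (hc : Clp s.ι c.1 c.2) (hd : Clp s.ι d.1 d.2) (hne : c.1 ≠ d.1) {x y : s.G}
    (hxc : 1 / 2 < hh s.ν c.2 x) (hxd : 1 / 2 < hh s.ν d.2 x)
    (hyc : hh s.ν c.2 y ≤ 1 / 2) (hyd : hh s.ν d.2 y ≤ 1 / 2) : cutLt c d ∨ cutLt d c := by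
  obtain ⟨η, U⟩ := c
  obtain ⟨ξ, W⟩ := d
  simp only at *
  have hdisj : ¬ Disjoint U W := by
    intro h
    have h1 := hh_union_inter s (U := U) (V := W) hd.meas x
    rw [h.inter_eq] at h1
    have h2 : hh s.ν (∅ : Set s.Z) x = 0 := by simp [hh]
    have h3 := s.hh_le_one (U ∪ W) x
    linarith
  by_cases h1 : ξ ∈ U
  · by_cases h2 : η ∈ W
    · exfalso
      -- both : cover
      have hU' := (hP η U U hc hc).1
      have hξ : ξ ∉ cmp s.ι η U := fun h => h.2.2 h1
      rcases hH η (cmp s.ι η U) ξ W hU' hd hne hξ with h | h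
      · -- T = U ∪ W
        have hcov : T s.ι ⊆ U ∪ W := by
          intro z hz
          by_cases hzη : z = η
          · right; rw [hzη]; exact h2
          · by_cases hzU : z ∈ U
            · left; exact hzU
            · right; exact h (Or.inl ⟨hz, hzη, hzU⟩)
        have hne' : (U ∩ W).Nonempty := by
          by_contra hcon
          rw [not_nonempty_iff_eq_empty] at hcon
          refine hC W hd.ro ?_ ⟨η, h2⟩ ⟨ξ, hc.sub h1, hd.notMem⟩
          have : T s.ι \ W = U := by
            ext z
            constructor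
            · rintro ⟨hz, hzW⟩
              exact (hcov hz).resolve_right hzW
            · intro hz
              refine ⟨hc.sub hz, fun hzW => ?_⟩
              have : z ∈ U ∩ W := ⟨hz, hzW⟩
              rw [hcon] at this; exact this
          rw [this]; exact hc.ro
        obtain ⟨O, hO, hOU⟩ := hc.ro.inter hd.ro
        have hpos : 0 < hh s.ν (U ∩ W) y := by
          have h3 := s.harm.full y O hO (by rw [hOU]; exact hne')
          have h4 : hh s.ν O y ≤ hh s.ν (U ∩ W) y := by
            have h5 : hh s.ν O y ≤ hh s.ν (O ∩ T s.ι) y + hh s.ν (T s.ι)ᶜ y := by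
              unfold hh
              refine (measureReal_mono (μ := s.ν y) (?_ : O ⊆ (O ∩ T s.ι) ∪ (T s.ι)ᶜ)).trans
                (measureReal_union_le _ _)
              intro z hz
              by_cases hzT : z ∈ T s.ι
              · left; exact ⟨hz, hzT⟩
              · right; exact hzT
            have h6 : hh s.ν (T s.ι)ᶜ y = 0 := by
              unfold hh; simp [Measure.real, s.harm.supp y]
            rw [h6, hOU] at h5
            linarith
          exact lt_of_lt_of_le h3 h4
        have h5 := hh_union_inter s (U := U) (V := W) hd.meas y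
        have h6 : 1 ≤ hh s.ν (U ∪ W) y := by
          rw [← hh_T s y]; exact s.hh_mono hcov y
        linarith
      · exact Set.disjoint_left.1 h (Or.inr rfl) h2
    · right
      rcases hH ξ W η U hd hc hne.symm h2 with h | h
      · intro z hz
        rcases hz with rfl | hz
        · exact h (Or.inr rfl)
        · exact h (Or.inl hz)
      · exact absurd h1 (Set.disjoint_left.1 h (Or.inr rfl))
  · left
    rcases hH η U ξ W hc hd hne h1 with h | h
    · intro z hz
      rcases hz with rfl | hz
      · exact h (Or.inr rfl)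
      · exact h (Or.inl hz)
    · exact absurd (h.mono_left subset_union_left) hdisj

/-- union of a strictly increasing sequence of cuts is in the family -/
theorem mem_limFam {c : ℕ → s.Z × Set s.Z} (hc : ∀ n, Clp s.ι (c n).1 (c n).2)
    (hlt : ∀ n, cutLt (c n) (c (n+1))) {y : s.G} (hy : ∀ n, hh s.ν (c n).2 y ≤ 1 / 2) :
    (⋃ n, cutD s.ν (c n)) ∈ LimFam s.ι s.ν := by
  refine ⟨?_, ?_⟩
  · intro h
    have : y ∈ ⋃ n, cutD s.ν (c n) := by rw [h]; trivial
    obtain ⟨n, hn⟩ := mem_iUnion.1 this
    exact absurd hn (not_lt.2 (hy n))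
  · intro K hK
    have hmono : Monotone fun n => cutD s.ν (c n) :=
      monotone_nat_of_le_succ fun n => cutD_mono s (hlt n)
    obtain ⟨n, hn⟩ : ∃ n, (K : Set s.G) ⊆ cutD s.ν (c n) :=
      (hmono.directed_le).exists_mem_subset_of_finset_subset_biUnion hK
    refine ⟨c n, c (n+1), c (n+2), c (n+3), hc _, hc _, hc _, hc _, hlt _, hlt _, hlt _, hn, ?_⟩
    exact subset_iUnion (fun n => cutD s.ν (c n)) (n+3)

theorem thmB_of_empty (hC : PConn s) (hH : PHalf s) (hP : PAlg s)
    (h : LimFam s.ι s.ν = ∅) : NThmB s := by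
  intro x y _
  by_contra hinf
  have hinf : {η | Cross s.ι s.ν x y η}.Infinite := hinf
  choose! U hU1 hU2 hU3 using fun (η : s.Z) (h : Cross s.ι s.ν x y η) => h
  have em := hinf.natEmbedding
  let f : ℕ → s.Z := fun n => (em n : s.Z)
  have hf : ∀ n, Cross s.ι s.ν x y (f n) := fun n => (em n).2
  have hfi : Function.Injective f := fun a b hab =>
    em.injective (Subtype.ext hab)
  let c : ℕ → s.Z × Set s.Z := fun n => (f n, U (f n))
  have hcl : ∀ n, Clp s.ι (c n).1 (c n).2 := fun n => hU1 _ (hf n)
  haveI : IsTrans (s.Z × Set s.Z) cutLt := ⟨fun _ _ _ h1 h2 => h1.trans h2⟩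
  obtain ⟨g, hg⟩ := exists_increasing_or_nonincreasing_subseq cutLt c
  rcases hg with hg | hg
  · have hm := mem_limFam s (c := fun n => c (g n)) (fun n => hcl _)
      (fun n => hg n (n+1) (Nat.lt_succ_self n)) (y := y) (fun n => hU3 _ (hf _))
    rw [h] at hm; exact hm
  · have hg' : ∀ n, cutLt (c (g (n+1))) (c (g n)) := by
      intro n
      have h1 := hg n (n+1) (Nat.lt_succ_self n)
      have hne : (c (g n)).1 ≠ (c (g (n+1))).1 := by
        intro heq
        have := g.injective (hfi heq)
        omega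
      exact (compare s hC hH hP (hcl _) (hcl _) hne (hU2 _ (hf _)) (hU2 _ (hf _)) (hU3 _ (hf _))
        (hU3 _ (hf _))).resolve_left h1
    let d : ℕ → s.Z × Set s.Z := fun n => (f (g n), cmp s.ι (f (g n)) (U (f (g n))))
    have hm := mem_limFam s (c := d) (fun n => (hP _ _ _ (hcl (g n)) (hcl (g n))).1) ?_ (y := x) ?_
    · rw [h] at hm; exact hm
    · intro n z hz
      have h1 := hg' n
      have hη' : f (g (n+1)) ∈ U (f (g n)) := h1 (mem_insert _ _)
      rcases hz with rfl | hz
      · refine ⟨(hcl (g n)).mem, ?_, fun hz => (hcl (g n)).notMem (h1.sub hz)⟩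
        intro heq
        have := g.injective (hfi heq)
        omega
      · refine ⟨hz.1, ?_, fun hz' => hz.2.2 (h1.sub hz')⟩
        rintro rfl
        exact hz.2.2 hη'
    · intro n
      have h1 := (hcl (g n)).hh_add x
      have h2 := hU2 _ (hf (g n))
      simp only [d]
      simp only [c] at h1
      linarith

end ThmB

/-- node NThmB, from the nodes NPrinM, NCore, NFam -/
theorem nThmB (s : Sys) (hC : PConn s) (hH : PHalf s) (hP : PAlg s) (hPr : NPrinM) (hCo : NCore)
    (hF : NFam s) : NThmB s :=
  ThmB.thmB_of_empty s hC hH hP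
    (hCo s.G s.S s.top s.inf (hPr s.G s.S s.top s.non s.inf) _ hF)

end Crest.Agent.R224
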