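import Crest.Agent.R224.NodeDyn

/-!
Row 224, group half: the multi-scale order lemma (node `NOrder`).

`OM G d`: `d` is (the restriction to the group of) the metric of the compactification.
`Good d R κ`: the transitive closure of the relation `R` is acyclic and `x ⇒ y` implies that `y`
seen from `x` is at distance at least `κ` from the origin seen from `x`.
-/

set_option autoImplicit false

noncomputable section

open Set Filter Topology

namespace Crest.Agent.R224

structure OM {G : Type*} [Group G] (d : G → G → ℝ) : Prop where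
  comm : ∀ x y, d x y = d y x
  tri : ∀ x y z, d x z ≤ d x y + d y z
  cp : ∀ δ : ℝ, 0 < δ → ∃ C : Finset G, ∀ w, w ∉ C → ∀ v, d v w ≤ δ ∨ d (w⁻¹ * v) w⁻¹ ≤ δ
  uc : ∀ K : Finset G, ∀ δ : ℝ, 0 < δ → ∃ δ' : ℝ, 0 < δ' ∧ ∀ u ∈ K, ∀ v v',
    d v v' ≤ δ' → d (u * v) (u * v') ≤ δ
  rm : ∀ K : Finset G, ∀ δ : ℝ, 0 < δ → ∃ C : Finset G, ∀ w, w ∉ C → ∀ u ∈ K, d (w * u) w ≤ δ

/-- scale relation -/
def SRel {G : Type*} [Group G] (d : G → G → ℝ) (ε : ℝ) (L : Finset G) (x z : G) : Prop :=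
  x⁻¹ * z ∉ L ∧ ε ≤ d x⁻¹ (x⁻¹ * z)

structure Good {G : Type*} [Group G] (d : G → G → ℝ) (R : G → G → Prop) (κ : ℝ) : Prop where
  pos : 0 < κ
  far : ∀ x y, Relation.TransGen R x y → κ ≤ d x⁻¹ (x⁻¹ * y)
  acyc : ∀ x, ¬ Relation.TransGen R x x

/-- macro step -/
def MRel {G : Type*} (R S : G → G → Prop) (x y : G) : Prop :=
  ∃ x1 z, (x = x1 ∨ Relation.TransGen R x x1) ∧ S x1 z ∧ (z = y ∨ Relation.TransGen R z y)

theorem MRel.extend {G : Type*} {R S : G → G → Prop} {x y z : G} (h : MRel R S x y) (h' : R y z) :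
    MRel R S x z := by
  obtain ⟨x1, w, h1, h2, h3⟩ := h
  refine ⟨x1, w, h1, h2, Or.inr ?_⟩
  rcases h3 with rfl | h3
  · exact Relation.TransGen.single h'
  · exact h3.tail h'

theorem transGen_MRel_extend {G : Type*} {R S : G → G → Prop} {x y z : G}
    (h : Relation.TransGen (MRel R S) x y) (h' : R y z) : Relation.TransGen (MRel R S) x z := by
  cases h with
  | single h => exact Relation.TransGen.single (h.extend h')
  | tail h h1 => exact h.tail (h1.extend h')

theorem transGen_or {G : Type*} {R S : G → G → Prop} {x y : G}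
    (h : Relation.TransGen (fun a b => R a b ∨ S a b) x y) :
    Relation.TransGen R x y ∨ Relation.TransGen (MRel R S) x y := by
  induction h with
  | single h =>
    rcases h with h | h
    · exact Or.inl (Relation.TransGen.single h)
    · exact Or.inr (Relation.TransGen.single ⟨_, _, Or.inl rfl, h, Or.inl rfl⟩)
  | tail _ h1 ih =>
    rcases ih with ih | ih
    · rcases h1 with h1 | h1
      · exact Or.inl (ih.tail h1)
      · exact Or.inr (Relation.TransGen.single ⟨_, _, Or.inr ih, h1, Or.inl rfl⟩)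
    · rcases h1 with h1 | h1
      · exact Or.inr (transGen_MRel_extend ih h1)
      · exact Or.inr (ih.tail ⟨_, _, Or.inl rfl, h1, Or.inl rfl⟩)

/-- chains of relations with large displacement. -/
theorem chain_bounds {G : Type*} [Group G] {d : G → G → ℝ} (hd : OM d) {M : G → G → Prop}
    {κ θ : ℝ} (hθ : 0 < θ) (hκ : 8 * θ ≤ κ) (C : Finset G)
    (hC : ∀ w, w ∉ C → ∀ v, d v w ≤ θ ∨ d (w⁻¹ * v) w⁻¹ ≤ θ)
    (ha : ∀ x y, M x y → κ ≤ d x⁻¹ (x⁻¹ * y)) (hb : ∀ x y, M x y → d y⁻¹ (y⁻¹ * x) ≤ θ)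
    (hc : ∀ x y, M x y → x⁻¹ * y ∉ C) :
    ∀ x y, Relation.TransGen M x y →
      κ - θ ≤ d x⁻¹ (x⁻¹ * y) ∧ d y⁻¹ (y⁻¹ * x) ≤ 2 * θ := by
  have e1 : ∀ x y : G, (x⁻¹ * y)⁻¹ = y⁻¹ * x := fun x y => by group
  have e2 : ∀ x y z : G, (x⁻¹ * y)⁻¹ * (x⁻¹ * z) = y⁻¹ * z := fun x y z => by group
  intro x y h
  constructor
  · induction h using Relation.TransGen.head_induction_on with
    | single h => linarith [ha _ _ h]
    | @head a c h h' ih =>
      rcases hC _ (hc _ _ h) (a⁻¹ * y) with h1 | h1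
      · have h2 := ha _ _ h
        have h3 := hd.tri a⁻¹ (a⁻¹ * y) (a⁻¹ * c)
        linarith
      · rw [e2, e1] at h1
        have h2 := hb _ _ h
        have h3 := hd.tri c⁻¹ (c⁻¹ * a) (c⁻¹ * y)
        rw [hd.comm (c⁻¹ * a)] at h3
        linarith
  · induction h with
    | single h => linarith [hb _ _ h]
    | @tail b c h h' ih =>
      have h2 := hb _ _ h'
      rcases hC _ (hc _ _ h') (b⁻¹ * x) with h1 | h1
      · have h4 := ha _ _ h'
        have h3 := hd.tri b⁻¹ (b⁻¹ * x) (b⁻¹ * c)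
        linarith
      · rw [e2, e1] at h1
        have h3 := hd.tri c⁻¹ (c⁻¹ * b) (c⁻¹ * x)
        rw [hd.comm (c⁻¹ * b)] at h3
        linarith

/-- the induction step of the order lemma. -/
theorem OM.step {G : Type*} [Group G] {d : G → G → ℝ} (hd : OM d) {R : G → G → Prop} {κ : ℝ}
    (hR : Good d R κ) {ε : ℝ} (hε : 0 < ε) :
    ∃ L : Finset G, ∃ κ' : ℝ, Good d (fun x y => R x y ∨ SRel d ε L x y) κ' := by
  classical
  have hκ := hR.pos
  have e1 : ∀ x y : G, (x⁻¹ * y)⁻¹ = y⁻¹ * x := fun x y => by group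
  have e2 : ∀ x y z : G, (x⁻¹ * y)⁻¹ * (x⁻¹ * z) = y⁻¹ * z := fun x y z => by group
  have e3 : ∀ x y : G, (x⁻¹ * y)⁻¹ * x⁻¹ = y⁻¹ := fun x y => by group
  -- constants
  set δ2 := min ε κ / 16 with hδ2
  have hδ2p : 0 < δ2 := by positivity
  have hδ2ε : δ2 ≤ ε / 16 := by
    rw [hδ2]; exact div_le_div_of_nonneg_right (min_le_left _ _) (by norm_num)
  have hδ2κ : δ2 ≤ κ / 16 := by
    rw [hδ2]; exact div_le_div_of_nonneg_right (min_le_right _ _) (by norm_num)
  obtain ⟨C2, hC2⟩ := hd.cp δ2 hδ2p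
  obtain ⟨κ2, hκ2p, hκ2⟩ := hd.uc (C2.image fun u => u⁻¹) (ε / 4) (by positivity)
  set κM := min (ε / 4) (min (κ / 2) κ2) with hκM
  have hκMp : 0 < κM := by positivity
  have hκM1 : κM ≤ ε / 4 := min_le_left _ _
  have hκM2 : κM ≤ κ / 2 := (min_le_right _ _).trans (min_le_left _ _)
  have hκM3 : κM ≤ κ2 := (min_le_right _ _).trans (min_le_right _ _)
  set θ := κM / 8 with hθ
  have hθp : 0 < θ := by positivity
  obtain ⟨C', hC'⟩ := hd.cp θ hθp
  -- conditions on `t = x1⁻¹ y`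
  obtain ⟨A1, hA1⟩ := hd.cp (θ / 2) (by positivity)
  obtain ⟨A2, hA2⟩ := hd.rm (C2.image fun u => u⁻¹) (θ / 2) (by positivity)
  obtain ⟨A3, hA3⟩ := hd.rm (C'.image fun u => u⁻¹) (ε / 16) (by positivity)
  set C : Finset G := A1 ∪ (A2.image fun u => u⁻¹) ∪ A3 ∪
    ((C2 ×ˢ C').image fun p => p.1⁻¹ * p.2) ∪ C' with hC
  -- analysis 1
  obtain ⟨B1, hB1⟩ := hd.cp (θ / 4) (by positivity)
  obtain ⟨δ', hδ'p, hδ'⟩ := hd.uc (B1.image fun u => u⁻¹) (θ / 2) (by positivity)
  set δ := min (θ / 4) δ' with hδ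
  have hδp : 0 < δ := by positivity
  have hδ1 : δ ≤ θ / 4 := min_le_left _ _
  have hδ2' : δ ≤ δ' := min_le_right _ _
  obtain ⟨D1, hD1⟩ := hd.cp δ hδp
  obtain ⟨D2, hD2⟩ := hd.rm C δ hδp
  set L : Finset G := D1 ∪ (D2.image fun u => u⁻¹) ∪ C with hL
  -- first composite
  have key1 : ∀ x z y : G, SRel d ε L x z → (z = y ∨ Relation.TransGen R z y) →
      ε / 2 ≤ d x⁻¹ (x⁻¹ * y) ∧ d y⁻¹ (y⁻¹ * x) ≤ θ / 2 ∧ x⁻¹ * y ∉ C := by
    rintro x z y ⟨hw, hf⟩ hzy
    have hw1 : x⁻¹ * z ∉ D1 := fun h => hw (by rw [hL]; simp [h])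
    have hw2 : z⁻¹ * x ∉ D2 := fun h => hw (by
      rw [hL]
      simp only [Finset.mem_union, Finset.mem_image]
      exact Or.inl (Or.inr ⟨_, h, by group⟩))
    have hw3 : x⁻¹ * z ∉ C := fun h => hw (by rw [hL]; exact Finset.mem_union_right _ h)
    have hz1 : d z⁻¹ (z⁻¹ * x) ≤ δ := by
      rcases hD1 _ hw1 x⁻¹ with h | h
      · linarith
      · rwa [e3, e1] at h
    rcases hzy with rfl | hzy
    · exact ⟨by linarith, by linarith, hw3⟩
    · have hv := hR.far _ _ hzy
      have hxy : d (x⁻¹ * y) (x⁻¹ * z) ≤ δ := by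
        rcases hD1 _ hw1 (x⁻¹ * y) with h | h
        · exact h
        · rw [e2, e1] at h
          have h3 := hd.tri z⁻¹ (z⁻¹ * x) (z⁻¹ * y)
          rw [hd.comm (z⁻¹ * x)] at h3
          linarith
      refine ⟨?_, ?_, ?_⟩
      · have h3 := hd.tri x⁻¹ (x⁻¹ * y) (x⁻¹ * z)
        linarith
      · by_cases hvB : z⁻¹ * y ∈ B1
        · have h1 := hδ' (z⁻¹ * y)⁻¹ (Finset.mem_image.2 ⟨_, hvB, rfl⟩) z⁻¹ (z⁻¹ * x)
            (hz1.trans hδ2')
          rwa [e3, e2] at h1
        · have h1 : d (y⁻¹ * x) (y⁻¹ * z) ≤ θ / 4 := by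
            rcases hB1 _ hvB (z⁻¹ * x) with h | h
            · have h3 := hd.tri z⁻¹ (z⁻¹ * x) (z⁻¹ * y)
              linarith
            · rwa [e2, e1] at h
          have h2 : d y⁻¹ (y⁻¹ * z) ≤ θ / 4 := by
            rcases hB1 _ hvB z⁻¹ with h | h
            · linarith
            · rwa [e3, e1] at h
          have h3 := hd.tri y⁻¹ (y⁻¹ * z) (y⁻¹ * x)
          rw [hd.comm (y⁻¹ * z)] at h3
          linarith
      · intro hmem
        have h1 := hD2 _ hw2 _ hmem
        have h2 : z⁻¹ * x * (x⁻¹ * y) = z⁻¹ * y := by group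
        rw [h2] at h1
        have h3 := hd.tri z⁻¹ (z⁻¹ * x) (z⁻¹ * y)
        rw [hd.comm (z⁻¹ * x)] at h3
        linarith
  -- macro steps
  have key2 : ∀ x y : G, MRel R (SRel d ε L) x y →
      κM ≤ d x⁻¹ (x⁻¹ * y) ∧ d y⁻¹ (y⁻¹ * x) ≤ θ ∧ x⁻¹ * y ∉ C' := by
    rintro x y ⟨x1, z, hx, hS, hz⟩
    obtain ⟨hA, hB, hT⟩ := key1 _ _ _ hS hz
    have hT1 : x1⁻¹ * y ∉ A1 := fun h => hT (by
      rw [hC]; simp only [Finset.mem_union]; tauto)
    have hT2 : y⁻¹ * x1 ∉ A2 := fun h => hT (by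
      rw [hC]
      simp only [Finset.mem_union, Finset.mem_image]
      exact Or.inl (Or.inl (Or.inl (Or.inr ⟨_, h, by group⟩))))
    have hT3 : x1⁻¹ * y ∉ A3 := fun h => hT (by
      rw [hC]; simp only [Finset.mem_union]; tauto)
    have hT4 : ∀ u ∈ C2, ∀ c ∈ C', x1⁻¹ * y ≠ u⁻¹ * c := fun u hu c hc h => hT (by
      rw [hC]
      simp only [Finset.mem_union, Finset.mem_image, Finset.mem_product]
      exact Or.inl (Or.inr ⟨(u, c), ⟨hu, hc⟩, h.symm⟩))
    have hT5 : x1⁻¹ * y ∉ C' := fun h => hT (by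
      rw [hC]; exact Finset.mem_union_right _ h)
    rcases hx with rfl | hx
    · exact ⟨by linarith, by linarith, hT5⟩
    · have hu := hR.far _ _ hx
      by_cases huC : x⁻¹ * x1 ∈ C2
      · refine ⟨?_, ?_, ?_⟩
        · by_contra hcon
          have h1 := hκ2 (x⁻¹ * x1)⁻¹ (Finset.mem_image.2 ⟨_, huC, rfl⟩) x⁻¹ (x⁻¹ * y)
            (by linarith [not_le.1 hcon])
          rw [e3, e2] at h1
          linarith
        · have h1 := hA2 _ hT2 (x⁻¹ * x1)⁻¹ (Finset.mem_image.2 ⟨_, huC, rfl⟩)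
          have h2 : y⁻¹ * x1 * (x⁻¹ * x1)⁻¹ = y⁻¹ * x := by group
          rw [h2] at h1
          have h3 := hd.tri y⁻¹ (y⁻¹ * x1) (y⁻¹ * x)
          rw [hd.comm (y⁻¹ * x1)] at h3
          linarith
        · intro hmem
          refine hT4 _ huC _ hmem ?_
          group
      · have hx1 : d x1⁻¹ (x1⁻¹ * x) ≤ δ2 := by
          rcases hC2 _ huC x⁻¹ with h | h
          · linarith
          · rwa [e3, e1] at h
        refine ⟨?_, ?_, ?_⟩
        · rcases hC2 _ huC (x⁻¹ * y) with h | h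
          · have h3 := hd.tri x⁻¹ (x⁻¹ * y) (x⁻¹ * x1)
            linarith
          · rw [e2, e1] at h
            have h3 := hd.tri x1⁻¹ (x1⁻¹ * x) (x1⁻¹ * y)
            rw [hd.comm (x1⁻¹ * x)] at h3
            linarith
        · rcases hA1 _ hT1 (x1⁻¹ * x) with h | h
          · have h3 := hd.tri x1⁻¹ (x1⁻¹ * x) (x1⁻¹ * y)
            linarith
          · rw [e2, e1] at h
            have h3 := hd.tri y⁻¹ (y⁻¹ * x1) (y⁻¹ * x)
            rw [hd.comm (y⁻¹ * x1)] at h3
            linarith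
        · intro hmem
          have h1 := hA3 _ hT3 (x⁻¹ * y)⁻¹ (Finset.mem_image.2 ⟨_, hmem, rfl⟩)
          have h2 : x1⁻¹ * y * (x⁻¹ * y)⁻¹ = x1⁻¹ * x := by group
          rw [h2] at h1
          have h3 := hd.tri x1⁻¹ (x1⁻¹ * x) (x1⁻¹ * y)
          linarith
  have key3 := chain_bounds hd (M := MRel R (SRel d ε L)) hθp (κ := κM) (by rw [hθ]; linarith) C' hC'
    (fun x y h => (key2 x y h).1) (fun x y h => (key2 x y h).2.1) (fun x y h => (key2 x y h).2.2)
  refine ⟨L, min κ (κM - θ), ?_, ?_, ?_⟩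
  · exact lt_min hκ (by linarith)
  · intro x y h
    rcases transGen_or h with h | h
    · exact (min_le_left _ _).trans (hR.far x y h)
    · exact (min_le_right _ _).trans (key3 x y h).1
  · intro x h
    rcases transGen_or h with h | h
    · exact hR.acyc x h
    · have := key3 x x h
      linarith

/-- maximal elements of a finite set for an acyclic relation. -/
theorem exists_maximal_transGen {G : Type*} {R : G → G → Prop} (hR : ∀ x, ¬ Relation.TransGen R x x)
    (Q : Finset G) (y : G) (hy : y ∈ Q) :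
    ∃ x ∈ Q, (x = y ∨ Relation.TransGen R y x) ∧ ∀ z ∈ Q, ¬ R x z := by
  classical
  -- strong induction on the number of elements strictly above
  have key : ∀ n : ℕ, ∀ y ∈ Q, (Q.filter fun z => Relation.TransGen R y z).card ≤ n →
      ∃ x ∈ Q, (x = y ∨ Relation.TransGen R y x) ∧ ∀ z ∈ Q, ¬ R x z := by
    intro n
    induction n with
    | zero =>
      intro y hy hc
      refine ⟨y, hy, Or.inl rfl, fun z hz hyz => ?_⟩
      have h1 : z ∈ Q.filter fun z => Relation.TransGen R y z :=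
        Finset.mem_filter.2 ⟨hz, Relation.TransGen.single hyz⟩
      rw [Finset.card_eq_zero.1 (Nat.le_zero.1 hc)] at h1
      exact absurd h1 (Finset.notMem_empty _)
    | succ n ih =>
      intro y hy hc
      by_cases hmax : ∀ z ∈ Q, ¬ R y z
      · exact ⟨y, hy, Or.inl rfl, hmax⟩
      · push Not at hmax
        obtain ⟨z, hz, hyz⟩ := hmax
        have hlt : (Q.filter fun w => Relation.TransGen R z w).card <
            (Q.filter fun w => Relation.TransGen R y w).card := by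
          apply Finset.card_lt_card
          rw [Finset.ssubset_iff_of_subset]
          · exact ⟨z, Finset.mem_filter.2 ⟨hz, Relation.TransGen.single hyz⟩, fun h =>
              hR z (Finset.mem_filter.1 h).2⟩
          · intro w hw
            obtain ⟨h1, h2⟩ := Finset.mem_filter.1 hw
            exact Finset.mem_filter.2 ⟨h1, h2.head hyz⟩
        obtain ⟨x, hx, h1, h2⟩ := ih z hz (by omega)
        refine ⟨x, hx, Or.inr ?_, h2⟩
        rcases h1 with rfl | h1
        · exact Relation.TransGen.single hyz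
        · exact h1.head hyz
  exact key _ y hy le_rfl

/-- the multi-scale order lemma. -/
theorem OM.order {G : Type*} [Group G] {d : G → G → ℝ} (hd : OM d) (ε : ℕ → ℝ)
    (hε : ∀ j, 0 < ε j) : ∃ L : ℕ → Finset G, ∀ J : ℕ, ∃ κ : ℝ, 0 < κ ∧
      ∀ Q : Finset G, ∀ y ∈ Q, ∃ x ∈ Q, (x = y ∨ κ ≤ d y⁻¹ (y⁻¹ * x)) ∧
        ∀ j ≤ J, ∀ z ∈ Q, x⁻¹ * z ∈ L j ∨ d x⁻¹ (x⁻¹ * z) < ε j := by
  classical
  have h0 : Good d (fun _ _ : G => False) 1 := by
    have hno : ∀ x y : G, ¬ Relation.TransGen (fun _ _ : G => False) x y := by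
      intro x y h
      induction h with
      | single h => exact h
      | tail _ h _ => exact h
    exact ⟨one_pos, fun x y h => absurd h (hno x y), fun x h => hno x x h⟩
  -- the state: relation together with the proof that it is good
  let St := {R : G → G → Prop // ∃ κ, Good d R κ}
  have hstep : ∀ (R : St) (j : ℕ), ∃ L : Finset G,
      ∃ κ, Good d (fun x y => R.1 x y ∨ SRel d (ε j) L x y) κ := by
    rintro ⟨R, κ, hR⟩ j
    exact hd.step hR (hε j)
  choose nL hnL using hstep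
  let st : ℕ → St := fun n => Nat.rec ⟨fun _ _ => False, 1, h0⟩
    (fun j R => ⟨fun x y => R.1 x y ∨ SRel d (ε j) (nL R j) x y, hnL R j⟩) n
  have hst : ∀ n, (st (n + 1)).1 = fun x y => (st n).1 x y ∨ SRel d (ε n) (nL (st n) n) x y :=
    fun n => rfl
  refine ⟨fun n => nL (st n) n, fun J => ?_⟩
  obtain ⟨κ, hκ⟩ := (st (J + 1)).2
  refine ⟨κ, hκ.pos, fun Q y hy => ?_⟩
  obtain ⟨x, hx, h1, h2⟩ := exists_maximal_transGen hκ.acyc Q y hy
  refine ⟨x, hx, h1.imp id (hκ.far _ _), ?_⟩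
  have hsub : ∀ n m, n ≤ m → ∀ x y, (st n).1 x y → (st m).1 x y := by
    intro n m hnm
    induction m, hnm using Nat.le_induction with
    | base => exact fun x y h => h
    | succ m _ ih =>
      intro x y h
      rw [hst]
      exact Or.inl (ih x y h)
  intro j hj z hz
  by_contra hcon
  push Not at hcon
  apply h2 z hz
  apply hsub (j + 1) (J + 1) (by omega)
  rw [hst]
  exact Or.inr ⟨hcon.1, hcon.2⟩

/-- the metric of the compactification restricted to the group. -/
theorem ConvSpace.om {G : Type*} [Group G] {Z : Type*} [MetricSpace Z] [MulAction G Z] {ι : G → Z}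
    [CompactSpace Z] (hC : ConvSpace G Z ι) : OM (fun x y : G => dist (ι x) (ι y)) where
  comm x y := dist_comm _ _
  tri x y z := dist_triangle _ _ _
  cp δ hδ := by
    obtain ⟨F, hF, hcp⟩ := hC.cp δ hδ
    refine ⟨hF.toFinset, fun w hw v => ?_⟩
    rcases hcp w (by simpa using hw) (ι v) with h | h
    · exact Or.inl h
    · right
      rwa [hC.equiv]
  uc K δ hδ := by
    have h1 : ∀ u : G, ∃ δ' : ℝ, 0 < δ' ∧ ∀ v v' : Z, dist v v' ≤ δ' → dist (u • v) (u • v') ≤ δ := by
      intro u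
      have h2 := CompactSpace.uniformContinuous_of_continuous (hC.cont u)
      obtain ⟨δ', h3, h4⟩ := Metric.uniformContinuous_iff.1 h2 δ hδ
      exact ⟨δ' / 2, by positivity, fun v v' h => (h4 (by linarith)).le⟩
    choose f hf1 hf2 using h1
    by_cases hK : K.Nonempty
    · refine ⟨K.inf' hK f, ?_, ?_⟩
      · rw [Finset.lt_inf'_iff]
        exact fun u _ => hf1 u
      · intro u hu v v' h
        show dist (ι (u * v)) (ι (u * v')) ≤ δ
        rw [hC.equiv, hC.equiv]
        exact hf2 u _ _ (h.trans (Finset.inf'_le f hu))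
    · rw [Finset.not_nonempty_iff_eq_empty] at hK
      subst hK
      exact ⟨1, one_pos, fun u hu => absurd hu (Finset.notMem_empty _)⟩
  rm K δ hδ := by
    classical
    have h1 : ∀ u : G, {w : G | ¬ dist (ι (w * u)) (ι w) ≤ δ}.Finite := by
      intro u
      by_contra hinf
      have hinf' : {w : G | ¬ dist (ι (w * u)) (ι w) ≤ δ}.Infinite := hinf
      set e := hinf'.natEmbedding with he
      have hcof : Tendsto (fun n => ((e n : {w : G | _}) : G)) atTop cofinite := by
        have h1 : Function.Injective (fun n => ((e n : {w : G | _}) : G)) :=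
          Subtype.val_injective.comp e.injective
        have := h1.tendsto_cofinite
        rwa [Nat.cofinite_eq_atTop] at this
      obtain ⟨φ, hφ, a, b, hD⟩ := hC.exists_dyn hcof
      have h2 := (hC.dyn_mul_right hD u).att.dist hD.att
      rw [dist_self] at h2
      have h3 := (tendsto_order.1 h2).2 δ hδ
      obtain ⟨n, hn⟩ := h3.exists
      exact (e (φ n)).2 hn.le
    refine ⟨K.biUnion fun u => (h1 u).toFinset, fun w hw u hu => ?_⟩
    by_contra hcon
    apply hw
    rw [Finset.mem_biUnion]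
    exact ⟨u, hu, by simpa using hcon⟩

/-- node F1 -/
theorem nOrder (s : Sys) : NOrder s := by
  intro ε hε
  exact s.convSpace.om.order ε hε

end Crest.Agent.R224
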