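/-
R224 / S0346 : nodes PConn, PHalf, PAlg (elementary topology of the boundary).   helper213
-/
import Crest.Agent.R224.Iface

set_option autoImplicit false

noncomputable section

open MeasureTheory Set Filter Topology

namespace Crest.Agent.R224

namespace P213

variable (s : Sys)

theorem isOpen_range : IsOpen (Set.range s.ι) := by
  have : Set.range s.ι = ⋃ g : s.G, ({s.ι g} : Set s.Z) := by
    ext z; simp [eq_comm]
  rw [this]
  exact isOpen_iUnion fun g => s.bdry.isol g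

theorem isClosed_T : IsClosed (T s.ι) := (isOpen_range s).isClosed_compl

/-- every `ι g` has a ball containing no other point -/
theorem isolated (g : s.G) : ∃ r : ℝ, 0 < r ∧ ∀ z : s.Z, dist z (s.ι g) < r → z = s.ι g := by
  obtain ⟨r, hr, hb⟩ := Metric.isOpen_iff.1 (s.bdry.isol g) (s.ι g) rfl
  exact ⟨r, hr, fun z hz => hb hz⟩

/-- right multiplication by `g` moves far vertices little -/
theorem near_mul (g : s.G) {ε : ℝ} (hε : 0 < ε) :
    ∃ K : Finset s.G, ∀ x : s.G, x ∉ K → dist (s.ι (x * g)) (s.ι x) ≤ ε := by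
  classical
  obtain ⟨r, hr, hb⟩ := isolated s g
  obtain ⟨K, hK⟩ := s.bdry.cp (min ε (r / 2)) (lt_min hε (by linarith))
  refine ⟨K ∪ {g⁻¹}, fun x hx => ?_⟩
  simp only [Finset.mem_union, Finset.mem_singleton, not_or] at hx
  rcases hK x hx.1 (s.ι (x * g)) with h | h
  · exact h.trans (min_le_left _ _)
  · exfalso
    rw [s.bdry.eqv, inv_mul_cancel_left] at h
    have h2 : dist (s.ι x⁻¹) (s.ι g) < r := by
      rw [dist_comm]
      exact lt_of_le_of_lt (h.trans (min_le_right _ _)) (by linarith)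
    have h3 := s.bdry.inj (hb _ h2)
    exact hx.2 (by rw [← h3, inv_inv])

theorem near_adj {ε : ℝ} (hε : 0 < ε) :
    ∃ K : Finset s.G, ∀ x : s.G, x ∉ K → ∀ y, Adj s.S x y → dist (s.ι y) (s.ι x) ≤ ε := by
  classical
  choose K hK using fun g : s.G => near_mul s g hε
  refine ⟨s.S.biUnion K, fun x hx y hxy => ?_⟩
  have h1 : x ∉ K (x⁻¹ * y) := fun h => hx (Finset.mem_biUnion.2 ⟨_, hxy, h⟩)
  have := hK (x⁻¹ * y) x h1
  rwa [mul_inv_cancel_left] at this

/-- finitely many vertices stay away from a point of the boundary -/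
theorem away (K : Finset s.G) {θ : s.Z} (hθ : θ ∈ T s.ι) :
    ∃ ρ : ℝ, 0 < ρ ∧ ∀ x : s.G, dist (s.ι x) θ < ρ → x ∉ K := by
  have hc : IsClosed (s.ι '' (K : Set s.G)) := (K.finite_toSet.image _).isClosed
  have hn : θ ∉ s.ι '' (K : Set s.G) := by
    rintro ⟨g, -, rfl⟩
    exact hθ ⟨g, rfl⟩
  obtain ⟨ρ, hρ, hb⟩ := Metric.isOpen_iff.1 hc.isOpen_compl θ hn
  refine ⟨ρ, hρ, fun x hx hxK => ?_⟩
  exact hb (Metric.mem_ball.2 hx) ⟨x, hxK, rfl⟩

theorem exists_near {θ : s.Z} {ρ : ℝ} (hρ : 0 < ρ) : ∃ x : s.G, dist (s.ι x) θ < ρ := by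
  obtain ⟨z, ⟨x, rfl⟩, hz⟩ := Metric.mem_closure_iff.1 (s.bdry.dense θ) ρ hρ
  exact ⟨x, by rwa [dist_comm]⟩

/-- an open set meeting the boundary contains infinitely many vertices -/
theorem infinite_near {θ : s.Z} (hθ : θ ∈ T s.ι) {O : Set s.Z} (hO : IsOpen O) (h : θ ∈ O) :
    {x : s.G | s.ι x ∈ O}.Infinite := by
  intro hf
  obtain ⟨ρ, hρ, hb⟩ := away s hf.toFinset hθ
  obtain ⟨r, hr, hb'⟩ := Metric.isOpen_iff.1 hO θ h
  obtain ⟨x, hx⟩ := exists_near s (θ := θ) (lt_min hρ hr)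
  refine hb x (hx.trans_le (min_le_left _ _)) ?_
  rw [Set.Finite.mem_toFinset]
  exact hb' (hx.trans_le (min_le_right _ _))

variable {s}

theorem ro_sub {U : Set s.Z} (h : RO s.ι U) : U ⊆ T s.ι := by
  obtain ⟨O, hO, rfl⟩ := h
  exact inter_subset_right

theorem ro_inter {U V : Set s.Z} (h : RO s.ι U) (h' : RO s.ι V) : RO s.ι (U ∩ V) := by
  obtain ⟨O, hO, rfl⟩ := h
  obtain ⟨O', hO', rfl⟩ := h'
  exact ⟨O ∩ O', hO.inter hO', by ext z; simp only [mem_inter_iff]; tauto⟩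

theorem ro_union {U V : Set s.Z} (h : RO s.ι U) (h' : RO s.ι V) : RO s.ι (U ∪ V) := by
  obtain ⟨O, hO, rfl⟩ := h
  obtain ⟨O', hO', rfl⟩ := h'
  exact ⟨O ∪ O', hO.union hO', by rw [union_inter_distrib_right]⟩

/-- the complement in the boundary of a relatively open set is closed -/
theorem ro_compl_closed {U : Set s.Z} (h : RO s.ι U) : IsClosed (T s.ι \ U) := by
  obtain ⟨O, hO, rfl⟩ := h
  have : T s.ι \ (O ∩ T s.ι) = T s.ι ∩ Oᶜ := by
    ext z; simp only [Set.mem_sdiff, mem_inter_iff, mem_compl_iff]; tauto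
  rw [this]
  exact (isClosed_T s).inter hO.isClosed_compl

variable (s)

end P213

open P213 in
/-- P1 -/
theorem pConn (s : Sys) : PConn s := by
  intro U hU hU' hne hne'
  have hUT : U ⊆ T s.ι := ro_sub hU
  have hc' : IsClosed (T s.ι \ U) := ro_compl_closed hU
  have hc : IsClosed U := by
    have := ro_compl_closed hU'
    rwa [sdiff_sdiff_cancel_left hUT] at this
  have hd : Disjoint U (T s.ι \ U) := disjoint_sdiff_right
  obtain ⟨V, V', hV, hV', hUV, hUV', hVV'⟩ := SeparatedNhds.of_isCompact_isCompact hc.isCompact hc'.isCompact hd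
  set A : Set s.G := {x | s.ι x ∈ V} with hA
  -- vertices outside `V ∪ V'` are finitely many
  have hfin : {x : s.G | s.ι x ∉ V ∪ V'}.Finite := by
    have hcomp : IsCompact (V ∪ V')ᶜ := (hV.union hV').isClosed_compl.isCompact
    have hcov : (V ∪ V')ᶜ ⊆ ⋃ g : s.G, ({s.ι g} : Set s.Z) := by
      intro z hz
      have : z ∉ T s.ι := by
        intro hzT
        by_cases hzU : z ∈ U
        · exact hz (Or.inl (hUV hzU))
        · exact hz (Or.inr (hUV' ⟨hzT, hzU⟩))
      simp only [T, mem_compl_iff, not_not] at this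
      obtain ⟨g, rfl⟩ := this
      exact mem_iUnion.2 ⟨g, rfl⟩
    obtain ⟨t, ht⟩ := hcomp.elim_finite_subcover (fun g : s.G => ({s.ι g} : Set s.Z))
      (fun g => s.bdry.isol g) hcov
    refine t.finite_toSet.subset fun x hx => ?_
    have := ht hx
    simp only [mem_iUnion, mem_singleton_iff, exists_prop] at this
    obtain ⟨g, hg, hxg⟩ := this
    rw [s.bdry.inj hxg]
    exact hg
  -- the two closed sets are at positive distance outside ... : use a Lebesgue number
  have hbd : (bd s.S A).Finite := by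
    -- bad first coordinates are finite
    have hcl : IsCompact (T s.ι) := (isClosed_T s).isCompact
    -- there is `ε` such that no two points `z ∈ V`, `w ∈ V'` far out are `ε`-close
    by_contra hinf
    have hinf : (bd s.S A).Infinite := hinf
    -- first coordinates form an infinite set
    have hinf1 : (Prod.fst '' bd s.S A).Infinite := by
      intro hf
      apply hinf
      have : bd s.S A ⊆ (fun p : s.G × s.G => (p.1, p.1 * p.2)) ''
          ((Prod.fst '' bd s.S A) ×ˢ (s.S : Set s.G)) := by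
        rintro ⟨x, y⟩ hxy
        refine ⟨(x, x⁻¹ * y), ⟨⟨(x, y), hxy, rfl⟩, hxy.1⟩, ?_⟩
        simp
      exact ((hf.prod s.S.finite_toSet).image _).subset this
    -- choose an accumulation point
    have hinf2 : (s.ι '' (Prod.fst '' bd s.S A)).Infinite := hinf1.image s.bdry.inj.injOn
    obtain ⟨θ, hθ⟩ := hinf2.exists_accPt_principal
    have hacc : ∀ r : ℝ, 0 < r → ∀ K : Finset s.G, ∃ x ∈ Prod.fst '' bd s.S A,
        x ∉ K ∧ dist (s.ι x) θ < r := by
      intro r hr K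
      by_contra hcon
      push Not at hcon
      -- then only finitely many points of the set are in the ball
      have hfr := (accPt_iff_frequently.1 hθ)
      have hfin' : (s.ι '' (K : Set s.G)).Finite := K.finite_toSet.image _
      have hcl' : IsClosed (s.ι '' (K : Set s.G) \ {θ}) := (hfin'.subset sdiff_subset).isClosed
      have hev : ∀ᶠ z in 𝓝 θ, z ∉ s.ι '' (K : Set s.G) \ {θ} :=
        hcl'.isOpen_compl.mem_nhds (by simp)
      have hev2 : ∀ᶠ z in 𝓝 θ, dist z θ < r := Metric.ball_mem_nhds θ hr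
      obtain ⟨z, ⟨hzne, x, hx, hxz⟩, hz1, hz2⟩ := (hfr.and_eventually (hev.and hev2)).exists
      subst hxz
      by_cases hxK : x ∈ K
      · exact hz1 ⟨⟨x, hxK, rfl⟩, hzne⟩
      · exact absurd hz2 (not_lt.2 (hcon x hx hxK))
    have hθT : θ ∈ T s.ι := by
      rintro ⟨g, rfl⟩
      obtain ⟨r, hr, hb⟩ := isolated s g
      obtain ⟨x, _, hxK, hxr⟩ := hacc r hr {g}
      exact hxK (by rw [s.bdry.inj (hb _ hxr)]; simp)
    by_cases hθU : θ ∈ U
    · -- neighbours of far vertices near `θ` are in `V`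
      obtain ⟨r, hr, hb⟩ := Metric.isOpen_iff.1 hV θ (hUV hθU)
      obtain ⟨K, hK⟩ := near_adj s (ε := r / 4) (by linarith)
      obtain ⟨x, ⟨p, hp, hpx⟩, hxK, hxr⟩ := hacc (r / 2) (by linarith) K
      have h1 := hK x hxK p.2 (by rw [← hpx]; exact hp.1)
      apply hp.2.2
      apply hb
      rw [Metric.mem_ball]
      calc dist (s.ι p.2) θ ≤ dist (s.ι p.2) (s.ι x) + dist (s.ι x) θ := dist_triangle _ _ _
        _ < r := by linarith
    · obtain ⟨r, hr, hb⟩ := Metric.isOpen_iff.1 hV' θ (hUV' ⟨hθT, hθU⟩)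
      obtain ⟨x, ⟨p, hp, hpx⟩, hxK, hxr⟩ := hacc r hr ∅
      have h1 : s.ι x ∈ V' := hb hxr
      have h2 : s.ι x ∈ V := by rw [← hpx]; exact hp.2.1
      exact Set.disjoint_left.1 hVV' h2 h1
  rcases s.top.oneEnd A hbd with h | h
  · obtain ⟨θ, hθ⟩ := hne
    exact infinite_near s (hUT hθ) hV (hUV hθ) h
  · obtain ⟨θ, hθ⟩ := hne'
    refine infinite_near s hθ.1 hV' (hUV' hθ) (h.subset fun x hx hx' => ?_)
    exact Set.disjoint_left.1 hVV' hx' hx

open P213 in
/-- P2 -/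
theorem pHalf (s : Sys) (h1 : PConn s) : PHalf s := by
  intro η U ξ W hU hW hne hξU
  have hUT : U ⊆ T s.ι := ro_sub hU.ro
  have hWT : W ⊆ T s.ι := ro_sub hW.ro
  -- general fact
  have key : ∀ W' : Set s.Z, RO s.ι W' → RO s.ι (cmp s.ι ξ W') → ξ ∉ W' → η ∉ W' →
      U ∩ W' = ∅ := by
    intro W' hW' hW'' hξ hη
    by_contra hcon
    have hcon : (U ∩ W').Nonempty := nonempty_iff_ne_empty.2 hcon
    refine h1 (U ∩ W') (ro_inter hU.ro hW') ?_ hcon ⟨η, hU.mem, fun h => hU.notMem h.1⟩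
    have : T s.ι \ (U ∩ W') = cmp s.ι η U ∪ cmp s.ι ξ W' := by
      ext z
      simp only [Set.mem_sdiff, mem_inter_iff, mem_union, cmp, mem_ofPred_eq, not_and]
      constructor
      · rintro ⟨hz, hz'⟩
        by_cases hzU : z ∈ U
        · right
          refine ⟨hz, fun h => hξU (h ▸ hzU), hz' hzU⟩
        · by_cases hzη : z = η
          · right
            exact ⟨hz, fun h => hne (hzη ▸ h), fun h => hη (hzη ▸ h)⟩
          · left
            exact ⟨hz, hzη, hzU⟩
      · rintro (⟨h1, h2, h3⟩ | ⟨h1, h2, h3⟩)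
        · exact ⟨h1, fun h => absurd h h3⟩
        · exact ⟨h1, fun _ => h3⟩
    rw [this]
    exact ro_union hU.ro' hW''
  by_cases hη : η ∈ W
  · left
    have hk := key (cmp s.ι ξ W) hW.ro' ?_ (fun h => h.2.1 rfl) (fun h => h.2.2 hη)
    · rintro z (hz | hz)
      · by_contra hzW
        have : z ∈ U ∩ cmp s.ι ξ W := ⟨hz, hUT hz, fun h => hξU (h ▸ hz), hzW⟩
        rw [hk] at this
        exact this
      · rw [mem_singleton_iff] at hz
        rw [hz]; exact hη
    · have : cmp s.ι ξ (cmp s.ι ξ W) = W := by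
        ext z
        simp only [cmp, mem_ofPred_eq, not_and, not_not]
        constructor
        · rintro ⟨h1, h2, h3⟩
          exact h3 h1 h2
        · intro h
          exact ⟨hWT h, fun h' => hW.notMem (h' ▸ h), fun _ _ => h⟩
      rw [this]; exact hW.ro
  · right
    have hk := key W hW.ro hW.ro' hW.notMem hη
    rw [Set.disjoint_left]
    rintro z (hz | hz) hzW
    · have : z ∈ U ∩ W := ⟨hz, hzW⟩
      rw [hk] at this
      exact this
    · rw [mem_singleton_iff] at hz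
      exact hη (hz ▸ hzW)

namespace P213

variable {s : Sys}

theorem cmp_cmp {η : s.Z} {U : Set s.Z} (hU : Clp s.ι η U) :
    cmp s.ι η (cmp s.ι η U) = U := by
  ext z
  simp only [cmp, mem_ofPred_eq, not_and, not_not]
  constructor
  · rintro ⟨h1, h2, h3⟩
    exact h3 h1 h2
  · intro h
    exact ⟨ro_sub hU.ro h, fun h' => hU.notMem (h' ▸ h), fun _ _ => h⟩

theorem clp_cmp {η : s.Z} {U : Set s.Z} (hU : Clp s.ι η U) : Clp s.ι η (cmp s.ι η U) :=
  ⟨hU.mem, fun h => h.2.1 rfl, hU.ro', by rw [cmp_cmp hU]; exact hU.ro⟩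

theorem clp_inter {η : s.Z} {U V : Set s.Z} (hU : Clp s.ι η U) (hV : Clp s.ι η V) :
    Clp s.ι η (U ∩ V) := by
  refine ⟨hU.mem, fun h => hU.notMem h.1, ro_inter hU.ro hV.ro, ?_⟩
  have : cmp s.ι η (U ∩ V) = cmp s.ι η U ∪ cmp s.ι η V := by
    ext z
    simp only [cmp, mem_ofPred_eq, mem_inter_iff, mem_union]
    tauto
  rw [this]
  exact ro_union hU.ro' hV.ro'

theorem clp_union {η : s.Z} {U V : Set s.Z} (hU : Clp s.ι η U) (hV : Clp s.ι η V) :
    Clp s.ι η (U ∪ V) := by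
  have := clp_cmp (clp_inter (clp_cmp hU) (clp_cmp hV))
  have h2 : cmp s.ι η (cmp s.ι η U ∩ cmp s.ι η V) = U ∪ V := by
    have hU' := cmp_cmp hU
    have hV' := cmp_cmp hV
    ext z
    have e1 : z ∈ cmp s.ι η (cmp s.ι η U) ↔ z ∈ U := by rw [hU']
    have e2 : z ∈ cmp s.ι η (cmp s.ι η V) ↔ z ∈ V := by rw [hV']
    rw [mem_union, ← e1, ← e2]
    simp only [cmp, mem_ofPred_eq, mem_inter_iff]
    tauto
  rwa [h2] at this

theorem clp_diff {η : s.Z} {U V : Set s.Z} (hU : Clp s.ι η U) (hV : Clp s.ι η V) :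
    Clp s.ι η (U \ V) := by
  have := clp_inter hU (clp_cmp hV)
  have h2 : U ∩ cmp s.ι η V = U \ V := by
    ext z
    simp only [cmp, mem_ofPred_eq, mem_inter_iff, Set.mem_sdiff]
    constructor
    · rintro ⟨h1, _, _, h2⟩; exact ⟨h1, h2⟩
    · rintro ⟨h1, h2⟩
      exact ⟨h1, ro_sub hU.ro h1, fun h => hU.notMem (h ▸ h1), h2⟩
  rwa [h2] at this

theorem smul_open (g : s.G) {O : Set s.Z} (hO : IsOpen O) :
    IsOpen ((fun z => g • z) '' O) := by
  have : (fun z : s.Z => g • z) '' O = (fun z : s.Z => g⁻¹ • z) ⁻¹' O := by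
    ext z
    constructor
    · rintro ⟨w, hw, rfl⟩
      simpa using hw
    · intro h
      exact ⟨g⁻¹ • z, h, by simp⟩
  rw [this]
  exact hO.preimage (s.bdry.cont g⁻¹)

theorem smul_T_sub (g : s.G) {z : s.Z} (hz : z ∈ T s.ι) : g • z ∈ T s.ι := by
  rintro ⟨x, hx⟩
  apply hz
  refine ⟨g⁻¹ * x, ?_⟩
  rw [← s.bdry.eqv, hx, inv_smul_smul]

theorem smul_T (g : s.G) : (fun z => g • z) '' T s.ι = T s.ι := by
  ext z
  constructor
  · rintro ⟨w, hw, rfl⟩
    exact smul_T_sub g hw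
  · intro h
    exact ⟨g⁻¹ • z, smul_T_sub g⁻¹ h, by simp⟩

theorem smul_inj (g : s.G) : Function.Injective (fun z : s.Z => g • z) := MulAction.injective g

theorem smul_ro (g : s.G) {U : Set s.Z} (hU : RO s.ι U) : RO s.ι ((fun z => g • z) '' U) := by
  obtain ⟨O, hO, rfl⟩ := hU
  refine ⟨_, smul_open g hO, ?_⟩
  rw [image_inter (smul_inj g), smul_T]

theorem smul_cmp (g : s.G) (η : s.Z) (U : Set s.Z) :
    cmp s.ι (g • η) ((fun z => g • z) '' U) = (fun z => g • z) '' cmp s.ι η U := by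
  ext z
  constructor
  · rintro ⟨h1, h2, h3⟩
    refine ⟨g⁻¹ • z, ⟨smul_T_sub g⁻¹ h1, fun h => h2 ?_, fun h => h3 ⟨_, h, by simp⟩⟩, by simp⟩
    rw [← h]; simp
  · rintro ⟨w, ⟨h1, h2, h3⟩, rfl⟩
    refine ⟨smul_T_sub g h1, fun h => h2 (smul_inj g h), ?_⟩
    rintro ⟨v, hv, hvw⟩
    exact h3 ((smul_inj g hvw) ▸ hv)

theorem clp_smul (g : s.G) {η : s.Z} {U : Set s.Z} (hU : Clp s.ι η U) :
    Clp s.ι (g • η) ((fun z => g • z) '' U) := by
  refine ⟨smul_T_sub g hU.mem, ?_, smul_ro g hU.ro, ?_⟩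
  · rintro ⟨w, hw, hwη⟩
    exact hU.notMem ((smul_inj g hwη) ▸ hw)
  · rw [smul_cmp]
    exact smul_ro g hU.ro'

end P213

/-- P3 -/
theorem pAlg (s : Sys) : PAlg s := fun _ _ _ hU hV =>
  ⟨P213.clp_cmp hU, P213.clp_inter hU hV, P213.clp_union hU hV, P213.clp_diff hU hV,
    fun g => P213.clp_smul g hU⟩

end Crest.Agent.R224
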