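import Crest.Agent.R224.Pot4
import Crest.Agent.R224.Iface

/-!
# Row 224: the nodes `NGreen`, `NDecomp`
-/

set_option autoImplicit false
set_option linter.unusedSectionVars false

open Set Filter Topology
open scoped InnerProductSpace

noncomputable section

namespace Crest.Agent.R224.Pot

variable {G : Type} [Group G] {F : Finset G} {κ : ℝ}

open Classical

lemma symGen_of_std (h : Std F) : SymGen F := ⟨⟨1, h.one⟩, h.inv, h.gen⟩

lemma bd_ncard (A : Finset G) : (bd F (A : Set G)).ncard =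
    ((A ×ˢ F).filter fun p => p.1 * p.2 ∉ A).card := by
  have h1 : bd F (A : Set G) =
      ((((A ×ˢ F).filter fun p => p.1 * p.2 ∉ A).image fun p => (p.1, p.1 * p.2) :
        Finset (G × G)) : Set (G × G)) := by
    ext ⟨x, y⟩
    simp only [bd, Adj, mem_setOf_eq, Finset.coe_image, mem_image, Finset.mem_coe,
      Finset.mem_filter, Finset.mem_product, Prod.mk.injEq, Prod.exists]
    constructor
    · rintro ⟨h1, h2, h3⟩
      exact ⟨x, x⁻¹ * y, ⟨⟨h2, h1⟩, by rwa [mul_inv_cancel_left]⟩, rfl, mul_inv_cancel_left x y⟩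
    · rintro ⟨a, b, ⟨⟨h1, h2⟩, h3⟩, rfl, rfl⟩
      exact ⟨by rwa [inv_mul_cancel_left], h1, h3⟩
  rw [h1, Set.ncard_coe_finset, Finset.card_image_of_injective]
  rintro ⟨a, b⟩ ⟨c, d⟩ h
  simp only [Prod.mk.injEq] at h
  obtain ⟨rfl, h⟩ := h
  simpa using h

lemma na_of_nonam (h : Nonam F) : ∃ κ, NA F κ := by
  obtain ⟨κ, hκ, h⟩ := h
  exact ⟨κ, hκ, fun A => by rw [← bd_ncard]; exact h A⟩

/-- `ℓ²` bound for the Green operator -/
lemma green_norm : ∃ C : ℝ, 0 ≤ C ∧ ∀ q : G → ℝ, L2 q →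
    ∑' x, green F q x ^ 2 ≤ C * ∑' x, q x ^ 2 := by
  refine ⟨‖Ring.inverse (lap F)‖ ^ 2, by positivity, fun q hq => ?_⟩
  have h1 : ∑' x, green F q x ^ 2 = ‖Ring.inverse (lap F) (toH q hq)‖ ^ 2 := by
    rw [H2.norm_sq]
    refine tsum_congr fun x => ?_
    unfold green
    rw [dif_pos hq]
  have h2 : ∑' x, q x ^ 2 = ‖toH q hq‖ ^ 2 := by rw [H2.norm_sq]; rfl
  rw [h1, h2, ← mul_pow]
  exact pow_le_pow_left₀ (norm_nonneg _) (ContinuousLinearMap.le_opNorm _ _) 2

theorem isGreen_gk (hF : SymGen F) (hN : NA F κ) : IsGreen F (gk F) where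
  nonneg := gk_nonneg hF hN
  symm := gk_symm hF hN
  inv := fun g x y => gk_translate hF hN g x y
  eqn := fun x y => by
    have h := gk_eq hF hN x y
    have h2 : Pop F (fun z => gk F z y) x = avg F (fun z => gk F z y) x := rfl
    rw [h2]
    have h3 : dl y x = if x = y then (1 : ℝ) else 0 := rfl
    rw [h3] at h
    linarith
  bdd := ⟨gk F 1 1, fun x y => by
    have h := gk_le_diag hF hN x y
    have h2 := gk_translate hF hN y 1 1
    rw [mul_one] at h2
    rw [← h2]; exact h⟩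
  zero := fun y => gk_tendsto' y
  l2 := by
    obtain ⟨C, _, hC⟩ := green_norm (F := F)
    refine ⟨C, fun u _ hu => ⟨fun x => (green_hasSum hF hN hu x).summable, ?_, ?_⟩⟩
    · have h := green_L2 (F := F) u
      have h2 : (fun x => (∑' y, gk F x y * u y) ^ 2) = fun x => green F u x ^ 2 := by
        funext x; rw [green_eq_tsum hF hN hu]
      rw [h2]; exact h
    · have h2 : (fun x => (∑' y, gk F x y * u y) ^ 2) = fun x => green F u x ^ 2 := by
        funext x; rw [green_eq_tsum hF hN hu]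
      rw [h2]
      exact hC u hu

end Crest.Agent.R224.Pot

namespace Crest.Agent.R224

open Pot

theorem nGreen : NGreen := by
  intro G _ S hS hNon
  obtain ⟨κ, hN⟩ := na_of_nonam hNon
  exact ⟨gk S, isGreen_gk (symGen_of_std hS) hN⟩

theorem nDecomp : NDecomp := by
  intro G _ S hS hNon _ f hf
  obtain ⟨κ, hN⟩ := na_of_nonam hNon
  have hF := symGen_of_std hS
  have hf' : Pot.Dir S f := hf
  exact ⟨fun x => f x - hpart S f x, hpart S f, fun x => by ring, hpart_sub_L2 f,
    hpart_harm hF hN hf', hpart_dir hf', fun C hC => hpart_bdd hF hN hf' hC⟩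

end Crest.Agent.R224
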