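import Crest.Agent.R224.PotNodes
import Crest.Agent.R224.BDefs

/-!
Row 224, group half: Principle M' (node `NPrinM`), step 5 of note 9910.
-/

set_option autoImplicit false
set_option linter.unusedSectionVars false

noncomputable section

open Set Filter Topology

namespace Crest.Agent.R224

open Pot

variable {G : Type} [Group G] {F : Finset G} {κ : ℝ}

theorem sum_gk_mu_le (hF : SymGen F) (hN : NA F κ) {w : G → ℝ} (h0 : ∀ x, 0 ≤ w x)
    (h1 : ∀ x, w x ≤ 1) (hs : ∀ x, w x ≤ avg F w x) (x : G) (V : Finset G) :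
    ∑ v ∈ V, gk F x v * (avg F w v - w v) ≤ 1 := by
  classical
  have := hN.infinite
  set q : G → ℝ := fun y => if y ∈ V then (avg F w y - w y) else 0 with hq
  have hqL : L2 q := L2.of_finite_support (V.finite_toSet.subset fun y hy => by
    by_contra h
    exact hy (if_neg h))
  have hgr : green F q x = ∑ v ∈ V, (avg F w v - w v) * gk F x v := by
    rw [← green_finset hF hN V (fun y => avg F w y - w y) x]
  have hmax := max_principle' hF (w := fun y => green F q y + (w y - 1)) (fun y => ?_)
    (fun ε hε => ?_) x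
  · have e : ∑ v ∈ V, gk F x v * (avg F w v - w v) = green F q x := by
      rw [hgr]
      exact Finset.sum_congr rfl fun v _ => mul_comm _ _
    rw [e]
    have := h0 x
    linarith
  · rw [avg_add, avg_sub, avg_const hF]
    have e1 := green_eq hF hN hqL y
    have e2 : q y ≤ avg F w y - w y := by
      simp only [hq]
      split_ifs
      · exact le_rfl
      · linarith [hs y]
    linarith
  · refine ((green_L2 (F := F) q).finite hε).subset fun y hy => ?_
    have h2 : ε ≤ green F q y + (w y - 1) := hy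
    change ε ≤ green F q y
    linarith [h1 y]

theorem summable_gk_mu (hF : SymGen F) (hN : NA F κ) {w : G → ℝ} (h0 : ∀ x, 0 ≤ w x)
    (h1 : ∀ x, w x ≤ 1) (hs : ∀ x, w x ≤ avg F w x) (x : G) :
    Summable fun v => gk F x v * (avg F w v - w v) :=
  summable_of_sum_le (fun v => mul_nonneg (gk_nonneg hF hN x v) (by linarith [hs v]))
    (fun V => sum_gk_mu_le hF hN h0 h1 hs x V)

/-- Harnack-type inequality for nonnegative subharmonic functions with explicit defect. -/
theorem subharm_word (hF : SymGen F) (g : G) : ∃ C : ℝ, 0 < C ∧ ∃ P : Finset G,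
    ∀ w : G → ℝ, (∀ x, 0 ≤ w x) → (∀ x, w x ≤ avg F w x) →
    ∀ a, w a ≤ C * (w (a * g) + ∑ p ∈ P, (avg F w (a * p) - w (a * p))) := by
  classical
  refine SymGen.conn hF (p := fun g => ∃ C : ℝ, 0 < C ∧ ∃ P : Finset G,
    ∀ w : G → ℝ, (∀ x, 0 ≤ w x) → (∀ x, w x ≤ avg F w x) →
    ∀ a, w a ≤ C * (w (a * g) + ∑ p ∈ P, (avg F w (a * p) - w (a * p)))) ?_ (x0 := 1) ?_ g
  · rintro g ⟨C, hC, P, h⟩ s hs
    have hcard : (1 : ℝ) ≤ F.card := by exact_mod_cast hF.ne.card_pos
    refine ⟨C * (2 * F.card), by positivity, insert (g * s) P, fun w h0 hw a => ?_⟩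
    have e1 := h w h0 hw a
    have e2 : w (a * g) ≤ F.card * (w (a * (g * s)) + (avg F w (a * (g * s)) - w (a * (g * s)))) := by
      have e3 : w (a * (g * s) * s⁻¹) ≤ ∑ t ∈ F, w (a * (g * s) * t) :=
        Finset.single_le_sum (f := fun t => w (a * (g * s) * t)) (fun t _ => h0 _) (hF.symm s hs)
      rw [← card_mul_avg hF] at e3
      have e4 : a * (g * s) * s⁻¹ = a * g := by group
      rw [e4] at e3
      linarith
    have hnn : ∀ p, 0 ≤ avg F w (a * p) - w (a * p) := fun p => by linarith [hw (a * p)]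
    have e5 : (avg F w (a * (g * s)) - w (a * (g * s))) ≤
        ∑ p ∈ insert (g * s) P, (avg F w (a * p) - w (a * p)) :=
      Finset.single_le_sum (f := fun p => avg F w (a * p) - w (a * p)) (fun p _ => hnn p)
        (Finset.mem_insert_self _ _)
    have e6 : ∑ p ∈ P, (avg F w (a * p) - w (a * p)) ≤
        ∑ p ∈ insert (g * s) P, (avg F w (a * p) - w (a * p)) :=
      Finset.sum_le_sum_of_subset_of_nonneg (Finset.subset_insert _ _) (fun p _ _ => hnn p)
    set T := ∑ p ∈ insert (g * s) P, (avg F w (a * p) - w (a * p)) with hT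
    have hT0 : 0 ≤ T := Finset.sum_nonneg fun p _ => hnn p
    have hw0 := h0 (a * (g * s))
    have e7 : w (a * g) ≤ F.card * (w (a * (g * s)) + T) :=
      e2.trans (mul_le_mul_of_nonneg_left (by linarith) (by linarith))
    calc w a ≤ C * (w (a * g) + ∑ p ∈ P, (avg F w (a * p) - w (a * p))) := e1
      _ ≤ C * (F.card * (w (a * (g * s)) + T) + F.card * T) := by
          refine mul_le_mul_of_nonneg_left (add_le_add e7 (e6.trans ?_)) hC.le
          nlinarith
      _ ≤ C * (2 * F.card) * (w (a * (g * s)) + T) := by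
          have : F.card * (w (a * (g * s)) + T) + F.card * T ≤
              (2 * F.card) * (w (a * (g * s)) + T) := by nlinarith
          calc C * (F.card * (w (a * (g * s)) + T) + F.card * T)
              ≤ C * ((2 * F.card) * (w (a * (g * s)) + T)) := mul_le_mul_of_nonneg_left this hC.le
            _ = _ := by ring
  · exact ⟨1, one_pos, ∅, fun w _ _ a => by simp⟩

theorem prinM_aux (hF : SymGen F) (hN : NA F κ) (D : Set G) (w : G → ℝ) (h0 : ∀ x, 0 ≤ w x)
    (h1 : ∀ x, w x ≤ 1) (hs : ∀ x, w x ≤ avg F w x) (hD : ∀ x, x ∉ D → w x = 0)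
    (x0 : G) (hx0 : 0 < w x0) (R : Finset G) (K : ℕ → Finset G)
    (hlim : ∀ x, ∀ᶠ k in atTop, (x ∈ K k ↔ x ∈ D))
    (hbad : ∀ k a b, a⁻¹ * b ∈ F → a ∈ K k → b ∉ K k → a ∈ D → b ∈ D → ∃ r ∈ R, a * r ∉ D) :
    False := by
  classical
  set μ : G → ℝ := fun v => avg F w v - w v with hμ
  have hμ0 : ∀ v, 0 ≤ μ v := fun v => by simp only [hμ]; linarith [hs v]
  set ψ : G → ℝ := fun v => gk F x0 v * μ v with hψ
  have hψ0 : ∀ v, 0 ≤ ψ v := fun v => mul_nonneg (gk_nonneg hF hN x0 v) (hμ0 v)
  have hψs : Summable ψ := summable_gk_mu hF hN h0 h1 hs x0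
  choose C hC P hP using subharm_word (G := G) hF
  choose H hH hHh using harnack_word (G := G) hF
  -- Harnack for the Green kernel in the second variable
  have hgk : ∀ a p, gk F x0 a ≤ H p⁻¹ * gk F x0 (a * p) := by
    intro a p
    have e1 := hHh p⁻¹ (fun z => gk F x0 z) (fun z => gk_nonneg hF hN x0 z) (fun z => by
      have e2 := gk_superharm hF hN z x0
      have e3 : (fun z => gk F x0 z) = fun z => gk F z x0 := by
        funext z
        exact gk_symm hF hN x0 z
      rw [e3, gk_symm hF hN x0 z]
      exact e2) (a * p)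
    simpa using e1
  set Φ : G → ℝ := fun a => ψ a + ∑ r ∈ R, C r * ∑ p ∈ P r, H p⁻¹ * ψ (a * p) with hΦ
  have hΦs : Summable Φ := by
    refine hψs.add (summable_sum fun r _ => Summable.mul_left _ (summable_sum fun p _ =>
      Summable.mul_left _ ?_))
    exact (Equiv.mulRight p).summable_iff.2 hψs
  have hΦ0 : ∀ a, 0 ≤ Φ a := fun a => add_nonneg (hψ0 a) (Finset.sum_nonneg fun r _ =>
    mul_nonneg (hC r).le (Finset.sum_nonneg fun p _ => mul_nonneg (hH _).le (hψ0 _)))
  have hcard := hF.card_pos
  set q : ℕ → G → ℝ := fun k a => if a ∈ K k ∧ a ∈ D then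
    (∑ s ∈ F, if a * s ∈ K k then 0 else w (a * s)) / F.card else 0 with hq
  have hqL : ∀ k, L2 (q k) := fun k => L2.of_finite_support ((K k).finite_toSet.subset fun y hy => by
    by_contra h
    exact hy (if_neg fun hh => h hh.1))
  have hq0 : ∀ k a, 0 ≤ q k a := by
    intro k a
    simp only [hq]
    split_ifs with h
    · exact div_nonneg (Finset.sum_nonneg fun s _ => by split_ifs <;> simp [h0]) hcard.le
    · exact le_rfl
  -- bound of the defect of the truncation
  have hqΦ : ∀ k a, gk F x0 a * q k a ≤ Φ a := by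
    intro k a
    by_cases hqa : q k a = 0
    · rw [hqa, mul_zero]; exact hΦ0 a
    have ha : a ∈ K k ∧ a ∈ D := by
      by_contra h
      exact hqa (if_neg h)
    have hex : ∃ s ∈ F, a * s ∉ K k ∧ w (a * s) ≠ 0 := by
      by_contra hcon
      push Not at hcon
      apply hqa
      simp only [hq]
      rw [if_pos ha, Finset.sum_eq_zero, zero_div]
      intro s hsF
      split_ifs with h
      · rfl
      · exact hcon s hsF h
    obtain ⟨s, hsF, hsK, hsw⟩ := hex
    have hsD : a * s ∈ D := by
      by_contra h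
      exact hsw (hD _ h)
    obtain ⟨r, hr, hrD⟩ := hbad k a (a * s) (by simpa using hsF) ha.1 hsK ha.2 hsD
    have e1 : w a ≤ C r * ∑ p ∈ P r, μ (a * p) := by
      have := hP r w h0 hs a
      rw [hD _ hrD, zero_add] at this
      exact this
    have e2 : q k a ≤ w a + μ a := by
      have e3 : q k a ≤ avg F w a := by
        simp only [hq]
        rw [if_pos ha]
        unfold avg
        refine div_le_div_of_nonneg_right (Finset.sum_le_sum fun t _ => ?_) hcard.le
        split_ifs
        · exact h0 _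
        · exact le_rfl
      simp only [hμ]
      linarith
    have hg0 := gk_nonneg hF hN x0 a
    have e4 : gk F x0 a * w a ≤ C r * ∑ p ∈ P r, H p⁻¹ * ψ (a * p) := by
      calc gk F x0 a * w a ≤ gk F x0 a * (C r * ∑ p ∈ P r, μ (a * p)) :=
            mul_le_mul_of_nonneg_left e1 hg0
        _ = C r * ∑ p ∈ P r, gk F x0 a * μ (a * p) := by
            rw [Finset.mul_sum, Finset.mul_sum, Finset.mul_sum]
            exact Finset.sum_congr rfl fun p _ => by ring
        _ ≤ C r * ∑ p ∈ P r, H p⁻¹ * ψ (a * p) := by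
            refine mul_le_mul_of_nonneg_left (Finset.sum_le_sum fun p _ => ?_) (hC r).le
            calc gk F x0 a * μ (a * p) ≤ (H p⁻¹ * gk F x0 (a * p)) * μ (a * p) :=
                  mul_le_mul_of_nonneg_right (hgk a p) (hμ0 _)
              _ = H p⁻¹ * ψ (a * p) := by simp only [hψ]; ring
    have e5 : C r * ∑ p ∈ P r, H p⁻¹ * ψ (a * p) ≤
        ∑ r ∈ R, C r * ∑ p ∈ P r, H p⁻¹ * ψ (a * p) :=
      Finset.single_le_sum (f := fun r => C r * ∑ p ∈ P r, H p⁻¹ * ψ (a * p))
        (fun r _ => mul_nonneg (hC r).le (Finset.sum_nonneg fun p _ =>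
          mul_nonneg (hH _).le (hψ0 _))) hr
    calc gk F x0 a * q k a ≤ gk F x0 a * (w a + μ a) := mul_le_mul_of_nonneg_left e2 hg0
      _ = ψ a + gk F x0 a * w a := by simp only [hψ]; ring
      _ ≤ Φ a := by
          simp only [hΦ]
          linarith
  -- pointwise convergence to zero
  have hqz : ∀ a, ∀ᶠ k in atTop, q k a = 0 := by
    intro a
    have hall : ∀ᶠ k in atTop, ∀ s ∈ F, (a * s ∈ K k ↔ a * s ∈ D) := by
      rw [Filter.eventually_all_finset]
      intro s _
      exact hlim _
    filter_upwards [hall] with k hk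
    simp only [hq]
    split_ifs with h
    · rw [Finset.sum_eq_zero, zero_div]
      intro s hsF
      split_ifs with h'
      · rfl
      · exact hD _ (fun hh => h' ((hk s hsF).2 hh))
    · rfl
  have hlim0 : Tendsto (fun k => ∑' a, gk F x0 a * q k a) atTop (𝓝 (∑' _ : G, (0 : ℝ))) := by
    refine tendsto_tsum_of_dominated_convergence hΦs (fun a => ?_)
      (Eventually.of_forall fun k a => ?_)
    · refine tendsto_nhds_of_eventually_eq ?_
      filter_upwards [hqz a] with k hk
      rw [hk, mul_zero]
    · rw [Real.norm_of_nonneg (mul_nonneg (gk_nonneg hF hN x0 a) (hq0 k a))]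
      exact hqΦ k a
  rw [tsum_zero] at hlim0
  -- lower bound
  have hx0D : x0 ∈ D := by
    by_contra h
    rw [hD _ h] at hx0
    exact lt_irrefl _ hx0
  have hlow : ∀ᶠ k in atTop, w x0 ≤ ∑' a, gk F x0 a * q k a := by
    filter_upwards [hlim x0] with k hk
    have hxK : x0 ∈ K k := hk.2 hx0D
    set wk : G → ℝ := fun a => if a ∈ K k then w a else 0 with hwk
    have hwkL : L2 wk := L2.of_finite_support ((K k).finite_toSet.subset fun y hy => by
      by_contra h
      exact hy (if_neg h))
    have hwk0 : ∀ a, 0 ≤ wk a := fun a => by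
      simp only [hwk]
      split_ifs
      · exact h0 a
      · exact le_rfl
    have e1 := le_green hF hN hwkL (hqL k) (fun a => ?_) x0
    · rw [green_eq_tsum hF hN (hqL k)] at e1
      have e2 : wk x0 = w x0 := if_pos hxK
      rwa [e2] at e1
    · have havg0 : 0 ≤ avg F wk a := div_nonneg (Finset.sum_nonneg fun s _ => hwk0 _) hcard.le
      by_cases ha : a ∈ K k ∧ a ∈ D
      · have e3 : q k a = avg F w a - avg F wk a := by
          simp only [hq]
          rw [if_pos ha]
          unfold avg
          rw [← sub_div, ← Finset.sum_sub_distrib]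
          congr 1
          refine Finset.sum_congr rfl fun s _ => ?_
          simp only [hwk]
          split_ifs <;> simp
        have e4 : wk a = w a := if_pos ha.1
        rw [e3, e4]
        linarith [hs a]
      · have e3 : q k a = 0 := if_neg ha
        have e4 : wk a = 0 := by
          simp only [hwk]
          split_ifs with h
          · exact hD _ (fun hh => ha ⟨h, hh⟩)
          · rfl
        rw [e3, e4]
        linarith
  have := ge_of_tendsto hlim0 hlow
  linarith

/-- node NPrinM -/
theorem nPrinM : NPrinM := by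
  intro G _ S hS hNon _ D w h0 h1 hs hD ⟨x0, hx0⟩ R K hlim hbad
  obtain ⟨κ, hN⟩ := na_of_nonam hNon
  exact prinM_aux (symGen_of_std hS.toStd) hN D w h0 h1 hs hD x0 hx0 R K hlim
    (fun k a b hab => hbad k a b hab)

end Crest.Agent.R224
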