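/-
R224 / S0346: basic facts about the sets `Ob η = {x | 1 - c0 < hh (Dn η) x}` (helper871).
-/
import Crest.Agent.R224.DBas
import Crest.Agent.R224.FinC

set_option autoImplicit false

noncomputable section

open MeasureTheory Set Filter Topology

namespace Crest.Agent.R224.XB2

/-- vertices from which the branch at `η` is almost everything -/
def Ob (s : Sys) (a b η : s.Z) : Set s.G := {x | 1 - s.c0 < hh s.ν (Dn s.ι a b η) x}

/-- outer vertex boundary -/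
def ob {G : Type} [Group G] (S : Finset G) (Y : Set G) : Set G := {w | w ∉ Y ∧ ∃ y ∈ Y, Adj S y w}

variable (s : Sys)

theorem c0_pos : 0 < s.c0 := by
  have := s.card_pos
  unfold Sys.c0
  positivity

theorem c0_sq : (s.S.card : ℝ) ^ 2 * s.c0 = 1 / 4 := by
  have := s.card_pos
  unfold Sys.c0
  field_simp

theorem c0_one : (s.S.card : ℝ) * s.c0 ≤ 1 / 4 := by
  have h1 := s.one_le_card
  have h2 := c0_sq s
  have h3 := c0_pos s
  nlinarith [mul_nonneg (mul_nonneg s.card_pos.le h3.le) (sub_nonneg.2 h1)]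

theorem c0_le : s.c0 ≤ 1 / 4 := by
  have h1 := s.one_le_card
  have h2 := c0_one s
  have h3 := c0_pos s
  nlinarith

variable {s} {a b : s.Z}

theorem mem_Ob {η : s.Z} {x : s.G} : x ∈ Ob s a b η ↔ 1 - s.c0 < hh s.ν (Dn s.ι a b η) x := Iff.rfl

/-- membership of the complement of `XB` -/
theorem not_mem_XB {x : s.G} : x ∉ XB s.ι s.ν a b s.c0 ↔
    ∃ η, IsCut s.ι η ∧ η ∈ Blk s.ι a b ∧ x ∈ Ob s a b η := by
  unfold XB Ob
  simp only [mem_ofPred_eq]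
  push Not
  rfl

theorem mem_XB {x : s.G} : x ∈ XB s.ι s.ν a b s.c0 ↔
    ∀ η, IsCut s.ι η → η ∈ Blk s.ι a b → x ∉ Ob s a b η := by
  unfold XB Ob
  simp only [mem_ofPred_eq, not_lt]

theorem Dn_clp (hP : NPart s) (hu : Unsep s.ι a b) {η : s.Z} (h1 : IsCut s.ι η)
    (h2 : η ∈ Blk s.ι a b) : Clp s.ι η (Dn s.ι a b η) := ((hP a b hu).2.2.2.1 η h1 h2).1

/-- far from the branch `η'` when the branch `η` is almost everything -/
theorem lt_of_mem_Ob (hP : NPart s) (hu : Unsep s.ι a b) {η η' : s.Z} (h1 : IsCut s.ι η)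
    (h2 : η ∈ Blk s.ι a b) (h1' : IsCut s.ι η') (h2' : η' ∈ Blk s.ι a b) (hne : η ≠ η')
    {x : s.G} (hx : x ∈ Ob s a b η) : hh s.ν (Dn s.ι a b η') x < s.c0 := by
  have hd := (hP a b hu).2.2.2.2.1 η η' h1 h2 h1' h2' hne
  have hm := (Dn_clp hP hu h1' h2').meas
  have h := measureReal_union (μ := s.ν x) hd hm
  have h3 : (s.ν x).real (Dn s.ι a b η ∪ Dn s.ι a b η') ≤ 1 := measureReal_le_one
  rw [h] at h3
  have h4 := mem_Ob.1 hx
  unfold hh at h4 ⊢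
  linarith

/-- the sets `Ob η` are at distance at least 3 -/
theorem eq_of_two (hP : NPart s) (hu : Unsep s.ι a b) {η η' : s.Z} (h1 : IsCut s.ι η)
    (h2 : η ∈ Blk s.ι a b) (h1' : IsCut s.ι η') (h2' : η' ∈ Blk s.ι a b)
    {x y z : s.G} (hxy : Adj s.S x y) (hyz : Adj s.S y z) (hx : x ∈ Ob s a b η)
    (hz : z ∈ Ob s a b η') : η = η' := by
  by_contra hne
  have h3 := lt_of_mem_Ob hP hu h1 h2 h1' h2' hne hx
  have hm := (Dn_clp hP hu h1' h2').meas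
  have h4 := s.harnack hxy hm
  have h5 := s.harnack hyz hm
  have h6 := mem_Ob.1 hz
  have h7 := c0_sq s
  have h8 := c0_le s
  have h9 := s.card_pos
  have h10 : hh s.ν (Dn s.ι a b η') z ≤ (s.S.card : ℝ) ^ 2 * s.c0 := by
    calc _ ≤ (s.S.card : ℝ) * hh s.ν (Dn s.ι a b η') y := h5
      _ ≤ s.S.card * (s.S.card * hh s.ν (Dn s.ι a b η') x) := mul_le_mul_of_nonneg_left h4 h9.le
      _ ≤ s.S.card * (s.S.card * s.c0) := by
          exact mul_le_mul_of_nonneg_left (mul_le_mul_of_nonneg_left h3.le h9.le) h9.le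
      _ = _ := by ring
  linarith

theorem adj_refl (x : s.G) : Adj s.S x x := by
  have := s.top.one
  simpa [Adj] using this

theorem eq_of_adj (hP : NPart s) (hu : Unsep s.ι a b) {η η' : s.Z} (h1 : IsCut s.ι η)
    (h2 : η ∈ Blk s.ι a b) (h1' : IsCut s.ι η') (h2' : η' ∈ Blk s.ι a b)
    {x y : s.G} (hxy : Adj s.S x y) (hx : x ∈ Ob s a b η)
    (hz : y ∈ Ob s a b η') : η = η' :=
  eq_of_two hP hu h1 h2 h1' h2' (adj_refl x) hxy hx hz

theorem eq_of_mem (hP : NPart s) (hu : Unsep s.ι a b) {η η' : s.Z} (h1 : IsCut s.ι η)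
    (h2 : η ∈ Blk s.ι a b) (h1' : IsCut s.ι η') (h2' : η' ∈ Blk s.ι a b)
    {x : s.G} (hx : x ∈ Ob s a b η) (hz : x ∈ Ob s a b η') : η = η' :=
  eq_of_adj hP hu h1 h2 h1' h2' (adj_refl x) hx hz

/-- the outer boundary of a component of `A` does not meet `A` -/
theorem ob_comp_notMem {G : Type} [Group G] {S : Finset G} {A : Set G} {v w : G}
    (hw : w ∈ ob S (FC.comp S A v)) : w ∉ A := by
  intro h
  obtain ⟨h1, y, hy, hyw⟩ := hw
  exact h1 ((FC.isPiece_comp v).2 y w hy h hyw)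

/-- the neighbours outside `Ob η` of vertices of `Ob η` belong to `XB` -/
theorem mem_XB_of_adj (hP : NPart s) (hu : Unsep s.ι a b) {η : s.Z} (h1 : IsCut s.ι η)
    (h2 : η ∈ Blk s.ι a b) {x y : s.G} (hxy : Adj s.S x y) (hx : x ∈ Ob s a b η)
    (hy : y ∉ Ob s a b η) : y ∈ XB s.ι s.ν a b s.c0 := by
  rw [mem_XB]
  intro η' h1' h2' hy'
  have := eq_of_adj hP hu h1 h2 h1' h2' hxy hx hy'
  subst this
  exact hy hy'

theorem mem_Bal_of_adj (hP : NPart s) (hu : Unsep s.ι a b) {η : s.Z} (h1 : IsCut s.ι η)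
    (h2 : η ∈ Blk s.ι a b) {x y : s.G} (hxy : Adj s.S x y) (hx : x ∈ Ob s a b η)
    (hy : y ∉ Ob s a b η) : y ∈ Bal s.ν s.c0 (Dn s.ι a b η) := by
  have hm := (Dn_clp hP hu h1 h2).meas
  refine ⟨?_, not_lt.1 hy⟩
  have h3 := s.harnack (s.adj_symm hxy) hm
  have h4 := mem_Ob.1 hx
  have h5 := c0_one s
  have h6 := c0_le s
  have h7 := s.card_pos
  by_contra hcon
  push Not at hcon
  have h8 := mul_le_mul_of_nonneg_left hcon.le h7.le
  linarith

theorem ob_sub_XB (hP : NPart s) (hu : Unsep s.ι a b) {η : s.Z} (h1 : IsCut s.ι η)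
    (h2 : η ∈ Blk s.ι a b) (v : s.G) :
    ob s.S (FC.comp s.S (Ob s a b η) v) ⊆ XB s.ι s.ν a b s.c0 := by
  intro w hw
  obtain ⟨y, hy, hyw⟩ := hw.2
  exact mem_XB_of_adj hP hu h1 h2 hyw hy.1 (ob_comp_notMem hw)

theorem ob_sub_Bal (hP : NPart s) (hu : Unsep s.ι a b) {η : s.Z} (h1 : IsCut s.ι η)
    (h2 : η ∈ Blk s.ι a b) (v : s.G) :
    ob s.S (FC.comp s.S (Ob s a b η) v) ⊆ Bal s.ν s.c0 (Dn s.ι a b η) := by
  intro w hw
  obtain ⟨y, hy, hyw⟩ := hw.2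
  exact mem_Bal_of_adj hP hu h1 h2 hyw hy.1 (ob_comp_notMem hw)

/-! ### the complementary component -/

theorem sel_eq (hu : Unsep s.ι a b) {η : s.Z} :
    ∃ θ ∈ T s.ι, θ ≠ η ∧ sel s.ι a b η = Compo s.ι η θ := by
  unfold sel
  split_ifs with h
  · subst h
    exact ⟨b, hu.hb, hu.ne.symm, rfl⟩
  · exact ⟨a, hu.ha, Ne.symm h, rfl⟩

theorem sel_pair (hu : Unsep s.ι a b) {η : s.Z} (h1 : IsCut s.ι η) :
    (η, sel s.ι a b η) ∈ s.Pairs := by
  obtain ⟨θ, h2, h3, h4⟩ := sel_eq hu (η := η)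
  exact ⟨h1, θ, h2, h3, h4⟩

theorem sel_clp (hO : NOpen s) (hu : Unsep s.ι a b) {η : s.Z} (hη : η ∈ T s.ι) :
    Clp s.ι η (sel s.ι a b η) := by
  obtain ⟨θ, h2, h3, h4⟩ := sel_eq hu (η := η)
  rw [h4]
  exact hO η hη θ h2 h3

theorem hh_Dn (hO : NOpen s) (hu : Unsep s.ι a b) {η : s.Z} (hη : η ∈ T s.ι) (x : s.G) :
    hh s.ν (Dn s.ι a b η) x = 1 - hh s.ν (sel s.ι a b η) x := by
  have := (sel_clp hO hu hη).hh_add x
  unfold Dn
  linarith

theorem Bal_sel (hO : NOpen s) (hu : Unsep s.ι a b) {η : s.Z} (hη : η ∈ T s.ι) (c : ℝ) :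
    Bal s.ν c (Dn s.ι a b η) = Bal s.ν c (sel s.ι a b η) := by
  ext x
  simp only [Bal, mem_ofPred_eq, hh_Dn hO hu hη]
  constructor <;> rintro ⟨h1, h2⟩ <;> constructor <;> linarith

theorem Blk_sub {z : s.Z} (hz : z ∈ Blk s.ι a b) : z ∈ T s.ι := hz.1

end Crest.Agent.R224.XB2
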