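/-
R224 / S0346 : for the node NXB : `{x | c ≤ hh C x}` is connected for a component `C` of
`T \ {η}`.   helper213
-/
import Crest.Agent.R224.DBas
import Crest.Agent.R224.FinC

set_option autoImplicit false

noncomputable section

open MeasureTheory Set Filter Topology

namespace Crest.Agent.R224.XB1

variable {s : Sys}

/-! ### maximum principle -/

/-- if a function attains at `x` its maximum over the neighbours and is `≤` its average at `x`
then it is constant on the neighbours -/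
theorem eq_of_avg {v : s.G → ℝ} {x : s.G} {M : ℝ} (hx : M ≤ Pop s.S v x)
    (hM : ∀ y, Adj s.S x y → v y ≤ M) {y : s.G} (hy : Adj s.S x y) : v y = M := by
  refine le_antisymm (hM y hy) ?_
  by_contra hlt
  rw [not_le] at hlt
  have hsum : ∑ g ∈ s.S, v (x * g) < ∑ g ∈ s.S, M := by
    refine Finset.sum_lt_sum (fun g hg => hM _ (by simpa [Adj] using hg)) ⟨x⁻¹ * y, hy, ?_⟩
    rwa [mul_inv_cancel_left]
  rw [Finset.sum_const, nsmul_eq_mul] at hsum
  unfold Pop at hx
  rw [le_div_iff₀ s.card_pos] at hx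
  linarith

theorem closed_univ {P : s.G → Prop} (hP : ∀ x y, P x → Adj s.S x y → P y) {x : s.G} (hx : P x)
    (y : s.G) : P y := by
  have := s.conn_univ x y
  induction this with
  | refl => exact hx
  | tail _ h2 ih => exact hP _ _ ih h2

/-- maximum principle -/
theorem max_princ {v : s.G → ℝ} (hv : ∀ x, v x ≤ Pop s.S v x)
    (hfin : ∀ ε : ℝ, 0 < ε → {x | ε ≤ v x}.Finite) (x : s.G) : v x ≤ 0 := by
  by_contra hx
  rw [not_le] at hx
  obtain ⟨x1, h1, h2⟩ := (hfin (v x) hx).exists_maximalFor v _ ⟨x, le_refl (v x)⟩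
  have h1' : v x ≤ v x1 := h1
  have hmax : ∀ y, v y ≤ v x1 := by
    intro y
    by_contra hy
    rw [not_le] at hy
    exact absurd (h2 (j := y) (by simp only [mem_ofPred_eq]; linarith) hy.le) (not_le.2 hy)
  have hall : ∀ y, v y = v x1 := fun y =>
    closed_univ (P := fun y => v y = v x1)
      (fun a b ha hab => eq_of_avg (ha ▸ hv a) (fun y _ => hmax y) hab) rfl y
  refine Set.infinite_univ ((hfin (v x) hx).subset fun y _ => ?_)
  simp only [mem_ofPred_eq]
  rw [hall y]; exact h1'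

theorem pop_sub (u v : s.G → ℝ) (x : s.G) :
    Pop s.S (fun y => u y - v y) x = Pop s.S u x - Pop s.S v x := by
  unfold Pop
  rw [Finset.sum_sub_distrib, sub_div]

theorem pop_const (c : ℝ) (x : s.G) : Pop s.S (fun _ => c) x = c := by
  unfold Pop
  rw [Finset.sum_const, nsmul_eq_mul, mul_div_cancel_left₀ _ s.card_pos.ne']

theorem pop_mono {u v : s.G → ℝ} {x : s.G} (h : ∀ y, Adj s.S x y → u y ≤ v y) :
    Pop s.S u x ≤ Pop s.S v x := by
  unfold Pop
  refine div_le_div_of_nonneg_right (Finset.sum_le_sum fun g hg => h _ ?_) s.card_pos.le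
  simpa [Adj] using hg

theorem hh_harm {A : Set s.Z} (hA : MeasurableSet A) (x : s.G) :
    hh s.ν A x = Pop s.S (hh s.ν A) x := s.harm.harm x A hA

/-- masses of small balls tend to zero -/
theorem ball_small (x : s.G) (η : s.Z) {e : ℝ} (he : 0 < e) :
    ∃ r : ℝ, 0 < r ∧ hh s.ν (Metric.ball η r) x < e := by
  have h1 : Tendsto (fun n : ℕ => s.ν x (Metric.ball η (1 / ((n : ℝ) + 1)))) atTop
      (𝓝 (s.ν x (⋂ n : ℕ, Metric.ball η (1 / ((n : ℝ) + 1))))) := by
    refine tendsto_measure_iInter_atTop (fun n => Metric.isOpen_ball.measurableSet.nullMeasurableSet)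
      ?_ ⟨0, measure_ne_top _ _⟩
    intro m n hmn
    refine Metric.ball_subset_ball ?_
    exact Nat.one_div_le_one_div hmn
  have h2 : (⋂ n : ℕ, Metric.ball η (1 / ((n : ℝ) + 1))) = {η} := by
    ext z
    simp only [mem_iInter, Metric.mem_ball, mem_singleton_iff]
    constructor
    · intro h
      by_contra hne
      obtain ⟨n, hn⟩ := exists_nat_one_div_lt (dist_pos.2 hne)
      exact lt_irrefl _ ((h n).trans hn)
    · rintro rfl n
      rw [dist_self]; exact Nat.one_div_pos_of_nat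
  rw [h2, s.harm.atomless x η] at h1
  have h3 := (ENNReal.tendsto_toReal ENNReal.zero_ne_top).comp h1
  rw [ENNReal.toReal_zero] at h3
  obtain ⟨n, hn⟩ := ((tendsto_order.1 h3).2 e he).exists
  exact ⟨1 / ((n : ℝ) + 1), Nat.one_div_pos_of_nat, hn⟩

/-- a bounded subharmonic function with non-positive limits outside one point is non-positive -/
theorem sub_nonpos {u : s.G → ℝ} (hu : ∀ x, u x ≤ Pop s.S u x) (hb : ∀ x, u x ≤ 1) {η : s.Z}
    (hfin : ∀ ε : ℝ, 0 < ε → ∀ r : ℝ, 0 < r → {x | ε ≤ u x ∧ r ≤ dist (s.ι x) η}.Finite)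
    (x : s.G) : u x ≤ 0 := by
  by_contra hx
  rw [not_le] at hx
  obtain ⟨r, hr, hr'⟩ := ball_small x η hx
  have hB : MeasurableSet (Metric.ball η r) := Metric.isOpen_ball.measurableSet
  have key := max_princ (v := fun y => u y - hh s.ν (Metric.ball η r) y)
    (fun y => by
      rw [pop_sub, ← hh_harm hB]
      exact sub_le_sub_right (hu y) _) ?_ x
  · linarith
  · intro ε hε
    obtain ⟨K, hK⟩ := s.harm.conc (min (ε / 2) (r / 2)) (lt_min (by linarith) (by linarith))
    refine ((hfin ε hε (r / 2) (by linarith)).union K.finite_toSet).subset ?_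
    intro y hy
    simp only [mem_ofPred_eq] at hy
    by_cases hyK : y ∈ K
    · right; exact hyK
    left
    refine ⟨?_, ?_⟩
    · have := s.hh_nonneg (Metric.ball η r) y
      linarith
    · by_contra hd
      rw [not_le] at hd
      have h1 := hK y hyK
      have hm : MeasurableSet {z : s.Z | min (ε / 2) (r / 2) ≤ dist z (s.ι y)} :=
        (isClosed_le continuous_const (continuous_id.dist continuous_const)).measurableSet
      have h2 : (s.ν y).real {z : s.Z | min (ε / 2) (r / 2) ≤ dist z (s.ι y)}ᶜ =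
          1 - (s.ν y).real {z : s.Z | min (ε / 2) (r / 2) ≤ dist z (s.ι y)} := by
        rw [measureReal_compl hm, probReal_univ]
      have h3 : {z : s.Z | min (ε / 2) (r / 2) ≤ dist z (s.ι y)}ᶜ ⊆ Metric.ball η r := by
        intro z hz
        simp only [mem_compl_iff, mem_ofPred_eq, not_le] at hz
        rw [Metric.mem_ball]
        have h4 := hz.trans_le (min_le_right _ _)
        calc dist z η ≤ dist z (s.ι y) + dist (s.ι y) η := dist_triangle _ _ _
          _ < r := by linarith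
      have h5 : (s.ν y).real {z : s.Z | min (ε / 2) (r / 2) ≤ dist z (s.ι y)}ᶜ ≤
          hh s.ν (Metric.ball η r) y := measureReal_mono h3
      have h6 := min_le_left (ε / 2) (r / 2)
      have h7 := hb y
      linarith

/-! ### accumulation -/

theorem exists_acc {A : Set s.G} (hA : A.Infinite) :
    ∃ θ ∈ T s.ι, ∀ ε : ℝ, 0 < ε → ∃ x ∈ A, dist (s.ι x) θ < ε := by
  classical
  have : Infinite A := hA.to_subtype
  let f := Infinite.natEmbedding A
  obtain ⟨τ, hτ, φ, hφ, hlim⟩ := s.subseq_T (fun n => (f n : s.G)) (fun g => by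
    refine Set.Subsingleton.finite ?_
    intro m hm n hn
    apply f.injective
    apply Subtype.ext
    simp only [mem_ofPred_eq] at hm hn
    rw [hm, hn])
  refine ⟨τ, hτ, fun ε hε => ?_⟩
  obtain ⟨N, hN⟩ := (Metric.tendsto_atTop.1 hlim) ε hε
  exact ⟨_, (f (φ N)).2, hN N le_rfl⟩

/-! ### superlevel sets are connected -/

/-- component in `A` -/
abbrev cc (A : Set s.G) (x : s.G) : Set s.G := FC.comp s.S A x

theorem cc_conn {A : Set s.G} (x : s.G) : Conn s.S (cc A x) :=
  FC.conn_iff.2 (FC.conn_comp s.top.toStd x)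

theorem cc_sub {A : Set s.G} {x : s.G} : cc A x ⊆ A := fun _ h => h.1

theorem cc_step {A : Set s.G} {x y z : s.G} (hy : y ∈ cc A x) (hz : z ∈ A) (h : Adj s.S y z) :
    z ∈ cc A x := (FC.isPiece_comp x).2 y z hy hz h

theorem self_cc {A : Set s.G} {x : s.G} (hx : x ∈ A) : x ∈ cc A x := FC.mem_comp_self hx

/-- a connected subset of `A` meeting the component is in the component -/
theorem sub_cc {A Y : Set s.G} (hY : Conn s.S Y) (hYA : Y ⊆ A) {x y z : s.G} (hy : y ∈ Y)
    (hyx : y ∈ cc A x) (hz : z ∈ Y) : z ∈ cc A x := by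
  have h := hY y hy z hz
  refine ⟨hYA hz, hyx.2.trans ?_⟩
  exact FC.rtg_map id (fun a b h => ⟨hYA h.2.1, hYA h.2.2, h.1⟩) h

theorem acc_point (hL : PLim s) {η : s.Z} {C : Set s.Z} (hC : Clp s.ι η C) {c : ℝ}
    (hc0 : 0 < c) (hc1 : c < 1) {x : s.G} (hx : c ≤ hh s.ν C x) :
    ∃ θ ∈ C, ∀ ε : ℝ, 0 < ε → ∃ y ∈ cc {x | c ≤ hh s.ν C x} x, dist (s.ι y) θ < ε := by
  classical
  set A : Set s.G := {x | c ≤ hh s.ν C x} with hA
  set Y : Set s.G := cc A x with hY
  by_contra hcon
  push Not at hcon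
  set u : s.G → ℝ := fun y => if y ∈ Y then hh s.ν C y - c else 0 with hu
  have hxY : x ∈ Y := self_cc hx
  have hYc : ∀ y ∈ Y, c ≤ hh s.ν C y := fun y hy => cc_sub hy
  have hu0 : ∀ y, 0 ≤ u y := by
    intro y
    simp only [hu]
    split_ifs with h
    · have := hYc y h; linarith
    · exact le_rfl
  have hub : ∀ y, u y ≤ 1 := by
    intro y
    simp only [hu]
    split_ifs with h
    · have := s.hh_le_one C y; linarith
    · exact zero_le_one
  have hge : ∀ y z, y ∈ Y → Adj s.S y z → hh s.ν C z - c ≤ u z := by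
    intro y z hy hyz
    simp only [hu]
    split_ifs with h
    · exact le_rfl
    · have : ¬ c ≤ hh s.ν C z := fun hz => h (cc_step hy hz hyz)
      linarith
  have hsub : ∀ y, u y ≤ Pop s.S u y := by
    intro y
    by_cases hy : y ∈ Y
    · have h1 : u y = Pop s.S (fun z => hh s.ν C z - c) y := by
        rw [pop_sub, pop_const, ← hh_harm hC.meas]
        simp only [hu, if_pos hy]
      rw [h1]
      exact pop_mono fun z hz => hge y z hy hz
    · have h1 : u y = 0 := by simp only [hu, if_neg hy]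
      rw [h1]
      have := pop_mono (s := s) (u := fun _ => (0 : ℝ)) (v := u) (x := y) (fun z _ => hu0 z)
      rwa [pop_const] at this
  have hfin : ∀ ε : ℝ, 0 < ε → ∀ r : ℝ, 0 < r → {x | ε ≤ u x ∧ r ≤ dist (s.ι x) η}.Finite := by
    intro ε hε r hr
    by_contra hinf
    obtain ⟨θ, hθ, hacc⟩ := exists_acc hinf
    have hmem : ∀ y, ε ≤ u y → y ∈ Y := by
      intro y hy
      by_contra hyY
      simp only [hu, if_neg hyY] at hy
      linarith
    have hne : θ ≠ η := by
      rintro rfl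
      obtain ⟨y, hy, hd⟩ := hacc r hr
      exact absurd hd (not_lt.2 hy.2)
    have hθC : θ ∉ C := by
      intro hθC
      obtain ⟨e, he, h⟩ := hcon θ hθC
      obtain ⟨y, hy, hd⟩ := hacc e he
      exact absurd hd (not_lt.2 (h y (hmem y hy.1)))
    obtain ⟨δ, hδ, h⟩ := (hL η C hC c hc0).2 θ ⟨hθ, hne, hθC⟩
    obtain ⟨y, hy, hd⟩ := hacc δ hδ
    exact absurd (h y hd) (not_lt.2 (hYc y (hmem y hy.1)))
  have hle := sub_nonpos hsub hub hfin
  have heq : ∀ y ∈ Y, hh s.ν C y = c := by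
    intro y hy
    refine le_antisymm ?_ (hYc y hy)
    have := hle y
    simp only [hu, if_pos hy] at this
    linarith
  have hnb : ∀ y z, y ∈ Y → Adj s.S y z → z ∈ Y := by
    intro y z hy hyz
    have h1 : hh s.ν C z = c := by
      refine eq_of_avg (v := hh s.ν C) (x := y) (by rw [← hh_harm hC.meas, heq y hy]) ?_ hyz
      intro w hw
      by_cases hwY : w ∈ Y
      · exact (heq w hwY).le
      · have : ¬ c ≤ hh s.ν C w := fun h => hwY (cc_step hy h hw)
        linarith
    exact cc_step hy (show c ≤ hh s.ν C z from h1.ge) hyz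
  have hall : ∀ y, y ∈ Y := fun y => closed_univ (P := fun y => y ∈ Y) hnb hxY y
  -- `C` is nonempty
  have hne : C.Nonempty := by
    by_contra hC0
    rw [not_nonempty_iff_eq_empty] at hC0
    rw [hC0] at hx
    have : hh s.ν (∅ : Set s.Z) x = 0 := by simp [hh]
    linarith
  obtain ⟨θ, hθ⟩ := hne
  obtain ⟨δ, hδ, h⟩ := (hL η C hC (1 - c) (by linarith)).1 θ hθ
  obtain ⟨y, hy⟩ := s.exists_near θ hδ
  have := h y hy
  rw [heq y (hall y)] at this
  linarith

/-- near a point of `C` all vertices are in one connected subset of the superlevel set -/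
theorem local_conn (hL : PLim s) {η : s.Z} {C : Set s.Z} (hC : Clp s.ι η C) {c : ℝ}
    (hc1 : c < 1) {θ : s.Z} (hθ : θ ∈ C) :
    ∃ Y : Set s.G, Conn s.S Y ∧ Y ⊆ {x | c ≤ hh s.ν C x} ∧
      ∃ δ : ℝ, 0 < δ ∧ ∀ x, dist (s.ι x) θ < δ → x ∈ Y := by
  obtain ⟨δ, hδ, h⟩ := (hL η C hC (1 - c) (by linarith)).1 θ hθ
  obtain ⟨Y, hY, hYd, hY'⟩ := s.bdry.lc θ (hC.sub hθ) δ hδ
  refine ⟨Y, hY, fun y hy => ?_, hY'⟩
  have := h y (hYd y hy)
  simp only [mem_ofPred_eq]
  linarith

/-- **superlevel sets of the mass of a component are connected** -/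
theorem conn_super (hL : PLim s) {η : s.Z} {C : Set s.Z} (hC : Clp s.ι η C)
    (hq : ∀ U, Clp s.ι η U → U ⊆ C → U.Nonempty → C ⊆ U) {c : ℝ}
    (hc0 : 0 < c) (hc1 : c < 1) : Conn s.S {x | c ≤ hh s.ν C x} := by
  classical
  set A : Set s.G := {x | c ≤ hh s.ν C x} with hA
  -- the points of `C` accumulated by the component of `x`
  have hacc : ∀ x ∈ A, ∀ θ ∈ C, ∀ ε : ℝ, 0 < ε → ∃ y ∈ cc A x, dist (s.ι y) θ < ε := by
    intro x hx
    set U : Set s.Z := {θ | θ ∈ C ∧ ∀ ε : ℝ, 0 < ε → ∃ y ∈ cc A x, dist (s.ι y) θ < ε} with hU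
    have hUC : U ⊆ C := fun z hz => hz.1
    -- dichotomy near a point of `C`
    have hdich : ∀ θ ∈ C, ∃ δ : ℝ, 0 < δ ∧ ∀ θ' ∈ T s.ι, dist θ' θ < δ →
        (θ' ∈ C ∧ (θ' ∈ U ↔ θ ∈ U)) := by
      intro θ hθ
      obtain ⟨Y, hY, hYA, δ, hδ, hδY⟩ := local_conn hL hC hc1 hθ
      obtain ⟨δ', hδ', hδC⟩ := (ro_iff.1 hC.ro).2 θ hθ
      have hiff : θ ∈ U ↔ ∀ z ∈ Y, z ∈ cc A x := by
        constructor
        · intro h z hz
          obtain ⟨y, hy, hyd⟩ := h.2 δ hδ
          exact sub_cc hY hYA (hδY y hyd) hy hz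
        · intro h
          refine ⟨hθ, fun ε hε => ?_⟩
          obtain ⟨y, hy⟩ := s.exists_near θ (lt_min hε hδ)
          exact ⟨y, h y (hδY y (hy.trans_le (min_le_right _ _))), hy.trans_le (min_le_left _ _)⟩
      refine ⟨min δ δ', lt_min hδ hδ', fun θ' hθ'T hd => ?_⟩
      have hθ'C : θ' ∈ C := hδC θ' hθ'T (hd.trans_le (min_le_right _ _))
      have hd1 : dist θ' θ < δ := hd.trans_le (min_le_left _ _)
      refine ⟨hθ'C, ?_⟩
      constructor
      · intro h
        rw [hiff]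
        intro z hz
        obtain ⟨y, hy, hyd⟩ := h.2 (δ - dist θ' θ) (by linarith)
        have : dist (s.ι y) θ < δ := by
          have := dist_triangle (s.ι y) θ' θ
          linarith
        exact sub_cc hY hYA (hδY y this) hy hz
      · intro h
        rw [hiff] at h
        refine ⟨hθ'C, fun ε hε => ?_⟩
        obtain ⟨y, hy⟩ := s.exists_near θ' (ε := min ε (δ - dist θ' θ)) (lt_min hε (by linarith))
        have h1 := hy.trans_le (min_le_left _ _)
        have h2 := hy.trans_le (min_le_right _ _)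
        have h3 : dist (s.ι y) θ < δ := by
          have := dist_triangle (s.ι y) θ' θ
          linarith
        exact ⟨y, h y (hδY y h3), h1⟩
    have hUro : RO s.ι U := by
      rw [ro_iff]
      refine ⟨hUC.trans hC.sub, fun θ hθ => ?_⟩
      obtain ⟨δ, hδ, h⟩ := hdich θ (hUC hθ)
      exact ⟨δ, hδ, fun θ' hθ' hd => (h θ' hθ' hd).2.2 hθ⟩
    have hUro' : RO s.ι (cmp s.ι η U) := by
      have h1 : RO s.ι (C \ U) := by
        rw [ro_iff]
        refine ⟨fun z hz => hC.sub hz.1, fun θ hθ => ?_⟩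
        obtain ⟨δ, hδ, h⟩ := hdich θ hθ.1
        refine ⟨δ, hδ, fun θ' hθ' hd => ?_⟩
        obtain ⟨h1, h2⟩ := h θ' hθ' hd
        exact ⟨h1, fun h3 => hθ.2 (h2.1 h3)⟩
      have h2 : cmp s.ι η U = cmp s.ι η C ∪ (C \ U) := by
        ext z
        constructor
        · rintro ⟨h1, h2, h3⟩
          by_cases hz : z ∈ C
          · exact Or.inr ⟨hz, h3⟩
          · exact Or.inl ⟨h1, h2, hz⟩
        · rintro (⟨h1, h2, h3⟩ | ⟨h1, h2⟩)
          · exact ⟨h1, h2, fun h => h3 (hUC h)⟩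
          · exact ⟨hC.sub h1, fun h => hC.notMem (h ▸ h1), h2⟩
      rw [h2]
      exact hC.ro'.union h1
    have hUclp : Clp s.ι η U := ⟨hC.mem, fun h => hC.notMem (hUC h), hUro, hUro'⟩
    have hUne : U.Nonempty := by
      obtain ⟨θ, hθ, h⟩ := acc_point hL hC hc0 hc1 hx
      exact ⟨θ, hθ, h⟩
    have := hq U hUclp hUC hUne
    intro θ hθ
    exact (this hθ).2
  intro x hx y hy
  obtain ⟨θ, hθ, -⟩ := acc_point hL hC hc0 hc1 hx
  obtain ⟨Y, hY, hYA, δ, hδ, hδY⟩ := local_conn hL hC hc1 hθ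
  obtain ⟨x', hx', hxd⟩ := hacc x hx θ hθ δ hδ
  obtain ⟨y', hy', hyd⟩ := hacc y hy θ hθ δ hδ
  have h1 : y' ∈ cc A x := sub_cc hY hYA (hδY x' hxd) hx' (hδY y' hyd)
  have h2 : Relation.ReflTransGen (FC.adjIn s.S A) x y :=
    h1.2.trans (FC.rtg_adjIn_symm s.top.toStd hy'.2)
  exact FC.rtg_cst_iff.2 h2

end Crest.Agent.R224.XB1
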