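/-
R224 / S0346: clause (3) of `NXB` (local connection inside `XB`), helper871.
-/
import Crest.Agent.R224.XB0

set_option autoImplicit false

noncomputable section

open MeasureTheory Set Filter Topology

namespace Crest.Agent.R224.XB2

variable {s : Sys} {a b : s.Z}

theorem rtg_mono {α : Type*} {r p : α → α → Prop} (hrp : ∀ u v, r u v → p u v) {x y : α}
    (h : Relation.ReflTransGen r x y) : Relation.ReflTransGen p x y := by
  induction h with
  | refl => exact .refl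
  | tail _ h2 ih => exact ih.tail (hrp _ _ h2)

/-- reachability inside a set, steps in `S` -/
def R1 (s : Sys) (Y : Set s.G) (x y : s.G) : Prop :=
  Relation.ReflTransGen (fun a b => Adj s.S a b ∧ a ∈ Y ∧ b ∈ Y) x y

theorem R1.path2 {Y : Set s.G} {x y : s.G} (h : R1 s Y x y) : s.Path2 Y x y := by
  unfold R1 at h
  unfold Sys.Path2
  refine rtg_mono ?_ h
  rintro u v ⟨h1, h2, h3⟩
  exact ⟨⟨u⁻¹ * v, h1, 1, s.top.one, by group⟩, h2, h3⟩

theorem R1.mono {Y Y' : Set s.G} (hY : Y ⊆ Y') {x y : s.G} (h : R1 s Y x y) : R1 s Y' x y := by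
  unfold R1 at *
  exact rtg_mono (fun u v h => ⟨h.1, hY h.2.1, hY h.2.2⟩) h

theorem R1.symm {Y : Set s.G} {x y : s.G} (h : R1 s Y x y) : R1 s Y y x := by
  unfold R1 at *
  induction h with
  | refl => exact .refl
  | tail _ h2 ih => exact ih.head ⟨s.adj_symm h2.1, h2.2.2, h2.2.1⟩

theorem R1.trans {Y : Set s.G} {x y z : s.G} (h : R1 s Y x y) (h' : R1 s Y y z) : R1 s Y x z :=
  Relation.ReflTransGen.trans h h'

theorem R1.mem {Y : Set s.G} {x y : s.G} (h : R1 s Y x y) (hx : x ∈ Y) : y ∈ Y := by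
  unfold R1 at h
  induction h with
  | refl => exact hx
  | tail _ h2 _ => exact h2.2.2

/-- first exit of a path from a set -/
theorem first_exit {α : Type*} {r : α → α → Prop} {P : α → Prop} {x y : α}
    (h : Relation.ReflTransGen r x y) (hx : P x) :
    (Relation.ReflTransGen (fun u v => r u v ∧ P u ∧ P v) x y ∧ P y) ∨
    ∃ c d, Relation.ReflTransGen (fun u v => r u v ∧ P u ∧ P v) x c ∧ r c d ∧ P c ∧ ¬ P d := by
  induction h with
  | refl => exact Or.inl ⟨.refl, hx⟩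
  | @tail c d h1 h2 ih =>
    rcases ih with ⟨ih1, ih2⟩ | ih
    · by_cases hd : P d
      · exact Or.inl ⟨ih1.tail ⟨h2, ih2, hd⟩, hd⟩
      · exact Or.inr ⟨c, d, ih1, h2, ih2, hd⟩
    · exact Or.inr ih

theorem nb_finite (k : s.G) : {y | Adj s.S k y}.Finite := by
  have : {y | Adj s.S k y} ⊆ (fun u => k * u) '' (s.S : Set s.G) := by
    intro y hy
    exact ⟨k⁻¹ * y, hy, by simp⟩
  exact (s.S.finite_toSet.image _).subset this

theorem comp_eq {A : Set s.G} {v y : s.G} (hy : y ∈ FC.comp s.S A v) :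
    FC.comp s.S A y = FC.comp s.S A v := by
  ext z
  constructor
  · rintro ⟨h1, h2⟩
    exact ⟨h1, hy.2.trans h2⟩
  · rintro ⟨h1, h2⟩
    exact ⟨h1, (FC.rtg_adjIn_symm s.top.toStd hy.2).trans h2⟩

/-- in an infinite piece of balanced vertices there are vertices near the cut point -/
theorem near_of_infinite (hB : PBal s) {η : s.Z} {U : Set s.Z} (hU : Clp s.ι η U) {P : Set s.G}
    (hP : P.Infinite) {c : ℝ} (hc : 0 < c) (hPB : P ⊆ Bal s.ν c U) {δ : ℝ} (hδ : 0 < δ) :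
    ∃ x ∈ P, dist (s.ι x) η < δ := by
  by_contra hcon
  push Not at hcon
  exact hP ((hB η U hU c δ hc hδ).subset fun x hx => ⟨hPB hx, hcon x hx⟩)

/-- balanced vertices of `U` stay away from a point `θ ≠ η` -/
theorem ball_of_ne (hB : PBal s) {η : s.Z} {U : Set s.Z} (hU : Clp s.ι η U) {c : ℝ} (hc : 0 < c)
    {θ : s.Z} (hθ : θ ∈ T s.ι) (hne : η ≠ θ) :
    ∃ r > 0, ∀ x, dist (s.ι x) θ < r → x ∉ Bal s.ν c U := by
  have hd : 0 < dist η θ / 2 := half_pos (dist_pos.2 hne)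
  obtain ⟨r, hr, h⟩ := s.exists_ball_notMem hθ (hB η U hU c _ hc hd)
  refine ⟨min r (dist η θ / 2), lt_min hr hd, fun x hx hxB => ?_⟩
  refine h x (hx.trans_le (min_le_left _ _)) ⟨hxB, ?_⟩
  have h1 := hx.trans_le (min_le_right r (dist η θ / 2))
  have h2 := dist_triangle η (s.ι x) θ
  rw [dist_comm η (s.ι x)] at h2
  linarith

/-- the case `η = θ` -/
theorem entry_self (hP : NPart s) (hB : PBal s) (hu : Unsep s.ι a b)
    {θ : s.Z} (h1 : IsCut s.ι θ) (h2 : θ ∈ Blk s.ι a b)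
    (hob : ∀ v ∈ Ob s a b θ, Conn s.S (ob s.S (FC.comp s.S (Ob s a b θ) v)))
    {ε : ℝ} (hε : 0 < ε) :
    ∃ r > 0, ∀ v ∈ Ob s a b θ, ∀ z ∈ ob s.S (FC.comp s.S (Ob s a b θ) v), dist (s.ι z) θ < r →
      (∀ w ∈ ob s.S (FC.comp s.S (Ob s a b θ) v), dist (s.ι w) θ < ε) ∨
      ∀ δ : ℝ, 0 < δ → ∃ x', dist (s.ι x') θ < δ ∧
        R1 s (XB s.ι s.ν a b s.c0 ∩ {y | dist (s.ι y) θ < ε}) z x' := by
  classical
  have hclp := Dn_clp hP hu h1 h2
  have hc0 := c0_pos s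
  set A := Ob s a b θ with hA
  set K0 : Set s.G := {x | x ∈ Bal s.ν s.c0 (Dn s.ι a b θ) ∧ ε ≤ dist (s.ι x) θ} with hK0
  have hK0f : K0.Finite := hB θ _ hclp s.c0 ε hc0 hε
  -- the set of neighbours
  set N : Set s.G := ⋃ k ∈ K0, {y | Adj s.S k y} with hN
  have hNf : N.Finite := hK0f.biUnion fun k _ => nb_finite k
  let P : s.G → s.G → Set s.G := fun y w => FC.comp s.S (ob s.S (FC.comp s.S A y) \ K0) w
  let F : Set s.G := ⋃ y ∈ N, ⋃ w ∈ N, (if (P y w).Finite then P y w else ∅)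
  have hFf : F.Finite := by
    refine hNf.biUnion fun y _ => hNf.biUnion fun w _ => ?_
    split_ifs with h
    · exact h
    · exact finite_empty
  obtain ⟨r, hr, hr'⟩ := s.exists_ball_notMem (Blk_sub h2) hFf
  refine ⟨min r ε, lt_min hr hε, fun v hv z hz hzd => ?_⟩
  set L := ob s.S (FC.comp s.S A v) with hL
  have hLB : L ⊆ Bal s.ν s.c0 (Dn s.ι a b θ) := ob_sub_Bal hP hu h1 h2 v
  have hLX : L ⊆ XB s.ι s.ν a b s.c0 := ob_sub_XB hP hu h1 h2 v
  have hzK : z ∉ K0 := fun h => absurd (hzd.trans_le (min_le_right _ _)) (not_lt.2 h.2)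
  by_cases hLK : ∀ w ∈ L, w ∉ K0
  · left
    intro w hw
    by_contra hcon
    exact hLK w hw ⟨hLB hw, not_lt.1 hcon⟩
  · right
    push Not at hLK
    obtain ⟨k, hkL, hkK⟩ := hLK
    -- `k` has a neighbour in the component
    obtain ⟨y, hy, hyk⟩ := hkL.2
    have hyN : y ∈ N := by
      simp only [hN, mem_iUnion, mem_ofPred_eq, exists_prop]
      exact ⟨k, hkK, s.adj_symm hyk⟩
    have hLy : ob s.S (FC.comp s.S A y) = L := by rw [comp_eq hy]
    -- path in `L` from `z` to `k`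
    have hpath := hob v hv z hz k hkL
    rcases first_exit (P := fun u => u ∉ K0) hpath hzK with h | ⟨c, d, h3, h4, h5, h6⟩
    · exact absurd hkK h.2
    · have h6' : d ∈ K0 := not_not.1 h6
      have hcN : c ∈ N := by
        simp only [hN, mem_iUnion, mem_ofPred_eq, exists_prop]
        exact ⟨d, h6', s.adj_symm h4.1⟩
      have hR : Relation.ReflTransGen (FC.adjIn s.S (L \ K0)) z c := by
        refine rtg_mono ?_ h3
        rintro u v' ⟨⟨k1, k2, k3⟩, k4, k5⟩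
        exact ⟨⟨k2, k4⟩, ⟨k3, k5⟩, k1⟩
      have hzP : z ∈ P y c := by
        show z ∈ FC.comp s.S (ob s.S (FC.comp s.S A y) \ K0) c
        rw [hLy]
        exact ⟨⟨hz, hzK⟩, FC.rtg_adjIn_symm s.top.toStd hR⟩
      have hPinf : (P y c).Infinite := by
        intro hfin
        refine hr' z (hzd.trans_le (min_le_left _ _)) ?_
        simp only [F, mem_iUnion, exists_prop]
        refine ⟨y, hyN, c, hcN, ?_⟩
        rw [if_pos hfin]
        exact hzP
      have hPsub : P y c ⊆ L \ K0 := by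
        intro w hw
        have : w ∈ FC.comp s.S (ob s.S (FC.comp s.S A y) \ K0) c := hw
        rw [hLy] at this
        exact this.1
      intro δ hδ
      obtain ⟨x', hx', hd'⟩ := near_of_infinite hB hclp hPinf hc0
        (fun w hw => hLB (hPsub hw).1) hδ
      refine ⟨x', hd', ?_⟩
      have hx'' : x' ∈ FC.comp s.S (L \ K0) c := by
        have : x' ∈ FC.comp s.S (ob s.S (FC.comp s.S A y) \ K0) c := hx'
        rwa [hLy] at this
      have hR2 : Relation.ReflTransGen (FC.adjIn s.S (L \ K0)) z x' := hR.trans hx''.2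
      unfold R1
      refine rtg_mono ?_ hR2
      rintro u v' ⟨⟨k1, k2⟩, ⟨k3, k4⟩, k5⟩
      refine ⟨k5, ⟨hLX k1, ?_⟩, hLX k3, ?_⟩
      · by_contra hcon
        exact k2 ⟨hLB k1, not_lt.1 hcon⟩
      · by_contra hcon
        exact k4 ⟨hLB k3, not_lt.1 hcon⟩

/-- entry lemma -/
theorem entry (hP : NPart s) (hN : NNull s) (hB : PBal s) (hO : NOpen s) (hu : Unsep s.ι a b)
    (hob : ∀ η, IsCut s.ι η → η ∈ Blk s.ι a b → ∀ v ∈ Ob s a b η,
      Conn s.S (ob s.S (FC.comp s.S (Ob s a b η) v)))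
    {θ : s.Z} (hθ : θ ∈ Blk s.ι a b) {ε : ℝ} (hε : 0 < ε) :
    ∃ r > 0, ∀ η, IsCut s.ι η → η ∈ Blk s.ι a b → ∀ v ∈ Ob s a b η,
      ∀ z ∈ ob s.S (FC.comp s.S (Ob s a b η) v), dist (s.ι z) θ < r →
      (∀ w ∈ ob s.S (FC.comp s.S (Ob s a b η) v), dist (s.ι w) θ < ε) ∨
      ∀ δ : ℝ, 0 < δ → ∃ x', dist (s.ι x') θ < δ ∧
        R1 s (XB s.ι s.ν a b s.c0 ∩ {y | dist (s.ι y) θ < ε}) z x' := by
  classical
  have hc0 := c0_pos s
  -- exceptional cut points
  set E : Set s.Z := {η | IsCut s.ι η ∧ η ∈ Blk s.ι a b ∧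
    ∃ x ∈ Bal s.ν s.c0 (Dn s.ι a b η), ∃ x' ∈ Bal s.ν s.c0 (Dn s.ι a b η),
      ε / 2 ≤ dist (s.ι x) (s.ι x')} with hE
  have hEf : E.Finite := by
    have h := hN s.c0 (ε / 2) hc0 (half_pos hε)
    refine (h.image Prod.fst).subset ?_
    rintro η ⟨h1, h2, x, hx, x', hx', hd⟩
    rw [Bal_sel hO hu (Blk_sub h2)] at hx hx'
    exact ⟨(η, sel s.ι a b η), ⟨sel_pair hu h1, x, hx, x', hx', hd⟩, rfl⟩
  -- radii for the exceptional cut points
  have key : ∀ η ∈ E, ∃ r > 0, ∀ v ∈ Ob s a b η,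
      ∀ z ∈ ob s.S (FC.comp s.S (Ob s a b η) v), dist (s.ι z) θ < r →
      (∀ w ∈ ob s.S (FC.comp s.S (Ob s a b η) v), dist (s.ι w) θ < ε) ∨
      ∀ δ : ℝ, 0 < δ → ∃ x', dist (s.ι x') θ < δ ∧
        R1 s (XB s.ι s.ν a b s.c0 ∩ {y | dist (s.ι y) θ < ε}) z x' := by
    rintro η ⟨h1, h2, -⟩
    by_cases hne : η = θ
    · subst hne
      exact entry_self hP hB hu h1 h2 (hob _ h1 h2) hε
    · obtain ⟨r, hr, h⟩ := ball_of_ne hB (Dn_clp hP hu h1 h2) hc0 (Blk_sub hθ) hne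
      exact ⟨r, hr, fun v _ z hz hd => absurd (ob_sub_Bal hP hu h1 h2 v hz) (h z hd)⟩
  choose! r hr h using key
  obtain ⟨r0, hr0, hr0'⟩ : ∃ r0 > 0, ∀ η ∈ E, r0 ≤ r η := by
    rcases E.eq_empty_or_nonempty with h0 | hne
    · exact ⟨1, one_pos, fun η hη => by rw [h0] at hη; exact absurd hη (notMem_empty _)⟩
    · obtain ⟨η0, h0, hmin⟩ := hEf.exists_minimalFor r E hne
      refine ⟨r η0, hr η0 h0, fun η hη => ?_⟩
      by_contra hcon
      push Not at hcon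
      exact absurd (hmin hη hcon.le) (not_le.2 hcon)
  refine ⟨min r0 (ε / 2), lt_min hr0 (half_pos hε), fun η h1 h2 v hv z hz hzd => ?_⟩
  by_cases hηE : η ∈ E
  · exact h η hηE v hv z hz ((hzd.trans_le (min_le_left _ _)).trans_le (hr0' η hηE))
  · left
    intro w hw
    have hzB := ob_sub_Bal hP hu h1 h2 v hz
    have hwB := ob_sub_Bal hP hu h1 h2 v hw
    have hd : dist (s.ι w) (s.ι z) < ε / 2 := by
      by_contra hcon
      exact hηE ⟨h1, h2, w, hwB, z, hzB, not_lt.1 hcon⟩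
    have h3 := dist_triangle (s.ι w) (s.ι z) θ
    have h4 := hzd.trans_le (min_le_right r0 (ε / 2))
    linarith

/-- **clause (3) of NXB** -/
theorem loc (hP : NPart s) (hN : NNull s) (hB : PBal s) (hO : NOpen s) (hu : Unsep s.ι a b)
    (hob : ∀ η, IsCut s.ι η → η ∈ Blk s.ι a b → ∀ v ∈ Ob s a b η,
      Conn s.S (ob s.S (FC.comp s.S (Ob s a b η) v)))
    (hacc : ∀ θ ∈ Blk s.ι a b, ∀ ε : ℝ, 0 < ε →
      ∃ x ∈ XB s.ι s.ν a b s.c0, dist (s.ι x) θ < ε) :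
    ∀ θ ∈ Blk s.ι a b, ∀ ε : ℝ, 0 < ε → ∃ δ : ℝ, 0 < δ ∧ ∀ x ∈ XB s.ι s.ν a b s.c0,
      dist (s.ι x) θ < δ → ∀ δ' : ℝ, 0 < δ' → ∃ x', dist (s.ι x') θ < δ' ∧
        s.Path2 (XB s.ι s.ν a b s.c0 ∩ {y | dist (s.ι y) θ < ε}) x x' := by
  intro θ hθ ε hε
  obtain ⟨r, hr, hent⟩ := entry hP hN hB hO hu hob hθ hε
  obtain ⟨Y0, hY0, hY0r, δ0, hδ0, hY0n⟩ := s.bdry.lc θ (Blk_sub hθ) (min r ε) (lt_min hr hε)
  refine ⟨δ0, hδ0, fun x hx hxd δ' hδ' => ?_⟩
  set W := XB s.ι s.ν a b s.c0 ∩ {y | dist (s.ι y) θ < ε} with hW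
  suffices hgoal : ∃ x', dist (s.ι x') θ < δ' ∧ R1 s W x x' by
    obtain ⟨x', h1, h2⟩ := hgoal
    exact ⟨x', h1, h2.path2⟩
  by_contra hno
  push Not at hno
  obtain ⟨x1, hx1, hx1d⟩ := hacc θ hθ (min δ' δ0) (lt_min hδ' hδ0)
  have hpath := hY0 x (hY0n x hxd) x1 (hY0n x1 (hx1d.trans_le (min_le_right _ _)))
  have hYW : ∀ z ∈ Y0, z ∈ XB s.ι s.ν a b s.c0 → z ∈ W := fun z hz hzX =>
    ⟨hzX, (hY0r z hz).trans_le (min_le_right _ _)⟩
  have inv : ∀ z, Relation.ReflTransGen (fun a b => Adj s.S a b ∧ a ∈ Y0 ∧ b ∈ Y0) x z →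
      (z ∈ XB s.ι s.ν a b s.c0 → R1 s W x z) ∧
      ∀ η, IsCut s.ι η → η ∈ Blk s.ι a b → z ∈ Ob s a b η →
        ∀ w ∈ ob s.S (FC.comp s.S (Ob s a b η) z), R1 s W x w := by
    intro z hz
    induction hz with
    | refl =>
      refine ⟨fun _ => .refl, fun η h1 h2 h3 => ?_⟩
      exact absurd h3 (mem_XB.1 hx η h1 h2)
    | @tail z z' _ hst ih =>
      obtain ⟨hadj, hzY, hz'Y⟩ := hst
      obtain ⟨ih1, ih2⟩ := ih
      constructor
      · intro hz'X
        by_cases hzX : z ∈ XB s.ι s.ν a b s.c0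
        · exact (ih1 hzX).tail ⟨hadj, hYW z hzY hzX, hYW z' hz'Y hz'X⟩
        · obtain ⟨η, h1, h2, h3⟩ := not_mem_XB.1 hzX
          refine ih2 η h1 h2 h3 z' ⟨fun h => mem_XB.1 hz'X η h1 h2 h.1, z, ?_, hadj⟩
          exact FC.mem_comp_self h3
      · intro η h1 h2 h3 w hw
        by_cases hzX : z ∈ XB s.ι s.ν a b s.c0
        · have hzob : z ∈ ob s.S (FC.comp s.S (Ob s a b η) z') :=
            ⟨fun h => mem_XB.1 hzX η h1 h2 h.1, z', FC.mem_comp_self h3, s.adj_symm hadj⟩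
          rcases hent η h1 h2 z' h3 z hzob
            ((hY0r z hzY).trans_le (min_le_left _ _)) with h | h
          · have hc : R1 s (ob s.S (FC.comp s.S (Ob s a b η) z')) z w :=
              hob η h1 h2 z' h3 z hzob w hw
            have hsub : ob s.S (FC.comp s.S (Ob s a b η) z') ⊆ W := fun u hu' =>
              ⟨ob_sub_XB hP hu h1 h2 z' hu', h u hu'⟩
            exact (ih1 hzX).trans (R1.mono hsub hc)
          · obtain ⟨x', h4, h5⟩ := h δ' hδ'
            exact absurd ((ih1 hzX).trans h5) (hno x' h4)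
        · obtain ⟨η', h1', h2', h3'⟩ := not_mem_XB.1 hzX
          have he := eq_of_adj hP hu h1' h2' h1 h2 hadj h3' h3
          subst he
          refine ih2 η' h1' h2' h3' w ?_
          have : FC.comp s.S (Ob s a b η') z' = FC.comp s.S (Ob s a b η') z := by
            have hst' : FC.adjIn s.S (Ob s a b η') z z' := ⟨h3', h3, hadj⟩
            exact comp_eq ⟨h3, Relation.ReflTransGen.single hst'⟩
          rwa [this] at hw
  exact hno x1 (hx1d.trans_le (min_le_left _ _)) ((inv x1 hpath).1 hx1)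

end Crest.Agent.R224.XB2
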