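/-
R224 / S0346: clauses (1) and (2) of `NXB` (from the connectivity of outer boundaries), helper871.
-/
import Crest.Agent.R224.XB2
import Crest.Agent.R224.Block

set_option autoImplicit false

noncomputable section

open MeasureTheory Set Filter Topology

namespace Crest.Agent.R224.XB2

variable {s : Sys} {a b : s.Z}

theorem mem_sel_of_Blk {η z : s.Z} (hz : z ∈ Blk s.ι a b) (h1 : IsCut s.ι η) (hne : z ≠ η) :
    z ∈ sel s.ι a b η := (hz.2 η h1).resolve_left hne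

theorem Dn_sel_disj {η z : s.Z} (hz : z ∈ sel s.ι a b η) : z ∉ Dn s.ι a b η := fun h => h.2.2 hz

theorem sel_nonempty (hu : Unsep s.ι a b) (η : s.Z) : (sel s.ι a b η).Nonempty := by
  obtain ⟨θ, h2, h3, h4⟩ := sel_eq hu (η := η)
  rw [h4]
  exact ⟨θ, h2, h3, fun U _ h => h⟩

/-- **clause (2)** -/
theorem acc (hC : PConn s) (hL : PLim s) (hO : NOpen s) (hP : NPart s)
    (hu : Unsep s.ι a b) : ∀ θ ∈ Blk s.ι a b, ∀ ε : ℝ, 0 < ε →
      ∃ x ∈ XB s.ι s.ν a b s.c0, dist (s.ι x) θ < ε := by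
  intro θ hθ ε hε
  by_contra hcon
  push Not at hcon
  obtain ⟨Y0, hY0, hY0r, δ0, hδ0, hY0n⟩ := s.bdry.lc θ (Blk_sub hθ) ε hε
  have hno : ∀ z ∈ Y0, z ∉ XB s.ι s.ν a b s.c0 := fun z hz hzX =>
    absurd (hY0r z hz) (not_lt.2 (hcon z hzX))
  obtain ⟨x0, hx0⟩ := s.exists_near θ hδ0
  have hx0Y := hY0n x0 hx0
  obtain ⟨η, h1, h2, h3⟩ := not_mem_XB.1 (hno x0 hx0Y)
  have hall : ∀ z ∈ Y0, z ∈ Ob s a b η := by
    intro z hz
    have hpath := hY0 x0 hx0Y z hz
    clear hz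
    induction hpath with
    | refl => exact h3
    | @tail z z' _ hst ih =>
      obtain ⟨hadj, hzY, hz'Y⟩ := hst
      obtain ⟨η', h1', h2', h3'⟩ := not_mem_XB.1 (hno z' hz'Y)
      have := eq_of_adj hP hu h1 h2 h1' h2' hadj ih h3'
      rwa [this]
  have hz : ∃ z ∈ sel s.ι a b η, dist z θ < δ0 := by
    by_cases hne : θ = η
    · subst hne
      exact Blk.near_eta hC (sel_clp hO hu (Blk_sub hθ)) (sel_nonempty hu θ) hδ0
    · exact ⟨θ, mem_sel_of_Blk hθ h1 hne, by simpa using hδ0⟩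
  obtain ⟨z, hz, hzd⟩ := hz
  have hzc : z ∈ cmp s.ι η (Dn s.ι a b η) := by
    have := sel_clp hO hu (Blk_sub h2)
    exact ⟨this.sub hz, fun h => this.notMem (h ▸ hz), Dn_sel_disj hz⟩
  obtain ⟨δ, hδ, hδ'⟩ := (hL η _ (Dn_clp hP hu h1 h2) (1 / 2) (by norm_num)).2 z hzc
  obtain ⟨x, hx⟩ := s.exists_near z (lt_min hδ (sub_pos.2 hzd))
  have h4 := hδ' x (hx.trans_le (min_le_left _ _))
  have h5 : x ∈ Y0 := by
    refine hY0n x ?_
    have := dist_triangle (s.ι x) z θ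
    have := hx.trans_le (min_le_right δ (δ0 - dist z θ))
    linarith
  have h6 := mem_Ob.1 (hall x h5)
  have h7 := c0_le s
  linarith

/-- **clause (1)** -/
theorem conn1 (hP : NPart s) (hu : Unsep s.ι a b)
    (hob : ∀ η, IsCut s.ι η → η ∈ Blk s.ι a b → ∀ v ∈ Ob s a b η,
      Conn s.S (ob s.S (FC.comp s.S (Ob s a b η) v))) :
    ∀ x ∈ XB s.ι s.ν a b s.c0, ∀ y ∈ XB s.ι s.ν a b s.c0,
      s.Path2 (XB s.ι s.ν a b s.c0) x y := by
  intro x hx y hy
  have inv : ∀ z, Relation.ReflTransGen (fun a b => Adj s.S a b) x z →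
      (z ∈ XB s.ι s.ν a b s.c0 → R1 s (XB s.ι s.ν a b s.c0) x z) ∧
      ∀ η, IsCut s.ι η → η ∈ Blk s.ι a b → z ∈ Ob s a b η →
        ∀ w ∈ ob s.S (FC.comp s.S (Ob s a b η) z), R1 s (XB s.ι s.ν a b s.c0) x w := by
    intro z hz
    induction hz with
    | refl =>
      refine ⟨fun _ => .refl, fun η h1 h2 h3 => ?_⟩
      exact absurd h3 (mem_XB.1 hx η h1 h2)
    | @tail z z' _ hadj ih =>
      obtain ⟨ih1, ih2⟩ := ih
      constructor
      · intro hz'X
        by_cases hzX : z ∈ XB s.ι s.ν a b s.c0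
        · exact (ih1 hzX).tail ⟨hadj, hzX, hz'X⟩
        · obtain ⟨η, h1, h2, h3⟩ := not_mem_XB.1 hzX
          refine ih2 η h1 h2 h3 z' ⟨fun h => mem_XB.1 hz'X η h1 h2 h.1, z, ?_, hadj⟩
          exact FC.mem_comp_self h3
      · intro η h1 h2 h3 w hw
        by_cases hzX : z ∈ XB s.ι s.ν a b s.c0
        · have hzob : z ∈ ob s.S (FC.comp s.S (Ob s a b η) z') :=
            ⟨fun h => mem_XB.1 hzX η h1 h2 h.1, z', FC.mem_comp_self h3, s.adj_symm hadj⟩
          have hc : R1 s (ob s.S (FC.comp s.S (Ob s a b η) z')) z w :=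
            hob η h1 h2 z' h3 z hzob w hw
          exact (ih1 hzX).trans (R1.mono (ob_sub_XB hP hu h1 h2 z') hc)
        · obtain ⟨η', h1', h2', h3'⟩ := not_mem_XB.1 hzX
          have he := eq_of_adj hP hu h1' h2' h1 h2 hadj h3' h3
          subst he
          refine ih2 η' h1' h2' h3' w ?_
          have : FC.comp s.S (Ob s a b η') z' = FC.comp s.S (Ob s a b η') z := by
            have hst' : FC.adjIn s.S (Ob s a b η') z z' := ⟨h3', h3, hadj⟩
            exact comp_eq ⟨h3, Relation.ReflTransGen.single hst'⟩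
          rwa [this] at hw
  exact ((inv y (s.conn_univ x y)).1 hy).path2

/-- **NXB** from the connectivity of the outer boundaries -/
theorem nXB_of_hob (hC : PConn s) (hL : PLim s) (hB : PBal s) (hO : NOpen s) (hN : NNull s)
    (hP : NPart s)
    (hob : ∀ a b, Unsep s.ι a b → ∀ η, IsCut s.ι η → η ∈ Blk s.ι a b → ∀ v ∈ Ob s a b η,
      Conn s.S (ob s.S (FC.comp s.S (Ob s a b η) v))) : NXB s := by
  intro a b hu
  have hacc := acc hC hL hO hP hu
  exact ⟨conn1 hP hu (hob a b hu), hacc, loc hP hN hB hO hu (hob a b hu) hacc⟩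

end Crest.Agent.R224.XB2
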