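/-
R224 / S0346 : node NXB (outer boundaries connected, assembly).   helper213
-/
import Crest.Agent.R224.XB0
import Crest.Agent.R224.XB1
import Crest.Agent.R224.XB2
import Crest.Agent.R224.XB3

set_option autoImplicit false

noncomputable section

open MeasureTheory Set Filter Topology Relation

namespace Crest.Agent.R224.XB4

open XB1 XB2

variable {s : Sys} {a b : s.Z}

/-- a component of `T \ {η}` has no proper clopen subset -/
theorem compo_quasi (hA : PAlg s) {η θ : s.Z} (hθ : θ ∈ T s.ι) (hne : θ ≠ η) :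
    ∀ U, Clp s.ι η U → U ⊆ Compo s.ι η θ → U.Nonempty → Compo s.ι η θ ⊆ U := by
  intro U hU hUC hUn z hz
  by_cases h : θ ∈ U
  · exact hz.2.2 U hU h
  · exfalso
    obtain ⟨w, hw⟩ := hUn
    have := (hUC hw).2.2 (cmp s.ι η U) (hA η U U hU hU).1 ⟨hθ, hne, h⟩
    exact this.2.2 hw

theorem low_conn (hA : PAlg s) (hL : PLim s) (hO : NOpen s) (hu : Unsep s.ι a b) {η : s.Z}
    (hη : η ∈ T s.ι) : Conn s.S (Ob s a b η)ᶜ := by
  obtain ⟨θ, h2, h3, h4⟩ := sel_eq hu (η := η)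
  have hC : Clp s.ι η (sel s.ι a b η) := sel_clp hO hu hη
  have h5 := conn_super hL hC (c := s.c0) (by rw [h4]; exact compo_quasi hA h2 h3) (c0_pos s)
    (by have := c0_le s; linarith)
  have he : (Ob s a b η)ᶜ = {x | s.c0 ≤ hh s.ν (sel s.ι a b η) x} := by
    ext x
    simp only [Ob, mem_compl_iff, mem_ofPred_eq, not_lt, hh_Dn hO hu hη]
    constructor <;> intro h <;> linarith
  rw [he]; exact h5

theorem low_nonempty (hL : PLim s) (hO : NOpen s) (hu : Unsep s.ι a b) {η : s.Z}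
    (hη : η ∈ T s.ι) : ∃ x, x ∉ Ob s a b η := by
  obtain ⟨θ, h2, h3, h4⟩ := sel_eq hu (η := η)
  have hC : Clp s.ι η (sel s.ι a b η) := sel_clp hO hu hη
  have hθ : θ ∈ sel s.ι a b η := by
    rw [h4]; exact ⟨h2, h3, fun _ _ h => h⟩
  obtain ⟨δ, hδ, h⟩ := (hL η _ hC (1 / 2) (by norm_num)).1 θ hθ
  obtain ⟨x, hx⟩ := s.exists_near θ hδ
  refine ⟨x, fun hxO => ?_⟩
  have h6 := mem_Ob.1 hxO
  rw [hh_Dn hO hu hη] at h6
  have h7 := c0_le s
  have h8 := h x hx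
  linarith

theorem compl_conn (hA : PAlg s) (hL : PLim s) (hO : NOpen s) (hu : Unsep s.ι a b) {η : s.Z}
    (hη : η ∈ T s.ι) (v : s.G) : Conn s.S (FC.comp s.S (Ob s a b η) v)ᶜ := by
  have hlow := low_conn hA hL hO hu hη
  obtain ⟨h0, hh0⟩ := low_nonempty hL hO hu hη
  have hAY : (Ob s a b η)ᶜ ⊆ (FC.comp s.S (Ob s a b η) v)ᶜ :=
    compl_subset_compl.2 (fun y h => h.1)
  have key : ∀ x ∈ (FC.comp s.S (Ob s a b η) v)ᶜ,
      ReflTransGen (FC.adjIn s.S (FC.comp s.S (Ob s a b η) v)ᶜ) x h0 := by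
    intro x hx
    by_cases hxA : x ∈ Ob s a b η
    · obtain ⟨c, d, -, hcd, -, hc, hd⟩ := exists_step
        (P := fun z => z ∈ FC.comp s.S (Ob s a b η) x) (s.conn_univ x h0)
        (FC.mem_comp_self hxA) (fun h => hh0 h.1)
      have hdA : d ∉ Ob s a b η := fun h => hd (cc_step hc h hcd)
      have h1 : ReflTransGen (FC.adjIn s.S (FC.comp s.S (Ob s a b η) x)) x c :=
        FC.conn_comp s.top.toStd x x (FC.mem_comp_self hxA) c hc
      have hsub : FC.comp s.S (Ob s a b η) x ⊆ (FC.comp s.S (Ob s a b η) v)ᶜ := by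
        intro z hz hzY
        apply hx
        exact ⟨hxA, hzY.2.trans (FC.rtg_adjIn_symm s.top.toStd hz.2)⟩
      have h2 := FC.rtg_adjIn_mono hsub h1
      have h3 := FC.rtg_adjIn_mono hAY (FC.conn_iff.1 hlow d hdA h0 hh0)
      exact (h2.tail ⟨hsub hc, hAY hdA, hcd⟩).trans h3
    · exact FC.rtg_adjIn_mono hAY (FC.conn_iff.1 hlow x hxA h0 hh0)
  rw [FC.conn_iff]
  intro x hx y hy
  exact (key x hx).trans (FC.rtg_adjIn_symm s.top.toStd (key y hy))

/-- outer boundaries of the components of `Ob η` are connected -/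
theorem ob_conn (hA : PAlg s) (hL : PLim s) (hO : NOpen s) (hu : Unsep s.ι a b) {η : s.Z}
    (hη : η ∈ T s.ι) (v : s.G) : Conn s.S (ob s.S (FC.comp s.S (Ob s a b η) v)) := by
  intro w hw w' hw'
  obtain ⟨hwY, y, hy, hyw⟩ := hw
  obtain ⟨hwY', y', hy', hyw'⟩ := hw'
  have h := FC.bd_conn s.top (FC.conn_iff.2 (FC.conn_comp s.top.toStd v))
    (compl_conn hA hL hO hu hη v) (y, w) ⟨hyw, hy, hwY⟩ (y', w') ⟨hyw', hy', hwY'⟩
  have key : ∀ e, ReflTransGen (fun a' b' => tstep s.S a' b' ∧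
      a' ∈ bd s.S (FC.comp s.S (Ob s a b η) v) ∧ b' ∈ bd s.S (FC.comp s.S (Ob s a b η) v))
      (y, w) e → ReflTransGen (fun a' b' => Adj s.S a' b' ∧
      a' ∈ ob s.S (FC.comp s.S (Ob s a b η) v) ∧ b' ∈ ob s.S (FC.comp s.S (Ob s a b η) v))
      w e.2 := by
    intro e he
    induction he with
    | refl => exact .refl
    | @tail e f _ h2 ih =>
      have he : e.2 ∈ ob s.S (FC.comp s.S (Ob s a b η) v) :=
        ⟨h2.2.1.2.2, e.1, h2.2.1.2.1, h2.2.1.1⟩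
      have hf : f.2 ∈ ob s.S (FC.comp s.S (Ob s a b η) v) :=
        ⟨h2.2.2.2.2, f.1, h2.2.2.2.1, h2.2.2.1⟩
      rcases h2.1 with ⟨_, h⟩ | ⟨h, _⟩
      · exact ih.tail ⟨h, he, hf⟩
      · rw [← h]; exact ih
  exact key _ h

end Crest.Agent.R224.XB4

namespace Crest.Agent.R224

/-- E8 -/
theorem nXB (s : Sys) (hC : PConn s) (hA : PAlg s) (hL : PLim s) (hB : PBal s) (hO : NOpen s)
    (hN : NNull s) (hP : NPart s) : NXB s :=
  XB2.nXB_of_hob hC hL hB hO hN hP fun _ _ hu _ _ h2 v _ => XB4.ob_conn hA hL hO hu h2.1 v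

end Crest.Agent.R224
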