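/- R224 / S0346 : assembly of the group half from the landed nodes (helper276). -/
import Crest.Agent.R224.Asm
import Crest.Agent.R224.Final
import Crest.Agent.R224.LimitNode
import Crest.Agent.R224.Bdry
import Crest.Agent.R224.Block
import Crest.Agent.R224.DirB
import Crest.Agent.R224.HarmF
import Crest.Agent.R224.Mono
import Crest.Agent.R224.NCP2
import Crest.Agent.R224.NMax
import Crest.Agent.R224.NodeBlk601
import Crest.Agent.R224.NodeDyn
import Crest.Agent.R224.NodeLF
import Crest.Agent.R224.NodeLev0
import Crest.Agent.R224.NodeLim
import Crest.Agent.R224.NodeNull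
import Crest.Agent.R224.NodeOpen
import Crest.Agent.R224.NodePart
import Crest.Agent.R224.NodeShrink
import Crest.Agent.R224.Order
import Crest.Agent.R224.P213
import Crest.Agent.R224.PotNodes
import Crest.Agent.R224.Side
import Crest.Agent.R224.XB4
import Crest.Agent.R224.NodeThmB
import Crest.Agent.R224.CutFam2
import Crest.Agent.R224.PrincM
import Crest.Agent.R224.BCore
import Crest.Agent.R224.NodeSep

set_option autoImplicit false

noncomputable section

open MeasureTheory Set Filter Topology

namespace Crest.Agent.R224

/-- all nodes of a system from the two missing ones -/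
theorem allNodes (s : Sys) (hB : NThmB s) (hSep : PSep s) : AllNodes s := by
  have hC : PConn s := pConn s
  have hH : PHalf s := pHalf s hC
  have hA : PAlg s := pAlg s
  have hL : PLim s := pLim s
  have hBal : PBal s := pBal s
  have hLF : NLF s := nLF s hB hH hA
  have hCt : NCtbl s := nCtbl s hLF
  have hO : NOpen s := nOpen s hC hA hL hLF (nC1 s)
  have hN : NNull s := nNull s hA hLF hO (nNullDyn s)
  have hS : NShrink s := nShrink s hC hA hL hO hN
  have hP : NPart s := nPart s hH hA hO hS
  have hR : NRetr s := nRetr s hC hH hA hO hS
  have hBC : NBlkConn s := nBlkConn s hC hH hA hO hS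
  have hCf : NCofin s := nCofin s hH hA hLF hO hP
  have hX : NXB s := nXB s hC hA hL hBal hO hN hP
  exact {
    pconn := hC
    phalf := hH
    palg := hA
    plim := hL
    pbal := hBal
    psep := hSep
    pnull := pNullLev s
    lf := hLF
    ctbl := hCt
    nopen := hO
    nnull := hN
    nblock := nBlock s hC hH hA hO hS
    npart := hP
    nretr := hR
    nbc := hBC
    ncofin := hCf
    nequiv := nEquiv s hA hP
    nspread := nSpread s hA hP hR hBC hCf
    nxb := hX
    norder := nOrder s
    nside := nSide s hP hR hX }

theorem nFinal : NFinal := nFinal_of fun s hP _ _ hS => limitLemma s hP hS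

/-- the group half, from the two missing nodes -/
theorem groupHalf_of' (hB : ∀ s : Sys, NThmB s) (hSep : ∀ s : Sys, PSep s) : GroupHalf :=
  groupHalf_of (BdryN.nBdry (Mono.nMono nDecomp) nMax nComp nCP2) (nHarm nDecomp) nFinal
    fun s => allNodes s (hB s) (hSep s)

theorem nThmB' (s : Sys) : NThmB s := by
  have hC := pConn s
  have hH := pHalf s hC
  have hA := pAlg s
  exact nThmB s hC hH hA nPrinM nCore (nFam s hC hH hA (pLim s) (pBal s) (nTriple s))

/-- **the group half** -/
theorem groupHalf : GroupHalf := groupHalf_of' nThmB' pSep

end Crest.Agent.R224
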