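/- R224 / S0346 : final glue (helper276). -/
import Crest.Agent.R224.Energy
import Crest.Agent.R224.Iface
import Crest.Agent.R224.T.Iface

set_option autoImplicit false

open Crest.Topology

namespace Crest.Agent.R224

theorem s0346_main (hGH : GroupHalf) (hTop : T.NTop)
    (M : Type) [TopologicalSpace M] [T2Space M] [SecondCountableTopology M] [CompactSpace M]
    [ConnectedSpace M] [ChartedSpace (EuclideanSpace ℝ (Fin 4)) M]
    (hM : HasContractibleCover M) (x : M)
    (S : Finset (FundamentalGroup M x))
    (hS : Subgroup.closure (S : Set (FundamentalGroup M x)) = ⊤)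
    (f : FundamentalGroup M x → ℝ)
    (hf : Summable fun p : FundamentalGroup M x × S =>
      (f (p.1 * (p.2 : FundamentalGroup M x)) - f p.1) ^ 2)
    (ε : ℝ) (hε : 0 < ε) :
    ∃ u : FundamentalGroup M x → ℝ, (Function.support u).Finite ∧
      ∃ E : ℝ, HasSum (fun p : FundamentalGroup M x × S =>
        ((f - u) (p.1 * (p.2 : FundamentalGroup M x)) - (f - u) p.1) ^ 2) E ∧ E < ε := by
  obtain ⟨T, top⟩ := hTop M x hM
  exact s0346_of top.toStd (fun hn hi f hf => hGH _ T top hn hi f hf) hS f hf ε hε

end Crest.Agent.R224
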