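/-
R224 / topological half, module M5 (helper886): Mayer–Vietoris for relative classes, in an abstract
mod 2 chain theory on one space.
-/
import Mathlib

set_option autoImplicit false

namespace Crest.Agent.R224.TM

open Set

/-- An abstract mod 2 chain theory on a space `X`: chains, supports, boundary, subdivision. -/
structure ChTh (X : Type*) [TopologicalSpace X] where
  C : ℕ → Type
  grp : ∀ k, AddCommGroup (C k)
  two : ∀ k (c : C k), c + c = 0
  d : ∀ k, C (k + 1) →+ C k
  dd : ∀ k (c : C (k + 2)), d k (d (k + 1) c) = 0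
  In : Set X → ∀ k, AddSubgroup (C k)
  In_mono : ∀ {A B : Set X} (k : ℕ), A ⊆ B → In A k ≤ In B k
  In_inter : ∀ {A B : Set X} {k : ℕ} {c : C k}, c ∈ In A k → c ∈ In B k → c ∈ In (A ∩ B) k
  In_univ : ∀ {k : ℕ} (c : C k), c ∈ In univ k
  In_d : ∀ {A : Set X} {k : ℕ} {c : C (k + 1)}, c ∈ In A (k + 1) → d k c ∈ In A k
  cpt : ∀ {A : Set X} {k : ℕ} {c : C k}, c ∈ In A k → ∃ L : Set X, L ⊆ A ∧ IsCompact L ∧ c ∈ In L k
  sd : ℕ → ∀ k, C k →+ C k
  T : ℕ → ∀ k, C k →+ C (k + 1)
  sd_eq : ∀ (m k : ℕ) (c : C (k + 1)),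
    sd m (k + 1) c + c = d (k + 1) (T m (k + 1) c) + T m k (d k c)
  sd_In : ∀ {A : Set X} (m : ℕ) {k : ℕ} {c : C k}, c ∈ In A k → sd m k c ∈ In A k
  T_In : ∀ {A : Set X} (m : ℕ) {k : ℕ} {c : C k}, c ∈ In A k → T m k c ∈ In A (k + 1)
  small : ∀ {U V A : Set X}, IsOpen U → IsOpen V → ∀ {k : ℕ} {c : C k}, c ∈ In ((U ∪ V) ∩ A) k →
    ∃ (m : ℕ) (a b : C k), a ∈ In (U ∩ A) k ∧ b ∈ In (V ∩ A) k ∧ sd m k c = a + b

attribute [instance] ChTh.grp

namespace ChTh

variable {X : Type*} [TopologicalSpace X] (S : ChTh X)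

/-- `w` is null over `A` : homologous to a chain avoiding `A`. -/
def Null (A : Set X) (k : ℕ) (w : S.C k) : Prop :=
  ∃ (u : S.C (k + 1)) (v : S.C k), v ∈ S.In Aᶜ k ∧ w = S.d k u + v

/-- every relative `(k+1)`-cycle over `A` is null -/
def Van (A : Set X) (k : ℕ) : Prop :=
  ∀ w : S.C (k + 1), S.d k w ∈ S.In Aᶜ k → S.Null A (k + 1) w

variable {S}

lemma eq_of_add {k : ℕ} {a b c : S.C k} (h : a + b = c) : a = c + b := by
  rw [← h, add_assoc, S.two, add_zero]

lemma eq_of_add' {k : ℕ} {a b c : S.C k} (h : a = b + c) : a + c = b := by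
  rw [h, add_assoc, S.two, add_zero]

lemma Null.mono {A B : Set X} (hAB : A ⊆ B) {k : ℕ} {w : S.C k} (h : S.Null B k w) :
    S.Null A k w := by
  obtain ⟨u, v, hv, e⟩ := h
  exact ⟨u, v, S.In_mono k (compl_subset_compl.2 hAB) hv, e⟩

lemma Null.add {A : Set X} {k : ℕ} {w w' : S.C k} (h : S.Null A k w) (h' : S.Null A k w') :
    S.Null A k (w + w') := by
  obtain ⟨u, v, hv, e⟩ := h
  obtain ⟨u', v', hv', e'⟩ := h'
  refine ⟨u + u', v + v', AddSubgroup.add_mem _ hv hv', ?_⟩
  rw [e, e', map_add]; abel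

lemma Null.of_In {A : Set X} {k : ℕ} {w : S.C k} (h : w ∈ S.In Aᶜ k) : S.Null A k w :=
  ⟨0, w, h, by rw [map_zero, zero_add]⟩

lemma Null.of_d {A : Set X} {k : ℕ} (u : S.C (k + 1)) : S.Null A k (S.d k u) :=
  ⟨u, 0, AddSubgroup.zero_mem _, by rw [add_zero]⟩

lemma Null.empty {k : ℕ} (w : S.C k) : S.Null ∅ k w :=
  Null.of_In (by rw [compl_empty]; exact S.In_univ w)

/-- Mayer–Vietoris step. -/
lemma Null.union {A B : Set X} (hA : IsClosed A) (hB : IsClosed B) {k : ℕ} {w : S.C k}
    (h1 : S.Null A k w) (h2 : S.Null B k w) (h3 : S.Van (A ∩ B) k) : S.Null (A ∪ B) k w := by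
  obtain ⟨u, v, hv, e⟩ := h1
  obtain ⟨u', v', hv', e'⟩ := h2
  have hz : S.d k (u + u') = v + v' := by
    have : S.d k u + v = S.d k u' + v' := by rw [← e, ← e']
    rw [map_add]
    have h := congrArg (fun t => t + S.d k u' + v) this
    have h4 : S.d k u + v + S.d k u' + v = S.d k u + S.d k u' := by
      calc S.d k u + v + S.d k u' + v = (S.d k u + S.d k u') + (v + v) := by abel
        _ = _ := by rw [S.two, add_zero]
    have h5 : S.d k u' + v' + S.d k u' + v = v + v' := by
      calc S.d k u' + v' + S.d k u' + v = (v + v') + (S.d k u' + S.d k u') := by abel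
        _ = _ := by rw [S.two, add_zero]
    rw [h4, h5] at h
    exact h
  have hin : S.d k (u + u') ∈ S.In (A ∩ B)ᶜ k := by
    rw [hz, compl_inter]
    exact AddSubgroup.add_mem _ (S.In_mono k subset_union_left hv)
      (S.In_mono k subset_union_right hv')
  obtain ⟨y, t, ht, ez⟩ := h3 _ hin
  have ht' : t ∈ S.In ((Aᶜ ∪ Bᶜ) ∩ univ) (k + 1) := by
    rw [inter_univ, ← compl_inter]; exact ht
  obtain ⟨m, a, b, ha, hb, eab⟩ := S.small hA.isOpen_compl hB.isOpen_compl ht'
  rw [inter_univ] at ha hb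
  have hdt : S.d k t = v + v' := by
    rw [← hz, ez, map_add, S.dd, zero_add]
  have e1 := S.sd_eq m k t
  rw [hdt, eab, map_add] at e1
  -- a + b + t = d T t + (T v + T v')
  refine ⟨u + a + S.T m k v, w + S.d k (u + a + S.T m k v), ?_, ?_⟩
  · rw [compl_union]
    refine S.In_inter ?_ ?_
    · have : w + S.d k (u + a + S.T m k v) = v + S.d k (a + S.T m k v) := by
        rw [e, add_assoc u, map_add (S.d k) u]
        calc S.d k u + v + (S.d k u + S.d k (a + S.T m k v))
            = (S.d k u + S.d k u) + (v + S.d k (a + S.T m k v)) := by abel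
          _ = _ := by rw [S.two, zero_add]
      rw [this]
      exact AddSubgroup.add_mem _ hv (S.In_d (AddSubgroup.add_mem _ ha (S.T_In m hv)))
    · have hu : u + a + S.T m k v = u' + b + S.T m k v' + S.d (k + 1) (y + S.T m (k + 1) t) := by
        have h6 : u = S.d (k + 1) y + t + u' := eq_of_add ez
        have h7 : a = S.d (k + 1) (S.T m (k + 1) t) + (S.T m k v + S.T m k v') + t + b := by
          have := eq_of_add e1
          -- a + b = ... + t
          exact eq_of_add this
        calc u + a + S.T m k v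
            = (S.d (k + 1) y + t + u')
              + (S.d (k + 1) (S.T m (k + 1) t) + (S.T m k v + S.T m k v') + t + b)
              + S.T m k v := by rw [← h6, ← h7]
          _ = u' + b + S.T m k v' + (S.d (k + 1) y + S.d (k + 1) (S.T m (k + 1) t))
              + (t + t) + (S.T m k v + S.T m k v) := by abel
          _ = _ := by rw [S.two, S.two, add_zero, add_zero, map_add]
      have : w + S.d k (u + a + S.T m k v) = v' + S.d k (b + S.T m k v') := by
        rw [hu, map_add (S.d k) _ (S.d (k + 1) _), S.dd, add_zero, e', add_assoc u',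
          map_add (S.d k) u']
        calc S.d k u' + v' + (S.d k u' + S.d k (b + S.T m k v'))
            = (S.d k u' + S.d k u') + (v' + S.d k (b + S.T m k v')) := by abel
          _ = _ := by rw [S.two, zero_add]
      rw [this]
      exact AddSubgroup.add_mem _ hv' (S.In_d (AddSubgroup.add_mem _ hb (S.T_In m hv')))
  · calc w = w + (S.d k (u + a + S.T m k v) + S.d k (u + a + S.T m k v)) := by
          rw [S.two, add_zero]
      _ = _ := by abel

lemma Van.union {A B : Set X} (hA : IsClosed A) (hB : IsClosed B) {k : ℕ}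
    (h1 : S.Van A k) (h2 : S.Van B k) (h3 : S.Van (A ∩ B) (k + 1)) : S.Van (A ∪ B) k := by
  intro w hw
  refine Null.union hA hB (h1 w ?_) (h2 w ?_) h3
  · exact S.In_mono k (compl_subset_compl.2 subset_union_left) hw
  · exact S.In_mono k (compl_subset_compl.2 subset_union_right) hw

/-- Null over `A` is invariant under subdivision. -/
lemma null_sd_iff {A : Set X} (m : ℕ) {k : ℕ} {w : S.C (k + 1)} (hw : S.d k w ∈ S.In Aᶜ k) :
    S.Null A (k + 1) (S.sd m (k + 1) w) ↔ S.Null A (k + 1) w := by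
  have h1 := S.sd_eq m k w
  have h2 : S.Null A (k + 1) (S.sd m (k + 1) w + w) := by
    rw [h1]
    exact (Null.of_d _).add (Null.of_In (S.T_In m hw))
  constructor
  · intro h
    have := h2.add h
    have e : S.sd m (k + 1) w + w + S.sd m (k + 1) w = w := by
      calc _ = w + (S.sd m (k + 1) w + S.sd m (k + 1) w) := by abel
        _ = w := by rw [S.two, add_zero]
    rwa [e] at this
  · intro h
    have := h2.add h
    have e : S.sd m (k + 1) w + w + w = S.sd m (k + 1) w := by
      rw [add_assoc, S.two, add_zero]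
    rwa [e] at this

end ChTh

end Crest.Agent.R224.TM
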