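/-
R224 / topological half, module M6 (helper886): gluing of local fundamental chains over a finite
cover, and transfer of relative classes through a chart (abstract chain theory).
-/
import Mathlib
import Crest.Agent.R224.MVabs

set_option autoImplicit false

namespace Crest.Agent.R224.TM

open Set ChTh

section glue

variable {X : Type*} [TopologicalSpace X] {S : ChTh X}

/-- `w` is a chain whose boundary avoids `A` and which is non-null at every point of `A`. -/
def Fund (S : ChTh X) (A : Set X) (k : ℕ) (w : S.C (k + 1)) : Prop :=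
  S.d k w ∈ S.In Aᶜ k ∧ ∀ y ∈ A, ¬ S.Null {y} (k + 1) w

lemma not_null_of_add {y : X} {k : ℕ} {w w' : S.C k} (h : ¬ S.Null {y} k w)
    (h' : S.Null {y} k w') : ¬ S.Null {y} k (w + w') := by
  intro h2
  apply h
  have := h2.add h'
  rwa [add_assoc, S.two, add_zero] at this

lemma null_single_of_In {A : Set X} {y : X} (hy : y ∈ A) {k : ℕ} {w : S.C k}
    (h : w ∈ S.In Aᶜ k) : S.Null {y} k w :=
  Null.of_In (S.In_mono k (compl_subset_compl.2 (singleton_subset_iff.2 hy)) h)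

/-- gluing step -/
lemma Fund.union {A B : Set X} (hA : IsClosed A) (hB : IsClosed B) {k : ℕ} {w w' : S.C (k + 1)}
    (h1 : Fund S A k w) (h2 : Fund S B k w') (h3 : S.Null (A ∩ B) (k + 1) (w + w')) :
    ∃ w'' : S.C (k + 1), Fund S (A ∪ B) k w'' := by
  obtain ⟨u, v, hv, e⟩ := h3
  have hv' : v ∈ S.In ((Aᶜ ∪ Bᶜ) ∩ univ) (k + 1) := by
    rw [inter_univ, ← compl_inter]; exact hv
  obtain ⟨m, a, b, ha, hb, eab⟩ := S.small hA.isOpen_compl hB.isOpen_compl hv'
  rw [inter_univ] at ha hb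
  have hdv : S.d k v = S.d k w + S.d k w' := by
    have := congrArg (S.d k) e
    rw [map_add, map_add, S.dd, zero_add] at this
    exact this.symm
  have e1 := S.sd_eq m k v
  rw [hdv, eab, map_add] at e1
  -- a + b + v = d T v + (T dw + T dw')
  have ev : v = S.d (k + 1) (S.T m (k + 1) v) + (S.T m k (S.d k w) + S.T m k (S.d k w'))
      + (a + b) := eq_of_add ((add_comm _ _).trans e1)
  have hw : w + a + S.T m k (S.d k w)
      = w' + b + S.T m k (S.d k w') + S.d (k + 1) (u + S.T m (k + 1) v) := by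
    have e2 : w = S.d (k + 1) u + v + w' := eq_of_add e
    calc w + a + S.T m k (S.d k w)
        = S.d (k + 1) u + v + w' + a + S.T m k (S.d k w) := by rw [← e2]
      _ = S.d (k + 1) u + (S.d (k + 1) (S.T m (k + 1) v) + (S.T m k (S.d k w)
            + S.T m k (S.d k w')) + (a + b)) + w' + a + S.T m k (S.d k w) := by rw [← ev]
      _ = w' + b + S.T m k (S.d k w') + (S.d (k + 1) u + S.d (k + 1) (S.T m (k + 1) v))
            + (a + a) + (S.T m k (S.d k w) + S.T m k (S.d k w)) := by abel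
      _ = _ := by rw [S.two, S.two, add_zero, add_zero, map_add]
  have hTA : S.T m k (S.d k w) ∈ S.In Aᶜ (k + 1) := S.T_In m h1.1
  have hTB : S.T m k (S.d k w') ∈ S.In Bᶜ (k + 1) := S.T_In m h2.1
  refine ⟨w + a + S.T m k (S.d k w), ?_, ?_⟩
  · rw [compl_union]
    refine S.In_inter ?_ ?_
    · rw [map_add, map_add]
      exact AddSubgroup.add_mem _ (AddSubgroup.add_mem _ h1.1 (S.In_d ha)) (S.In_d hTA)
    · rw [hw, map_add, S.dd, add_zero, map_add, map_add]
      exact AddSubgroup.add_mem _ (AddSubgroup.add_mem _ h2.1 (S.In_d hb)) (S.In_d hTB)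
  · rintro y (hy | hy)
    · rw [add_assoc]
      exact not_null_of_add (h1.2 y hy)
        (null_single_of_In hy (AddSubgroup.add_mem _ ha hTA))
    · rw [hw, add_assoc w', add_assoc w']
      exact not_null_of_add (h2.2 y hy)
        ((null_single_of_In hy (AddSubgroup.add_mem _ hb hTB)).add (Null.of_d _))

/-- **M6, abstract form** -/
theorem exists_fund [T2Space X] [CompactSpace X] {k : ℕ}
    (L1 : ∀ (x : X) (w w' : S.C (k + 1)), S.d k w ∈ S.In {x}ᶜ k → S.d k w' ∈ S.In {x}ᶜ k →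
      ¬ S.Null {x} (k + 1) w → ¬ S.Null {x} (k + 1) w' → S.Null {x} (k + 1) (w + w'))
    (L2 : ∀ x : X, ∃ B : Set X, IsCompact B ∧ B ∈ nhds x ∧ (∃ w, Fund S B k w) ∧
      ∀ K : Set X, IsCompact K → K ⊆ B → ∀ w : S.C (k + 1), S.d k w ∈ S.In Kᶜ k →
        (∀ y ∈ K, S.Null {y} (k + 1) w) → S.Null K (k + 1) w) :
    ∃ μ : S.C (k + 1), Fund S univ k μ := by
  classical
  choose B hBc hBn hBw hBK using L2
  obtain ⟨t, -, ht⟩ := isCompact_univ.elim_nhds_subcover B (fun x _ => hBn x)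
  have key : ∀ s : Finset X, ∃ w, Fund S (⋃ x ∈ s, B x) k w := by
    intro s
    induction s using Finset.induction_on with
    | empty =>
      refine ⟨0, ?_, by simp⟩
      rw [map_zero]; exact AddSubgroup.zero_mem _
    | insert a s ha ih =>
      obtain ⟨w, hw⟩ := ih
      obtain ⟨w', hw'⟩ := hBw a
      rw [Finset.set_biUnion_insert, union_comm]
      have hAc : IsCompact (⋃ x ∈ s, B x) := s.isCompact_biUnion fun x _ => hBc x
      refine Fund.union hAc.isClosed (hBc a).isClosed hw hw' ?_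
      refine hBK a _ (hAc.inter (hBc a)) inter_subset_right _ ?_ ?_
      · rw [map_add, compl_inter]
        exact AddSubgroup.add_mem _ (S.In_mono k subset_union_left hw.1)
          (S.In_mono k subset_union_right hw'.1)
      · intro y hy
        refine L1 y w w' ?_ ?_ (hw.2 y hy.1) (hw'.2 y hy.2)
        · exact S.In_mono k (compl_subset_compl.2 (singleton_subset_iff.2 hy.1)) hw.1
        · exact S.In_mono k (compl_subset_compl.2 (singleton_subset_iff.2 hy.2)) hw'.1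
  obtain ⟨w, hw⟩ := key t
  have : (⋃ x ∈ t, B x) = univ := univ_subset_iff.1 ht
  rw [this] at hw
  exact ⟨w, hw⟩

end glue

section exc

variable {X : Type*} [TopologicalSpace X] {S : ChTh X}

/-- excision, first form -/
lemma exc1 {V A : Set X} (hV : IsOpen V) (hA : IsClosed A) (hAV : A ⊆ V) {k : ℕ}
    {w : S.C (k + 1)} (hw : S.d k w ∈ S.In Aᶜ k) :
    ∃ w' : S.C (k + 1), w' ∈ S.In V (k + 1) ∧ S.d k w' ∈ S.In (V ∩ Aᶜ) k ∧
      S.Null A (k + 1) (w + w') := by
  have hw0 : w ∈ S.In ((V ∪ Aᶜ) ∩ univ) (k + 1) := by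
    have : (V ∪ Aᶜ) ∩ univ = univ := by
      rw [inter_univ, eq_univ_iff_forall]
      intro x
      by_cases hx : x ∈ A
      · exact Or.inl (hAV hx)
      · exact Or.inr hx
    rw [this]; exact S.In_univ w
  obtain ⟨m, a, b, ha, hb, eab⟩ := S.small hV hA.isOpen_compl hw0
  rw [inter_univ] at ha hb
  have e1 := S.sd_eq m k w
  have h2 : w + a = S.d (k + 1) (S.T m (k + 1) w) + (b + S.T m k (S.d k w)) := by
    have e3 : a = S.sd m (k + 1) w + b := eq_of_add eab.symm
    calc w + a = (S.sd m (k + 1) w + w) + b := by rw [e3]; abel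
      _ = _ := by rw [e1]; abel
  have hnull : S.Null A (k + 1) (w + a) :=
    ⟨_, _, AddSubgroup.add_mem _ hb (S.T_In m hw), h2⟩
  refine ⟨a, ha, S.In_inter (S.In_d ha) ?_, hnull⟩
  have h4 : S.d k a = S.d k w + (S.d k b + S.d k (S.T m k (S.d k w))) := by
    have := congrArg (S.d k) h2
    rw [map_add, map_add, S.dd, zero_add, map_add] at this
    have h5 : S.d k a + S.d k w = S.d k b + S.d k (S.T m k (S.d k w)) :=
      (add_comm _ _).trans this
    exact (eq_of_add h5).trans (add_comm _ _)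
  rw [h4]
  exact AddSubgroup.add_mem _ hw (AddSubgroup.add_mem _ (S.In_d hb) (S.In_d (S.T_In m hw)))

/-- excision, second form -/
lemma exc2 {V A : Set X} (hV : IsOpen V) (hA : IsClosed A) (hAV : A ⊆ V) {k : ℕ}
    {w : S.C (k + 1)} (hwV : w ∈ S.In V (k + 1)) (h : S.Null A (k + 1) w) :
    ∃ (u : S.C (k + 2)) (v : S.C (k + 1)), u ∈ S.In V (k + 2) ∧ v ∈ S.In (V ∩ Aᶜ) (k + 1) ∧
      w = S.d (k + 1) u + v := by
  obtain ⟨u, v, hv, e⟩ := h
  have hu0 : u ∈ S.In ((V ∪ Aᶜ) ∩ univ) (k + 2) := by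
    have : (V ∪ Aᶜ) ∩ univ = univ := by
      rw [inter_univ, eq_univ_iff_forall]
      intro x
      by_cases hx : x ∈ A
      · exact Or.inl (hAV hx)
      · exact Or.inr hx
    rw [this]; exact S.In_univ u
  obtain ⟨m, a, b, ha, hb, eab⟩ := S.small hV hA.isOpen_compl hu0
  rw [inter_univ] at ha hb
  have e1 := S.sd_eq m (k + 1) u
  have hdu : S.d (k + 1) u = w + v := eq_of_add e.symm
  rw [hdu, eab, map_add] at e1
  -- a + b + u = d T u + (T w + T v)
  have e2 := congrArg (S.d (k + 1)) e1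
  rw [map_add, map_add, map_add, map_add, S.dd, zero_add] at e2
  -- d a + d b + d u = d T w + d T v
  have e3 : w = S.d (k + 1) (a + S.T m (k + 1) w)
      + (S.d (k + 1) b + S.d (k + 1) (S.T m (k + 1) v) + v) := by
    have e4 : S.d (k + 1) u = S.d (k + 1) (S.T m (k + 1) w) + S.d (k + 1) (S.T m (k + 1) v)
        + (S.d (k + 1) a + S.d (k + 1) b) := eq_of_add ((add_comm _ _).trans e2)
    calc w = S.d (k + 1) u + v := e
      _ = _ := by rw [e4, map_add]; abel
  refine ⟨a + S.T m (k + 1) w, _, AddSubgroup.add_mem _ ha (S.T_In m hwV),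
    S.In_inter ?_ ?_, e3⟩
  · have : S.d (k + 1) b + S.d (k + 1) (S.T m (k + 1) v) + v
        = w + S.d (k + 1) (a + S.T m (k + 1) w) := by
      have := eq_of_add (S := S) ((add_comm _ _).trans e3.symm)
      exact this
    rw [this]
    exact AddSubgroup.add_mem _ hwV (S.In_d (AddSubgroup.add_mem _ ha (S.T_In m hwV)))
  · exact AddSubgroup.add_mem _ (AddSubgroup.add_mem _ (S.In_d hb) (S.In_d (S.T_In m hv))) hv

end exc

/-- transfer of chains through a chart -/
structure Tr {X Y : Type*} [TopologicalSpace X] [TopologicalSpace Y] (S : ChTh X) (S' : ChTh Y)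
    (V : Set X) (W : Set Y) (φ : X → Y) (ψ : Y → X) where
  f : ∀ k, S.C k →+ S'.C k
  g : ∀ k, S'.C k →+ S.C k
  f_d : ∀ {k : ℕ} {c : S.C (k + 1)}, c ∈ S.In V (k + 1) → f k (S.d k c) = S'.d k (f (k + 1) c)
  g_d : ∀ {k : ℕ} {c : S'.C (k + 1)}, c ∈ S'.In W (k + 1) → g k (S'.d k c) = S.d k (g (k + 1) c)
  f_In : ∀ {A : Set X}, A ⊆ V → ∀ {k : ℕ} {c : S.C k}, c ∈ S.In A k → f k c ∈ S'.In (φ '' A) k
  g_In : ∀ {A : Set Y}, A ⊆ W → ∀ {k : ℕ} {c : S'.C k}, c ∈ S'.In A k → g k c ∈ S.In (ψ '' A) k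
  gf : ∀ {k : ℕ} {c : S.C k}, c ∈ S.In V k → g k (f k c) = c
  fg : ∀ {k : ℕ} {c : S'.C k}, c ∈ S'.In W k → f k (g k c) = c

section tr

variable {X Y : Type*} [TopologicalSpace X] [TopologicalSpace Y] {S : ChTh X} {S' : ChTh Y}
  {V : Set X} {W : Set Y} {φ : X → Y} {ψ : Y → X}

/-- the inverse transfer -/
def Tr.symm (F : Tr S S' V W φ ψ) : Tr S' S W V ψ φ where
  f := F.g
  g := F.f
  f_d := F.g_d
  g_d := F.f_d
  f_In := F.g_In
  g_In := F.f_In
  gf := F.fg
  fg := F.gf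

lemma Tr.null (F : Tr S S' V W φ ψ) (hV : IsOpen V) (hinj : InjOn φ V) {A : Set X}
    (hA : IsClosed A) (hAV : A ⊆ V) {k : ℕ} {w : S.C (k + 1)} (hw : w ∈ S.In V (k + 1))
    (h : S.Null A (k + 1) w) : S'.Null (φ '' A) (k + 1) (F.f (k + 1) w) := by
  obtain ⟨u, v, hu, hv, e⟩ := exc2 hV hA hAV hw h
  refine ⟨F.f (k + 2) u, F.f (k + 1) v, ?_, ?_⟩
  · refine S'.In_mono _ ?_ (F.f_In inter_subset_left hv)
    rintro _ ⟨y, hy, rfl⟩ ⟨z, hz, hzy⟩
    have := hinj (hAV hz) hy.1 hzy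
    rw [this] at hz
    exact hy.2 hz
  · rw [e, map_add, F.f_d hu]

/-- data of a chart for chain theories -/
structure ChartTr (S : ChTh X) (S' : ChTh Y) (V : Set X) (W : Set Y) (φ : X → Y)
    (ψ : Y → X) extends Tr S S' V W φ ψ where
  hV : IsOpen V
  hW : IsOpen W
  φV : ∀ x ∈ V, φ x ∈ W
  ψW : ∀ y ∈ W, ψ y ∈ V
  ψφ : ∀ x ∈ V, ψ (φ x) = x
  φψ : ∀ y ∈ W, φ (ψ y) = y
  φc : ContinuousOn φ V
  ψc : ContinuousOn ψ W

lemma ChartTr.injφ (F : ChartTr S S' V W φ ψ) : InjOn φ V := by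
  intro x hx y hy h
  rw [← F.ψφ x hx, ← F.ψφ y hy, h]

lemma ChartTr.injψ (F : ChartTr S S' V W φ ψ) : InjOn ψ W := by
  intro x hx y hy h
  rw [← F.φψ x hx, ← F.φψ y hy, h]

/-- the main transfer statement: a relative class `w` over a compact `K ⊆ V` has a copy in the
chart, null over a compact subset iff `w` is. -/
lemma ChartTr.copy [T2Space X] [T2Space Y] (F : ChartTr S S' V W φ ψ) {K : Set X}
    (hK : IsCompact K) (hKV : K ⊆ V) {k : ℕ} {w : S.C (k + 1)} (hw : S.d k w ∈ S.In Kᶜ k) :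
    ∃ w' : S'.C (k + 1), S'.d k w' ∈ S'.In (φ '' K)ᶜ k ∧ w' ∈ S'.In W (k + 1) ∧
      S.Null K (k + 1) (w + F.g (k + 1) w') ∧ F.g (k + 1) w' ∈ S.In V (k + 1) := by
  obtain ⟨a, ha, hda, hn⟩ := exc1 F.hV hK.isClosed hKV hw
  have hW : φ '' V ⊆ W := by rintro _ ⟨x, hx, rfl⟩; exact F.φV x hx
  refine ⟨F.f (k + 1) a, ?_, S'.In_mono _ hW (F.f_In (Subset.refl V) ha), ?_, ?_⟩
  · rw [← F.f_d ha]
    refine S'.In_mono _ ?_ (F.f_In inter_subset_left hda)
    rintro _ ⟨y, hy, rfl⟩ ⟨z, hz, hzy⟩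
    have := F.injφ (hKV hz) hy.1 hzy
    rw [this] at hz
    exact hy.2 hz
  · rw [F.gf ha]; exact hn
  · rw [F.gf ha]; exact ha

lemma ChartTr.null_iff [T2Space X] [T2Space Y] (F : ChartTr S S' V W φ ψ) {A : Set X}
    (hA : IsCompact A) (hAV : A ⊆ V) {k : ℕ} {w' : S'.C (k + 1)} (hw : w' ∈ S'.In W (k + 1)) :
    S'.Null (φ '' A) (k + 1) w' ↔ S.Null A (k + 1) (F.g (k + 1) w') := by
  have hA' : IsCompact (φ '' A) := hA.image_of_continuousOn (F.φc.mono hAV)
  have hAW : φ '' A ⊆ W := by rintro _ ⟨x, hx, rfl⟩; exact F.φV x (hAV hx)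
  have hgV : F.g (k + 1) w' ∈ S.In V (k + 1) := by
    refine S.In_mono _ ?_ (F.g_In (Subset.refl W) hw)
    rintro _ ⟨x, hx, rfl⟩; exact F.ψW x hx
  constructor
  · intro h
    have := F.toTr.symm.null F.hW F.injψ hA'.isClosed hAW hw h
    have e : ψ '' (φ '' A) = A := by
      ext x
      constructor
      · rintro ⟨_, ⟨y, hy, rfl⟩, rfl⟩; rw [F.ψφ y (hAV hy)]; exact hy
      · intro hx; exact ⟨φ x, ⟨x, hx, rfl⟩, F.ψφ x (hAV hx)⟩
    rw [e] at this
    exact this
  · intro h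
    have := F.toTr.null F.hV F.injφ hA.isClosed hAV hgV h
    rw [F.fg hw] at this
    exact this

/-- M5 transferred to a chart domain -/
theorem ChartTr.null_compact [T2Space X] [T2Space Y] (F : ChartTr S S' V W φ ψ) {k : ℕ}
    (h5 : ∀ K : Set Y, IsCompact K → ∀ w : S'.C (k + 1), S'.d k w ∈ S'.In Kᶜ k →
      (∀ y ∈ K, S'.Null {y} (k + 1) w) → S'.Null K (k + 1) w)
    {K : Set X} (hK : IsCompact K) (hKV : K ⊆ V) {w : S.C (k + 1)}
    (hw : S.d k w ∈ S.In Kᶜ k) (h : ∀ y ∈ K, S.Null {y} (k + 1) w) :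
    S.Null K (k + 1) w := by
  obtain ⟨w', hd, hwW, hn, -⟩ := F.copy hK hKV hw
  have hK' : IsCompact (φ '' K) := hK.image_of_continuousOn (F.φc.mono hKV)
  have h1 : S'.Null (φ '' K) (k + 1) w' := by
    refine h5 _ hK' w' hd ?_
    rintro _ ⟨y, hy, rfl⟩
    have h2 : S.Null {y} (k + 1) (F.g (k + 1) w') := by
      have := (h y hy).add (hn.mono (singleton_subset_iff.2 hy))
      rwa [← add_assoc, S.two, zero_add] at this
    have h3 := (F.null_iff isCompact_singleton (singleton_subset_iff.2 (hKV hy)) hwW).2 h2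
    rwa [image_singleton] at h3
  have h4 := (F.null_iff hK hKV hwW).1 h1
  have := h4.add hn
  have e : F.g (k + 1) w' + (w + F.g (k + 1) w') = w := by
    calc _ = w + (F.g (k + 1) w' + F.g (k + 1) w') := by abel
      _ = w := by rw [S.two, add_zero]
  rwa [e] at this

/-- two non-null classes at a point add up to a null class -/
theorem ChartTr.L1 [T2Space X] [T2Space Y] (F : ChartTr S S' V W φ ψ) {k : ℕ}
    (h : ∀ (y : Y) (w w' : S'.C (k + 1)), S'.d k w ∈ S'.In {y}ᶜ k → S'.d k w' ∈ S'.In {y}ᶜ k →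
      ¬ S'.Null {y} (k + 1) w → ¬ S'.Null {y} (k + 1) w' → S'.Null {y} (k + 1) (w + w'))
    {x : X} (hx : x ∈ V) (w w' : S.C (k + 1)) (hw : S.d k w ∈ S.In {x}ᶜ k)
    (hw' : S.d k w' ∈ S.In {x}ᶜ k) (h1 : ¬ S.Null {x} (k + 1) w)
    (h2 : ¬ S.Null {x} (k + 1) w') : S.Null {x} (k + 1) (w + w') := by
  have hxV : {x} ⊆ V := singleton_subset_iff.2 hx
  obtain ⟨a, hda, haW, hna, -⟩ := F.copy isCompact_singleton hxV hw
  obtain ⟨a', hda', haW', hna', -⟩ := F.copy isCompact_singleton hxV hw'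
  rw [image_singleton] at hda hda'
  have n1 : ¬ S'.Null {φ x} (k + 1) a := by
    intro hh
    rw [← image_singleton, F.null_iff isCompact_singleton hxV haW] at hh
    apply h1
    have := hh.add hna
    have e : F.g (k + 1) a + (w + F.g (k + 1) a) = w := by
      calc _ = w + (F.g (k + 1) a + F.g (k + 1) a) := by abel
        _ = w := by rw [S.two, add_zero]
    rwa [e] at this
  have n2 : ¬ S'.Null {φ x} (k + 1) a' := by
    intro hh
    rw [← image_singleton, F.null_iff isCompact_singleton hxV haW'] at hh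
    apply h2
    have := hh.add hna'
    have e : F.g (k + 1) a' + (w' + F.g (k + 1) a') = w' := by
      calc _ = w' + (F.g (k + 1) a' + F.g (k + 1) a') := by abel
        _ = w' := by rw [S.two, add_zero]
    rwa [e] at this
  have n3 := h (φ x) a a' hda hda' n1 n2
  rw [← image_singleton, F.null_iff isCompact_singleton hxV (AddSubgroup.add_mem _ haW haW')]
    at n3
  rw [map_add] at n3
  have := (n3.add hna).add hna'
  have e : F.g (k + 1) a + F.g (k + 1) a' + (w + F.g (k + 1) a) + (w' + F.g (k + 1) a')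
      = w + w' := by
    calc _ = w + w' + (F.g (k + 1) a + F.g (k + 1) a) + (F.g (k + 1) a' + F.g (k + 1) a') := by
          abel
      _ = w + w' := by rw [S.two, S.two, add_zero, add_zero]
  rwa [e] at this

/-- transfer of a fundamental chain from the chart to the space -/
theorem ChartTr.fund [T2Space X] [T2Space Y] (F : ChartTr S S' V W φ ψ) {k : ℕ}
    {B : Set Y} (_hB : IsCompact B) (hBW : B ⊆ W) {w : S'.C (k + 1)} (hw : w ∈ S'.In W (k + 1))
    (h : Fund S' B k w) : Fund S (ψ '' B) k (F.g (k + 1) w) := by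
  constructor
  · rw [← F.g_d hw]
    have hd : S'.d k w ∈ S'.In (W ∩ Bᶜ) k := S'.In_inter (S'.In_d hw) h.1
    refine S.In_mono _ ?_ (F.g_In inter_subset_left hd)
    rintro _ ⟨y, hy, rfl⟩ ⟨z, hz, hzy⟩
    have := F.injψ (hBW hz) hy.1 hzy
    rw [this] at hz
    exact hy.2 hz
  · rintro _ ⟨y, hy, rfl⟩ hn
    apply h.2 y hy
    have hyV : {ψ y} ⊆ V := singleton_subset_iff.2 (F.ψW y (hBW hy))
    have := (F.null_iff isCompact_singleton hyV hw).2 hn
    rwa [image_singleton, F.φψ y (hBW hy)] at this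

end tr

end Crest.Agent.R224.TM
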