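/-
R224 / topological half, module M5 (helper886): relative classes over compact subsets of a
normed space (abstract chain theory).
-/
import Mathlib
import Crest.Agent.R224.MVabs

set_option autoImplicit false

namespace Crest.Agent.R224.TM

open Set ChTh

variable {E : Type*} [NormedAddCommGroup E] [NormedSpace ℝ E]

/-- radial expansions with their prism operators -/
def HasExp (S : ChTh E) : Prop :=
  ∀ (x : E) (R : ℝ), 1 ≤ R → ∃ (h : ∀ k, S.C k →+ S.C k) (P : ∀ k, S.C k →+ S.C (k + 1)),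
    (∀ k (c : S.C (k + 1)), h (k + 1) c + c = S.d (k + 1) (P (k + 1) c) + P k (S.d k c)) ∧
    (∀ (A : Set E) (k : ℕ) (c : S.C k), c ∈ S.In A k →
      h k c ∈ S.In ((fun y => x + R • (y - x)) '' A) k) ∧
    (∀ (A : Set E) (k : ℕ) (c : S.C k), c ∈ S.In A k →
      P k c ∈ S.In {z | ∃ s ∈ Icc (1 : ℝ) R, ∃ y ∈ A, z = x + s • (y - x)} (k + 1))

variable {S : ChTh E}

lemma exp_compl {B : Set E} {x : E} (hB : StarConvex ℝ x B) {y : E} (hy : y ∉ B) {s : ℝ}
    (hs : 1 ≤ s) : x + s • (y - x) ∉ B := by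
  intro hz
  apply hy
  have h0 : 0 < s := by linarith
  have h1 : (1 - s⁻¹) • x + s⁻¹ • (x + s • (y - x)) = y := by
    rw [smul_add, smul_smul, inv_mul_cancel₀ h0.ne', one_smul, sub_smul, one_smul]
    abel
  rw [← h1]
  have h2 : s⁻¹ ≤ 1 := inv_le_one_of_one_le₀ hs
  exact hB hz (by linarith) (by positivity) (by ring)

lemma exp_far {B L : Set E} (hB : IsCompact B) (hL : IsCompact L) {x : E} (hx : x ∉ L) :
    ∃ R : ℝ, 1 ≤ R ∧ ∀ y ∈ L, x + R • (y - x) ∉ B := by
  rcases L.eq_empty_or_nonempty with h | hne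
  · exact ⟨1, le_rfl, by simp [h]⟩
  obtain ⟨y0, hy0, hmin⟩ := hL.exists_isMinOn hne (f := fun y => ‖y - x‖) (by fun_prop)
  obtain ⟨M, hM⟩ := hB.isBounded.exists_norm_le
  have h0 : 0 < ‖y0 - x‖ := by
    rw [norm_pos_iff, sub_ne_zero]; rintro rfl; exact hx hy0
  refine ⟨max 1 ((M + ‖x‖ + 1) / ‖y0 - x‖), le_max_left _ _, ?_⟩
  intro y hy hc
  have h1 := hM _ hc
  have h2 : ‖y0 - x‖ ≤ ‖y - x‖ := hmin hy
  set R := max 1 ((M + ‖x‖ + 1) / ‖y0 - x‖) with hR
  have hRpos : 0 < R := lt_of_lt_of_le one_pos (le_max_left _ _)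
  have h3 : M + ‖x‖ + 1 ≤ R * ‖y0 - x‖ := by
    have := le_max_right 1 ((M + ‖x‖ + 1) / ‖y0 - x‖)
    rw [← hR, div_le_iff₀ h0] at this
    exact this
  have h4 : ‖R • (y - x)‖ = R * ‖y - x‖ := by
    rw [norm_smul, Real.norm_eq_abs, abs_of_pos hRpos]
  have h5 : ‖R • (y - x)‖ ≤ ‖x + R • (y - x)‖ + ‖x‖ := by
    calc ‖R • (y - x)‖ = ‖(x + R • (y - x)) - x‖ := by congr 1; abel
      _ ≤ _ := norm_sub_le _ _
  have h6 : R * ‖y0 - x‖ ≤ R * ‖y - x‖ := by gcongr
  rw [h4] at h5
  linarith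

/-- base case: a star-shaped compact set -/
lemma null_star (hE : HasExp S) {B : Set E} {x : E} (hB : StarConvex ℝ x B) (hBc : IsCompact B)
    {k : ℕ} {w : S.C (k + 1)} (hw : S.d k w ∈ S.In Bᶜ k)
    (h : S.Null {x} (k + 1) w) : S.Null B (k + 1) w := by
  obtain ⟨u, v, hv, e⟩ := h
  obtain ⟨L, hL, hLc, hvL⟩ := S.cpt hv
  have hxL : x ∉ L := fun h => hL h rfl
  obtain ⟨R, hR, hfar⟩ := exp_far hBc hLc hxL
  obtain ⟨h, P, h1, h2, h3⟩ := hE x R hR
  have hdv : S.d k v ∈ S.In Bᶜ k := by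
    have : S.d k v = S.d k w := by rw [e, map_add, S.dd, zero_add]
    rw [this]; exact hw
  have e1 := h1 k v
  refine ⟨u + P (k + 1) v, h (k + 1) v + P k (S.d k v), ?_, ?_⟩
  · refine AddSubgroup.add_mem _ (S.In_mono _ ?_ (h2 L _ _ hvL)) (S.In_mono _ ?_ (h3 Bᶜ _ _ hdv))
    · rintro _ ⟨y, hy, rfl⟩
      exact hfar y hy
    · rintro _ ⟨s, hs, y, hy, rfl⟩
      exact exp_compl hB hy hs.1
  · rw [e, map_add]
    have e2 : v = S.d (k + 1) (P (k + 1) v) + P k (S.d k v) + h (k + 1) v := by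
      have e3 : v + h (k + 1) v = S.d (k + 1) (P (k + 1) v) + P k (S.d k v) := by
        exact (add_comm _ _).trans e1
      exact eq_of_add e3
    calc S.d (k + 1) u + v
        = S.d (k + 1) u + (S.d (k + 1) (P (k + 1) v) + P k (S.d k v) + h (k + 1) v) := by
          rw [← e2]
      _ = _ := by abel

/-- base case: a convex compact set -/
lemma null_convex (hE : HasExp S) {B : Set E} (hB : Convex ℝ B) (hBc : IsCompact B) {x : E}
    (hx : x ∈ B) {k : ℕ} {w : S.C (k + 1)} (hw : S.d k w ∈ S.In Bᶜ k)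
    (h : S.Null {x} (k + 1) w) : S.Null B (k + 1) w :=
  null_star hE (hB.starConvex hx) hBc hw h

/-- finite unions of convex compact sets -/
inductive CU : ℕ → Set E → Prop
  | zero : CU 0 ∅
  | succ {m : ℕ} {A B : Set E} : CU m A → Convex ℝ B → IsCompact B → CU (m + 1) (A ∪ B)

lemma CU.isCompact {m : ℕ} {A : Set E} (h : CU m A) : IsCompact A := by
  induction h with
  | zero => exact isCompact_empty
  | succ _ _ hB ih => exact ih.union hB

lemma CU.inter {m : ℕ} {A : Set E} (h : CU m A) {C : Set E} (hC : Convex ℝ C)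
    (hCc : IsCompact C) : CU m (A ∩ C) := by
  induction h with
  | zero => rw [empty_inter]; exact CU.zero
  | succ _ hB hBc ih =>
    rw [union_inter_distrib_right]
    exact CU.succ ih (hB.inter hC) (hBc.inter hCc)

lemma van_convex (hE : HasExp S) {k : ℕ} (hv : ∀ x : E, S.Van {x} k) {B : Set E}
    (hB : Convex ℝ B) (hBc : IsCompact B) : S.Van B k := by
  intro w hw
  rcases B.eq_empty_or_nonempty with h | ⟨x, hx⟩
  · subst h; exact Null.empty w
  · refine null_convex hE hB hBc hx hw (hv x w ?_)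
    exact S.In_mono k (compl_subset_compl.2 (singleton_subset_iff.2 hx)) hw

lemma van_CU (hE : HasExp S) {n : ℕ} (hv : ∀ k, n ≤ k → ∀ x : E, S.Van {x} k) :
    ∀ (m : ℕ) (A : Set E), CU m A → ∀ k, n ≤ k → S.Van A k := by
  intro m
  induction m with
  | zero =>
    intro A hA k _ w _
    cases hA
    exact Null.empty w
  | succ m ih =>
    intro A hA k hk
    cases hA with
    | succ h1 hB hBc =>
      refine Van.union h1.isCompact.isClosed hBc.isClosed (ih _ h1 k hk)
        (van_convex hE (hv k hk) hB hBc) (ih _ (h1.inter hB hBc) (k + 1) (by omega))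

lemma cu_balls (hp : ∀ (x : E) (r : ℝ), IsCompact (Metric.closedBall x r)) (t : Finset E)
    (r : ℝ) : ∃ m, CU m (⋃ x ∈ t, Metric.closedBall x r) := by
  classical
  induction t using Finset.induction_on with
  | empty => exact ⟨0, by simpa using CU.zero⟩
  | insert a s ha ih =>
    obtain ⟨m, hm⟩ := ih
    refine ⟨m + 1, ?_⟩
    rw [Finset.set_biUnion_insert, union_comm]
    exact CU.succ hm (convex_closedBall a r) (hp a r)

/-- **M5(b)** : over an arbitrary compact set, in degree `k + 1 = n`. -/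
theorem null_compact (hp : ∀ (x : E) (r : ℝ), IsCompact (Metric.closedBall x r))
    (hE : HasExp S) {k : ℕ} (hv : ∀ j, k + 1 ≤ j → ∀ x : E, S.Van {x} j)
    {K : Set E} (hK : IsCompact K) {w : S.C (k + 1)} (hw : S.d k w ∈ S.In Kᶜ k)
    (h : ∀ x ∈ K, S.Null {x} (k + 1) w) : S.Null K (k + 1) w := by
  classical
  obtain ⟨L, hL, hLc, hwL⟩ := S.cpt hw
  have hKL : K ⊆ Lᶜ := by
    intro y hy hyL
    exact hL hyL hy
  obtain ⟨δ, hδ, hthick⟩ := hK.exists_thickening_subset_open hLc.isClosed.isOpen_compl hKL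
  obtain ⟨t, ht, hcov⟩ := hK.elim_nhds_subcover (fun x => Metric.closedBall x (δ / 2))
    (fun x _ => Metric.closedBall_mem_nhds x (by linarith))
  have key : ∀ s : Finset E, s ⊆ t → S.Null (⋃ x ∈ s, Metric.closedBall x (δ / 2)) (k + 1) w := by
    intro s
    induction s using Finset.induction_on with
    | empty => intro _; simpa using (Null.empty w : S.Null ∅ (k + 1) w)
    | insert a s ha ih =>
      intro hs
      rw [Finset.set_biUnion_insert, union_comm]
      obtain ⟨m, hm⟩ := cu_balls hp s (δ / 2)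
      have hat : a ∈ t := hs (Finset.mem_insert_self a s)
      refine Null.union hm.isCompact.isClosed (hp a _).isClosed
        (ih (fun x hx => hs (Finset.mem_insert_of_mem hx))) ?_ ?_
      · refine null_convex hE (convex_closedBall a _) (hp a _)
          (Metric.mem_closedBall_self (by linarith)) ?_ (h a (ht a hat))
        refine S.In_mono k ?_ hwL
        intro y hyL hy
        have : y ∈ Metric.thickening δ K := by
          rw [Metric.mem_thickening_iff]
          exact ⟨a, ht a hat, lt_of_le_of_lt (Metric.mem_closedBall.1 hy) (by linarith)⟩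
        exact hthick this hyL
      · exact van_CU hE hv m _ (hm.inter (convex_closedBall a _) (hp a _)) (k + 1) le_rfl
  refine (key t (Finset.Subset.refl t)).mono hcov

end Crest.Agent.R224.TM
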