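/-
R224 / topological half, modules M5 + M6 (helper886): final abstract statements.
-/
import Mathlib
import Crest.Agent.R224.MVRn
import Crest.Agent.R224.MVFund

set_option autoImplicit false

namespace Crest.Agent.R224.TM

open Set ChTh

variable {M : Type*} [TopologicalSpace M] {E : Type*} [NormedAddCommGroup E] [NormedSpace ℝ E]

/-- Local input on the model space `E` (of dimension `k + 1`). -/
structure Model (S' : ChTh E) (k : ℕ) : Prop where
  exp : HasExp S'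
  van : ∀ j, k + 1 ≤ j → ∀ x : E, S'.Van {x} j
  two : ∀ (y : E) (w w' : S'.C (k + 1)), S'.d k w ∈ S'.In {y}ᶜ k → S'.d k w' ∈ S'.In {y}ᶜ k →
      ¬ S'.Null {y} (k + 1) w → ¬ S'.Null {y} (k + 1) w' → S'.Null {y} (k + 1) (w + w')
  simp : ∀ (y : E) (r : ℝ), 0 < r → ∃ w : S'.C (k + 1), w ∈ S'.In (Metric.ball y r) (k + 1) ∧
      S'.d k w ∈ S'.In {y}ᶜ k ∧ ¬ S'.Null {y} (k + 1) w

lemma Model.fund {S' : ChTh E} {k : ℕ} (H : Model S' k)
    (hp : ∀ (x : E) (r : ℝ), IsCompact (Metric.closedBall x r)) (y : E) (r : ℝ) (hr : 0 < r) :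
    ∃ ρ : ℝ, 0 < ρ ∧ ρ < r ∧ ∃ w : S'.C (k + 1), w ∈ S'.In (Metric.ball y r) (k + 1) ∧
      Fund S' (Metric.closedBall y ρ) k w := by
  obtain ⟨w, hw, hd, hn⟩ := H.simp y r hr
  obtain ⟨L, hL, hLc, hdL⟩ := S'.cpt hd
  have hy : y ∈ Lᶜ := fun h => hL h rfl
  obtain ⟨ε, hε, hball⟩ := Metric.isOpen_iff.1 hLc.isClosed.isOpen_compl y hy
  refine ⟨min (ε / 2) (r / 2), lt_min (by linarith) (by linarith),
    lt_of_le_of_lt (min_le_right _ _) (by linarith), w, hw, ?_, ?_⟩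
  · refine S'.In_mono _ ?_ hdL
    intro z hz hzb
    refine hball ?_ hz
    rw [Metric.mem_ball]
    exact lt_of_le_of_lt (Metric.mem_closedBall.1 hzb)
      (lt_of_le_of_lt (min_le_left _ _) (by linarith))
  · intro z hz hnz
    apply hn
    have hdB : S'.d k w ∈ S'.In (Metric.closedBall y (min (ε / 2) (r / 2)))ᶜ k := by
      refine S'.In_mono _ ?_ hdL
      intro z hz hzb
      refine hball ?_ hz
      rw [Metric.mem_ball]
      exact lt_of_le_of_lt (Metric.mem_closedBall.1 hzb)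
        (lt_of_le_of_lt (min_le_left _ _) (by linarith))
    have := null_convex H.exp (convex_closedBall y _) (hp y _) hz hdB hnz
    refine this.mono (singleton_subset_iff.2 (Metric.mem_closedBall_self ?_))
    exact le_min (by linarith) (by linarith)

/-- **M5** for a Hausdorff space, over compact subsets of a chart domain. -/
theorem null_of_chart [T2Space M] {S : ChTh M} {S' : ChTh E} {k : ℕ} (H : Model S' k)
    (hp : ∀ (x : E) (r : ℝ), IsCompact (Metric.closedBall x r)) {V : Set M} {W : Set E}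
    {φ : M → E} {ψ : E → M} (F : ChartTr S S' V W φ ψ) {K : Set M} (hK : IsCompact K)
    (hKV : K ⊆ V) {w : S.C (k + 1)} (hw : S.d k w ∈ S.In Kᶜ k)
    (h : ∀ y ∈ K, S.Null {y} (k + 1) w) : S.Null K (k + 1) w :=
  F.null_compact (fun _ hK' _ hw' h' => null_compact hp H.exp H.van hK' hw' h') hK hKV hw h

/-- two non-null local classes add up to a null one -/
theorem two_of_chart [T2Space M] {S : ChTh M} {S' : ChTh E} {k : ℕ} (H : Model S' k)
    {V : Set M} {W : Set E}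
    {φ : M → E} {ψ : E → M} (F : ChartTr S S' V W φ ψ) {x : M} (hx : x ∈ V)
    (w w' : S.C (k + 1)) (hw : S.d k w ∈ S.In {x}ᶜ k)
    (hw' : S.d k w' ∈ S.In {x}ᶜ k) (h1 : ¬ S.Null {x} (k + 1) w)
    (h2 : ¬ S.Null {x} (k + 1) w') : S.Null {x} (k + 1) (w + w') :=
  F.L1 H.two hx w w' hw hw' h1 h2

/-- **M6** : a compact Hausdorff space with charts has a mod 2 fundamental cycle. -/
theorem exists_fundamental [T2Space M] [CompactSpace M] (S : ChTh M) (S' : ChTh E) {k : ℕ}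
    (H : Model S' k) (hp : ∀ (x : E) (r : ℝ), IsCompact (Metric.closedBall x r))
    (hch : ∀ x : M, ∃ (V : Set M) (W : Set E) (φ : M → E) (ψ : E → M), x ∈ V ∧
      Nonempty (ChartTr S S' V W φ ψ)) :
    ∃ μ : S.C (k + 1), S.d k μ ∈ S.In ∅ k ∧ ∀ y : M, ¬ S.Null {y} (k + 1) μ := by
  have h := exists_fund (S := S) (k := k) ?_ ?_
  · obtain ⟨μ, h1, h2⟩ := h
    exact ⟨μ, by rwa [compl_univ] at h1, fun y => h2 y (mem_univ y)⟩
  · intro x w w' hw hw' h1 h2
    obtain ⟨V, W, φ, ψ, hxV, ⟨F⟩⟩ := hch x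
    exact two_of_chart H F hxV w w' hw hw' h1 h2
  · intro x
    obtain ⟨V, W, φ, ψ, hxV, ⟨F⟩⟩ := hch x
    obtain ⟨r, hr, hball⟩ := Metric.isOpen_iff.1 F.hW (φ x) (F.φV x hxV)
    obtain ⟨ρ, hρ, hρr, w, hw, hF⟩ := H.fund hp (φ x) r hr
    have hBW : Metric.closedBall (φ x) ρ ⊆ W :=
      (Metric.closedBall_subset_ball hρr).trans hball
    have hBV : ψ '' Metric.closedBall (φ x) ρ ⊆ V := by
      rintro _ ⟨y, hy, rfl⟩; exact F.ψW y (hBW hy)
    refine ⟨ψ '' Metric.closedBall (φ x) ρ,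
      (hp _ _).image_of_continuousOn (F.ψc.mono hBW), ?_,
      ⟨_, F.fund (hp _ _) hBW (S'.In_mono _ hball hw) hF⟩, ?_⟩
    · have hcont : ContinuousAt φ x := F.φc.continuousAt (F.hV.mem_nhds hxV)
      filter_upwards [F.hV.mem_nhds hxV,
        hcont.preimage_mem_nhds (Metric.closedBall_mem_nhds (φ x) hρ)] with z hz hz2
      exact ⟨φ z, hz2, F.ψφ z hz⟩
    · intro K hK hKB w hw h
      exact null_of_chart H hp F hK (hKB.trans hBV) hw h

end Crest.Agent.R224.TM
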