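/- R224 / S0346 : complete assembly (helper36, from helper276's Group/Main). -/
import Crest.Agent.R224.Group
import Crest.Agent.R224.Main
import Crest.Agent.R224.NodeThmB
import Crest.Agent.R224.NodeSep
import Crest.Agent.R224.PrincM
import Crest.Agent.R224.BCore
import Crest.Agent.R224.CutFam2
import Crest.Agent.R224.T.TopFinal

set_option autoImplicit false

namespace Crest.Agent.R224

theorem nThmB_all (s : Sys) : NThmB s :=
  nThmB s (pConn s) (pHalf s (pConn s)) (pAlg s) nPrinM nCore
    (nFam s (pConn s) (pHalf s (pConn s)) (pAlg s) (pLim s) (pBal s) (nTriple s))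

theorem groupHalf_all : GroupHalf := groupHalf_of' nThmB_all pSep

end Crest.Agent.R224
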