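import Crest.Agent.R224.Iface

/-!
# R224, node NHarm, part A (helper543): elementary facts on Dirichlet functions, functions
vanishing at infinity, harmonic functions, maximum principle, Harnack inequality.
-/

set_option autoImplicit false
set_option linter.unusedSectionVars false

noncomputable section

open Set Filter Topology

namespace Crest.Agent.R224.Roy

variable {G : Type} [Group G]

def Harm (F : Finset G) (h : G → ℝ) : Prop := ∀ x, Pop F h x = h x

def C0 (f : G → ℝ) : Prop := ∀ ε > 0, {x | ε ≤ |f x|}.Finite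

def Bdd (f : G → ℝ) : Prop := ∃ C, ∀ x, |f x| ≤ C

section Dirichlet

variable {F : Finset G}

lemma dir_of_le₂ {f g k : G → ℝ} (hg : Dir F g) (hk : Dir F k) (C : ℝ)
    (h : ∀ x, ∀ s ∈ F, |f (x * s) - f x| ≤ C * (|g (x * s) - g x| + |k (x * s) - k x|)) :
    Dir F f := by
  have h1 : Summable fun p : G × F => C ^ 2 * (2 * ((g (p.1 * (p.2 : G)) - g p.1) ^ 2 +
      (k (p.1 * (p.2 : G)) - k p.1) ^ 2)) :=
    ((hg.add hk).mul_left 2).mul_left _
  refine Summable.of_nonneg_of_le (fun p => sq_nonneg _) (fun p => ?_) h1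
  have h2 := h p.1 p.2 p.2.2
  set a := g (p.1 * (p.2 : G)) - g p.1
  set b := k (p.1 * (p.2 : G)) - k p.1
  set c := f (p.1 * (p.2 : G)) - f p.1
  have h3 : c ^ 2 ≤ (C * (|a| + |b|)) ^ 2 := by
    rw [← sq_abs c]
    exact pow_le_pow_left₀ (abs_nonneg _) h2 2
  have h4 : (|a| + |b|) ^ 2 ≤ 2 * (a ^ 2 + b ^ 2) := by
    have := sq_nonneg (|a| - |b|)
    nlinarith [sq_abs a, sq_abs b]
  calc c ^ 2 ≤ C ^ 2 * (|a| + |b|) ^ 2 := by rw [← mul_pow]; exact h3
    _ ≤ C ^ 2 * (2 * (a ^ 2 + b ^ 2)) := mul_le_mul_of_nonneg_left h4 (sq_nonneg _)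

lemma dir_of_le {f g : G → ℝ} (hg : Dir F g) (C : ℝ)
    (h : ∀ x, ∀ s ∈ F, |f (x * s) - f x| ≤ C * |g (x * s) - g x|) : Dir F f := by
  refine dir_of_le₂ hg hg (C / 2) fun x s hs => (h x s hs).trans (le_of_eq ?_)
  ring

lemma dir_const (c : ℝ) : Dir F (fun _ => c) := by
  simp [Dir, summable_zero]

lemma dir_add {f g : G → ℝ} (hf : Dir F f) (hg : Dir F g) : Dir F (fun x => f x + g x) := by
  refine dir_of_le₂ hf hg 1 fun x s _ => ?_
  rw [one_mul]
  calc |f (x * s) + g (x * s) - (f x + g x)|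
      = |(f (x * s) - f x) + (g (x * s) - g x)| := by ring_nf
    _ ≤ _ := abs_add_le _ _

lemma dir_const_mul {f : G → ℝ} (hf : Dir F f) (c : ℝ) : Dir F (fun x => c * f x) := by
  refine dir_of_le hf |c| fun x s _ => ?_
  rw [← abs_mul]
  apply le_of_eq
  ring_nf

lemma dir_neg {f : G → ℝ} (hf : Dir F f) : Dir F (fun x => - f x) := by
  simpa using dir_const_mul hf (-1)

lemma dir_sub {f g : G → ℝ} (hf : Dir F f) (hg : Dir F g) : Dir F (fun x => f x - g x) := by
  simpa [sub_eq_add_neg] using dir_add hf (dir_neg hg)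

lemma dir_mul {f g : G → ℝ} (hf : Dir F f) (hg : Dir F g) (bf : Bdd f) (bg : Bdd g) :
    Dir F (fun x => f x * g x) := by
  obtain ⟨A, hA⟩ := bf
  obtain ⟨B, hB⟩ := bg
  refine dir_of_le₂ hf hg (|A| + |B|) fun x s _ => ?_
  have e : f (x * s) * g (x * s) - f x * g x =
      (f (x * s) - f x) * g (x * s) + f x * (g (x * s) - g x) := by ring
  rw [e]
  refine (abs_add_le _ _).trans ?_
  rw [abs_mul, abs_mul]
  have h1 : |g (x * s)| ≤ |B| := (hB _).trans (le_abs_self _)
  have h2 : |f x| ≤ |A| := (hA _).trans (le_abs_self _)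
  nlinarith [abs_nonneg (f (x * s) - f x), abs_nonneg (g (x * s) - g x), abs_nonneg A,
    abs_nonneg B, mul_le_mul_of_nonneg_left h1 (abs_nonneg (f (x * s) - f x)),
    mul_le_mul_of_nonneg_right h2 (abs_nonneg (g (x * s) - g x)),
    mul_nonneg (abs_nonneg A) (abs_nonneg (f (x * s) - f x)),
    mul_nonneg (abs_nonneg B) (abs_nonneg (g (x * s) - g x))]

lemma dir_shift {f : G → ℝ} (hf : Dir F f) (g : G) : Dir F (fun x => f (g * x)) := by
  unfold Dir at *
  have e : (fun p : G × F => (f (g * (p.1 * (p.2 : G))) - f (g * p.1)) ^ 2) =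
      (fun p : G × F => (f (p.1 * (p.2 : G)) - f p.1) ^ 2) ∘
        (Equiv.prodCongr (Equiv.mulLeft g) (Equiv.refl F)) := by
    funext p
    simp [mul_assoc]
  rw [e]
  exact (Equiv.summable_iff _).2 hf

/-- an `ℓ²` function is Dirichlet. -/
lemma dir_of_sq {f : G → ℝ} (hf : Summable fun x => (f x) ^ 2) : Dir F f := by
  have h1 : Summable fun p : G × F => (f p.1) ^ 2 := by
    have : Summable fun p : F × G => (f p.2) ^ 2 := by
      rw [summable_prod_of_nonneg (fun p => sq_nonneg _)]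
      exact ⟨fun _ => hf, Summable.of_finite⟩
    exact (Equiv.prodComm G F).summable_iff.2 this
  have h2 : Summable fun p : G × F => (f (p.1 * (p.2 : G))) ^ 2 := by
    have : Summable fun p : F × G => (f (p.2 * (p.1 : G))) ^ 2 := by
      rw [summable_prod_of_nonneg (fun p => sq_nonneg _)]
      refine ⟨fun s => ?_, Summable.of_finite⟩
      exact (Equiv.mulRight (s : G)).summable_iff (f := fun x => (f x) ^ 2) |>.2 hf
    exact (Equiv.prodComm G F).summable_iff.2 this
  refine Summable.of_nonneg_of_le (fun p => sq_nonneg _) (fun p => ?_) ((h1.add h2).mul_left 2)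
  nlinarith [sq_nonneg (f (p.1 * (p.2 : G)) + f p.1)]

end Dirichlet

section C0

lemma C0.of_sq {f : G → ℝ} (hf : Summable fun x => (f x) ^ 2) : C0 f := by
  intro ε hε
  have h := hf.tendsto_cofinite_zero
  have h2 : ∀ᶠ x in cofinite, (f x) ^ 2 < ε ^ 2 := h.eventually (gt_mem_nhds (by positivity))
  rw [eventually_cofinite] at h2
  refine h2.subset fun x hx => ?_
  simp only [mem_ofPred_eq, not_lt] at *
  rw [← sq_abs (f x)]
  exact pow_le_pow_left₀ hε.le hx 2

lemma C0.add {f g : G → ℝ} (hf : C0 f) (hg : C0 g) : C0 (fun x => f x + g x) := by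
  intro ε hε
  refine ((hf (ε / 2) (by positivity)).union (hg (ε / 2) (by positivity))).subset fun x hx => ?_
  simp only [mem_ofPred_eq, mem_union] at *
  by_contra hcon
  push Not at hcon
  have := abs_add_le (f x) (g x)
  linarith [hcon.1, hcon.2]

lemma C0.const_mul {f : G → ℝ} (hf : C0 f) (c : ℝ) : C0 (fun x => c * f x) := by
  intro ε hε
  refine (hf (ε / (|c| + 1)) (by positivity)).subset fun x hx => ?_
  simp only [mem_ofPred_eq] at *
  rw [abs_mul] at hx
  rw [div_le_iff₀ (by positivity)]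
  nlinarith [abs_nonneg (f x), abs_nonneg c]

lemma C0.neg {f : G → ℝ} (hf : C0 f) : C0 (fun x => - f x) := by
  simpa using hf.const_mul (-1)

lemma C0.sub {f g : G → ℝ} (hf : C0 f) (hg : C0 g) : C0 (fun x => f x - g x) := by
  simpa [sub_eq_add_neg] using hf.add hg.neg

lemma C0.zero : C0 (fun _ : G => (0 : ℝ)) := by
  intro ε hε
  simp [hε.not_ge]

lemma C0.shift {f : G → ℝ} (hf : C0 f) (g : G) : C0 (fun x => f (g * x)) := by
  intro ε hε
  have := (hf ε hε).preimage ((mul_right_injective g).injOn)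
  exact this

/-- uniform limits of `C0` functions. -/
lemma C0.of_approx {f : G → ℝ} (h : ∀ ε > 0, ∃ g, C0 g ∧ ∀ x, |f x - g x| ≤ ε) : C0 f := by
  intro ε hε
  obtain ⟨g, hg, hfg⟩ := h (ε / 2) (by positivity)
  refine (hg (ε / 2) (by positivity)).subset fun x hx => ?_
  simp only [mem_ofPred_eq] at *
  have h1 := hfg x
  have h2 : |f x| ≤ |f x - g x| + |g x| := by
    have := abs_add_le (f x - g x) (g x)
    simpa using this
  linarith

lemma C0.tendsto {f : G → ℝ} (hf : C0 f) : Tendsto f cofinite (𝓝 0) := by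
  rw [Metric.tendsto_nhds]
  intro ε hε
  rw [eventually_cofinite]
  simpa [Real.dist_eq, not_lt] using hf ε hε

end C0

section MaxPrinciple

variable {F : Finset G}

lemma univ_of_closed (hS : Std F) {B : Set G} (hB : B.Nonempty)
    (hcl : ∀ x ∈ B, ∀ s ∈ F, x * s ∈ B) : B = univ := by
  have key : ∀ g : G, (∀ x ∈ B, x * g ∈ B) ∧ (∀ x ∈ B, x * g⁻¹ ∈ B) := by
    intro g
    have hg : g ∈ Subgroup.closure (F : Set G) := by rw [hS.gen]; trivial
    induction hg using Subgroup.closure_induction with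
    | mem x hx =>
      exact ⟨fun y hy => hcl y hy x hx, fun y hy => hcl y hy _ (hS.inv x hx)⟩
    | one => simp
    | mul a b _ _ ha hb =>
      refine ⟨fun y hy => ?_, fun y hy => ?_⟩
      · rw [← mul_assoc]; exact hb.1 _ (ha.1 y hy)
      · rw [mul_inv_rev, ← mul_assoc]; exact ha.2 _ (hb.2 y hy)
    | inv a _ ha => exact ⟨ha.2, by simpa using ha.1⟩
  obtain ⟨b, hb⟩ := hB
  ext g
  simp only [mem_univ, iff_true]
  have := (key (b⁻¹ * g)).1 b hb
  simpa using this

/-- maximum principle. -/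
theorem max_principle [Infinite G] (hS : Std F) {w : G → ℝ}
    (hw : ∀ x, 0 < w x → w x ≤ Pop F w x) (hfin : ∀ ε > 0, {x | ε ≤ w x}.Finite) :
    ∀ x, w x ≤ 0 := by
  by_contra hcon
  push Not at hcon
  obtain ⟨x0, hx0⟩ := hcon
  obtain ⟨x1, hx1, hmax⟩ := (hfin (w x0) hx0).exists_maximalFor w _ ⟨x0, le_refl (w x0)⟩
  have hle : ∀ x, w x ≤ w x1 := by
    intro x
    by_cases hx : w x0 ≤ w x
    · by_contra h
      exact h ((hmax hx) (le_of_lt (not_le.1 h)))
    · exact (not_le.1 hx).le.trans hx1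
  have hpos : 0 < w x1 := hx0.trans_le hx1
  have hcard : (0 : ℝ) < F.card := by exact_mod_cast Finset.card_pos.2 ⟨1, hS.one⟩
  have hB : {x | w x = w x1} = univ := by
    refine univ_of_closed hS ⟨x1, rfl⟩ fun x hx s hs => ?_
    simp only [mem_ofPred_eq] at *
    have h1 := hw x (by rw [hx]; exact hpos)
    unfold Pop at h1
    rw [hx] at h1
    by_contra hne
    have hlt : w (x * s) < w x1 := lt_of_le_of_ne (hle _) hne
    have h2 : ∑ t ∈ F, w (x * t) < ∑ _t ∈ F, w x1 :=
      Finset.sum_lt_sum (fun t _ => hle _) ⟨s, hs, hlt⟩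
    rw [Finset.sum_const, nsmul_eq_mul] at h2
    have h3 : (∑ t ∈ F, w (x * t)) / (F.card : ℝ) < w x1 := by
      rw [div_lt_iff₀ hcard, mul_comm]
      exact h2
    linarith
  have : (univ : Set G).Finite := by
    refine (hfin (w x1) hpos).subset fun x _ => ?_
    have hx : x ∈ {x | w x = w x1} := by rw [hB]; trivial
    exact le_of_eq hx.symm
  exact Set.infinite_univ this

lemma Pop_add (f g : G → ℝ) (x : G) :
    Pop F (fun x => f x + g x) x = Pop F f x + Pop F g x := by
  simp [Pop, Finset.sum_add_distrib, add_div]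

lemma Pop_const_mul (c : ℝ) (f : G → ℝ) (x : G) :
    Pop F (fun x => c * f x) x = c * Pop F f x := by
  simp only [Pop, ← Finset.mul_sum, mul_div_assoc]

lemma Pop_const (hS : Std F) (c : ℝ) (x : G) : Pop F (fun _ => c) x = c := by
  have hcard : (F.card : ℝ) ≠ 0 := by exact_mod_cast (Finset.card_pos.2 ⟨1, hS.one⟩).ne'
  simp only [Pop, Finset.sum_const, nsmul_eq_mul]
  field_simp

lemma Pop_shift (f : G → ℝ) (g x : G) :
    Pop F (fun x => f (g * x)) x = Pop F f (g * x) := by
  simp [Pop, mul_assoc]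

lemma Harm.add {f g : G → ℝ} (hf : Harm F f) (hg : Harm F g) : Harm F (fun x => f x + g x) := by
  intro x; rw [Pop_add, hf x, hg x]

lemma Harm.const_mul {f : G → ℝ} (hf : Harm F f) (c : ℝ) : Harm F (fun x => c * f x) := by
  intro x; rw [Pop_const_mul, hf x]

lemma Harm.neg {f : G → ℝ} (hf : Harm F f) : Harm F (fun x => - f x) := by
  simpa using hf.const_mul (-1)

lemma Harm.sub {f g : G → ℝ} (hf : Harm F f) (hg : Harm F g) : Harm F (fun x => f x - g x) := by
  simpa [sub_eq_add_neg] using hf.add hg.neg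

lemma Harm.const (hS : Std F) (c : ℝ) : Harm F (fun _ => c) := fun x => Pop_const hS c x

lemma Harm.shift {f : G → ℝ} (hf : Harm F f) (g : G) : Harm F (fun x => f (g * x)) := by
  intro x; rw [Pop_shift, hf]

/-- harmonic + bounded below by a `C0` function implies nonnegative. -/
lemma Harm.nonneg [Infinite G] (hS : Std F) {h r : G → ℝ} (hh : Harm F h)
    (hr : C0 r) (hle : ∀ x, r x ≤ h x) : ∀ x, 0 ≤ h x := by
  intro x
  have := max_principle hS (w := fun x => - h x) (fun y _ => (hh.neg y).ge)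
    (fun ε hε => (hr ε hε).subset fun y hy => ?_) x
  · linarith
  · simp only [mem_ofPred_eq] at *
    have h1 := hle y
    have h2 := neg_abs_le (r y)
    linarith

lemma Harm.eq_zero [Infinite G] (hS : Std F) {h : G → ℝ} (hh : Harm F h)
    (h0 : C0 h) : ∀ x, h x = 0 := by
  intro x
  have h1 := hh.nonneg hS h0 (fun _ => le_rfl) x
  have h2 := hh.neg.nonneg hS h0.neg (fun _ => le_rfl) x
  linarith

/-- Harnack inequality. -/
lemma Harm.harnack (hS : Std F) {h : G → ℝ} (hh : Harm F h) (h0 : ∀ x, 0 ≤ h x)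
    (x : G) {s : G} (hs : s ∈ F) : h (x * s) ≤ F.card * h x := by
  have hcard : (0 : ℝ) < F.card := by exact_mod_cast Finset.card_pos.2 ⟨1, hS.one⟩
  have h1 := hh x
  unfold Pop at h1
  rw [← h1, mul_div_cancel₀ _ hcard.ne']
  exact Finset.single_le_sum (f := fun t => h (x * t)) (fun t _ => h0 _) hs

end MaxPrinciple

end Crest.Agent.R224.Roy
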