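import Crest.Agent.R224.HarmA

/-!
# R224, node NHarm, part B (helper543): the harmonic part.
-/

set_option autoImplicit false
set_option linter.unusedSectionVars false

noncomputable section

open Set Filter Topology

namespace Crest.Agent.R224.Roy

variable {G : Type} [Group G] {F : Finset G}

/-- decomposability: `f = h + (C0 function)` with `h` harmonic. -/
def Dec (F : Finset G) (f : G → ℝ) : Prop := ∃ h, Harm F h ∧ C0 (fun x => f x - h x)

open Classical in
/-- the harmonic part. -/
def hp (F : Finset G) (f : G → ℝ) : G → ℝ :=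
  if h : Dec F f then Classical.choose h else 0

lemma Dec.harm {f : G → ℝ} (hf : Dec F f) : Harm F (hp F f) := by
  unfold hp; rw [dif_pos hf]; exact (Classical.choose_spec hf).1

lemma Dec.c0 {f : G → ℝ} (hf : Dec F f) : C0 (fun x => f x - hp F f x) := by
  unfold hp; rw [dif_pos hf]; exact (Classical.choose_spec hf).2

lemma Dec.add {f g : G → ℝ} (hf : Dec F f) (hg : Dec F g) : Dec F (fun x => f x + g x) := by
  refine ⟨_, hf.harm.add hg.harm, ?_⟩
  have := hf.c0.add hg.c0
  convert this using 2
  ring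

lemma Dec.const_mul {f : G → ℝ} (hf : Dec F f) (c : ℝ) : Dec F (fun x => c * f x) := by
  refine ⟨_, hf.harm.const_mul c, ?_⟩
  have := hf.c0.const_mul c
  convert this using 2
  ring

lemma Dec.shift {f : G → ℝ} (hf : Dec F f) (g : G) : Dec F (fun x => f (g * x)) :=
  ⟨_, hf.harm.shift g, hf.c0.shift g⟩

lemma Dec.const (hS : Std F) (c : ℝ) : Dec F (fun _ => c) := by
  refine ⟨_, Harm.const hS c, ?_⟩
  simpa using (C0.zero (G := G))

lemma Dec.of_c0 {f : G → ℝ} (hS : Std F) (hf : C0 f) : Dec F f := by
  refine ⟨_, Harm.const hS 0, ?_⟩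
  simpa using hf

section
variable [Infinite G] (hS : Std F)
include hS

lemma hp_unique {f h : G → ℝ} (hh : Harm F h) (h0 : C0 (fun x => f x - h x)) : hp F f = h := by
  have hf : Dec F f := ⟨h, hh, h0⟩
  have h2 : C0 (fun x => hp F f x - h x) := by
    have := h0.sub hf.c0
    convert this using 2
    ring
  funext x
  have h1 := (hf.harm.sub hh).eq_zero hS h2 x
  linarith

lemma hp_add {f g : G → ℝ} (hf : Dec F f) (hg : Dec F g) :
    hp F (fun x => f x + g x) = fun x => hp F f x + hp F g x := by
  refine hp_unique hS (hf.harm.add hg.harm) ?_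
  have := hf.c0.add hg.c0
  convert this using 2
  ring

lemma hp_const_mul {f : G → ℝ} (hf : Dec F f) (c : ℝ) :
    hp F (fun x => c * f x) = fun x => c * hp F f x := by
  refine hp_unique hS (hf.harm.const_mul c) ?_
  have := hf.c0.const_mul c
  convert this using 2
  ring

lemma hp_const (c : ℝ) : hp F (fun _ : G => c) = fun _ => c := by
  refine hp_unique hS (Harm.const hS c) ?_
  simpa using (C0.zero (G := G))

lemma hp_of_c0 {f : G → ℝ} (hf : C0 f) : hp F f = fun _ => 0 := by
  refine hp_unique hS (Harm.const hS 0) ?_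
  simpa using hf

lemma hp_of_harm {f : G → ℝ} (hf : Harm F f) : hp F f = f := by
  refine hp_unique hS hf ?_
  simpa using (C0.zero (G := G))

lemma hp_shift {f : G → ℝ} (hf : Dec F f) (g : G) :
    hp F (fun x => f (g * x)) = fun x => hp F f (g * x) :=
  hp_unique hS (hf.harm.shift g) (hf.c0.shift g)

lemma hp_nonneg {f : G → ℝ} (hf : Dec F f) (h0 : ∀ x, 0 ≤ f x) (x : G) : 0 ≤ hp F f x := by
  refine hf.harm.nonneg hS hf.c0.neg (fun y => ?_) x
  have := h0 y
  linarith

lemma hp_mono {f g : G → ℝ} (hf : Dec F f) (hg : Dec F g) (h : ∀ x, f x ≤ g x) (x : G) :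
    hp F f x ≤ hp F g x := by
  have h1 := hp_nonneg hS (hg.add (hf.const_mul (-1))) (fun y => by
    have := h y; linarith) x
  rw [hp_add hS hg (hf.const_mul (-1)), hp_const_mul hS hf] at h1
  simp only at h1
  linarith

lemma hp_abs_le {f : G → ℝ} (hf : Dec F f) {C : ℝ} (h : ∀ x, |f x| ≤ C) (x : G) :
    |hp F f x| ≤ C := by
  rw [abs_le]
  constructor
  · have := hp_mono hS (Dec.const hS (-C)) hf (fun y => (abs_le.1 (h y)).1) x
    rwa [hp_const hS] at this
  · have := hp_mono hS hf (Dec.const hS C) (fun y => (abs_le.1 (h y)).2) x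
    rwa [hp_const hS] at this

end

end Crest.Agent.R224.Roy
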