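import Crest.Agent.R224.HarmB

/-!
# R224, node NHarm, part C (helper543): every continuous function on the compactification has a
harmonic part; the harmonic measures.
-/

set_option autoImplicit false
set_option linter.unusedSectionVars false

noncomputable section

open Set Filter Topology MeasureTheory
open scoped BoundedContinuousFunction CompactlySupported

namespace Crest.Agent.R224.Roy

section approx

variable {G : Type} [Group G] {F : Finset G}

/-- `Dec` is closed under uniform limits. -/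
lemma Dec.of_approx [Infinite G] (hS : Std F) {f : G → ℝ}
    (h : ∀ ε > 0, ∃ g, Dec F g ∧ ∀ x, |f x - g x| ≤ ε) : Dec F f := by
  have h1 : ∀ n : ℕ, ∃ g, Dec F g ∧ ∀ x, |f x - g x| ≤ 1 / ((n : ℝ) + 1) := fun n =>
    h _ Nat.one_div_pos_of_nat
  choose g hg hfg using h1
  have hdist : ∀ m n : ℕ, ∀ x, |hp F (g m) x - hp F (g n) x| ≤
      1 / ((m : ℝ) + 1) + 1 / ((n : ℝ) + 1) := by
    intro m n x
    have h2 := hp_abs_le hS ((hg m).add ((hg n).const_mul (-1)))
      (C := 1 / ((m : ℝ) + 1) + 1 / ((n : ℝ) + 1)) (fun y => by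
        have e : g m y + -1 * g n y = (f y - g n y) - (f y - g m y) := by ring
        rw [e]
        have h3 := hfg m y
        have h4 := hfg n y
        have h5 := abs_sub (f y - g n y) (f y - g m y)
        linarith) x
    rw [hp_add hS (hg m) ((hg n).const_mul (-1)), hp_const_mul hS (hg n)] at h2
    have e : hp F (g m) x - hp F (g n) x = hp F (g m) x + -1 * hp F (g n) x := by ring
    rw [e]
    exact h2
  have hlim0 : Tendsto (fun n : ℕ => 1 / ((n : ℝ) + 1)) atTop (𝓝 0) :=
    tendsto_one_div_add_atTop_nhds_zero_nat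
  have hcau : ∀ x, CauchySeq fun n => hp F (g n) x := by
    intro x
    refine cauchySeq_of_le_tendsto_0 (fun n : ℕ => 2 * (1 / ((n : ℝ) + 1))) ?_ ?_
    · intro n m N hn hm
      rw [Real.dist_eq]
      refine (hdist n m x).trans ?_
      have a1 : 1 / ((n : ℝ) + 1) ≤ 1 / ((N : ℝ) + 1) := Nat.one_div_le_one_div hn
      have a2 : 1 / ((m : ℝ) + 1) ≤ 1 / ((N : ℝ) + 1) := Nat.one_div_le_one_div hm
      linarith
    · simpa using hlim0.const_mul 2
  have hex : ∀ x, ∃ l, Tendsto (fun n => hp F (g n) x) atTop (𝓝 l) := fun x =>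
    cauchySeq_tendsto_of_complete (hcau x)
  choose k hk using hex
  have hkg : ∀ n x, |k x - hp F (g n) x| ≤ 1 / ((n : ℝ) + 1) := by
    intro n x
    have h3 : Tendsto (fun m => |hp F (g m) x - hp F (g n) x|) atTop
        (𝓝 |k x - hp F (g n) x|) := ((hk x).sub_const _).abs
    have h4 : Tendsto (fun m : ℕ => 1 / ((m : ℝ) + 1) + 1 / ((n : ℝ) + 1)) atTop
        (𝓝 (0 + 1 / ((n : ℝ) + 1))) := hlim0.add_const _
    rw [zero_add] at h4
    exact le_of_tendsto_of_tendsto' h3 h4 (fun m => hdist m n x)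
  refine ⟨k, ?_, ?_⟩
  · intro x
    have h3 : Tendsto (fun n => Pop F (hp F (g n)) x) atTop (𝓝 (Pop F k x)) := by
      unfold Pop
      exact (tendsto_finsetSum _ fun s _ => hk (x * s)).div_const _
    have h4 : (fun n => Pop F (hp F (g n)) x) = fun n => hp F (g n) x := by
      funext n
      exact (hg n).harm x
    rw [h4] at h3
    exact tendsto_nhds_unique h3 (hk x)
  · refine C0.of_approx fun ε hε => ?_
    obtain ⟨n, hn⟩ := exists_nat_one_div_lt (half_pos hε)
    refine ⟨_, (hg n).c0, fun x => ?_⟩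
    have e : (f x - k x) - (g n x - hp F (g n) x) =
      (f x - g n x) - (k x - hp F (g n) x) := by ring
    rw [e]
    have h3 := abs_sub (f x - g n x) (k x - hp F (g n) x)
    have h4 := hfg n x
    have h5 := hkg n x
    linarith

end approx

section cont

variable {G : Type} [Group G] {S : Finset G} {Z : Type} [MetricSpace Z] [CompactSpace Z]
  [MulAction G Z] {ι : G → Z} {𝓕 : Set (Z → ℝ)}

open Classical in
/-- indicator of an isolated point -/
def delta (hB : IsBdry S ι 𝓕) (g : G) : C(Z, ℝ) where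
  toFun := fun z => if z = ι g then 1 else 0
  continuous_toFun := by
    have h : IsClopen ({ι g} : Set Z) := ⟨isClosed_singleton, hB.isol g⟩
    have h2 : (fun z : Z => if z = ι g then (1 : ℝ) else 0) =
        ({ι g} : Set Z).indicator (fun _ => (1 : ℝ)) := by
      funext z; simp [Set.indicator_apply]
    rw [h2]
    exact continuous_const.indicator (by rw [h.frontier_eq]; simp)

lemma delta_apply_self (hB : IsBdry S ι 𝓕) (g : G) : delta hB g (ι g) = 1 := by
  simp [delta]

lemma delta_apply_ne (hB : IsBdry S ι 𝓕) {g : G} {z : Z} (h : z ≠ ι g) : delta hB g z = 0 := by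
  simp [delta, h]

lemma delta_sq_summable (hB : IsBdry S ι 𝓕) (g : G) :
    Summable fun x => (delta hB g (ι x)) ^ 2 := by
  refine summable_of_ne_finset_zero (s := {g}) fun x hx => ?_
  have : ι x ≠ ι g := fun h => hx (by simpa using hB.inj h)
  rw [delta_apply_ne hB this]
  simp

/-- the algebra of continuous functions with Dirichlet restriction. -/
def alg (S : Finset G) (ι : G → Z) : Subalgebra ℝ C(Z, ℝ) where
  carrier := {φ | Dir S fun x => φ (ι x)}
  mul_mem' := by
    intro φ ψ hφ hψ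
    have h1 : Bdd fun x => φ (ι x) := ⟨‖φ‖, fun x => φ.norm_coe_le_norm (ι x)⟩
    have h2 : Bdd fun x => ψ (ι x) := ⟨‖ψ‖, fun x => ψ.norm_coe_le_norm (ι x)⟩
    exact dir_mul (f := fun x => φ (ι x)) (g := fun x => ψ (ι x)) hφ hψ h1 h2
  add_mem' := by
    intro φ ψ hφ hψ
    exact dir_add (f := fun x => φ (ι x)) (g := fun x => ψ (ι x)) hφ hψ
  algebraMap_mem' := by
    intro r
    exact dir_const r

lemma mem_alg {φ : C(Z, ℝ)} : φ ∈ alg S ι ↔ Dir S fun x => φ (ι x) := Iff.rfl

lemma delta_mem_alg (hB : IsBdry S ι 𝓕) (g : G) : delta hB g ∈ alg S ι :=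
  mem_alg.2 (dir_of_sq (delta_sq_summable hB g))

lemma sep_of_mem {z w : Z} (φ : C(Z, ℝ)) (hφ : φ ∈ alg S ι) (h : φ z ≠ φ w) :
    ∃ f ∈ (fun f : C(Z, ℝ) => (f : Z → ℝ)) '' (alg S ι : Set C(Z, ℝ)), f z ≠ f w :=
  ⟨_, ⟨φ, hφ, rfl⟩, h⟩

lemma alg_separates (hB : IsBdry S ι 𝓕) : (alg S ι).SeparatesPoints := by
  intro z w hzw
  by_cases hz : z ∈ T ι
  · by_cases hw : w ∈ T ι
    · obtain ⟨f, hf, hne⟩ := hB.fsep z hz w hw hzw
      exact sep_of_mem ⟨f, hB.fcont f hf⟩ (mem_alg.2 (hB.fdir f hf)) hne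
    · obtain ⟨g, rfl⟩ : ∃ g, ι g = w := by simpa [T] using hw
      refine sep_of_mem _ (delta_mem_alg hB g) ?_
      rw [delta_apply_self, delta_apply_ne hB hzw]
      norm_num
  · obtain ⟨g, rfl⟩ : ∃ g, ι g = z := by simpa [T] using hz
    refine sep_of_mem _ (delta_mem_alg hB g) ?_
    rw [delta_apply_self, delta_apply_ne hB hzw.symm]
    norm_num

/-- every continuous function has a harmonic part. -/
theorem dec_cont [Infinite G] (hD : NDecomp) (hT : TopHyp S) (hN : Nonam S)
    (hB : IsBdry S ι 𝓕) (φ : C(Z, ℝ)) : Dec S fun x => φ (ι x) := by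
  refine Dec.of_approx hT.toStd fun ε hε => ?_
  obtain ⟨g, hg⟩ := ContinuousMap.exists_mem_subalgebra_near_continuousMap_of_separatesPoints
    (alg S ι) (alg_separates hB) φ ε hε
  refine ⟨fun x => (g : C(Z, ℝ)) (ι x), ?_, fun x => ?_⟩
  · obtain ⟨f0, h, hf, hf0, hh, -, -⟩ := hD G S hT.toStd hN inferInstance _ (mem_alg.1 g.2)
    refine ⟨h, hh, ?_⟩
    have : (fun x => (g : C(Z, ℝ)) (ι x) - h x) = f0 := by
      funext x; rw [hf x]; ring
    rw [this]
    exact C0.of_sq hf0
  · have := ((g : C(Z, ℝ)) - φ).norm_coe_le_norm (ι x)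
    rw [Real.norm_eq_abs, ContinuousMap.sub_apply, abs_sub_comm] at this
    linarith

end cont

end Crest.Agent.R224.Roy
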