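import Crest.Agent.R224.HarmC

/-!
# R224, node NHarm, part D (helper543): construction of the harmonic measures by
Riesz–Markov–Kakutani; harmonicity, equivariance, support, concentration.
-/

set_option autoImplicit false
set_option linter.unusedSectionVars false

noncomputable section

open Set Filter Topology MeasureTheory
open scoped BoundedContinuousFunction CompactlySupported

namespace Crest.Agent.R224.Roy

variable {G : Type} [Group G] {S : Finset G} {Z : Type} [MetricSpace Z] [CompactSpace Z]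
  [MulAction G Z] {ι : G → Z} {𝓕 : Set (Z → ℝ)}

/-- the positive functional -/
def Lam [Infinite G] (hS : Std S) (hd : ∀ φ : C(Z, ℝ), Dec S fun x => φ (ι x)) (x : G) :
    C_c(Z, ℝ) →ₚ[ℝ] ℝ where
  toFun φ := hp S (fun y => φ (ι y)) x
  map_add' φ ψ := congrFun (hp_add hS (hd φ.toContinuousMap) (hd ψ.toContinuousMap)) x
  map_smul' c φ := congrFun (hp_const_mul hS (hd φ.toContinuousMap) c) x
  monotone' φ ψ h := hp_mono hS (hd φ.toContinuousMap) (hd ψ.toContinuousMap) (fun y => h (ι y)) x

variable [MeasurableSpace Z] [BorelSpace Z]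

/-- a family of probability measures representing the harmonic part. -/
structure Rep (S : Finset G) (ι : G → Z) (ν : G → Measure Z) : Prop where
  prob : ∀ x, IsProbabilityMeasure (ν x)
  harm : ∀ φ : C(Z, ℝ), Harm S fun x => ∫ z, φ z ∂(ν x)
  reg : ∀ φ : C(Z, ℝ), C0 fun x => φ (ι x) - ∫ z, φ z ∂(ν x)

theorem exists_rep [Infinite G] (hS : Std S) (hd : ∀ φ : C(Z, ℝ), Dec S fun x => φ (ι x)) :
    ∃ ν : G → Measure Z, Rep S ι ν := by
  have key : ∀ (φ : C(Z, ℝ)) (x : G),
      ∫ z, φ z ∂(RealRMK.rieszMeasure (Lam hS hd x)) = hp S (fun y => φ (ι y)) x := by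
    intro φ x
    let φ' : C_c(Z, ℝ) :=
      { toFun := φ
        hasCompactSupport' := HasCompactSupport.of_compactSpace _ }
    exact RealRMK.integral_rieszMeasure (Lam hS hd x) φ'
  refine ⟨fun x => RealRMK.rieszMeasure (Lam hS hd x), ?_, ?_, ?_⟩
  · intro x
    constructor
    have h1 := key 1 x
    have h2 : hp S (fun y : G => (1 : C(Z, ℝ)) (ι y)) x = 1 := congrFun (hp_const hS 1) x
    rw [h2] at h1
    simp only [ContinuousMap.one_apply, integral_const, smul_eq_mul, mul_one] at h1
    rw [Measure.real, ENNReal.toReal_eq_one_iff] at h1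
    exact h1
  · intro φ x
    have : (fun x => ∫ z, φ z ∂(RealRMK.rieszMeasure (Lam hS hd x))) =
      hp S (fun y => φ (ι y)) := funext fun x => key φ x
    rw [this]
    exact (hd φ).harm x
  · intro φ
    have : (fun x => φ (ι x) - ∫ z, φ z ∂(RealRMK.rieszMeasure (Lam hS hd x))) =
      fun x => φ (ι x) - hp S (fun y => φ (ι y)) x := funext fun x => by rw [key φ x]
    rw [this]
    exact (hd φ).c0

namespace Rep

variable {ν : G → Measure Z}

lemma integral_eq [Infinite G] (hR : Rep S ι ν) (hS : Std S) (φ : C(Z, ℝ)) (x : G) :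
    ∫ z, φ z ∂(ν x) = hp S (fun y => φ (ι y)) x := by
  rw [hp_unique hS (hR.harm φ) (hR.reg φ)]

lemma integrable (hR : Rep S ι ν) (φ : C(Z, ℝ)) (x : G) : Integrable (fun z => φ z) (ν x) := by
  have := hR.prob x
  exact (BoundedContinuousFunction.mkOfCompact φ).integrable (ν x)

/-- uniqueness principle -/
lemma ext_measure {μ μ' : Measure Z} [IsFiniteMeasure μ] [IsFiniteMeasure μ']
    (h : ∀ φ : C(Z, ℝ), ∫ z, φ z ∂μ = ∫ z, φ z ∂μ') : μ = μ' :=
  ext_of_forall_integral_eq_of_IsFiniteMeasure fun f => h f.toContinuousMap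

lemma avg_eq (hR : Rep S ι ν) (hS : Std S) (x : G) :
    ν x = ((S.card : NNReal)⁻¹) • ∑ s ∈ S, ν (x * s) := by
  have hp := hR.prob
  have hc : (0 : ℝ) < S.card := by exact_mod_cast Finset.card_pos.2 ⟨1, hS.one⟩
  refine ext_measure fun φ => ?_
  rw [integral_smul_nnreal_measure, integral_finsetSum_measure fun s _ => hR.integrable φ _]
  have h1 := hR.harm φ x
  simp only [Pop] at h1
  rw [← h1, div_eq_inv_mul]
  simp [NNReal.smul_def]

lemma harmonic (hR : Rep S ι ν) (hS : Std S) (A : Set Z) :
    Harm S fun y => (ν y).real A := by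
  have hp := hR.prob
  intro x
  have h := hR.avg_eq hS x
  have h2 : (ν x).real A = (((S.card : NNReal)⁻¹) • ∑ s ∈ S, ν (x * s) : Measure Z).real A := by
    rw [← h]
  simp only [Pop]
  rw [h2, Measure.real, Measure.smul_apply, Measure.finsetSum_apply]
  rw [ENNReal.toReal_smul, ENNReal.toReal_sum (fun s _ => measure_ne_top _ _), div_eq_inv_mul]
  simp [NNReal.smul_def, Measure.real]

end Rep

end Crest.Agent.R224.Roy
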