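import Crest.Agent.R224.HarmD

/-!
# R224, node NHarm, part E (helper543): support, equivariance, concentration, full support.
-/

set_option autoImplicit false
set_option linter.unusedSectionVars false

noncomputable section

open Set Filter Topology MeasureTheory

namespace Crest.Agent.R224.Roy

variable {G : Type} [Group G] {S : Finset G} {Z : Type} [MetricSpace Z] [CompactSpace Z]
  [MulAction G Z] {ι : G → Z} {𝓕 : Set (Z → ℝ)} [MeasurableSpace Z] [BorelSpace Z]

namespace Rep

variable {ν : G → Measure Z}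

lemma countable_range (hB : IsBdry S ι 𝓕) : Countable G := by
  have h : (univ : Set G).Countable := by
    refine Set.PairwiseDisjoint.countable_of_isOpen (s := fun g : G => ({ι g} : Set Z))
      (fun a _ b _ hab => ?_) (fun g _ => hB.isol g) (fun g _ => singleton_nonempty _)
    simpa [Function.onFun] using fun h => hab (hB.inj h)
  exact countable_univ_iff.1 h

lemma measure_point [Infinite G] (hR : Rep S ι ν) (hS : Std S) (hB : IsBdry S ι 𝓕) (x g : G) :
    ν x {ι g} = 0 := by
  have hp := hR.prob x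
  have h1 := hR.integral_eq hS (delta hB g) x
  have h2 : C0 fun y => delta hB g (ι y) := C0.of_sq (delta_sq_summable hB g)
  rw [hp_of_c0 hS h2] at h1
  have h3 : (fun z => delta hB g z) = ({ι g} : Set Z).indicator (fun _ => (1 : ℝ)) := by
    funext z
    by_cases hz : z = ι g
    · subst hz; rw [delta_apply_self]; simp
    · rw [delta_apply_ne hB hz]; simp [hz]
  rw [h3, integral_indicator_const _ (measurableSet_singleton _), smul_eq_mul, mul_one] at h1
  rw [Measure.real, ENNReal.toReal_eq_zero_iff] at h1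
  exact h1.resolve_right (measure_ne_top _ _)

lemma supp [Infinite G] (hR : Rep S ι ν) (hS : Std S) (hB : IsBdry S ι 𝓕) (x : G) :
    ν x (T ι)ᶜ = 0 := by
  have hc := countable_range (Z := Z) hB
  have : (T ι)ᶜ = ⋃ g, {ι g} := by
    ext z; simp [T, eq_comm]
  rw [this, measure_iUnion_null_iff]
  exact fun g => hR.measure_point hS hB x g

lemma map_smul [Infinite G] (hR : Rep S ι ν) (hS : Std S) (hd : ∀ φ : C(Z, ℝ), Dec S fun x => φ (ι x))
    (hB : IsBdry S ι 𝓕) (g x : G) :
    (ν x).map (fun z => g • z) = ν (g * x) := by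
  have hp := hR.prob
  have hm : Measurable fun z : Z => g • z := (hB.cont g).measurable
  have : IsProbabilityMeasure ((ν x).map (fun z => g • z)) :=
    Measure.isProbabilityMeasure_map hm.aemeasurable
  refine ext_measure fun φ => ?_
  rw [integral_map hm.aemeasurable φ.continuous.aestronglyMeasurable]
  have h1 := hR.integral_eq hS (φ.comp ⟨_, hB.cont g⟩) x
  simp only [ContinuousMap.comp_apply, ContinuousMap.coe_mk] at h1
  rw [h1, hR.integral_eq hS φ (g * x)]
  have h2 : (fun y => φ (g • ι y)) = fun y => φ (ι (g * y)) := by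
    funext y; rw [hB.eqv]
  rw [h2]
  exact congrFun (hp_shift hS (hd φ) g) x

lemma smul_image_eq (g : G) (A : Set Z) :
    (fun z => g • z) '' A = (fun z => g⁻¹ • z) ⁻¹' A := by
  ext z
  simp only [mem_image, mem_preimage]
  constructor
  · rintro ⟨w, hw, rfl⟩
    simpa using hw
  · intro h
    exact ⟨_, h, by simp⟩

lemma measurable_smul_image (hB : IsBdry S ι 𝓕) (g : G) {A : Set Z} (hA : MeasurableSet A) :
    MeasurableSet ((fun z => g • z) '' A) := by
  rw [smul_image_eq]
  exact (hB.cont g⁻¹).measurable hA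

lemma equiv [Infinite G] (hR : Rep S ι ν) (hS : Std S) (hd : ∀ φ : C(Z, ℝ), Dec S fun x => φ (ι x))
    (hB : IsBdry S ι 𝓕) (g x : G) (A : Set Z) (hA : MeasurableSet A) :
    ν (g * x) ((fun z => g • z) '' A) = ν x A := by
  rw [← hR.map_smul hS hd hB g x, Measure.map_apply (hB.cont g).measurable
    (measurable_smul_image hB g hA)]
  congr 1
  ext z
  simp

/-- concentration -/
lemma conc (hR : Rep S ι ν) (ε : ℝ) (hε : 0 < ε) :
    ∃ K : Finset G, ∀ y : G, y ∉ K → (ν y).real {z | ε ≤ dist z (ι y)} ≤ ε := by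
  classical
  have hp := hR.prob
  obtain ⟨t, -, ht1, ht2⟩ := finite_cover_balls_of_compact (X := Z) isCompact_univ
    (show (0 : ℝ) < ε / 4 by positivity)
  let φ : Z → C(Z, ℝ) := fun w => ⟨fun z => max 0 (dist z w - ε / 4) * (2 / ε), by fun_prop⟩
  have hfin : ∀ w, {y | ε ≤ |φ w (ι y) - ∫ z, φ w z ∂(ν y)|}.Finite := fun w =>
    hR.reg (φ w) ε hε
  refine ⟨ht1.toFinset.biUnion fun w => (hfin w).toFinset, fun y hy => ?_⟩
  have h1 : ι y ∈ ⋃ w ∈ t, Metric.ball w (ε / 4) := ht2 (mem_univ _)
  simp only [mem_iUnion, Metric.mem_ball] at h1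
  obtain ⟨w, hw, hyw⟩ := h1
  simp only [Finset.mem_biUnion, not_exists, not_and, Set.Finite.mem_toFinset, mem_ofPred_eq,
    not_le] at hy
  have h2 := hy w hw
  have h3 : φ w (ι y) = 0 := by
    show max 0 (dist (ι y) w - ε / 4) * (2 / ε) = 0
    rw [max_eq_left (by linarith), zero_mul]
  rw [h3, zero_sub, abs_neg] at h2
  have hset : MeasurableSet {z | ε ≤ dist z (ι y)} :=
    (isClosed_le continuous_const (continuous_id.dist continuous_const)).measurableSet
  have h4 : (ν y).real {z | ε ≤ dist z (ι y)} = ∫ z, ({z | ε ≤ dist z (ι y)}).indicator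
      (fun _ => (1 : ℝ)) z ∂(ν y) := by
    rw [integral_indicator_const _ hset, smul_eq_mul, mul_one]
  rw [h4]
  refine le_trans (integral_mono ?_ (hR.integrable (φ w) y) fun z => ?_)
    ((le_abs_self _).trans h2.le)
  · exact (integrable_const (1 : ℝ)).indicator hset
  · show _ ≤ max 0 (dist z w - ε / 4) * (2 / ε)
    by_cases hz : ε ≤ dist z (ι y)
    · rw [indicator_of_mem (by exact hz)]
      have h5 : ε / 2 ≤ max 0 (dist z w - ε / 4) := by
        refine le_trans ?_ (le_max_right _ _)
        have := dist_triangle_right z (ι y) w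
        have h6 := dist_comm (ι y) w
        linarith
      calc (1 : ℝ) = ε / 2 * (2 / ε) := by field_simp
        _ ≤ _ := mul_le_mul_of_nonneg_right h5 (by positivity)
    · rw [indicator_of_notMem (by exact hz)]
      positivity

/-- positivity propagates. -/
lemma pos_of_pos (hR : Rep S ι ν) (hS : Std S) {A : Set Z} {y : G} (hy : 0 < (ν y).real A) (x : G) :
    0 < (ν x).real A := by
  have hh := hR.harmonic hS A
  have h0 : ∀ x, 0 ≤ (ν x).real A := fun x => measureReal_nonneg
  by_contra hcon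
  have hx : (ν x).real A = 0 := le_antisymm (not_lt.1 hcon) (h0 x)
  have hB : {x | (ν x).real A = 0} = univ := by
    refine univ_of_closed hS ⟨x, hx⟩ fun z hz s hs => ?_
    simp only [mem_ofPred_eq] at *
    have := hh.harnack hS h0 z hs
    rw [hz, mul_zero] at this
    exact le_antisymm this (h0 _)
  have : y ∈ {x | (ν x).real A = 0} := by rw [hB]; trivial
  simp only [mem_ofPred_eq] at this
  linarith

/-- infinitely many vertices near a boundary point. -/
lemma infinite_near (hB : IsBdry S ι 𝓕) {θ : Z} (hθ : θ ∈ T ι) {δ : ℝ} (hδ : 0 < δ) :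
    {y : G | dist (ι y) θ < δ}.Infinite := by
  intro hfin
  have h1 : IsClosed (ι '' {y : G | dist (ι y) θ < δ}) := (hfin.image ι).isClosed
  have h2 : θ ∉ ι '' {y : G | dist (ι y) θ < δ} := fun h => hθ (image_subset_range _ _ h)
  have h3 : IsOpen (Metric.ball θ δ ∩ (ι '' {y : G | dist (ι y) θ < δ})ᶜ) :=
    Metric.isOpen_ball.inter h1.isOpen_compl
  obtain ⟨z, hz, g, rfl⟩ := hB.dense.inter_open_nonempty _ h3 ⟨θ, Metric.mem_ball_self hδ, h2⟩
  exact hz.2 ⟨g, hz.1, rfl⟩

/-- full support -/
lemma full (hR : Rep S ι ν) (hS : Std S) (hB : IsBdry S ι 𝓕) (x : G) (O : Set Z) (hO : IsOpen O)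
    (hne : (O ∩ T ι).Nonempty) : 0 < (ν x).real O := by
  obtain ⟨θ, hθO, hθ⟩ := hne
  have hp := hR.prob
  obtain ⟨δ, hδ, hball⟩ := Metric.isOpen_iff.1 hO θ hθO
  let φ : C(Z, ℝ) := ⟨fun z => max 0 (1 - dist z θ / δ), by fun_prop⟩
  have hfin := hR.reg φ (1 / 2) (by norm_num)
  obtain ⟨y, hy1, hy2⟩ := (infinite_near hB hθ (half_pos hδ)).exists_notMem_finite hfin
  simp only [mem_ofPred_eq, not_le] at hy1 hy2
  have h1 : 1 / 2 ≤ φ (ι y) := by
    refine le_trans ?_ (le_max_right _ _)
    have : dist (ι y) θ / δ ≤ 1 / 2 := by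
      rw [div_le_iff₀ hδ]; linarith
    linarith
  have h2 : 0 < ∫ z, φ z ∂(ν y) := by
    have := (abs_lt.1 hy2).2
    linarith
  refine hR.pos_of_pos hS (y := y) ?_ x
  have h4 : (ν y).real O = ∫ z, O.indicator (fun _ => (1 : ℝ)) z ∂(ν y) := by
    rw [integral_indicator_const _ hO.measurableSet, smul_eq_mul, mul_one]
  rw [h4]
  refine h2.trans_le (integral_mono (hR.integrable φ y)
    ((integrable_const (1 : ℝ)).indicator hO.measurableSet) fun z => ?_)
  show max 0 (1 - dist z θ / δ) ≤ _
  by_cases hz : z ∈ O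
  · rw [indicator_of_mem hz]
    have : 0 ≤ dist z θ / δ := by positivity
    exact max_le zero_le_one (by linarith)
  · rw [indicator_of_notMem hz]
    have h5 : δ ≤ dist z θ := by
      by_contra h
      exact hz (hball (Metric.mem_ball.2 (not_le.1 h)))
    refine max_le le_rfl ?_
    have : 1 ≤ dist z θ / δ := by rw [le_div_iff₀ hδ]; linarith
    linarith

end Rep

end Crest.Agent.R224.Roy
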