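import Mathlib
import Crest.Agent.R050.Chain

/-!
# Row 224, topological half: local Alexander-Spanier computations (1)

Cochains are functions `List X → ZMod 2`, considered on lists of a given length contained in small
open sets.  Universal coefficients (`uc`) and homotopy invariance (`hom_ev`).
-/

set_option autoImplicit false
set_option linter.unusedSectionVars false

namespace Crest.Agent.R224.Loc

open Crest.Agent.R050 Topology Set Filter

section Basic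

variable {X Y : Type*}

/-- all vertices in `V` -/
def Inn (V : Set X) (l : List X) : Prop := ∀ a ∈ l, a ∈ V

theorem Inn.mono {V W : Set X} {l : List X} (h : Inn V l) (hVW : V ⊆ W) : Inn W l :=
  fun a ha => hVW (h a ha)

theorem Inn.sublist {V : Set X} {l l' : List X} (h : Inn V l) (hs : l'.Sublist l) : Inn V l' :=
  fun a ha => h a (hs.subset ha)

/-- faces are sublists -/
theorem sup_bd_sg (l : List X) :
    Sup (fun l' => l'.Sublist l ∧ l'.length + 1 = l.length) (bd (sg l)) := by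
  induction l with
  | nil => simp
  | cons a l ih =>
    rw [bd_cons]
    refine Sup.add (Sup.sg ⟨List.sublist_cons_self a l, rfl⟩) (Sup.cone ih ?_)
    rintro l' ⟨h1, h2⟩
    exact ⟨h1.cons_cons a, by simp only [List.length_cons]; omega⟩

theorem sup_bd {P Q : List X → Prop} {c : Ch X} (hc : Sup P c)
    (h : ∀ l, P l → ∀ l', l'.Sublist l → l'.length + 1 = l.length → Q l') : Sup Q (bd c) :=
  Sup.map hc fun l hl => (sup_bd_sg l).mono fun l' hl' => h l hl l' hl'.1 hl'.2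

/-- lists of the prism -/
theorem sup_pr_sg (f g : X → Y) (l : List X) :
    Sup (fun l' => l'.length = l.length + 1 ∧ ∀ b ∈ l', ∃ a ∈ l, b = f a ∨ b = g a)
      (pr f g (sg l)) := by
  induction l with
  | nil => simp
  | cons a l ih =>
    rw [pr_cons]
    refine Sup.add (Sup.sg ⟨by simp, ?_⟩) (Sup.cone ih ?_)
    · intro b hb
      simp only [List.mem_cons, List.mem_map] at hb
      rcases hb with h | h | ⟨a', ha', h⟩
      · exact ⟨a, by simp, Or.inl h⟩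
      · exact ⟨a, by simp, Or.inr h⟩
      · exact ⟨a', by simp [ha'], Or.inr h.symm⟩
    · rintro l' ⟨h1, h2⟩
      refine ⟨by simp [h1], ?_⟩
      intro b hb
      rcases List.mem_cons.1 hb with h | h
      · exact ⟨a, by simp, Or.inl h⟩
      · obtain ⟨a', ha', h'⟩ := h2 b h
        exact ⟨a', by simp [ha'], h'⟩

/-- iterated prism -/
noncomputable def prN (f : ℕ → X → Y) (N : ℕ) : Ch X →ₗ[ZMod 2] Ch Y :=
  ∑ j ∈ Finset.range N, pr (f j) (f (j + 1))

theorem bd_prN (f : ℕ → X → Y) (N : ℕ) (c : Ch X) :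
    bd (prN f N c) + prN f N (bd c) = mp (f 0) c + mp (f N) c := by
  induction N with
  | zero => simp [prN, two_self]
  | succ N ih =>
    have h1 : ∀ c, prN f (N + 1) c = prN f N c + pr (f N) (f (N + 1)) c := by
      intro c; simp [prN, Finset.sum_range_succ]
    rw [h1, h1, map_add]
    have h2 := bd_pr (f N) (f (N + 1)) c
    calc bd (prN f N c) + bd (pr (f N) (f (N + 1)) c) + (prN f N (bd c)
          + pr (f N) (f (N + 1)) (bd c))
        = (bd (prN f N c) + prN f N (bd c)) + (bd (pr (f N) (f (N + 1)) c)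
          + pr (f N) (f (N + 1)) (bd c)) := by abel
      _ = (mp (f 0) c + mp (f N) c) + (mp (f N) c + mp (f (N + 1)) c) := by rw [ih, h2]
      _ = mp (f 0) c + mp (f (N + 1)) c + (mp (f N) c + mp (f N) c) := by abel
      _ = _ := by rw [two_self, add_zero]

theorem sup_prN {f : ℕ → X → Y} {N : ℕ} {P : List X → Prop} {Q : List Y → Prop} {c : Ch X}
    (hc : Sup P c)
    (h : ∀ l, P l → ∀ j < N, ∀ l', l'.length = l.length + 1 →
      (∀ b ∈ l', ∃ a ∈ l, b = f j a ∨ b = f (j + 1) a) → Q l') : Sup Q (prN f N c) := by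
  have h1 : prN f N c = ∑ j ∈ Finset.range N, pr (f j) (f (j + 1)) c := by
    simp [prN]
  rw [h1]
  refine Sup.sum fun j hj => ?_
  refine Sup.map hc fun l hl => (sup_pr_sg (f j) (f (j + 1)) l).mono fun l' hl' => ?_
  exact h l hl j (Finset.mem_range.1 hj) l' hl'.1 hl'.2

/-- **universal coefficients** -/
theorem uc {P N : List X → Prop} {c : List X → ZMod 2}
    (h : ∀ z : Ch X, Sup P z → Sup N (bd z) → ev c z = 0) :
    ∃ b : List X → ZMod 2, (∀ l, N l → b l = 0) ∧ ∀ l, P l → cob b l = c l := by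
  classical
  set V : Submodule (ZMod 2) (Ch X) := Finsupp.supported (ZMod 2) (ZMod 2) {l | P l} with hV
  set W : Submodule (ZMod 2) (Ch X) := Finsupp.supported (ZMod 2) (ZMod 2) {l | N l} with hW
  set f : V →ₗ[ZMod 2] (Ch X ⧸ W) := W.mkQ ∘ₗ bd ∘ₗ V.subtype with hf
  set g : V →ₗ[ZMod 2] ZMod 2 := ev c ∘ₗ V.subtype with hg
  have hmemV : ∀ z : Ch X, z ∈ V ↔ Sup P z := by
    intro z
    rw [hV, Finsupp.mem_supported]
    exact ⟨fun h l hl => h hl, fun h l hl => h l hl⟩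
  have hmemW : ∀ z : Ch X, z ∈ W ↔ Sup N z := by
    intro z
    rw [hW, Finsupp.mem_supported]
    exact ⟨fun h l hl => h hl, fun h l hl => h l hl⟩
  have hker : g ∈ (LinearMap.ker f).dualAnnihilator := by
    rw [Submodule.mem_dualAnnihilator]
    intro z hz
    rw [LinearMap.mem_ker] at hz
    have h1 : bd (z : Ch X) ∈ W := by
      simpa [hf] using hz
    exact h z ((hmemV _).1 z.2) ((hmemW _).1 h1)
  rw [← LinearMap.range_dualMap_eq_dualAnnihilator_ker] at hker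
  obtain ⟨φ, hφ⟩ := hker
  refine ⟨fun l => φ (W.mkQ (sg l)), ?_, ?_⟩
  · intro l hl
    have : W.mkQ (sg l) = 0 := by
      rw [Submodule.mkQ_apply, Submodule.Quotient.mk_eq_zero]
      exact (hmemW _).2 (Sup.sg hl)
    show φ (W.mkQ (sg l)) = 0
    rw [this, map_zero]
  · intro l hl
    have h1 : ∀ z : Ch X, ev (fun l => φ (W.mkQ (sg l))) z = φ (W.mkQ z) := by
      intro z
      have : (ev (fun l => φ (W.mkQ (sg l))) : Ch X →ₗ[ZMod 2] ZMod 2) = φ ∘ₗ W.mkQ := by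
        apply lin_ext
        intro l
        simp
      rw [this]; rfl
    rw [cob, h1]
    have h2 := congrArg (fun F => F (⟨sg l, (hmemV _).2 (Sup.sg hl)⟩ : V)) hφ
    simpa [hf, hg] using h2

end Basic

section Top

variable {X Y : Type*} [TopologicalSpace X] [TopologicalSpace Y]

/-- `c` vanishes on the lists of length `m` in `V` -/
def ZeroOn (m : ℕ) (V : Set X) (c : List X → ZMod 2) : Prop :=
  ∀ l : List X, l.length = m → Inn V l → c l = 0

/-- `c` is zero near `x` -/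
def LZ (m : ℕ) (c : List X → ZMod 2) (x : X) : Prop := ∃ V ∈ 𝓝 x, ZeroOn m V c

/-- support of `c` (on lists of length `m`) contained in `A` -/
def SuppIn (m : ℕ) (c : List X → ZMod 2) (A : Set X) : Prop := ∀ x, x ∉ A → LZ m c x

theorem ZeroOn.mono {m : ℕ} {V W : Set X} {c : List X → ZMod 2} (h : ZeroOn m W c) (hVW : V ⊆ W) :
    ZeroOn m V c := fun l hl hV => h l hl (hV.mono hVW)

theorem ZeroOn.add {m : ℕ} {V : Set X} {c d : List X → ZMod 2} (h : ZeroOn m V c)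
    (h' : ZeroOn m V d) : ZeroOn m V (fun l => c l + d l) := fun l hl hV => by
  simp only [h l hl hV, h' l hl hV, add_zero]

theorem LZ.add {m : ℕ} {c d : List X → ZMod 2} {x : X} (h : LZ m c x) (h' : LZ m d x) :
    LZ m (fun l => c l + d l) x := by
  obtain ⟨V, hV, h1⟩ := h
  obtain ⟨W, hW, h2⟩ := h'
  exact ⟨V ∩ W, inter_mem hV hW, (h1.mono inter_subset_left).add (h2.mono inter_subset_right)⟩

theorem LZ.congr {m : ℕ} {c d : List X → ZMod 2} {x : X} (h : LZ m c x)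
    (h' : LZ m (fun l => c l + d l) x) : LZ m d x := by
  obtain ⟨V, hV, h1⟩ := h.add h'
  refine ⟨V, hV, fun l hl hlV => ?_⟩
  have := h1 l hl hlV
  simp only [← add_assoc, CharTwo.add_self_eq_zero, zero_add] at this
  exact this

theorem ZeroOn.cob {m : ℕ} {V : Set X} {c : List X → ZMod 2} (h : ZeroOn m V c) :
    ZeroOn (m + 1) V (cob c) := by
  intro l hl hlV
  rw [Crest.Agent.R050.cob]
  refine ev_eq_zero (sup_bd_sg l) ?_
  rintro l' ⟨h1, h2⟩
  exact h l' (by omega) (hlV.sublist h1)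

theorem LZ.cob {m : ℕ} {c : List X → ZMod 2} {x : X} (h : LZ m c x) : LZ (m + 1) (cob c) x := by
  obtain ⟨V, hV, h1⟩ := h
  exact ⟨V, hV, h1.cob⟩

theorem cob_add (c d : List X → ZMod 2) (l : List X) :
    cob (fun l => c l + d l) l = cob c l + cob d l := by
  rw [cob, ev_add_left]; rfl

theorem cob_cob (c : List X → ZMod 2) (l : List X) : cob (cob c) l = 0 := by
  rw [cob, ← ev_bd, bd_bd, map_zero]

/-- `Sm 𝒱`: contained in some `𝒱 x` with `x ∉ A` -/
def Off (𝒱 : X → Set X) (A : Set X) (m : ℕ) (l : List X) : Prop :=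
  l.length = m ∧ ∃ x, x ∉ A ∧ Inn (𝒱 x) l

/-- tube lemma -/
theorem tube {H : X → ℝ → Y} (hH : Continuous fun p : X × ℝ => H p.1 p.2) {𝒰 : Y → Set Y}
    (h𝒰 : ∀ y, 𝒰 y ∈ 𝓝 y) (x : X) :
    ∃ V ∈ 𝓝 x, ∃ δ : ℝ, 0 < δ ∧ ∀ t ∈ Icc (0 : ℝ) 1, ∃ t' ∈ Icc (0 : ℝ) 1,
      ∀ a ∈ V, ∀ s, |s - t| ≤ δ → H a s ∈ 𝒰 (H x t') := by
  have h1 : ∀ t : ℝ, ∃ V ∈ 𝓝 x, ∃ ε : ℝ, 0 < ε ∧ ∀ a ∈ V, ∀ s, |s - t| < ε →
      H a s ∈ 𝒰 (H x t) := by
    intro t
    have h2 : (fun p : X × ℝ => H p.1 p.2) ⁻¹' (𝒰 (H x t)) ∈ 𝓝 (x, t) :=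
      hH.continuousAt.preimage_mem_nhds (h𝒰 _)
    obtain ⟨V, hV, W, hW, h3⟩ := mem_nhds_prod_iff.1 h2
    obtain ⟨ε, hε, h4⟩ := Metric.mem_nhds_iff.1 hW
    refine ⟨V, hV, ε, hε, fun a ha s hs => ?_⟩
    have : (a, s) ∈ V ×ˢ W := ⟨ha, h4 (by rwa [Metric.mem_ball, Real.dist_eq])⟩
    exact h3 this
  choose V hV ε hε hVε using h1
  obtain ⟨F, hF, hcov⟩ := isCompact_Icc.elim_nhds_subcover (fun t : ℝ => Metric.ball t (ε t / 2))
    (fun t (_ : t ∈ Icc (0 : ℝ) 1) => Metric.ball_mem_nhds t (half_pos (hε t)))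
  have hFne : F.Nonempty := by
    by_contra hne
    rw [Finset.not_nonempty_iff_eq_empty] at hne
    have := hcov (show (0 : ℝ) ∈ Icc (0 : ℝ) 1 from ⟨le_rfl, zero_le_one⟩)
    simp [hne] at this
  refine ⟨⋂ t ∈ F, V t, (Filter.biInter_finset_mem F).2 fun t _ => hV t,
    F.inf' hFne (fun t => ε t / 4), ?_, ?_⟩
  · rw [Finset.lt_inf'_iff]
    intro t _; have := hε t; positivity
  · intro t ht
    have h2 := hcov ht
    simp only [mem_iUnion] at h2
    obtain ⟨t', ht'F, ht'⟩ := h2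
    refine ⟨t', hF t' ht'F, fun a ha s hs => ?_⟩
    refine hVε t' a (mem_iInter₂.1 ha t' ht'F) s ?_
    rw [Metric.mem_ball, Real.dist_eq] at ht'
    have h3 : F.inf' hFne (fun t => ε t / 4) ≤ ε t' / 4 := Finset.inf'_le _ ht'F
    have h4 : |s - t'| ≤ |s - t| + |t - t'| := abs_sub_le _ _ _
    have := hε t'
    linarith

/-- **homotopy invariance** for finite chains -/
theorem hom_ev {m : ℕ} {A : Set X} {c : List X → ZMod 2} (hc : ∀ x, LZ (m + 2) (cob c) x)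
    (hA : SuppIn (m + 1) c A)
    {H : X → ℝ → X} (hH : Continuous fun p : X × ℝ => H p.1 p.2) (hH0 : ∀ x, H x 0 = x)
    (hHA : ∀ x, x ∉ A → ∀ t ∈ Icc (0 : ℝ) 1, H x t ∉ A) {𝒲 : X → Set X} (h𝒲 : ∀ x, 𝒲 x ∈ 𝓝 x) :
    ∃ 𝒱 : X → Set X, (∀ x, 𝒱 x ∈ 𝓝 x) ∧ (∀ x, 𝒱 x ⊆ 𝒲 x) ∧
      (∀ x, ∀ a ∈ 𝒱 x, H a 1 ∈ 𝒲 (H x 1)) ∧
      ∀ z : Ch X, Sup (Off 𝒱 ∅ (m + 1)) z → Sup (Off 𝒱 A m) (bd z) →
        ev c z = ev c (mp (fun a => H a 1) z) := by
  classical
  -- small neighbourhoods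
  have hU : ∀ y, ∃ U ∈ 𝓝 y, U ⊆ 𝒲 y ∧ ZeroOn (m + 2) U (cob c) ∧ (y ∉ A → ZeroOn (m + 1) U c) := by
    intro y
    obtain ⟨U1, hU1, h1⟩ := hc y
    by_cases hy : y ∈ A
    · exact ⟨U1 ∩ 𝒲 y, inter_mem hU1 (h𝒲 y), inter_subset_right, h1.mono inter_subset_left,
        fun h => absurd hy h⟩
    · obtain ⟨U2, hU2, h2⟩ := hA y hy
      exact ⟨U1 ∩ U2 ∩ 𝒲 y, inter_mem (inter_mem hU1 hU2) (h𝒲 y), inter_subset_right,
        h1.mono (inter_subset_left.trans inter_subset_left),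
        fun _ => h2.mono (inter_subset_left.trans inter_subset_right)⟩
  choose 𝒰 h𝒰 h𝒰𝒲 h𝒰c h𝒰A using hU
  have htube := fun x => tube hH h𝒰 x
  choose V hV δ hδ hVδ using htube
  refine ⟨fun x => V x ∩ 𝒲 x ∩ (fun a => H a 1) ⁻¹' (𝒰 (H x 1)), ?_, ?_, ?_, ?_⟩
  · intro x
    refine inter_mem (inter_mem (hV x) (h𝒲 x)) ?_
    have hc1 : Continuous fun a => H a 1 := hH.comp (continuous_id.prodMk continuous_const)
    exact hc1.continuousAt.preimage_mem_nhds (h𝒰 _)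
  · intro x; exact inter_subset_left.trans inter_subset_right
  · intro x a ha; exact h𝒰𝒲 _ ha.2
  intro z hz hbz
  -- choose base points of all lists
  set 𝒱 : X → Set X := fun x => V x ∩ 𝒲 x ∩ (fun a => H a 1) ⁻¹' (𝒰 (H x 1)) with h𝒱
  -- a uniform step
  have hstep : ∀ (A' : Set X) (m' : ℕ) (z : Ch X), Sup (Off 𝒱 A' m') z →
      ∃ δ' : ℝ, 0 < δ' ∧ Sup (fun l => l.length = m' ∧ ∃ x, x ∉ A' ∧ Inn (𝒱 x) l ∧ δ' ≤ δ x) z := by
    intro A' m' z hz
    have h1 : ∀ l : z.support, ∃ x, x ∉ A' ∧ Inn (𝒱 x) l.1 := fun l => (hz l.1 l.2).2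
    choose x hx1 hx2 using h1
    by_cases hne : z.support.Nonempty
    · refine ⟨z.support.attach.inf' (by simpa using hne) (fun l => δ (x l)), ?_, ?_⟩
      · rw [Finset.lt_inf'_iff]
        intro l _; exact hδ _
      · intro l hl
        exact ⟨(hz l hl).1, x ⟨l, hl⟩, hx1 _, hx2 _,
          Finset.inf'_le (fun l => δ (x l)) (Finset.mem_attach _ ⟨l, hl⟩)⟩
    · refine ⟨1, one_pos, fun l hl => absurd ⟨l, hl⟩ hne⟩
  obtain ⟨δ1, hδ1, hz1⟩ := hstep ∅ (m + 1) z hz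
  obtain ⟨δ2, hδ2, hz2⟩ := hstep A m (bd z) hbz
  obtain ⟨N, hN⟩ := exists_nat_gt (max (1 / δ1) (1 / δ2))
  have hN0 : (0 : ℝ) < N := lt_of_le_of_lt (le_max_of_le_left (by positivity)) hN
  have hN1 : 1 / (N : ℝ) ≤ δ1 := by
    rw [div_le_iff₀ hN0]
    have := (le_max_left (1 / δ1) (1 / δ2)).trans hN.le
    rw [div_le_iff₀ hδ1] at this
    linarith
  have hN2 : 1 / (N : ℝ) ≤ δ2 := by
    rw [div_le_iff₀ hN0]
    have := (le_max_right (1 / δ1) (1 / δ2)).trans hN.le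
    rw [div_le_iff₀ hδ2] at this
    linarith
  set f : ℕ → X → X := fun j a => H a ((j : ℝ) / N) with hf
  have hlist : ∀ (x : X) (δ' : ℝ) (_ : 1 / (N : ℝ) ≤ δ') (_ : δ' ≤ δ x) (l : List X)
      (_ : Inn (𝒱 x) l) (j : ℕ) (_ : j < N) (l' : List X)
      (_ : ∀ b ∈ l', ∃ a ∈ l, b = f j a ∨ b = f (j + 1) a),
      ∃ t' ∈ Icc (0 : ℝ) 1, Inn (𝒰 (H x t')) l' := by
    intro x δ' h1 h2 l hl j hj l' hl'
    have hjt : (j : ℝ) / N ∈ Icc (0 : ℝ) 1 := by
      refine ⟨by positivity, ?_⟩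
      rw [div_le_one hN0]; exact_mod_cast hj.le
    obtain ⟨t', ht', h3⟩ := hVδ x _ hjt
    refine ⟨t', ht', fun b hb => ?_⟩
    obtain ⟨a, ha, hab⟩ := hl' b hb
    have haV : a ∈ V x := (hl a ha).1.1
    rcases hab with h | h
    · rw [h]
      exact h3 a haV _ (by rw [sub_self, abs_zero]; exact (hδ x).le)
    · rw [h]
      refine h3 a haV _ ?_
      have : ((j + 1 : ℕ) : ℝ) / N - (j : ℝ) / N = 1 / N := by
        push_cast; ring
      rw [this, abs_of_pos (by positivity)]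
      linarith
  have e1 := bd_prN f N z
  have e2 : ev c (bd (prN f N z)) = 0 := by
    rw [ev_bd]
    refine ev_eq_zero (P := fun l => ∃ y, l.length = m + 2 ∧ Inn (𝒰 y) l) (sup_prN hz1 ?_) ?_
    · rintro l ⟨hl, x, _, hx, hδx⟩ j hj l' hl' hb
      obtain ⟨t', _, h3⟩ := hlist x δ1 hN1 hδx l hx j hj l' hb
      exact ⟨_, by omega, h3⟩
    · rintro l ⟨y, hl, hy⟩
      exact h𝒰c y l hl hy
  have e3 : ev c (prN f N (bd z)) = 0 := by
    refine ev_eq_zero (P := fun l => ∃ y, y ∉ A ∧ l.length = m + 1 ∧ Inn (𝒰 y) l)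
      (sup_prN hz2 ?_) ?_
    · rintro l ⟨hl, x, hxA, hx, hδx⟩ j hj l' hl' hb
      obtain ⟨t', ht', h3⟩ := hlist x δ2 hN2 hδx l hx j hj l' hb
      exact ⟨_, hHA x hxA t' ht', by omega, h3⟩
    · rintro l ⟨y, hyA, hl, hy⟩
      exact h𝒰A y hyA l hl hy
  have e4 := congrArg (fun w => ev c w) e1
  simp only [map_add] at e4
  rw [e2, e3, add_zero] at e4
  have f0 : f 0 = fun a => a := by
    funext a; simp [hf, hH0]
  have fN : f N = fun a => H a 1 := by
    funext a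
    simp only [hf]
    rw [div_self hN0.ne']
  rw [f0, fN, mp_id] at e4
  have := eq_neg_of_add_eq_zero_left e4.symm
  rwa [neg_self] at this

end Top

end Crest.Agent.R224.Loc
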