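import Mathlib
import Crest.Agent.R224.Loc1

/-!
# Row 224, topological half: local Alexander-Spanier computations (2)

Cohomology of `Fin n → ℝ` with supports bounded in the first `k` coordinates.
-/

set_option autoImplicit false
set_option linter.unusedSectionVars false

namespace Crest.Agent.R224.Loc

open Crest.Agent.R050 Topology Set Filter

section Push

variable {X : Type*} [TopologicalSpace X]

/-- supports that can be pushed away -/
theorem push_inf {m : ℕ} {A : Set X} {c : List X → ZMod 2} (hc : ∀ x, LZ (m + 2) (cob c) x)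
    (hA : SuppIn (m + 1) c A)
    {H : X → ℝ → X} (hH : Continuous fun p : X × ℝ => H p.1 p.2) (hH0 : ∀ x, H x 0 = x)
    (hHA : ∀ x, x ∉ A → ∀ t ∈ Icc (0 : ℝ) 1, H x t ∉ A) (hH1 : ∀ x, H x 1 ∉ A) :
    ∃ b : List X → ZMod 2, SuppIn m b A ∧ ∀ x, LZ (m + 1) (fun l => c l + cob b l) x := by
  have hW : ∀ y, ∃ W ∈ 𝓝 y, (y ∉ A → ZeroOn (m + 1) W c) := by
    intro y
    by_cases hy : y ∈ A
    · exact ⟨univ, univ_mem, fun h => absurd hy h⟩
    · obtain ⟨W, hW, h⟩ := hA y hy
      exact ⟨W, hW, fun _ => h⟩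
  choose 𝒲 h𝒲 h𝒲A using hW
  obtain ⟨𝒱, h𝒱, _, h𝒱1, hev⟩ := hom_ev hc hA hH hH0 hHA h𝒲
  obtain ⟨b, hb0, hb⟩ := uc (P := Off 𝒱 ∅ (m + 1)) (N := Off 𝒱 A m) (c := c) (by
    intro z hz hbz
    rw [hev z hz hbz]
    refine ev_eq_zero (P := fun l => ∃ y, y ∉ A ∧ l.length = m + 1 ∧ Inn (𝒲 y) l)
      (Sup.mp hz ?_) ?_
    · rintro l ⟨hl, x, _, hx⟩
      refine ⟨H x 1, hH1 x, by simpa using hl, ?_⟩
      intro a ha
      obtain ⟨a', ha', rfl⟩ := List.mem_map.1 ha
      exact h𝒱1 x a' (hx a' ha')
    · rintro l ⟨y, hyA, hl, hy⟩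
      exact h𝒲A y hyA l hl hy)
  refine ⟨b, ?_, ?_⟩
  · intro x hx
    exact ⟨𝒱 x, h𝒱 x, fun l hl hlV => hb0 l ⟨hl, x, hx, hlV⟩⟩
  · intro x
    refine ⟨𝒱 x, h𝒱 x, fun l hl hlV => ?_⟩
    simp only
    rw [hb l ⟨hl, x, by simp, hlV⟩, CharTwo.add_self_eq_zero]

theorem bd_replicate (p : X) (n : ℕ) :
    bd (sg (List.replicate n p)) = if Odd n then sg (List.replicate (n - 1) p) else 0 := by
  induction n with
  | zero => simp
  | succ n ih =>
    rw [List.replicate_succ, bd_cons, ih]
    by_cases h : Odd n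
    · rw [if_pos h, if_neg (by rw [Nat.not_odd_iff_even]; exact h.add_one)]
      obtain ⟨j, rfl⟩ : ∃ j, n = j + 1 := ⟨n - 1, by have := h.pos; omega⟩
      simp only [Nat.add_sub_cancel, cone_sg, ← List.replicate_succ]
      exact two_self _
    · rw [if_neg h, if_pos (by rw [Nat.not_odd_iff_even] at h; exact h.add_one)]
      simp

/-- contractible spaces -/
theorem push_pt {m : ℕ} {c : List X → ZMod 2} (hc : ∀ x, LZ (m + 2) (cob c) x)
    {H : X → ℝ → X} (hH : Continuous fun p : X × ℝ => H p.1 p.2) (hH0 : ∀ x, H x 0 = x)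
    (p : X) (hH1 : ∀ x, H x 1 = p) :
    ∃ b : List X → ZMod 2, ∀ x, LZ (m + 1) (fun l => c l + cob b l) x := by
  obtain ⟨𝒱, h𝒱, _, _, hev⟩ := hom_ev hc (A := univ) (fun x hx => absurd (mem_univ x) hx) hH hH0
    (fun x hx => absurd (mem_univ x) hx) (𝒲 := fun _ => univ) (fun _ => univ_mem)
  obtain ⟨b, _, hb⟩ := uc (P := Off 𝒱 ∅ (m + 1)) (N := Off 𝒱 univ m) (c := c) (by
    intro z hz hbz
    rw [hev z hz hbz]
    have hbz0 : bd z = 0 := by
      rw [← Finsupp.support_eq_empty, Finset.eq_empty_iff_forall_notMem]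
      intro l hl
      obtain ⟨_, x, hx, _⟩ := hbz l hl
      exact hx (mem_univ x)
    have h1 : mp (fun a => H a 1) z = (ev (fun _ => 1) z) • sg (List.replicate (m + 1) p) := by
      have : ∀ z : Ch X, Sup (fun l => l.length = m + 1) z →
          mp (fun a => H a 1) z = (ev (fun _ => 1) z) • sg (List.replicate (m + 1) p) := by
        intro z hz
        have e1 : mp (fun a => H a 1) z = ∑ l ∈ z.support, z l • sg (l.map fun a => H a 1) := rfl
        have e2 : ev (fun _ => (1 : ZMod 2)) z = ∑ l ∈ z.support, z l • (1 : ZMod 2) := rfl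
        rw [e1, e2, Finset.sum_smul]
        refine Finset.sum_congr rfl fun l hl => ?_
        have e3 : (l.map fun a => H a 1) = List.replicate (m + 1) p := by
          rw [List.eq_replicate_iff]
          refine ⟨by simpa using hz l hl, ?_⟩
          intro b hb
          obtain ⟨a, _, rfl⟩ := List.mem_map.1 hb
          exact hH1 a
        rw [e3, smul_eq_mul, mul_one]
      exact this z (fun l hl => (hz l hl).1)
    rw [h1, map_smul, lin_sg]
    by_cases hodd : Odd (m + 1)
    · have h2 := mp_bd (fun a => H a 1) z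
      rw [hbz0, map_zero, h1, map_smul, bd_replicate, if_pos hodd] at h2
      have h3 := congrArg (fun w : Ch X => w (List.replicate (m + 1 - 1) p)) h2
      simp only [Finsupp.coe_zero, Pi.zero_apply, Finsupp.smul_apply, Finsupp.single_eq_same,
        smul_eq_mul, mul_one] at h3
      rw [← h3, zero_smul]
    · have h2 : c (List.replicate (m + 1) p) = 0 := by
        have h3 : Odd (m + 2) := by
          rw [Nat.not_odd_iff_even] at hodd
          exact hodd.add_one
        obtain ⟨V, hV, h4⟩ := hc p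
        have h5 := h4 (List.replicate (m + 2) p) (by simp) (by
          intro a ha
          rw [List.eq_of_mem_replicate ha]
          exact mem_of_mem_nhds hV)
        rw [cob, bd_replicate, if_pos h3, lin_sg] at h5
        exact h5
      rw [h2, smul_zero])
  refine ⟨b, fun x => ⟨𝒱 x, h𝒱 x, fun l hl hlV => ?_⟩⟩
  simp only
  rw [hb l ⟨hl, x, by simp, hlV⟩, CharTwo.add_self_eq_zero]

open Classical in
/-- cut by the position of the first vertex -/
noncomputable def hd (S : Set X) (d : List X → ZMod 2) : List X → ZMod 2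
  | [] => 0
  | a :: l => if a ∈ S then d (a :: l) else 0

theorem ZeroOn.hd {m : ℕ} {V : Set X} {d : List X → ZMod 2} (h : ZeroOn m V d) (S : Set X) :
    ZeroOn m V (hd S d) := by
  intro l hl hlV
  cases l with
  | nil => rfl
  | cons a l =>
    simp only [Loc.hd]
    split_ifs
    · exact h _ hl hlV
    · rfl

theorem LZ.hd {m : ℕ} {x : X} {d : List X → ZMod 2} (h : LZ m d x) (S : Set X) :
    LZ m (hd S d) x := by
  obtain ⟨V, hV, h1⟩ := h
  exact ⟨V, hV, h1.hd S⟩

theorem LZ_hd_compl {m : ℕ} {x : X} {d : List X → ZMod 2} {S : Set X} (h : Sᶜ ∈ 𝓝 x) :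
    LZ m (hd S d) x := by
  refine ⟨Sᶜ, h, ?_⟩
  intro l hl hlV
  cases l with
  | nil => rfl
  | cons a l =>
    simp only [Loc.hd]
    rw [if_neg (hlV a (by simp))]

theorem LZ_hd_add {m : ℕ} {x : X} {d : List X → ZMod 2} {S : Set X} (h : S ∈ 𝓝 x)
    (hd0 : d [] = 0) : LZ m (fun l => d l + hd S d l) x := by
  refine ⟨S, h, ?_⟩
  intro l hl hlV
  cases l with
  | nil => simp [Loc.hd, hd0]
  | cons a l =>
    simp only [Loc.hd]
    rw [if_pos (hlV a (by simp)), CharTwo.add_self_eq_zero]

end Push

section Rn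

variable {n : ℕ}

/-- bounded in the first `k` coordinates -/
def box (n k : ℕ) (R : ℝ) : Set (Fin n → ℝ) := {x | ∀ i : Fin n, i.1 < k → |x i| ≤ R}

/-- half space -/
def Hp (n k : ℕ) : Set (Fin n → ℝ) := {x | ∀ i : Fin n, i.1 = k → 0 ≤ x i}

/-- iterated point cocycle -/
noncomputable def th (n : ℕ) : ℕ → List (Fin n → ℝ) → ZMod 2
  | 0 => fun l => if l.length = 1 then 1 else 0
  | k + 1 => cob (hd (Hp n k) (th n k))

theorem cob_th (k : ℕ) (l : List (Fin n → ℝ)) : cob (th n k) l = 0 := by
  cases k with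
  | succ k => exact cob_cob _ _
  | zero =>
    rw [cob]
    match l with
    | [] => simp
    | [a] => simp [bd_cons, th]
    | [a, b] =>
      simp only [bd_cons, bd_nil, map_add, map_zero, add_zero, lin_sg, cone_sg, th,
        List.length_singleton, if_true]
      rfl
    | a :: b :: c :: l =>
      refine ev_eq_zero (sup_bd_sg _) ?_
      rintro l' ⟨_, h2⟩
      simp only [List.length_cons] at h2
      simp only [th]
      rw [if_neg (by omega)]

theorem th_nil (k : ℕ) : th n k [] = 0 := by
  cases k with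
  | zero => simp [th]
  | succ k => simp [th, cob]

theorem box_mono {k : ℕ} {R R' : ℝ} (h : R ≤ R') : box n k R ⊆ box n k R' :=
  fun _ hx i hi => (hx i hi).trans h

theorem LZ_cob_th_hd {k : ℕ} {m : ℕ} {x : Fin n → ℝ} {S : Set (Fin n → ℝ)}
    (h : S ∈ 𝓝 x ∨ Sᶜ ∈ 𝓝 x) : LZ (m + 1) (cob (hd S (th n k))) x := by
  rcases h with h | h
  · have h1 := (LZ_hd_add (m := m) (d := th n k) h (th_nil k)).cob
    refine LZ.congr (c := cob (th n k)) ⟨univ, univ_mem, fun l _ _ => cob_th k l⟩ ?_
    obtain ⟨V, hV, h2⟩ := h1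
    refine ⟨V, hV, fun l hl hlV => ?_⟩
    have := h2 l hl hlV
    rwa [cob_add] at this
  · exact (LZ_hd_compl (m := m) (d := th n k) h).cob

theorem Hp_mem {k : ℕ} (hk : k < n) {x : Fin n → ℝ} (h : 0 < x ⟨k, hk⟩) : Hp n k ∈ 𝓝 x := by
  have h1 : {y : Fin n → ℝ | 0 < y ⟨k, hk⟩} ∈ 𝓝 x :=
    (isOpen_lt continuous_const (continuous_apply _)).mem_nhds h
  refine mem_of_superset h1 ?_
  intro y hy i hi
  have : i = ⟨k, hk⟩ := Fin.ext hi
  rw [this]; exact le_of_lt hy

theorem Hp_compl_mem {k : ℕ} (hk : k < n) {x : Fin n → ℝ} (h : x ⟨k, hk⟩ < 0) :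
    (Hp n k)ᶜ ∈ 𝓝 x := by
  have h1 : {y : Fin n → ℝ | y ⟨k, hk⟩ < 0} ∈ 𝓝 x :=
    (isOpen_lt (continuous_apply _) continuous_const).mem_nhds h
  refine mem_of_superset h1 ?_
  intro y hy hy'
  exact absurd (hy' ⟨k, hk⟩ rfl) (not_le.2 hy)

theorem supp_th {k : ℕ} (hk : k ≤ n) : SuppIn (k + 1) (th n k) (box n k 0) := by
  induction k with
  | zero =>
    intro x hx
    exact absurd (fun i hi => absurd hi (by omega)) hx
  | succ k ih =>
    intro x hx
    have hk' : k < n := hk
    by_cases h1 : x ∈ box n k 0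
    · have h2 : x ⟨k, hk'⟩ ≠ 0 := by
        intro h0
        apply hx
        intro i hi
        by_cases hik : i.1 < k
        · exact h1 i hik
        · have : i = ⟨k, hk'⟩ := Fin.ext (by change i.1 = k; omega)
          rw [this, h0, abs_zero]
      refine LZ_cob_th_hd ?_
      rcases lt_or_gt_of_ne h2 with h | h
      · exact Or.inr (Hp_compl_mem hk' h)
      · exact Or.inl (Hp_mem hk' h)
    · exact ((ih (by omega) x h1).hd _).cob

/-- push in the direction `-e_k` -/
def pushN (s R : ℝ) {k : ℕ} (hk : k < n) (x : Fin n → ℝ) (t : ℝ) : Fin n → ℝ :=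
  Function.update x ⟨k, hk⟩ (x ⟨k, hk⟩ + s * (t * (|x ⟨k, hk⟩| + R + 1)))

theorem continuous_pushN (s R : ℝ) {k : ℕ} (hk : k < n) :
    Continuous fun p : (Fin n → ℝ) × ℝ => pushN s R hk p.1 p.2 := by
  refine continuous_pi fun i => ?_
  unfold pushN
  by_cases hi : i = ⟨k, hk⟩
  · subst hi
    simp only [Function.update_self]
    fun_prop
  · simp only [Function.update_of_ne hi]
    fun_prop

/-- half-bounded supports have no cohomology -/
theorem half {m k : ℕ} (hk : k < n) {R : ℝ} (hR : 0 ≤ R) (s : ℝ) (hs : s = 1 ∨ s = -1)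
    {c : List (Fin n → ℝ) → ZMod 2} (hc : ∀ x, LZ (m + 2) (cob c) x)
    (hA : SuppIn (m + 1) c {x | x ∈ box n k R ∧ s * x ⟨k, hk⟩ ≤ R}) :
    ∃ b : List (Fin n → ℝ) → ZMod 2, SuppIn m b {x | x ∈ box n k R ∧ s * x ⟨k, hk⟩ ≤ R} ∧
      ∀ x, LZ (m + 1) (fun l => c l + cob b l) x := by
  have hbox : ∀ (x : Fin n → ℝ) (t : ℝ), pushN s R hk x t ∈ box n k R ↔ x ∈ box n k R := by
    intro x t
    refine forall_congr' fun i => forall_congr' fun hi => ?_
    have : i ≠ ⟨k, hk⟩ := by
      rintro rfl; exact lt_irrefl _ hi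
    rw [pushN, Function.update_of_ne this]
  have hs2 : s * s = 1 := by rcases hs with h | h <;> rw [h] <;> norm_num
  have hcoord : ∀ (x : Fin n → ℝ) (t : ℝ), s * pushN s R hk x t ⟨k, hk⟩
      = s * x ⟨k, hk⟩ + t * (|x ⟨k, hk⟩| + R + 1) := by
    intro x t
    rw [pushN, Function.update_self, mul_add, ← mul_assoc, hs2, one_mul]
  refine push_inf hc hA (continuous_pushN s R hk) ?_ ?_ ?_
  · intro x
    simp [pushN]
  · intro x hx t ht hxt
    apply hx
    refine ⟨(hbox x t).1 hxt.1, ?_⟩
    have h1 := hxt.2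
    rw [hcoord] at h1
    have : 0 ≤ t * (|x ⟨k, hk⟩| + R + 1) := by
      have := abs_nonneg (x ⟨k, hk⟩)
      exact mul_nonneg ht.1 (by linarith)
    linarith
  · intro x hx
    have h1 := hx.2
    rw [hcoord] at h1
    have h2 : -|x ⟨k, hk⟩| ≤ s * x ⟨k, hk⟩ := by
      rcases hs with h | h
      · rw [h, one_mul]; exact neg_abs_le _
      · rw [h]; have := le_abs_self (x ⟨k, hk⟩); linarith
    linarith

/-- **cohomology with supports bounded in the first `k` coordinates** -/
theorem claim {k : ℕ} (hk : k ≤ n) {R : ℝ} (hR : 0 ≤ R) :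
    ∀ (m : ℕ) (c : List (Fin n → ℝ) → ZMod 2), (∀ x, LZ (m + 2) (cob c) x) →
      SuppIn (m + 1) c (box n k R) →
      ∃ (a : ZMod 2) (b : List (Fin n → ℝ) → ZMod 2), SuppIn m b (box n k R) ∧ b [] = 0 ∧
        (m ≠ k → a = 0) ∧ ∀ x, LZ (m + 1) (fun l => c l + a * th n k l + cob b l) x := by
  induction k with
  | zero =>
    intro m c hc _
    obtain ⟨b0, hb0⟩ := push_pt hc (H := fun x t => (1 - t) • x) (by fun_prop) (by simp) 0
      (by simp)
    cases m with
    | zero =>
      refine ⟨b0 [], fun _ => 0, fun x _ => ⟨univ, univ_mem, fun _ _ _ => rfl⟩, rfl,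
        fun h => absurd rfl h, fun x => ?_⟩
      obtain ⟨V, hV, h1⟩ := hb0 x
      refine ⟨V, hV, fun l hl hlV => ?_⟩
      have h2 := h1 l hl hlV
      obtain ⟨a, rfl⟩ := List.length_eq_one_iff.1 hl
      simp only [cob, bd_cons, bd_nil, map_zero, add_zero, lin_sg] at h2 ⊢
      simpa [th] using h2
    | succ m =>
      refine ⟨0, fun l => if l.length = 0 then 0 else b0 l,
        fun x hx => absurd (fun i hi => absurd hi (by omega)) hx, by simp, fun _ => rfl,
        fun x => ?_⟩
      obtain ⟨V, hV, h1⟩ := hb0 x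
      refine ⟨V, hV, fun l hl hlV => ?_⟩
      have h2 := h1 l hl hlV
      have h3 : cob (fun l => if l.length = 0 then 0 else b0 l) l = cob b0 l := by
        rw [cob, cob]
        refine ev_congr (sup_bd_sg l) ?_
        rintro l' ⟨_, h4⟩
        rw [if_neg (by omega)]
      simp only [zero_mul, add_zero, h3]
      exact h2
  | succ k ih =>
    intro m c hc hA
    have hk' : k < n := hk
    have hsub : ∀ s : ℝ, s = 1 ∨ s = -1 → box n (k + 1) R ⊆ {x | x ∈ box n k R ∧ s * x ⟨k, hk'⟩ ≤ R} := by
      intro s hs x hx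
      refine ⟨fun i hi => hx i (by omega), ?_⟩
      have h1 := hx ⟨k, hk'⟩ (Nat.lt_succ_self k)
      rcases hs with h | h
      · rw [h, one_mul]; exact (le_abs_self _).trans h1
      · rw [h, neg_one_mul]; exact (neg_le_abs _).trans h1
    obtain ⟨bp, hbpA, hbp⟩ := half hk' hR (-1) (Or.inr rfl) hc
      (fun x hx => hA x fun h => hx (hsub (-1) (Or.inr rfl) h))
    obtain ⟨bm, hbmA, hbm⟩ := half hk' hR 1 (Or.inl rfl) hc
      (fun x hx => hA x fun h => hx (hsub 1 (Or.inl rfl) h))
    cases m with
    | zero =>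
      have h0 : bp [] = 0 := by
        obtain ⟨V, hV, h1⟩ := hbpA (Function.update 0 ⟨k, hk'⟩ (-(R + 1))) (by
          rintro ⟨_, h2⟩
          rw [Function.update_self] at h2
          linarith)
        exact h1 [] rfl (by intro a ha; simp at ha)
      refine ⟨0, fun _ => 0, fun x _ => ⟨univ, univ_mem, fun _ _ _ => rfl⟩, rfl, fun _ => rfl,
        fun x => ?_⟩
      obtain ⟨V, hV, h1⟩ := hbp x
      refine ⟨V, hV, fun l hl hlV => ?_⟩
      have h2 := h1 l hl hlV
      obtain ⟨a, rfl⟩ := List.length_eq_one_iff.1 hl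
      simp only [cob, bd_cons, bd_nil, map_zero, add_zero, lin_sg] at h2 ⊢
      simpa [h0] using h2
    | succ m =>
      obtain ⟨a, d, hdA, hd0, ham, hd1⟩ := ih (by omega) m (fun l => bp l + bm l) (by
        intro x
        have h1 := (hbp x).add (hbm x)
        obtain ⟨V, hV, h2⟩ := h1
        refine ⟨V, hV, fun l hl hlV => ?_⟩
        have h3 : c l + cob bp l + (c l + cob bm l) = 0 := h2 l hl hlV
        rw [cob_add]
        have e : c l + cob bp l + (c l + cob bm l) = (c l + c l) + (cob bp l + cob bm l) := by ring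
        rw [e, CharTwo.add_self_eq_zero, zero_add] at h3
        exact h3) (by
        intro x hx
        exact (hbpA x fun h => hx h.1).add (hbmA x fun h => hx h.1))
      set S := Hp n k with hS
      set b : List (Fin n → ℝ) → ZMod 2 := fun l => if l.length = 0 then 0 else
        bp l + a * hd S (th n k) l + cob (hd S d) l with hb
      have hbeq : ∀ l : List (Fin n → ℝ), l.length = m + 1 →
          b l = bp l + a * hd S (th n k) l + cob (hd S d) l := by
        intro l hl; simp only [hb]; rw [if_neg (by omega)]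
      have hmulLZ : ∀ {x : Fin n → ℝ} {e : List (Fin n → ℝ) → ZMod 2},
          (m = k → LZ (m + 1) e x) → LZ (m + 1) (fun l => a * e l) x := by
        intro x e he
        by_cases hmk : m = k
        · obtain ⟨V, hV, h1⟩ := he hmk
          exact ⟨V, hV, fun l hl hlV => by simp only [h1 l hl hlV, mul_zero]⟩
        · exact ⟨univ, univ_mem, fun l _ _ => by simp only [ham hmk, zero_mul]⟩
      refine ⟨a, b, ?_, by simp [hb], fun h => ham (fun h' => h (by rw [h'])), ?_⟩
      · intro x hx
        -- either off A+ or off A-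
        by_cases hxp : x ∈ {x | x ∈ box n k R ∧ (-1) * x ⟨k, hk'⟩ ≤ R}
        · -- then off A-
          have hxm : x ∉ {x | x ∈ box n k R ∧ (1 : ℝ) * x ⟨k, hk'⟩ ≤ R} := by
            rintro ⟨h1, h2⟩
            apply hx
            intro i hi
            by_cases hik : i.1 < k
            · exact h1 i hik
            · have : i = ⟨k, hk'⟩ := Fin.ext (by change i.1 = k; omega)
              rw [this, abs_le]
              have h3 := hxp.2
              constructor <;> linarith
          have hpos : 0 < x ⟨k, hk'⟩ := by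
            by_contra hcon
            push Not at hcon
            exact hxm ⟨hxp.1, by linarith⟩
          have hSx : S ∈ 𝓝 x := Hp_mem hk' hpos
          have l1 := hd1 x
          have l2 := hbmA x hxm
          have l3 : LZ (m + 1) (fun l => a * (th n k l + hd S (th n k) l)) x :=
            hmulLZ fun _ => LZ_hd_add hSx (th_nil k)
          have l4 : LZ (m + 1) (cob fun l => d l + hd S d l) x := (LZ_hd_add hSx hd0).cob
          obtain ⟨V, hV, h5⟩ := ((l1.add l2).add l3).add l4
          refine ⟨V, hV, fun l hl hlV => ?_⟩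
          have h6 := h5 l hl hlV
          rw [hbeq l hl]
          simp only [cob_add] at h6
          have e : bp l + bm l + a * th n k l + cob d l + bm l + a * (th n k l + hd S (th n k) l)
              + (cob d l + cob (hd S d) l)
              = (bp l + a * hd S (th n k) l + cob (hd S d) l) + (bm l + bm l)
                + (a * th n k l + a * th n k l) + (cob d l + cob d l) := by ring
          rw [e, CharTwo.add_self_eq_zero, CharTwo.add_self_eq_zero, CharTwo.add_self_eq_zero,
            add_zero, add_zero, add_zero] at h6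
          exact h6
        · have l1 := hbpA x hxp
          have hor : x ∉ box n k R ∨ x ⟨k, hk'⟩ < 0 := by
            by_contra hcon
            push Not at hcon
            exact hxp ⟨hcon.1, by linarith⟩
          have l2 : LZ (m + 1) (fun l => a * hd S (th n k) l) x := by
            refine hmulLZ fun hmk => ?_
            rcases hor with h | h
            · subst hmk
              exact (supp_th (by omega) x fun h' => h (box_mono hR h')).hd S
            · exact LZ_hd_compl (Hp_compl_mem hk' h)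
          have l3 : LZ (m + 1) (cob (hd S d)) x := by
            refine LZ.cob ?_
            rcases hor with h | h
            · exact (hdA x h).hd S
            · exact LZ_hd_compl (Hp_compl_mem hk' h)
          obtain ⟨V, hV, h5⟩ := (l1.add l2).add l3
          refine ⟨V, hV, fun l hl hlV => ?_⟩
          have h6 := h5 l hl hlV
          rw [hbeq l hl]
          exact h6
      · intro x
        obtain ⟨V, hV, h5⟩ := hbp x
        refine ⟨V, hV, fun l hl hlV => ?_⟩
        have h6 := h5 l hl hlV
        have h7 : cob b l = cob bp l + a * th n (k + 1) l := by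
          have e1 : cob b l = cob (fun l => (bp l + a * hd S (th n k) l) + cob (hd S d) l) l := by
            rw [cob, cob]
            refine ev_congr (sup_bd_sg l) ?_
            rintro l' ⟨_, h4⟩
            exact hbeq l' (by omega)
          have e2 : cob (fun l => a * hd S (th n k) l) l = a * cob (hd S (th n k)) l := by
            rw [cob, cob]
            have : (ev (fun l => a * hd S (th n k) l) : Ch (Fin n → ℝ) →ₗ[ZMod 2] ZMod 2)
                = a • ev (hd S (th n k)) := by
              apply lin_ext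
              intro l; simp
            rw [this]; rfl
          rw [e1, cob_add, cob_cob, add_zero, cob_add, e2]
          rfl
        simp only [h7]
        have e : c l + a * th n (k + 1) l + (cob bp l + a * th n (k + 1) l)
            = (c l + cob bp l) + (a * th n (k + 1) l + a * th n (k + 1) l) := by ring
        rw [e, CharTwo.add_self_eq_zero, add_zero]
        exact h6

end Rn

end Crest.Agent.R224.Loc
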