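/-
R224 / S0346 : node NNull (null lemma) (helper846).
-/
import Crest.Agent.R224.Iface

set_option autoImplicit false

noncomputable section

open MeasureTheory Set Filter Topology
open scoped Pointwise

namespace Crest.Agent.R224

namespace NodeNull

variable (s : Sys)

theorem isClosed_T : IsClosed (T s.ι) := by
  have : IsOpen (Set.range s.ι) := by
    have h : Set.range s.ι = ⋃ g, {s.ι g} := by
      ext z; simp [eq_comm]
    rw [h]
    exact isOpen_iUnion fun g => s.bdry.isol g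
  exact this.isClosed_compl

theorem meas_RO {U : Set s.Z} (h : RO s.ι U) : MeasurableSet U := by
  obtain ⟨O, hO, rfl⟩ := h
  exact hO.measurableSet.inter (isClosed_T s).measurableSet

theorem smul_mem_T (g : s.G) {z : s.Z} (hz : z ∈ T s.ι) : g • z ∈ T s.ι := by
  rintro ⟨h, hh⟩
  apply hz
  refine ⟨g⁻¹ * h, ?_⟩
  rw [← s.bdry.eqv, hh, inv_smul_smul]

theorem prob (x : s.G) : IsProbabilityMeasure (s.ν x) := s.harm.prob x

theorem hh_le_one (U : Set s.Z) (x : s.G) : hh s.ν U x ≤ 1 := by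
  haveI := prob s x
  exact measureReal_le_one

theorem hh_nonneg (U : Set s.Z) (x : s.G) : 0 ≤ hh s.ν U x := measureReal_nonneg

/-- translation of masses -/
theorem hh_smul (g x : s.G) {U : Set s.Z} (hU : MeasurableSet U) :
    hh s.ν (g • U) (g * x) = hh s.ν U x := by
  have := s.harm.equiv g x U hU
  unfold hh
  simp only [Measure.real]
  congr 1

theorem bal_smul (g x : s.G) (c : ℝ) {U : Set s.Z} (hU : MeasurableSet U) :
    g * x ∈ Bal s.ν c (g • U) ↔ x ∈ Bal s.ν c U := by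
  unfold Bal
  simp only [Set.mem_setOf_eq, hh_smul s g x hU]

theorem clp_smul (hA : PAlg s) {η : s.Z} {U : Set s.Z} (h : Clp s.ι η U) (g : s.G) :
    Clp s.ι (g • η) (g • U) := (hA η U U h h).2.2.2.2 g

theorem clp_cmp (hA : PAlg s) {η : s.Z} {U : Set s.Z} (h : Clp s.ι η U) :
    Clp s.ι η (cmp s.ι η U) := (hA η U U h h).1

theorem cmp_smul (g : s.G) (η : s.Z) (U : Set s.Z) :
    cmp s.ι (g • η) (g • U) = g • cmp s.ι η U := by
  ext z
  rw [Set.mem_smul_set_iff_inv_smul_mem]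
  simp only [cmp, Set.mem_setOf_eq, Set.mem_smul_set_iff_inv_smul_mem]
  constructor
  · rintro ⟨h1, h2, h3⟩
    refine ⟨smul_mem_T s g⁻¹ h1, ?_, h3⟩
    intro h; apply h2; rw [← h, smul_inv_smul]
  · rintro ⟨h1, h2, h3⟩
    refine ⟨?_, ?_, h3⟩
    · have := smul_mem_T s g h1
      rwa [smul_inv_smul] at this
    · intro h; apply h2; rw [h, inv_smul_smul]

theorem compo_smul (hA : PAlg s) (g : s.G) (η θ : s.Z) :
    Compo s.ι (g • η) (g • θ) = g • Compo s.ι η θ := by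
  have key : ∀ (g : s.G) (η θ : s.Z), g • Compo s.ι η θ ⊆ Compo s.ι (g • η) (g • θ) := by
    intro g η θ z hz
    rw [Set.mem_smul_set_iff_inv_smul_mem] at hz
    obtain ⟨h1, h2, h3⟩ := hz
    refine ⟨?_, ?_, ?_⟩
    · have := smul_mem_T s g h1
      rwa [smul_inv_smul] at this
    · intro h; apply h2; rw [h, inv_smul_smul]
    · intro U hU hθ
      have h4 := clp_smul s hA hU g⁻¹
      rw [inv_smul_smul] at h4
      have h5 := h3 _ h4 (by
        rw [Set.mem_smul_set_iff_inv_smul_mem, inv_inv]; exact hθ)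
      rw [Set.mem_smul_set_iff_inv_smul_mem, inv_inv, smul_inv_smul] at h5
      exact h5
  apply Set.Subset.antisymm _ (key g η θ)
  intro z hz
  have := key g⁻¹ (g • η) (g • θ) (Set.smul_mem_smul_set (a := g⁻¹) hz)
  rw [inv_smul_smul, inv_smul_smul] at this
  rw [Set.mem_smul_set_iff_inv_smul_mem]
  exact this

theorem isCut_smul (hA : PAlg s) {η : s.Z} (h : IsCut s.ι η) (g : s.G) : IsCut s.ι (g • η) := by
  obtain ⟨U, hU, h1, h2⟩ := h
  refine ⟨g • U, clp_smul s hA hU g, h1.smul_set, ?_⟩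
  rw [cmp_smul]
  exact h2.smul_set

theorem pairs_smul (hA : PAlg s) {q : s.Z × Set s.Z} (hq : q ∈ s.Pairs) (g : s.G) :
    g • q ∈ s.Pairs := by
  obtain ⟨h1, θ, h2, h3, h4⟩ := hq
  refine ⟨isCut_smul s hA h1 g, g • θ, smul_mem_T s g h2, ?_, ?_⟩
  · intro h
    exact h3 (MulAction.injective g h)
  · show g • q.2 = _
    rw [h4]
    exact (compo_smul s hA g q.1 θ).symm

theorem compo_symm (hA : PAlg s) {η θ z : s.Z} (hθT : θ ∈ T s.ι) (hθη : θ ≠ η)
    (hz : z ∈ Compo s.ι η θ) : θ ∈ Compo s.ι η z := by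
  refine ⟨hθT, hθη, ?_⟩
  intro U hU hzU
  by_contra hθ
  have := hz.2.2 (cmp s.ι η U) (clp_cmp s hA hU) ⟨hθT, hθη, hθ⟩
  exact this.2.2 hzU

theorem compo_trans {η θ z w : s.Z} (hz : z ∈ Compo s.ι η θ) (hw : w ∈ Compo s.ι η z) :
    w ∈ Compo s.ι η θ :=
  ⟨hw.1, hw.2.1, fun U hU hθ => hw.2.2 U hU (hz.2.2 U hU hθ)⟩

theorem compo_eq (hA : PAlg s) {η θ z : s.Z} (hθT : θ ∈ T s.ι) (hθη : θ ≠ η)
    (hz : z ∈ Compo s.ι η θ) : Compo s.ι η z = Compo s.ι η θ := by
  ext w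
  exact ⟨fun hw => compo_trans s hz hw,
    fun hw => compo_trans s (compo_symm s hA hθT hθη hz) hw⟩

theorem self_mem_compo {η θ : s.Z} (hθT : θ ∈ T s.ι) (hθη : θ ≠ η) : θ ∈ Compo s.ι η θ :=
  ⟨hθT, hθη, fun _ _ h => h⟩

theorem compo_disj (hA : PAlg s) {η θ θ' : s.Z} (hθT : θ ∈ T s.ι) (hθη : θ ≠ η)
    (hθT' : θ' ∈ T s.ι) (hθη' : θ' ≠ η) (h : Compo s.ι η θ ≠ Compo s.ι η θ') :
    Disjoint (Compo s.ι η θ) (Compo s.ι η θ') := by
  rw [Set.disjoint_left]
  intro z hz hz'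
  apply h
  rw [← compo_eq s hA hθT hθη hz, ← compo_eq s hA hθT' hθη' hz']

/-- a pairwise disjoint family of measurable sets of mass at least `c` is finite -/
theorem finite_of_mass (x : s.G) {c : ℝ} (hc : 0 < c) (F : Set (Set s.Z))
    (hm : ∀ A ∈ F, MeasurableSet A) (hd : F.PairwiseDisjoint id)
    (hF : ∀ A ∈ F, c ≤ hh s.ν A x) : F.Finite := by
  haveI := prob s x
  by_contra hinf
  obtain ⟨N, hN⟩ := exists_nat_gt (1 / c)
  obtain ⟨t, ht, hcard⟩ := Set.Infinite.exists_subset_card_eq hinf N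
  have h1 : (s.ν x).real (⋃ A ∈ t, A) = ∑ A ∈ t, (s.ν x).real A := by
    apply measureReal_biUnion_finset
    · intro A hA B hB hAB
      exact hd (ht hA) (ht hB) hAB
    · intro A hA
      exact hm A (ht hA)
    · intro A _
      exact measure_ne_top _ _
  have h2 : (N : ℝ) * c ≤ ∑ A ∈ t, (s.ν x).real A := by
    rw [← hcard, ← nsmul_eq_mul]
    apply Finset.card_nsmul_le_sum
    intro A hA
    exact hF A (ht hA)
  have h3 : (s.ν x).real (⋃ A ∈ t, A) ≤ 1 := measureReal_le_one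
  have h4 : 1 < (N : ℝ) * c := by
    rwa [div_lt_iff₀ hc] at hN
  linarith

/-- only finitely many pairs are balanced at a given vertex -/
theorem finPairs (hA : PAlg s) (hLF : NLF s) (hO : NOpen s) {c : ℝ} (hc : 0 < c) (x : s.G) :
    {q | q ∈ s.Pairs ∧ x ∈ Bal s.ν c q.2}.Finite := by
  have h1 := hLF c hc x
  apply Set.Finite.subset (s := ⋃ η ∈ {η | ∃ U, Clp s.ι η U ∧ x ∈ Bal s.ν c U},
    (fun C => (η, C)) '' {C | ∃ θ, θ ∈ T s.ι ∧ θ ≠ η ∧ C = Compo s.ι η θ ∧ η ∈ T s.ι ∧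
      c ≤ hh s.ν C x})
  · apply h1.biUnion
    intro η hη
    apply Set.Finite.image
    apply finite_of_mass s x hc
    · rintro A ⟨θ, hθ, hne, rfl, hηT, -⟩
      exact meas_RO s (hO η hηT θ hθ hne).ro
    · rintro A ⟨θ, hθ, hne, rfl, hηT, -⟩ B ⟨θ', hθ', hne', rfl, -, -⟩ hAB
      exact compo_disj s hA hθ hne hθ' hne' hAB
    · rintro A ⟨θ, hθ, hne, rfl, hηT, h⟩
      exact h
  · rintro ⟨η, C⟩ ⟨⟨h2, θ, h3, h4, h5⟩, h6⟩
    obtain ⟨U, hU, -, -⟩ := h2
    have hηT := hU.mem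
    simp only [Set.mem_iUnion]
    simp only at h5 h6 h4 hηT
    have hClp : Clp s.ι η C := by rw [h5]; exact hO η hηT θ h3 h4
    exact ⟨η, ⟨C, hClp, h6⟩, C, ⟨θ, h3, h4, h5, hηT, h6.1⟩, rfl⟩

theorem near_mul (g : s.G) {ε : ℝ} (hε : 0 < ε) :
    ∃ K : Finset s.G, ∀ x : s.G, x ∉ K → dist (s.ι (x * g)) (s.ι x) ≤ ε := by
  classical
  obtain ⟨r, hr, hball⟩ := Metric.isOpen_iff.1 (s.bdry.isol g) (s.ι g) rfl
  set ε' := min ε (r / 2) with hε'
  have hε'0 : 0 < ε' := lt_min hε (by linarith)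
  obtain ⟨K, hK⟩ := s.bdry.cp ε' hε'0
  refine ⟨insert g⁻¹ K, fun x hx => ?_⟩
  rw [Finset.mem_insert, not_or] at hx
  rcases hK x hx.2 (s.ι (x * g)) with h | h
  · exact h.trans (min_le_left _ _)
  · exfalso
    rw [s.bdry.eqv] at h
    rw [← mul_assoc, inv_mul_cancel, one_mul] at h
    have h1 : s.ι x⁻¹ ∈ ({s.ι g} : Set s.Z) := by
      apply hball
      rw [Metric.mem_ball, dist_comm]
      have : ε' ≤ r / 2 := min_le_right _ _
      linarith
    have h2 := s.bdry.inj (Set.mem_singleton_iff.1 h1)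
    apply hx.1
    rw [← h2, inv_inv]

theorem tendsto_leaves {x : ℕ → s.G} {τ : s.Z} (hτ : τ ∈ T s.ι)
    (h : Tendsto (fun n => s.ι (x n)) atTop (𝓝 τ)) (K : Finset s.G) :
    ∀ᶠ n in atTop, x n ∉ K := by
  have hcl : IsClosed ((fun g => s.ι g) '' (K : Set s.G)) :=
    (K.finite_toSet.image _).isClosed
  have hmem : τ ∈ ((fun g => s.ι g) '' (K : Set s.G))ᶜ := by
    rintro ⟨g, -, hg⟩
    exact hτ ⟨g, hg⟩
  filter_upwards [h (hcl.isOpen_compl.mem_nhds hmem)] with n hn hx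
  exact hn ⟨x n, hx, rfl⟩

theorem tendsto_mul {x : ℕ → s.G} {τ : s.Z} (hτ : τ ∈ T s.ι)
    (h : Tendsto (fun n => s.ι (x n)) atTop (𝓝 τ)) (g : s.G) :
    Tendsto (fun n => s.ι (x n * g)) atTop (𝓝 τ) := by
  have h0 : Tendsto (fun n => dist (s.ι (x n * g)) (s.ι (x n))) atTop (𝓝 0) := by
    rw [Metric.tendsto_atTop]
    intro ε hε
    obtain ⟨K, hK⟩ := near_mul s g (half_pos hε)
    obtain ⟨N, hN⟩ := eventually_atTop.1 (tendsto_leaves s hτ h K)
    refine ⟨N, fun n hn => ?_⟩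
    have := hK (x n) (hN n hn)
    rw [Real.dist_eq, sub_zero, abs_of_nonneg dist_nonneg]
    linarith
  have h1 : Tendsto (fun n => dist (s.ι (x n)) τ) atTop (𝓝 0) := tendsto_iff_dist_tendsto_zero.1 h
  rw [tendsto_iff_dist_tendsto_zero]
  have h2 := h0.add h1
  rw [add_zero] at h2
  exact squeeze_zero (fun n => dist_nonneg) (fun n => dist_triangle _ _ _) h2

/-- a sequence in a finite set has a constant subsequence -/
theorem const_subseq {α : Type*} {F : Set α} (hF : F.Finite) (r : ℕ → α) (hr : ∀ n, r n ∈ F) :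
    ∃ a, ∃ φ : ℕ → ℕ, StrictMono φ ∧ ∀ n, r (φ n) = a := by
  have h1 : ∃ a ∈ F, {n | r n = a}.Infinite := by
    by_contra hcon
    push Not at hcon
    have : (Set.univ : Set ℕ) ⊆ ⋃ a ∈ F, {n | r n = a} := by
      intro n _
      simp only [Set.mem_iUnion]
      exact ⟨r n, hr n, rfl⟩
    have h2 : (⋃ a ∈ F, {n | r n = a}).Finite := hF.biUnion fun a ha => by
      first
        | exact hcon a ha
        | exact Set.not_infinite.1 (hcon a ha)
    exact Set.infinite_univ (h2.subset this)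
  obtain ⟨a, -, ha⟩ := h1
  obtain ⟨φ, hφ, hφ'⟩ := Filter.extraction_of_frequently_atTop
    (Nat.frequently_atTop_iff_infinite.2 ha)
  exact ⟨a, φ, hφ, hφ'⟩

theorem nNull (hA : PAlg s) (hLF : NLF s) (hO : NOpen s) (hD : NNullDyn s) : NNull s := by
  intro c ε hc hε
  by_contra hinf
  -- an injective sequence of pairs
  set Q := {q | q ∈ s.Pairs ∧ ∃ x ∈ Bal s.ν c q.2, ∃ x' ∈ Bal s.ν c q.2,
    ε ≤ dist (s.ι x) (s.ι x')} with hQ
  have hinf' : Q.Infinite := hinf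
  let q0 : ℕ → s.Z × Set s.Z := fun n => (hinf'.natEmbedding Q n : Q)
  have hq0inj : Function.Injective q0 := fun a b h =>
    (hinf'.natEmbedding Q).injective (Subtype.ext h)
  have hq0 : ∀ n, q0 n ∈ Q := fun n => (hinf'.natEmbedding Q n).2
  choose hq0P x0 hx0 x0' hx0' hdist0 using hq0
  -- compactness
  obtain ⟨τ, -, φ1, hφ1, hτ1⟩ := (isCompact_univ (X := s.Z)).tendsto_subseq
    (x := fun n => s.ι (x0 n)) (fun n => Set.mem_univ _)
  obtain ⟨τ', -, φ2, hφ2, hτ2⟩ := (isCompact_univ (X := s.Z)).tendsto_subseq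
    (x := fun n => s.ι (x0' (φ1 n))) (fun n => Set.mem_univ _)
  set φ := φ1 ∘ φ2 with hφ
  have hφm : StrictMono φ := hφ1.comp hφ2
  have hτx : Tendsto (fun n => s.ι (x0 (φ n))) atTop (𝓝 τ) := hτ1.comp hφ2.tendsto_atTop
  have hτx' : Tendsto (fun n => s.ι (x0' (φ n))) atTop (𝓝 τ') := hτ2
  -- limits are in T
  have hT : ∀ (y : ℕ → s.G) (σ : s.Z), (∀ n, y n ∈ Bal s.ν c (q0 (φ n)).2) →
      Tendsto (fun n => s.ι (y n)) atTop (𝓝 σ) → σ ∈ T s.ι := by
    intro y σ hy hσ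
    by_contra hnot
    have : σ ∈ Set.range s.ι := by
      by_contra h; exact hnot h
    obtain ⟨g, hg⟩ := this
    have hev : ∀ᶠ n in atTop, y n = g := by
      have hn : ({s.ι g} : Set s.Z) ∈ 𝓝 σ := by
        rw [← hg]; exact (s.bdry.isol g).mem_nhds rfl
      filter_upwards [hσ hn] with n hn
      exact s.bdry.inj (Set.mem_singleton_iff.1 hn)
    obtain ⟨N, hN⟩ := eventually_atTop.1 hev
    have hfin := finPairs s hA hLF hO hc g
    have : Set.Infinite {q | q ∈ s.Pairs ∧ g ∈ Bal s.ν c q.2} := by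
      apply Set.infinite_of_injective_forall_mem (f := fun n => q0 (φ (N + n)))
      · intro a b h
        have := hφm.injective (hq0inj h)
        omega
      · intro n
        refine ⟨hq0P _, ?_⟩
        have := hy (N + n)
        rwa [hN (N + n) (by omega)] at this
    exact this hfin
  have hτT : τ ∈ T s.ι := hT (fun n => x0 (φ n)) τ (fun n => hx0 _) hτx
  have hτT' : τ' ∈ T s.ι := hT (fun n => x0' (φ n)) τ' (fun n => hx0' _) hτx'
  have hne : τ ≠ τ' := by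
    intro h
    have h1 : Tendsto (fun n => dist (s.ι (x0 (φ n))) (s.ι (x0' (φ n)))) atTop (𝓝 (dist τ τ')) :=
      hτx.dist hτx'
    have h2 : ε ≤ dist τ τ' := ge_of_tendsto' h1 fun n => hdist0 _
    rw [h, dist_self] at h2
    linarith
  -- recentre
  have hmeas : ∀ n, MeasurableSet (q0 n).2 := by
    intro n
    obtain ⟨⟨U, hU, -, -⟩, θ, h2, h3, h4⟩ := hq0P n
    rw [h4]
    exact meas_RO s (hO _ hU.mem θ h2 h3).ro
  have hfin1 := finPairs s hA hLF hO hc 1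
  have hmem : ∀ (g : s.G) n, g ∈ Bal s.ν c (q0 n).2 →
      g⁻¹ • q0 n ∈ {q | q ∈ s.Pairs ∧ (1 : s.G) ∈ Bal s.ν c q.2} := by
    intro g n hg
    refine ⟨pairs_smul s hA (hq0P n) g⁻¹, ?_⟩
    have := (bal_smul s g⁻¹ g c (hmeas n)).2 hg
    rw [inv_mul_cancel] at this
    exact this
  obtain ⟨q1, ψ1, hψ1, hq1⟩ := const_subseq hfin1 (fun n => (x0 (φ n))⁻¹ • q0 (φ n))
    (fun n => hmem _ _ (hx0 _))
  obtain ⟨q2, ψ2, hψ2, hq2⟩ := const_subseq hfin1
    (fun n => (x0' (φ (ψ1 n)))⁻¹ • q0 (φ (ψ1 n))) (fun n => hmem _ _ (hx0' _))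
  -- final sequences
  set k : ℕ → ℕ := fun n => φ (ψ1 (ψ2 n)) with hk
  have hkm : StrictMono k := hφm.comp (hψ1.comp hψ2)
  set x : ℕ → s.G := fun n => x0 (k n) with hx
  set x' : ℕ → s.G := fun n => x0' (k n) with hx'
  have e1 : ∀ n, (x n)⁻¹ • q0 (k n) = q1 := fun n => hq1 (ψ2 n)
  have e2 : ∀ n, (x' n)⁻¹ • q0 (k n) = q2 := fun n => hq2 n
  set y : ℕ → s.G := fun n => x' n * ((x' 0)⁻¹ * x 0) with hy
  have e3 : ∀ n, (y n)⁻¹ • q0 (k n) = q1 := by
    intro n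
    simp only [hy, mul_inv_rev, inv_inv, mul_smul]
    rw [e2 n, ← e2 0, smul_inv_smul]
    exact e1 0
  have t1 : Tendsto (fun n => s.ι (x n)) atTop (𝓝 τ) :=
    hτx.comp (hψ1.comp hψ2).tendsto_atTop
  have t2 : Tendsto (fun n => s.ι (x' n)) atTop (𝓝 τ') :=
    hτx'.comp (hψ1.comp hψ2).tendsto_atTop
  have t3 : Tendsto (fun n => s.ι (y n)) atTop (𝓝 τ') := tendsto_mul s hτT' t2 _
  have hq1P : q1 ∈ s.Pairs := by
    rw [← e1 0]; exact pairs_smul s hA (hq0P _) _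
  have hηT : q1.1 ∈ T s.ι := by
    obtain ⟨⟨U, hU, -, -⟩, -⟩ := hq1P
    exact hU.mem
  have hrange := hD (MulAction.stabilizer s.G q1) q1.1 hηT
    (fun g hg => by
      have h : g • q1 = q1 := hg
      exact congrArg Prod.fst h)
    x y (fun n => by
      show ((x n)⁻¹ * y n) • q1 = q1
      have h1 : y n • q1 = q0 (k n) := by rw [← e3 n, smul_inv_smul]
      rw [mul_smul, h1, e1 n])
    τ hτT τ' hτT' hne t1 t3
  -- q0 (k n) = x n • q1 depends only on the coset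
  have hinf2 : (Set.range fun n => q0 (k n)).Infinite :=
    Set.infinite_range_of_injective (hq0inj.comp hkm.injective)
  apply hinf2
  let F : s.G ⧸ (MulAction.stabilizer s.G q1) → s.Z × Set s.Z :=
    fun a => Quotient.liftOn' a (fun g => g • q1) (by
      intro g h hgh
      rw [QuotientGroup.leftRel_apply] at hgh
      have h3 : (g⁻¹ * h) • q1 = q1 := hgh
      show g • q1 = h • q1
      rw [mul_smul] at h3
      nth_rewrite 1 [← h3]
      rw [smul_inv_smul])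
  have hsub : (Set.range fun n => q0 (k n)) ⊆
      F '' (Set.range fun n => ((x n : s.G) : s.G ⧸ MulAction.stabilizer s.G q1)) := by
    rintro _ ⟨n, rfl⟩
    refine ⟨_, ⟨n, rfl⟩, ?_⟩
    show x n • q1 = q0 (k n)
    rw [← e1 n, smul_inv_smul]
  exact (hrange.image F).subset hsub

end NodeNull

theorem nNull (s : Sys) (hA : PAlg s) (hLF : NLF s) (hO : NOpen s) (hD : NNullDyn s) : NNull s :=
  NodeNull.nNull s hA hLF hO hD

end Crest.Agent.R224
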