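import Crest.Agent.R224.PotDefs

/-!
# Row 224: `ℓ²(G)`, translations, the averaging operator, Cheeger inequality
-/

set_option autoImplicit false
set_option linter.unusedSectionVars false

open Set Filter Topology MeasureTheory
open scoped InnerProductSpace

noncomputable section

namespace Crest.Agent.R224.Pot

variable {G : Type*} [Group G]

open Classical

/-! ### `ℓ²` basics -/

lemma memlp_iff {f : G → ℝ} : Memℓp (E := fun _ : G => ℝ) f 2 ↔ L2 f := by
  rw [memℓp_gen_iff (by norm_num)]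
  unfold L2
  have : (fun i => ‖f i‖ ^ (2 : ENNReal).toReal) = fun x => f x ^ 2 := by
    funext x
    rw [ENNReal.toReal_ofNat]
    have : ‖f x‖ ^ (2 : ℝ) = ‖f x‖ ^ (2 : ℕ) := by exact_mod_cast Real.rpow_natCast ‖f x‖ 2
    rw [this, Real.norm_eq_abs, sq_abs]
  rw [this]

/-- element of `ℓ²` from a square summable function -/
def toH (f : G → ℝ) (h : L2 f) : H2 G := ⟨f, memlp_iff.2 h⟩

@[simp] lemma toH_apply (f : G → ℝ) (h : L2 f) (x : G) : toH f h x = f x := rfl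

lemma H2.l2 (f : H2 G) : L2 (f : G → ℝ) := memlp_iff.1 f.2

lemma H2.ext' {f g : H2 G} (h : ∀ x, f x = g x) : f = g := lp.ext (funext h)

lemma H2.norm_sq (f : H2 G) : ‖f‖ ^ 2 = ∑' x, f x ^ 2 := by
  have h := lp.norm_rpow_eq_tsum (p := 2) (by norm_num) f
  rw [ENNReal.toReal_ofNat] at h
  have h1 : ‖f‖ ^ (2 : ℝ) = ‖f‖ ^ (2 : ℕ) := by exact_mod_cast Real.rpow_natCast ‖f‖ 2
  rw [h1] at h
  rw [h]
  refine tsum_congr fun x => ?_
  have : ‖f x‖ ^ (2 : ℝ) = ‖f x‖ ^ (2 : ℕ) := by exact_mod_cast Real.rpow_natCast ‖f x‖ 2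
  rw [this, Real.norm_eq_abs, sq_abs]

lemma H2.inner_eq (f g : H2 G) : ⟪f, g⟫_ℝ = ∑' x, f x * g x := by
  rw [lp.inner_eq_tsum]
  refine tsum_congr fun x => ?_
  simp [mul_comm]

lemma H2.summable_mul (f g : H2 G) : Summable fun x => f x * g x := by
  have := (lp.hasSum_inner (𝕜 := ℝ) f g).summable
  refine this.congr fun x => ?_
  simp [mul_comm]

lemma L2.summable_mul {f g : G → ℝ} (hf : L2 f) (hg : L2 g) : Summable fun x => f x * g x :=
  H2.summable_mul (toH f hf) (toH g hg)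

lemma L2.zero : L2 (fun _ : G => (0 : ℝ)) := by unfold L2; simpa using summable_zero

lemma L2.add {f g : G → ℝ} (hf : L2 f) (hg : L2 g) : L2 (fun x => f x + g x) :=
  H2.l2 (toH f hf + toH g hg)

lemma L2.sub {f g : G → ℝ} (hf : L2 f) (hg : L2 g) : L2 (fun x => f x - g x) :=
  H2.l2 (toH f hf - toH g hg)

lemma L2.neg {f : G → ℝ} (hf : L2 f) : L2 (fun x => - f x) := H2.l2 (-toH f hf)

lemma L2.const_mul {f : G → ℝ} (c : ℝ) (hf : L2 f) : L2 (fun x => c * f x) :=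
  H2.l2 (c • toH f hf)

/-- domination -/
lemma L2.of_le {f g : G → ℝ} (hg : L2 g) (h : ∀ x, |f x| ≤ |g x|) : L2 f := by
  refine Summable.of_nonneg_of_le (fun x => sq_nonneg _) (fun x => ?_) hg
  exact sq_le_sq.2 (h x)

lemma L2.mul_bdd {f g : G → ℝ} (hf : L2 f) {C : ℝ} (hC : ∀ x, |g x| ≤ C) :
    L2 (fun x => f x * g x) := by
  by_cases hne : Nonempty G
  · obtain ⟨x0⟩ := hne
    have hC0 : 0 ≤ C := (abs_nonneg _).trans (hC x0)
    refine (hf.const_mul C).of_le fun x => ?_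
    rw [abs_mul, abs_mul, abs_of_nonneg hC0, mul_comm]
    exact mul_le_mul_of_nonneg_right (hC x) (abs_nonneg _)
  · exact absurd ⟨1⟩ hne

lemma L2.translate_right {f : G → ℝ} (hf : L2 f) (s : G) : L2 (fun x => f (x * s)) :=
  (Equiv.mulRight s).summable_iff.2 hf

lemma L2.translate_left {f : G → ℝ} (hf : L2 f) (s : G) : L2 (fun x => f (s * x)) :=
  (Equiv.mulLeft s).summable_iff.2 hf

lemma L2.tendsto {f : G → ℝ} (hf : L2 f) : Tendsto f cofinite (𝓝 0) := by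
  have h := Summable.tendsto_cofinite_zero hf
  have h2 := h.sqrt
  simp only [Real.sqrt_sq_eq_abs, Real.sqrt_zero] at h2
  exact (tendsto_zero_iff_abs_tendsto_zero f).2 h2

lemma L2.finite {f : G → ℝ} (hf : L2 f) {ε : ℝ} (hε : 0 < ε) : {x | ε ≤ f x}.Finite := by
  have h := hf.tendsto
  have h1 : ∀ᶠ x in cofinite, f x < ε := h (gt_mem_nhds hε)
  have h2 : {x | ¬ (f x < ε)}.Finite := h1
  refine h2.subset fun x hx => ?_
  simpa using hx

lemma L2.finite_abs {f : G → ℝ} (hf : L2 f) {ε : ℝ} (hε : 0 < ε) : {x | ε ≤ |f x|}.Finite := by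
  have h1 := hf.finite hε
  have h2 := hf.neg.finite hε
  refine (h1.union h2).subset fun x hx => ?_
  simp only [mem_setOf_eq] at hx
  rcases le_abs.1 hx with h | h
  · exact Or.inl h
  · exact Or.inr h

lemma L2.of_finite_support {f : G → ℝ} (hf : (Function.support f).Finite) : L2 f := by
  refine summable_of_finite_support (hf.subset fun x hx => ?_)
  simp only [Function.mem_support] at hx ⊢
  intro h; exact hx (by simp [h])

/-! ### right translation and averaging as operators -/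

/-- right translation as a linear isometry -/
def Rt (s : G) : H2 G →ₗᵢ[ℝ] H2 G where
  toFun f := toH (fun x => f (x * s)) ((H2.l2 f).translate_right s)
  map_add' f g := H2.ext' fun x => rfl
  map_smul' c f := H2.ext' fun x => rfl
  norm_map' f := by
    have h : ‖toH (fun x => f (x * s)) ((H2.l2 f).translate_right s)‖ ^ 2 = ‖f‖ ^ 2 := by
      rw [H2.norm_sq, H2.norm_sq]
      exact (Equiv.mulRight s).tsum_eq (fun x => f x ^ 2)
    exact (sq_eq_sq₀ (norm_nonneg _) (norm_nonneg _)).1 h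

@[simp] lemma Rt_apply (s : G) (f : H2 G) (x : G) : Rt s f x = f (x * s) := rfl

lemma Rt_inner (s : G) (f g : H2 G) : ⟪Rt s f, g⟫_ℝ = ⟪f, Rt s⁻¹ g⟫_ℝ := by
  rw [H2.inner_eq, H2.inner_eq, ← (Equiv.mulRight s).tsum_eq (fun x => f x * (Rt s⁻¹ g) x)]
  refine tsum_congr fun x => ?_
  simp [mul_assoc]

/-- the averaging operator on `ℓ²` -/
def avgOp (F : Finset G) : H2 G →L[ℝ] H2 G :=
  (F.card : ℝ)⁻¹ • ∑ s ∈ F, (Rt s).toContinuousLinearMap

lemma H2.sum_apply {ι : Type*} (t : Finset ι) (f : ι → H2 G) (x : G) :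
    (∑ i ∈ t, f i) x = ∑ i ∈ t, f i x := by
  induction t using Finset.induction_on with
  | empty => simp
  | insert a s ha ih => rw [Finset.sum_insert ha, Finset.sum_insert ha, ← ih]; rfl

@[simp] lemma avgOp_apply (F : Finset G) (f : H2 G) (x : G) : avgOp F f x = avg F f x := by
  unfold avgOp avg
  rw [ContinuousLinearMap.smul_apply, ContinuousLinearMap.sum_apply]
  change (F.card : ℝ)⁻¹ * (∑ s ∈ F, (Rt s).toContinuousLinearMap f : H2 G) x = _
  rw [H2.sum_apply, div_eq_inv_mul]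
  rfl

lemma avg_L2 {F : Finset G} {f : G → ℝ} (hf : L2 f) : L2 (avg F f) := by
  have h := H2.l2 (avgOp F (toH f hf))
  have : ((avgOp F (toH f hf) : H2 G) : G → ℝ) = avg F f := by
    funext x; rw [avgOp_apply]; rfl
  rwa [this] at h

lemma avgOp_symm {F : Finset G} (hF : SymGen F) (f g : H2 G) :
    ⟪avgOp F f, g⟫_ℝ = ⟪f, avgOp F g⟫_ℝ := by
  unfold avgOp
  simp only [ContinuousLinearMap.smul_apply, ContinuousLinearMap.sum_apply, inner_smul_left,
    inner_smul_right, sum_inner, inner_sum]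
  congr 1
  refine Finset.sum_bij (fun s _ => s⁻¹) (fun s hs => hF.symm s hs)
    (fun a _ b _ h => inv_injective h) (fun b hb => ⟨b⁻¹, hF.symm b hb, inv_inv b⟩) ?_
  intro s _
  exact Rt_inner s f g

/-- `1 - P` as an operator -/
def lap (F : Finset G) : H2 G →L[ℝ] H2 G := 1 - avgOp F

lemma lap_apply (F : Finset G) (f : H2 G) (x : G) : lap F f x = f x - avg F f x := by
  unfold lap
  change f x - (avgOp F f) x = _
  rw [avgOp_apply]

/-- Dirichlet form identity: `∑_s ‖f - R_s f‖² = 2|F| ⟪(1-P) f, f⟫` -/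
lemma sum_norm_sub {F : Finset G} (hF : F.Nonempty) (f : H2 G) :
    ∑ s ∈ F, ‖f - Rt s f‖ ^ 2 = 2 * F.card * ⟪lap F f, f⟫_ℝ := by
  have hc : (F.card : ℝ) ≠ 0 := by exact_mod_cast hF.card_pos.ne'
  have h1 : ∀ s, ‖f - Rt s f‖ ^ 2 = 2 * ‖f‖ ^ 2 - 2 * ⟪Rt s f, f⟫_ℝ := by
    intro s
    rw [@norm_sub_sq_real, (Rt s).norm_map, real_inner_comm]; ring
  simp_rw [h1]
  rw [Finset.sum_sub_distrib, Finset.sum_const, nsmul_eq_mul, ← Finset.mul_sum]
  unfold lap avgOp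
  rw [ContinuousLinearMap.sub_apply, inner_sub_left, ContinuousLinearMap.one_apply,
    real_inner_self_eq_norm_sq, ContinuousLinearMap.smul_apply, ContinuousLinearMap.sum_apply,
    real_inner_smul_left, sum_inner]
  simp only [LinearIsometry.coe_toContinuousLinearMap]
  field_simp

/-! ### layer cake: the `ℓ¹` isoperimetric inequality -/

/-- For `u ≥ 0` supported in the finite set `A`:
`κ ∑ u ≤ ∑_{x ∈ A, s} (u x - u (x s))⁺`. -/
lemma iso_l1 {F : Finset G} {κ : ℝ} (hN : NA F κ) {A : Finset G} {u : G → ℝ}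
    (hu : ∀ x, 0 ≤ u x) (hA : ∀ x, x ∉ A → u x = 0) :
    κ * ∑ x ∈ A, u x ≤ ∑ x ∈ A, ∑ s ∈ F, max (u x - u (x * s)) 0 := by
  -- a bound for u on A
  obtain ⟨M, hM⟩ : ∃ M : ℝ, ∀ x ∈ A, u x ≤ M := ⟨∑ x ∈ A, u x, fun x hx =>
    Finset.single_le_sum (fun y _ => hu y) hx⟩
  set M' := max M 0 with hM'
  have hxM : ∀ x, u x ≤ M' := by
    intro x
    by_cases hx : x ∈ A
    · exact (hM x hx).trans (le_max_left _ _)
    · rw [hA x hx]; exact le_max_right _ _
  -- layer functions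
  have hlayer : ∀ a b : ℝ, 0 ≤ b → b ≤ a → a ≤ M' →
      ∫ t in Ioc (0 : ℝ) M', (if b ≤ t ∧ t < a then (1 : ℝ) else 0) = a - b := by
    intro a b hb hab haM
    have h1 : (fun t : ℝ => (if b ≤ t ∧ t < a then (1 : ℝ) else 0)) =
        (Ico b a).indicator (fun _ => (1 : ℝ)) := by
      funext t; simp only [indicator, mem_Ico]
    rw [h1, setIntegral_indicator measurableSet_Ico]
    rw [setIntegral_const, smul_eq_mul, mul_one]
    have h2 : (volume (Ioc (0 : ℝ) M' ∩ Ico b a)) = volume (Ico b a) := by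
      refine le_antisymm (measure_mono inter_subset_right) ?_
      have hsub : Ioo b a ⊆ Ioc (0 : ℝ) M' ∩ Ico b a := fun t ht =>
        ⟨⟨lt_of_le_of_lt hb ht.1, (ht.2.le).trans haM⟩, ⟨ht.1.le, ht.2⟩⟩
      calc volume (Ico b a) = volume (Ioo b a) := by rw [Real.volume_Ico, Real.volume_Ioo]
        _ ≤ _ := measure_mono hsub
    rw [measureReal_def, h2, Real.volume_Ico, ENNReal.toReal_ofReal (by linarith)]
  have hlayer' : ∀ a b : ℝ, 0 ≤ a → 0 ≤ b → a ≤ M' →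
      ∫ t in Ioc (0 : ℝ) M', (if b ≤ t ∧ t < a then (1 : ℝ) else 0) = max (a - b) 0 := by
    intro a b ha hb haM
    rcases le_total b a with h | h
    · rw [hlayer a b hb h haM, max_eq_left (by linarith)]
    · rw [max_eq_right (by linarith)]
      have : (fun t : ℝ => (if b ≤ t ∧ t < a then (1 : ℝ) else 0)) = fun _ => 0 := by
        funext t
        rw [if_neg]; rintro ⟨h1, h2⟩; linarith
      rw [this]; simp
  have hint : ∀ a b : ℝ, IntegrableOn (fun t : ℝ => (if b ≤ t ∧ t < a then (1 : ℝ) else 0))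
      (Ioc (0 : ℝ) M') := by
    intro a b
    have h1 : (fun t : ℝ => (if b ≤ t ∧ t < a then (1 : ℝ) else 0)) =
        (Ico b a).indicator (fun _ => (1 : ℝ)) := by
      funext t; simp only [indicator, mem_Ico]
    rw [h1]
    exact (integrableOn_const (by simp)).indicator measurableSet_Ico
  -- write both sides as integrals
  have hL : κ * ∑ x ∈ A, u x = ∫ t in Ioc (0 : ℝ) M',
      κ * ∑ x ∈ A, (if (0 : ℝ) ≤ t ∧ t < u x then (1 : ℝ) else 0) := by
    rw [integral_const_mul, integral_finsetSum _ (fun x _ => hint _ _)]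
    congr 1
    refine Finset.sum_congr rfl fun x _ => ?_
    rw [hlayer' (u x) 0 (hu x) le_rfl (hxM x), sub_zero, max_eq_left (hu x)]
  have hR : ∑ x ∈ A, ∑ s ∈ F, max (u x - u (x * s)) 0 = ∫ t in Ioc (0 : ℝ) M',
      ∑ x ∈ A, ∑ s ∈ F, (if u (x * s) ≤ t ∧ t < u x then (1 : ℝ) else 0) := by
    rw [integral_finsetSum _ (fun x _ => integrable_finsetSum _ (fun s _ => hint _ _))]
    refine Finset.sum_congr rfl fun x _ => ?_
    rw [integral_finsetSum _ (fun s _ => hint _ _)]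
    refine Finset.sum_congr rfl fun s _ => ?_
    rw [hlayer' (u x) (u (x * s)) (hu x) (hu _) (hxM x)]
  rw [hL, hR]
  refine setIntegral_mono_on ?_ ?_ measurableSet_Ioc ?_
  · exact (integrable_finsetSum _ (fun x _ => hint _ _)).const_mul κ
  · exact integrable_finsetSum _ (fun x _ => integrable_finsetSum _ (fun s _ => hint _ _))
  · intro t ht
    -- level set
    set At := A.filter (fun x => t < u x) with hAt
    have h1 : ∑ x ∈ A, (if (0 : ℝ) ≤ t ∧ t < u x then (1 : ℝ) else 0) = At.card := by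
      rw [Finset.sum_ite, Finset.sum_const_zero, add_zero, Finset.sum_const, nsmul_eq_mul, mul_one]
      congr 2
      ext x; simp [hAt, ht.1.le]
    rw [h1]
    refine (hN.2 At).trans ?_
    have h2 : ((At ×ˢ F).filter fun p => p.1 * p.2 ∉ At) ⊆
        (A ×ˢ F).filter (fun p => u (p.1 * p.2) ≤ t ∧ t < u p.1) := by
      intro p hp
      simp only [Finset.mem_filter, Finset.mem_product, hAt] at hp ⊢
      refine ⟨⟨hp.1.1.1, hp.1.2⟩, ?_, hp.1.1.2⟩
      by_contra hlt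
      push Not at hlt
      by_cases hmem : p.1 * p.2 ∈ A
      · exact hp.2 ⟨hmem, hlt⟩
      · rw [hA _ hmem] at hlt; linarith [ht.1]
    have h3 : ∑ x ∈ A, ∑ s ∈ F, (if u (x * s) ≤ t ∧ t < u x then (1 : ℝ) else 0) =
        ((A ×ˢ F).filter (fun p => u (p.1 * p.2) ≤ t ∧ t < u p.1)).card := by
      rw [← Finset.sum_product', Finset.card_filter]
      push_cast
      rfl
    rw [h3]
    exact_mod_cast Finset.card_le_card h2

/-- Cheeger inequality for finitely supported `ℓ²` functions -/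
lemma cheeger_fin {F : Finset G} (hF : SymGen F) {κ : ℝ} (hN : NA F κ) (g : H2 G) {A : Finset G}
    (hA : ∀ x, x ∉ A → g x = 0) :
    κ ^ 2 / (8 * (F.card : ℝ) ^ 2) * ‖g‖ ^ 2 ≤ ⟪lap F g, g⟫_ℝ := by
  have hκ := hN.1
  have hc : (0 : ℝ) < F.card := by exact_mod_cast hF.ne.card_pos
  have h0 := iso_l1 hN (A := A) (u := fun x => g x ^ 2) (fun x => sq_nonneg _)
    (fun x hx => by simp [hA x hx])
  have hnorm : ‖g‖ ^ 2 = ∑ x ∈ A, g x ^ 2 := by
    rw [H2.norm_sq]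
    exact tsum_eq_sum (fun x hx => by simp [hA x hx])
  -- the two sums
  have hS1 : ∑ x ∈ A, ∑ s ∈ F, (g x - g (x * s)) ^ 2 ≤ 2 * F.card * ⟪lap F g, g⟫_ℝ := by
    rw [← sum_norm_sub hF.ne, Finset.sum_comm]
    refine Finset.sum_le_sum fun s _ => ?_
    rw [H2.norm_sq]
    exact Summable.sum_le_tsum A (fun x _ => sq_nonneg _) (H2.l2 (g - Rt s g))
  have hS2 : ∑ x ∈ A, ∑ s ∈ F, (g x + g (x * s)) ^ 2 ≤ 4 * F.card * ‖g‖ ^ 2 := by
    rw [Finset.sum_comm]
    have : ∀ s ∈ F, ∑ x ∈ A, (g x + g (x * s)) ^ 2 ≤ 4 * ‖g‖ ^ 2 := by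
      intro s _
      have h1 : ∑ x ∈ A, (g x + g (x * s)) ^ 2 ≤ ‖g + Rt s g‖ ^ 2 := by
        rw [H2.norm_sq]
        exact Summable.sum_le_tsum A (fun x _ => sq_nonneg _) (H2.l2 (g + Rt s g))
      have h2 : ‖g + Rt s g‖ ≤ 2 * ‖g‖ := by
        refine (norm_add_le _ _).trans ?_
        rw [(Rt s).norm_map]; linarith
      have h3 : ‖g + Rt s g‖ ^ 2 ≤ (2 * ‖g‖) ^ 2 := pow_le_pow_left₀ (norm_nonneg _) h2 2
      nlinarith
    calc ∑ s ∈ F, ∑ x ∈ A, (g x + g (x * s)) ^ 2 ≤ ∑ s ∈ F, 4 * ‖g‖ ^ 2 := Finset.sum_le_sum this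
      _ = _ := by rw [Finset.sum_const, nsmul_eq_mul]; ring
  -- termwise bound
  have hterm : ∀ x ∈ A, ∀ s ∈ F, max (g x ^ 2 - g (x * s) ^ 2) 0 ≤
      (2 * F.card / κ) * (g x - g (x * s)) ^ 2 + (κ / (8 * F.card)) * (g x + g (x * s)) ^ 2 := by
    intro x _ s _
    refine max_le ?_ (by positivity)
    have h1 : 0 ≤ (2 * F.card / κ) * ((g x - g (x * s)) - κ / (4 * F.card) * (g x + g (x * s))) ^ 2 := by
      positivity
    have h2 : (2 * F.card / κ) * ((g x - g (x * s)) - κ / (4 * F.card) * (g x + g (x * s))) ^ 2 =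
        (2 * F.card / κ) * (g x - g (x * s)) ^ 2 + (κ / (8 * F.card)) * (g x + g (x * s)) ^ 2 -
          (g x ^ 2 - g (x * s) ^ 2) := by
      field_simp; ring
    linarith
  have hsum : ∑ x ∈ A, ∑ s ∈ F, max (g x ^ 2 - g (x * s) ^ 2) 0 ≤
      (2 * F.card / κ) * (2 * F.card * ⟪lap F g, g⟫_ℝ) + (κ / (8 * F.card)) * (4 * F.card * ‖g‖ ^ 2) := by
    calc ∑ x ∈ A, ∑ s ∈ F, max (g x ^ 2 - g (x * s) ^ 2) 0
        ≤ ∑ x ∈ A, ∑ s ∈ F, ((2 * F.card / κ) * (g x - g (x * s)) ^ 2 +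
            (κ / (8 * F.card)) * (g x + g (x * s)) ^ 2) :=
          Finset.sum_le_sum fun x hx => Finset.sum_le_sum fun s hs => hterm x hx s hs
      _ = (2 * F.card / κ) * (∑ x ∈ A, ∑ s ∈ F, (g x - g (x * s)) ^ 2) +
            (κ / (8 * F.card)) * (∑ x ∈ A, ∑ s ∈ F, (g x + g (x * s)) ^ 2) := by
          simp_rw [Finset.sum_add_distrib, Finset.mul_sum]
      _ ≤ _ := by gcongr
  have h1 : κ * ‖g‖ ^ 2 ≤ (2 * F.card / κ) * (2 * F.card * ⟪lap F g, g⟫_ℝ) +
      (κ / (8 * F.card)) * (4 * F.card * ‖g‖ ^ 2) := by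
    rw [hnorm] at *
    exact h0.trans hsum
  have h2 : (κ / (8 * F.card)) * (4 * F.card * ‖g‖ ^ 2) = κ / 2 * ‖g‖ ^ 2 := by
    field_simp; ring
  rw [h2] at h1
  have h3 : κ / 2 * ‖g‖ ^ 2 ≤ (4 * (F.card : ℝ) ^ 2 / κ) * ⟪lap F g, g⟫_ℝ := by
    have : (2 * F.card / κ) * (2 * F.card * ⟪lap F g, g⟫_ℝ) = (4 * (F.card : ℝ) ^ 2 / κ) * ⟪lap F g, g⟫_ℝ := by
      ring
    linarith
  have h4 : κ ^ 2 / (8 * (F.card : ℝ) ^ 2) * ‖g‖ ^ 2 =
      (κ / (4 * (F.card : ℝ) ^ 2)) * (κ / 2 * ‖g‖ ^ 2) := by field_simp; ring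
  rw [h4]
  calc (κ / (4 * (F.card : ℝ) ^ 2)) * (κ / 2 * ‖g‖ ^ 2)
      ≤ (κ / (4 * (F.card : ℝ) ^ 2)) * ((4 * (F.card : ℝ) ^ 2 / κ) * ⟪lap F g, g⟫_ℝ) := by gcongr
    _ = _ := by field_simp

/-- Cheeger inequality -/
theorem cheeger {F : Finset G} (hF : SymGen F) {κ : ℝ} (hN : NA F κ) (g : H2 G) :
    κ ^ 2 / (8 * (F.card : ℝ) ^ 2) * ‖g‖ ^ 2 ≤ ⟪lap F g, g⟫_ℝ := by
  have hcl : IsClosed {g : H2 G | κ ^ 2 / (8 * (F.card : ℝ) ^ 2) * ‖g‖ ^ 2 ≤ ⟪lap F g, g⟫_ℝ} := by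
    refine isClosed_le ?_ ?_
    · exact (continuous_norm.pow 2).const_mul _
    · exact (lap F).continuous.inner continuous_id
  have hsum := lp.hasSum_single (p := 2) (by norm_num) g
  refine hcl.mem_of_tendsto hsum (Eventually.of_forall fun A => ?_)
  refine cheeger_fin hF hN _ (A := A) fun x hx => ?_
  rw [H2.sum_apply]
  refine Finset.sum_eq_zero fun y hy => ?_
  have hne : x ≠ y := fun h => hx (h ▸ hy)
  simp [lp.single_apply, hne, hne.symm]

end Crest.Agent.R224.Pot
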