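import Crest.Agent.R224.Pot1

/-!
# Row 224: Harnack inequality, maximum principle, Dirichlet functions
-/

set_option autoImplicit false
set_option linter.unusedSectionVars false

open Set Filter Topology

noncomputable section

namespace Crest.Agent.R224.Pot

variable {G : Type*} [Group G] {F : Finset G}

open Classical

/-- connectivity of the Cayley graph -/
theorem SymGen.conn (hF : SymGen F) {p : G → Prop} (h : ∀ x, p x → ∀ s ∈ F, p (x * s)) {x0 : G}
    (h0 : p x0) (x : G) : p x := by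
  have key : ∀ g ∈ Subgroup.closure (F : Set G), ∀ y, p y → p (y * g) ∧ p (y * g⁻¹) := by
    intro g hg
    induction hg using Subgroup.closure_induction with
    | mem s hs => exact fun y hy => ⟨h y hy s hs, h y hy _ (hF.symm s hs)⟩
    | one => intro y hy; simpa using hy
    | mul a b _ _ iha ihb =>
      intro y hy
      refine ⟨?_, ?_⟩
      · rw [← mul_assoc]; exact (ihb _ (iha y hy).1).1
      · rw [mul_inv_rev, ← mul_assoc]; exact (iha _ (ihb y hy).2).2
    | inv a _ iha => intro y hy; rw [inv_inv]; exact ⟨(iha y hy).2, (iha y hy).1⟩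
  have := (key (x0⁻¹ * x) (by rw [hF.gen]; trivial) x0 h0).1
  simpa using this

lemma SymGen.card_pos (hF : SymGen F) : (0 : ℝ) < F.card := by exact_mod_cast hF.ne.card_pos

lemma card_mul_avg (hF : SymGen F) (u : G → ℝ) (x : G) :
    F.card * avg F u x = ∑ s ∈ F, u (x * s) := by
  unfold avg
  have := hF.card_pos
  field_simp

/-- Harnack inequality for nonnegative superharmonic functions -/
theorem harnack (hF : SymGen F) {u : G → ℝ} (hu : ∀ x, 0 ≤ u x) (hs : ∀ x, avg F u x ≤ u x)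
    {s : G} (hsF : s ∈ F) (x : G) : u (x * s) ≤ F.card * u x := by
  calc u (x * s) ≤ ∑ t ∈ F, u (x * t) :=
        Finset.single_le_sum (f := fun t => u (x * t)) (fun t _ => hu _) hsF
    _ = F.card * avg F u x := (card_mul_avg hF u x).symm
    _ ≤ F.card * u x := mul_le_mul_of_nonneg_left (hs x) hF.card_pos.le

theorem harnack_word (hF : SymGen F) (g : G) : ∃ C : ℝ, 0 < C ∧ ∀ u : G → ℝ, (∀ x, 0 ≤ u x) →
    (∀ x, avg F u x ≤ u x) → ∀ x, u (x * g) ≤ C * u x := by
  refine SymGen.conn hF (p := fun g => ∃ C : ℝ, 0 < C ∧ ∀ u : G → ℝ, (∀ x, 0 ≤ u x) →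
    (∀ x, avg F u x ≤ u x) → ∀ x, u (x * g) ≤ C * u x) ?_ (x0 := 1) ?_ g
  · rintro g ⟨C, hC, h⟩ s hs
    refine ⟨F.card * C, mul_pos hF.card_pos hC, fun u hu hsup x => ?_⟩
    rw [← mul_assoc]
    calc u (x * g * s) ≤ F.card * u (x * g) := harnack hF hu hsup hs _
      _ ≤ F.card * (C * u x) := mul_le_mul_of_nonneg_left (h u hu hsup x) hF.card_pos.le
      _ = _ := by ring
  · exact ⟨1, one_pos, fun u _ _ x => by simp⟩

/-- strong minimum principle -/
theorem strong_min (hF : SymGen F) {u : G → ℝ} (hu : ∀ x, 0 ≤ u x) (hs : ∀ x, avg F u x ≤ u x)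
    {x0 : G} (h0 : u x0 = 0) (x : G) : u x = 0 := by
  obtain ⟨C, hC, h⟩ := harnack_word hF (x0⁻¹ * x)
  have := h u hu hs x0
  rw [h0, mul_zero, mul_inv_cancel_left] at this
  exact le_antisymm this (hu x)

lemma avg_le_of_le (hF : SymGen F) {u : G → ℝ} {x : G} {M : ℝ} (h : ∀ s ∈ F, u (x * s) ≤ M) :
    avg F u x ≤ M := by
  unfold avg
  rw [div_le_iff₀ hF.card_pos]
  calc ∑ s ∈ F, u (x * s) ≤ ∑ s ∈ F, M := Finset.sum_le_sum h
    _ = M * F.card := by rw [Finset.sum_const, nsmul_eq_mul, mul_comm]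

lemma le_avg_of_le (hF : SymGen F) {u : G → ℝ} {x : G} {M : ℝ} (h : ∀ s ∈ F, M ≤ u (x * s)) :
    M ≤ avg F u x := by
  unfold avg
  rw [le_div_iff₀ hF.card_pos]
  calc M * F.card = ∑ s ∈ F, M := by rw [Finset.sum_const, nsmul_eq_mul, mul_comm]
    _ ≤ _ := Finset.sum_le_sum h

/-- if the average reaches the upper bound then all neighbours do -/
lemma eq_of_avg_ge (hF : SymGen F) {u : G → ℝ} {x : G} {M : ℝ} (h : ∀ y, u y ≤ M)
    (hx : M ≤ avg F u x) {s : G} (hs : s ∈ F) : u (x * s) = M := by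
  by_contra hne
  have hlt : u (x * s) < M := lt_of_le_of_ne (h _) hne
  have h1 : ∑ t ∈ F, u (x * t) < ∑ t ∈ F, M :=
    Finset.sum_lt_sum (fun t _ => h _) ⟨s, hs, hlt⟩
  rw [← card_mul_avg hF, Finset.sum_const, nsmul_eq_mul] at h1
  have := lt_of_mul_lt_mul_left h1 hF.card_pos.le
  linarith

/-- maximum principle, relative to a set -/
theorem max_principle (hF : SymGen F) [Infinite G] {w : G → ℝ} {A : Set G}
    (hA : ∀ x ∈ A, w x ≤ avg F w x) (hAc : ∀ x, x ∉ A → w x ≤ 0)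
    (hfin : ∀ ε > 0, {x | ε ≤ w x}.Finite) (x : G) : w x ≤ 0 := by
  by_contra hx
  push Not at hx
  have hS := hfin (w x) hx
  obtain ⟨x1, hx1, hmax⟩ := hS.exists_maximalFor w _ ⟨x, le_refl (w x)⟩
  have hx1' : w x ≤ w x1 := hx1
  have hle : ∀ y, w y ≤ w x1 := by
    intro y
    by_contra hy
    push Not at hy
    have hyS : y ∈ {y | w x ≤ w y} := (hx1'.trans hy.le : w x ≤ w y)
    exact absurd (hmax hyS hy.le) (not_le.2 hy)
  have hpos : 0 < w x1 := hx.trans_le hx1'
  have hstep : ∀ y, w y = w x1 → ∀ s ∈ F, w (y * s) = w x1 := by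
    intro y hy s hs
    have hyA : y ∈ A := by
      by_contra h
      have := hAc y h
      linarith
    exact eq_of_avg_ge hF hle (by rw [← hy]; exact hA y hyA) hs
  have hall := SymGen.conn hF hstep (x0 := x1) rfl
  have : (univ : Set G).Finite := hS.subset fun y _ => by
    change w x ≤ w y
    rw [hall y]; exact hx1'
  exact infinite_univ this

/-- maximum principle for globally subharmonic functions -/
theorem max_principle' (hF : SymGen F) [Infinite G] {w : G → ℝ}
    (hA : ∀ x, w x ≤ avg F w x) (hfin : ∀ ε > 0, {x | ε ≤ w x}.Finite) (x : G) : w x ≤ 0 :=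
  max_principle hF (A := univ) (fun x _ => hA x) (fun x h => absurd (mem_univ x) h) hfin x

/-! ### algebra of `avg` -/

lemma avg_add (f g : G → ℝ) (x : G) : avg F (fun y => f y + g y) x = avg F f x + avg F g x := by
  simp only [avg, Finset.sum_add_distrib, add_div]

lemma avg_sub (f g : G → ℝ) (x : G) : avg F (fun y => f y - g y) x = avg F f x - avg F g x := by
  simp only [avg, Finset.sum_sub_distrib, sub_div]

lemma avg_neg (f : G → ℝ) (x : G) : avg F (fun y => - f y) x = - avg F f x := by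
  simp only [avg, Finset.sum_neg_distrib, neg_div]

lemma avg_const_mul (c : ℝ) (f : G → ℝ) (x : G) : avg F (fun y => c * f y) x = c * avg F f x := by
  simp only [avg, ← Finset.mul_sum, mul_div_assoc]

lemma avg_const (hF : SymGen F) (c : ℝ) (x : G) : avg F (fun _ : G => c) x = c := by
  have := hF.card_pos
  simp only [avg, Finset.sum_const, nsmul_eq_mul]
  field_simp

lemma avg_mono (hF : SymGen F) {f g : G → ℝ} (h : ∀ x, f x ≤ g x) (x : G) :
    avg F f x ≤ avg F g x := by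
  unfold avg
  exact div_le_div_of_nonneg_right (Finset.sum_le_sum fun s _ => h _) hF.card_pos.le

lemma avg_translate (g : G) (f : G → ℝ) (x : G) :
    avg F (fun y => f (g * y)) x = avg F f (g * x) := by
  simp only [avg, mul_assoc]

lemma avg_abs_le (hF : SymGen F) (f : G → ℝ) (x : G) : |avg F f x| ≤ avg F (fun y => |f y|) x := by
  unfold avg
  rw [abs_div, abs_of_pos hF.card_pos]
  exact div_le_div_of_nonneg_right (Finset.abs_sum_le_sum_abs _ _) hF.card_pos.le

/-! ### Dirichlet functions -/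

lemma sq_add_le (a b : ℝ) : (a + b) ^ 2 ≤ 2 * a ^ 2 + 2 * b ^ 2 := by nlinarith [sq_nonneg (a - b)]

/-- comparison criterion with two Dirichlet functions -/
lemma Dir.of_sq_le {f g h : G → ℝ} {A B : ℝ} (hg : Dir F g) (hh : Dir F h)
    (hle : ∀ x, ∀ s ∈ F, (f (x * s) - f x) ^ 2 ≤ A * (g (x * s) - g x) ^ 2 + B * (h (x * s) - h x) ^ 2) :
    Dir F f :=
  Summable.of_nonneg_of_le (fun _ => sq_nonneg _) (fun p => hle p.1 p.2 p.2.2)
    ((hg.mul_left A).add (hh.mul_left B))

lemma Dir.of_abs_le {f g : G → ℝ} (hg : Dir F g)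
    (hle : ∀ x, ∀ s ∈ F, |f (x * s) - f x| ≤ |g (x * s) - g x|) : Dir F f :=
  Summable.of_nonneg_of_le (fun _ => sq_nonneg _) (fun p => sq_le_sq.2 (hle p.1 p.2 p.2.2)) hg

lemma Dir.add {f g : G → ℝ} (hf : Dir F f) (hg : Dir F g) : Dir F (fun x => f x + g x) :=
  Dir.of_sq_le hf hg (A := 2) (B := 2) fun x s _ => by
    have := sq_add_le (f (x * s) - f x) (g (x * s) - g x)
    calc _ = ((f (x * s) - f x) + (g (x * s) - g x)) ^ 2 := by ring
      _ ≤ _ := this

lemma Dir.const_mul {f : G → ℝ} (c : ℝ) (hf : Dir F f) : Dir F (fun x => c * f x) := by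
  unfold Dir
  refine (hf.mul_left (c ^ 2)).congr fun p => ?_
  ring

lemma Dir.neg {f : G → ℝ} (hf : Dir F f) : Dir F (fun x => - f x) := by
  unfold Dir
  refine Summable.congr hf fun p => ?_
  ring

lemma Dir.sub {f g : G → ℝ} (hf : Dir F f) (hg : Dir F g) : Dir F (fun x => f x - g x) := by
  simpa [sub_eq_add_neg] using hf.add hg.neg

lemma Dir.const (c : ℝ) : Dir F (fun _ : G => c) := by
  unfold Dir
  simpa using summable_zero

lemma Dir.add_const {f : G → ℝ} (hf : Dir F f) (c : ℝ) : Dir F (fun x => f x + c) := by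
  unfold Dir
  refine Summable.congr hf fun p => ?_
  ring

lemma Dir.sub_const {f : G → ℝ} (hf : Dir F f) (c : ℝ) : Dir F (fun x => f x - c) := by
  unfold Dir
  refine Summable.congr hf fun p => ?_
  ring

lemma Dir.const_sub {f : G → ℝ} (hf : Dir F f) (c : ℝ) : Dir F (fun x => c - f x) := by
  unfold Dir
  refine Summable.congr hf fun p => ?_
  ring

lemma Dir.translate {f : G → ℝ} (hf : Dir F f) (g : G) : Dir F (fun x => f (g * x)) := by
  unfold Dir
  have h := ((Equiv.mulLeft g).prodCongr (Equiv.refl F)).summable_iff.2 hf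
  refine h.congr fun p => ?_
  simp [mul_assoc]

lemma Dir.comp_lip {f : G → ℝ} (hf : Dir F f) {φ : ℝ → ℝ} {L : ℝ}
    (hφ : ∀ a b, |φ a - φ b| ≤ L * |a - b|) : Dir F (fun x => φ (f x)) := by
  have hL : ∀ a b, (φ a - φ b) ^ 2 ≤ L ^ 2 * (a - b) ^ 2 := by
    intro a b
    have h := hφ a b
    have h1 : |φ a - φ b| ^ 2 ≤ (L * |a - b|) ^ 2 := pow_le_pow_left₀ (abs_nonneg _) h 2
    rwa [sq_abs, mul_pow, sq_abs] at h1
  refine Summable.of_nonneg_of_le (fun _ => sq_nonneg _) (fun p => hL _ _) (hf.mul_left (L ^ 2))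

lemma Dir.abs {f : G → ℝ} (hf : Dir F f) : Dir F (fun x => |f x|) :=
  hf.of_abs_le fun _ _ _ => abs_abs_sub_abs_le_abs_sub _ _

lemma Dir.max {f g : G → ℝ} (hf : Dir F f) (hg : Dir F g) : Dir F (fun x => max (f x) (g x)) :=
  Dir.of_sq_le hf hg (A := 1) (B := 1) fun x s _ => by
    have h := abs_max_sub_max_le_max (f (x * s)) (g (x * s)) (f x) (g x)
    rcases le_max_iff.1 h with h | h
    · nlinarith [sq_le_sq.2 h, sq_nonneg (g (x * s) - g x)]
    · nlinarith [sq_le_sq.2 h, sq_nonneg (f (x * s) - f x)]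

lemma Dir.min {f g : G → ℝ} (hf : Dir F f) (hg : Dir F g) : Dir F (fun x => min (f x) (g x)) :=
  Dir.of_sq_le hf hg (A := 1) (B := 1) fun x s _ => by
    have h := abs_min_sub_min_le_max (f (x * s)) (g (x * s)) (f x) (g x)
    rcases le_max_iff.1 h with h | h
    · nlinarith [sq_le_sq.2 h, sq_nonneg (g (x * s) - g x)]
    · nlinarith [sq_le_sq.2 h, sq_nonneg (f (x * s) - f x)]

lemma Dir.mul {f g : G → ℝ} (hf : Dir F f) (hg : Dir F g) {C D : ℝ} (hC : ∀ x, |f x| ≤ C)
    (hD : ∀ x, |g x| ≤ D) : Dir F (fun x => f x * g x) :=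
  Dir.of_sq_le hf hg (A := 2 * D ^ 2) (B := 2 * C ^ 2) fun x s _ => by
    have h := sq_add_le ((f (x * s) - f x) * g (x * s)) (f x * (g (x * s) - g x))
    have h1 : g (x * s) ^ 2 ≤ D ^ 2 := sq_le_sq.2 ((hD _).trans (le_abs_self D))
    have h2 : f x ^ 2 ≤ C ^ 2 := sq_le_sq.2 ((hC _).trans (le_abs_self C))
    calc (f (x * s) * g (x * s) - f x * g x) ^ 2
        = ((f (x * s) - f x) * g (x * s) + f x * (g (x * s) - g x)) ^ 2 := by ring
      _ ≤ 2 * ((f (x * s) - f x) * g (x * s)) ^ 2 + 2 * (f x * (g (x * s) - g x)) ^ 2 := h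
      _ = 2 * ((f (x * s) - f x) ^ 2 * g (x * s) ^ 2) +
          2 * (f x ^ 2 * (g (x * s) - g x) ^ 2) := by ring
      _ ≤ 2 * ((f (x * s) - f x) ^ 2 * D ^ 2) + 2 * (C ^ 2 * (g (x * s) - g x) ^ 2) := by gcongr
      _ = _ := by ring

lemma Dir.sq {f : G → ℝ} (hf : Dir F f) {C : ℝ} (hC : ∀ x, |f x| ≤ C) :
    Dir F (fun x => f x ^ 2) := by
  have := hf.mul hf hC hC
  simpa [_root_.sq] using this

/-- the Dirichlet condition, generator by generator -/
lemma Dir_iff {f : G → ℝ} : Dir F f ↔ ∀ s ∈ F, L2 (fun x => f (x * s) - f x) := by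
  unfold Dir
  rw [← (Equiv.prodComm F G).summable_iff]
  change Summable (fun p : F × G => (f (p.2 * p.1) - f p.2) ^ 2) ↔ _
  rw [summable_prod_of_nonneg (fun p => sq_nonneg _)]
  constructor
  · rintro ⟨h, _⟩ s hs
    exact h ⟨s, hs⟩
  · intro h
    exact ⟨fun s => h s.1 s.2, Summable.of_finite⟩

lemma L2.finset_sum {ι : Type*} (t : Finset ι) {f : ι → G → ℝ} (h : ∀ i ∈ t, L2 (f i)) :
    L2 (fun x => ∑ i ∈ t, f i x) := by
  induction t using Finset.induction_on with
  | empty => simpa using L2.zero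
  | insert a s ha ih =>
    have h1 := (h a (Finset.mem_insert_self a s)).add
      (ih fun i hi => h i (Finset.mem_insert_of_mem hi))
    simpa [Finset.sum_insert ha] using h1

lemma L2.dir {f : G → ℝ} (hf : L2 f) : Dir F f :=
  Dir_iff.2 fun s _ => (hf.translate_right s).sub hf

lemma Dir.L2_sub_avg (hF : SymGen F) {f : G → ℝ} (hf : Dir F f) :
    L2 (fun x => f x - avg F f x) := by
  have h := (L2.finset_sum F fun s hs => Dir_iff.1 hf s hs).const_mul (-(F.card : ℝ)⁻¹)
  have h2 : (fun x => -(F.card : ℝ)⁻¹ * ∑ s ∈ F, (f (x * s) - f x)) =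
      fun x => f x - avg F f x := by
    funext x
    have := hF.card_pos
    unfold avg
    rw [Finset.sum_sub_distrib, Finset.sum_const, nsmul_eq_mul]
    field_simp
    ring
  rwa [h2] at h

lemma Dir.finite_edges {f : G → ℝ} (hf : Dir F f) {ε : ℝ} (hε : 0 < ε) :
    {p : G × F | ε ≤ |f (p.1 * p.2) - f p.1|}.Finite := by
  have h := Summable.tendsto_cofinite_zero hf
  have h1 : ∀ᶠ p : G × F in cofinite, (f (p.1 * p.2) - f p.1) ^ 2 < ε ^ 2 :=
    h (gt_mem_nhds (by positivity))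
  have h2 : {p : G × F | ¬ ((f (p.1 * p.2) - f p.1) ^ 2 < ε ^ 2)}.Finite := h1
  refine h2.subset fun p hp => ?_
  have hp' : ε ≤ |f (p.1 * p.2) - f p.1| := hp
  change ¬ _
  rw [not_lt, ← sq_abs (f (p.1 * p.2) - f p.1)]
  exact pow_le_pow_left₀ hε.le hp' 2

lemma Gam_nonneg (f : G → ℝ) (x : G) : 0 ≤ Gam F f x :=
  div_nonneg (Finset.sum_nonneg fun _ _ => sq_nonneg _) (Nat.cast_nonneg _)

lemma Dir.summable_Gam {f : G → ℝ} (hf : Dir F f) : Summable (Gam F f) := by
  unfold Gam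
  refine Summable.div_const ?_ _
  exact summable_sum fun s hs => Dir_iff.1 hf s hs

lemma Dir.L2_Gam {f : G → ℝ} (hf : Dir F f) : L2 (Gam F f) := by
  have h := hf.summable_Gam
  have ht := h.tendsto_cofinite_zero
  obtain ⟨C, hC⟩ : ∃ C, ∀ x, Gam F f x ≤ C :=
    ⟨∑' x, Gam F f x, fun x => h.le_tsum x (fun y _ => Gam_nonneg f y)⟩
  refine Summable.of_nonneg_of_le (fun x => sq_nonneg _) (fun x => ?_) (h.mul_left C)
  rw [_root_.sq]
  exact mul_le_mul_of_nonneg_right (hC x) (Gam_nonneg f x)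

lemma En_nonneg (f : G → ℝ) : 0 ≤ En F f := tsum_nonneg fun _ => sq_nonneg _

lemma En_eq_sum {f : G → ℝ} (hf : Dir F f) :
    En F f = ∑ s ∈ F, ∑' x, (f (x * s) - f x) ^ 2 := by
  unfold En
  have h1 : ∑' p : G × F, (f (p.1 * p.2) - f p.1) ^ 2 =
      ∑' p : F × G, (f (p.2 * p.1) - f p.2) ^ 2 :=
    ((Equiv.prodComm F G).tsum_eq (fun p : G × F => (f (p.1 * p.2) - f p.1) ^ 2)).symm
  have hs : Summable fun p : F × G => (f (p.2 * p.1) - f p.2) ^ 2 :=
    (Equiv.prodComm F G).summable_iff.2 hf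
  rw [h1, hs.tsum_prod]
  rw [tsum_fintype, ← Finset.sum_coe_sort F (fun s => ∑' x, (f (x * s) - f x) ^ 2)]

lemma En_eq (hF : SymGen F) {f : G → ℝ} (hf : Dir F f) : En F f = F.card * ∑' x, Gam F f x := by
  rw [En_eq_sum hf]
  have h : ∀ s ∈ F, Summable fun x => (f (x * s) - f x) ^ 2 := fun s hs => Dir_iff.1 hf s hs
  rw [← Summable.tsum_finsetSum h, ← tsum_mul_left]
  refine tsum_congr fun x => ?_
  unfold Gam
  have := hF.card_pos
  field_simp

end Crest.Agent.R224.Pot
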