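import Crest.Agent.R224.Pot2

/-!
# Row 224: the Green operator
-/

set_option autoImplicit false
set_option linter.unusedSectionVars false

open Set Filter Topology
open scoped InnerProductSpace

noncomputable section

namespace Crest.Agent.R224.Pot

variable {G : Type*} [Group G] {F : Finset G} {κ : ℝ}

open Classical

theorem NA.infinite (hN : NA F κ) : Infinite G := by
  by_contra h
  rw [not_infinite_iff_finite] at h
  have := Fintype.ofFinite G
  have h1 := hN.2 Finset.univ
  simp only [Finset.mem_univ, not_true_eq_false, Finset.filter_false, Finset.card_empty,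
    Nat.cast_zero] at h1
  have h2 : (0 : ℝ) < (Finset.univ : Finset G).card := by
    exact_mod_cast Finset.card_pos.2 ⟨1, Finset.mem_univ 1⟩
  have := mul_pos hN.1 h2
  linarith

lemma lap_isUnit (hF : SymGen F) (hN : NA F κ) : IsUnit (lap F) := by
  have hκ := hN.1
  have hc := hF.card_pos
  have hpos : 0 < κ ^ 2 / (8 * (F.card : ℝ) ^ 2) := by positivity
  refine ContinuousLinearMap.isUnit_of_forall_le_norm_inner_map (lap F)
    (c := ⟨κ ^ 2 / (8 * (F.card : ℝ) ^ 2), hpos.le⟩) hpos fun g => ?_
  have h := cheeger hF hN g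
  change ‖g‖ ^ 2 * (κ ^ 2 / (8 * (F.card : ℝ) ^ 2)) ≤ _
  rw [mul_comm]
  exact h.trans (le_abs_self _)

/-- the Green operator on functions: the `ℓ²` solution `u` of `u - avg u = q`
(`0` if `q` is not in `ℓ²`) -/
def green (F : Finset G) (q : G → ℝ) : G → ℝ :=
  if h : L2 q then ((Ring.inverse (lap F) (toH q h) : H2 G) : G → ℝ) else fun _ => 0

theorem green_L2 (q : G → ℝ) : L2 (green F q) := by
  unfold green
  split_ifs with h
  · exact H2.l2 _
  · exact L2.zero

theorem green_eq (hF : SymGen F) (hN : NA F κ) {q : G → ℝ} (hq : L2 q) (x : G) :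
    green F q x - avg F (green F q) x = q x := by
  unfold green
  rw [dif_pos hq]
  rw [← lap_apply]
  have h : lap F * Ring.inverse (lap F) = 1 := Ring.mul_inverse_cancel _ (lap_isUnit hF hN)
  have h2 : lap F (Ring.inverse (lap F) (toH q hq)) = toH q hq := by
    change (lap F * Ring.inverse (lap F)) (toH q hq) = _
    rw [h]; rfl
  rw [h2]; rfl

theorem le_green (hF : SymGen F) (hN : NA F κ) {w q : G → ℝ} (hw : L2 w) (hq : L2 q)
    (h : ∀ x, w x - avg F w x ≤ q x) (x : G) : w x ≤ green F q x := by
  have := hN.infinite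
  have h1 := max_principle' hF (w := fun y => w y - green F q y) (fun y => ?_)
    (fun ε hε => (hw.sub (green_L2 q)).finite hε) x
  · linarith
  · rw [avg_sub]
    have := h y
    have := green_eq hF hN hq y
    linarith

theorem green_le (hF : SymGen F) (hN : NA F κ) {w q : G → ℝ} (hw : L2 w) (hq : L2 q)
    (h : ∀ x, q x ≤ w x - avg F w x) (x : G) : green F q x ≤ w x := by
  have := hN.infinite
  have h1 := max_principle' hF (w := fun y => green F q y - w y) (fun y => ?_)
    (fun ε hε => ((green_L2 q).sub hw).finite hε) x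
  · linarith
  · rw [avg_sub]
    have := h y
    have := green_eq hF hN hq y
    linarith

theorem green_unique (hF : SymGen F) (hN : NA F κ) {u q : G → ℝ} (hu : L2 u)
    (h : ∀ x, u x - avg F u x = q x) : green F q = u := by
  have hq : L2 q := by
    have h1 := hu.sub (avg_L2 (F := F) hu)
    have h2 : (fun x => u x - avg F u x) = q := funext h
    rwa [h2] at h1
  funext x
  exact le_antisymm (green_le hF hN hu hq (fun y => (h y).ge) x)
    (le_green hF hN hu hq (fun y => (h y).le) x)

theorem green_zero (hF : SymGen F) (hN : NA F κ) : green F (fun _ : G => (0 : ℝ)) = fun _ => 0 :=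
  green_unique hF hN L2.zero fun x => by simp [avg]

theorem green_add (hF : SymGen F) (hN : NA F κ) {p q : G → ℝ} (hp : L2 p) (hq : L2 q) :
    green F (fun x => p x + q x) = fun x => green F p x + green F q x :=
  green_unique hF hN ((green_L2 p).add (green_L2 q)) fun x => by
    rw [avg_add]
    have := green_eq hF hN hp x
    have := green_eq hF hN hq x
    linarith

theorem green_sub (hF : SymGen F) (hN : NA F κ) {p q : G → ℝ} (hp : L2 p) (hq : L2 q) :
    green F (fun x => p x - q x) = fun x => green F p x - green F q x :=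
  green_unique hF hN ((green_L2 p).sub (green_L2 q)) fun x => by
    rw [avg_sub]
    have := green_eq hF hN hp x
    have := green_eq hF hN hq x
    linarith

theorem green_neg (hF : SymGen F) (hN : NA F κ) {p : G → ℝ} (hp : L2 p) :
    green F (fun x => - p x) = fun x => - green F p x :=
  green_unique hF hN (green_L2 p).neg fun x => by
    rw [avg_neg]
    have := green_eq hF hN hp x
    linarith

theorem green_const_mul (hF : SymGen F) (hN : NA F κ) (c : ℝ) {p : G → ℝ} (hp : L2 p) :
    green F (fun x => c * p x) = fun x => c * green F p x :=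
  green_unique hF hN ((green_L2 p).const_mul c) fun x => by
    rw [avg_const_mul]
    have := green_eq hF hN hp x
    rw [← mul_sub, this]

theorem green_nonneg (hF : SymGen F) (hN : NA F κ) {q : G → ℝ} (hq : L2 q) (h : ∀ x, 0 ≤ q x)
    (x : G) : 0 ≤ green F q x :=
  le_green hF hN L2.zero hq (fun y => by simpa [avg] using h y) x

theorem green_mono (hF : SymGen F) (hN : NA F κ) {p q : G → ℝ} (hp : L2 p) (hq : L2 q)
    (h : ∀ x, p x ≤ q x) (x : G) : green F p x ≤ green F q x :=
  le_green hF hN (green_L2 p) hq (fun y => by rw [green_eq hF hN hp y]; exact h y) x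

theorem green_translate (hF : SymGen F) (hN : NA F κ) (g : G) {q : G → ℝ} (hq : L2 q) :
    green F (fun y => q (g * y)) = fun x => green F q (g * x) :=
  green_unique hF hN ((green_L2 q).translate_left g) fun x => by
    rw [avg_translate]
    exact green_eq hF hN hq (g * x)

/-! ### the Green kernel -/

/-- the unit mass at `y` -/
def dl (y : G) : G → ℝ := fun x => if x = y then 1 else 0

lemma dl_L2 (y : G) : L2 (dl y) :=
  L2.of_finite_support ((finite_singleton y).subset fun x hx => by
    by_contra h
    exact hx (if_neg h))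

lemma dl_nonneg (y x : G) : 0 ≤ dl y x := by unfold dl; split_ifs <;> norm_num

/-- the Green kernel -/
def gk (F : Finset G) (x y : G) : ℝ := green F (dl y) x

theorem gk_nonneg (hF : SymGen F) (hN : NA F κ) (x y : G) : 0 ≤ gk F x y :=
  green_nonneg hF hN (dl_L2 y) (dl_nonneg y) x

theorem gk_eq (hF : SymGen F) (hN : NA F κ) (x y : G) :
    gk F x y - avg F (fun z => gk F z y) x = dl y x :=
  green_eq hF hN (dl_L2 y) x

lemma lap_symm (hF : SymGen F) (f g : H2 G) : ⟪lap F f, g⟫_ℝ = ⟪f, lap F g⟫_ℝ := by
  unfold lap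
  simp only [ContinuousLinearMap.sub_apply, ContinuousLinearMap.one_apply, inner_sub_left,
    inner_sub_right]
  rw [avgOp_symm hF]

/-- symmetry of `1 - P` on functions -/
lemma lap_symm' (hF : SymGen F) {u v : G → ℝ} (hu : L2 u) (hv : L2 v) :
    ∑' x, (u x - avg F u x) * v x = ∑' x, u x * (v x - avg F v x) := by
  have h := lap_symm hF (toH u hu) (toH v hv)
  rw [H2.inner_eq, H2.inner_eq] at h
  simp only [lap_apply] at h
  exact h

lemma tsum_mul_dl (u : G → ℝ) (y : G) : ∑' x, u x * dl y x = u y := by
  rw [tsum_eq_single y]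
  · simp [dl]
  · intro x hx; simp [dl, hx]

theorem gk_symm (hF : SymGen F) (hN : NA F κ) (x y : G) : gk F x y = gk F y x := by
  have h := lap_symm' hF (green_L2 (F := F) (dl y)) (green_L2 (F := F) (dl x))
  simp only [green_eq hF hN (dl_L2 _)] at h
  rw [tsum_mul_dl] at h
  simp_rw [mul_comm (dl y _)] at h
  rw [tsum_mul_dl] at h
  exact h.symm

theorem gk_L2 (y : G) : L2 (fun x => gk F x y) := green_L2 (dl y)

theorem gk_L2' (hF : SymGen F) (hN : NA F κ) (x : G) : L2 (fun y => gk F x y) := by
  have h : (fun y => gk F x y) = fun y => gk F y x := funext fun y => gk_symm hF hN x y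
  rw [h]; exact gk_L2 x

theorem gk_tendsto (hF : SymGen F) (hN : NA F κ) (x : G) :
    Tendsto (fun y => gk F x y) cofinite (𝓝 0) := (gk_L2' hF hN x).tendsto

theorem gk_tendsto' (y : G) : Tendsto (fun x => gk F x y) cofinite (𝓝 0) := (gk_L2 y).tendsto

theorem gk_translate (hF : SymGen F) (hN : NA F κ) (g x y : G) :
    gk F (g * x) (g * y) = gk F x y := by
  have h := congrFun (green_translate hF hN g (dl_L2 (g * y))) x
  have h2 : (fun z => dl (g * y) (g * z)) = dl y := by
    funext z; simp [dl]
  rw [h2] at h
  exact h.symm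

theorem green_hasSum (hF : SymGen F) (hN : NA F κ) {q : G → ℝ} (hq : L2 q) (x : G) :
    HasSum (fun y => gk F x y * q y) (green F q x) := by
  have h := lap_symm' hF (green_L2 (F := F) q) (green_L2 (F := F) (dl x))
  simp only [green_eq hF hN (dl_L2 _), green_eq hF hN hq] at h
  rw [tsum_mul_dl] at h
  rw [← h]
  have h2 : (fun y => gk F x y * q y) = fun y => q y * green F (dl x) y := by
    funext y
    rw [gk_symm hF hN x y, mul_comm]; rfl
  rw [h2]
  exact (hq.summable_mul (green_L2 (dl x))).hasSum

theorem green_eq_tsum (hF : SymGen F) (hN : NA F κ) {q : G → ℝ} (hq : L2 q) (x : G) :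
    green F q x = ∑' y, gk F x y * q y := (green_hasSum hF hN hq x).tsum_eq.symm

theorem gk_superharm (hF : SymGen F) (hN : NA F κ) (x y : G) :
    avg F (fun z => gk F z y) x ≤ gk F x y := by
  have := gk_eq hF hN x y
  have := dl_nonneg y x
  linarith

theorem gk_pos (hF : SymGen F) (hN : NA F κ) (x y : G) : 0 < gk F x y := by
  refine lt_of_le_of_ne (gk_nonneg hF hN x y) fun h0 => ?_
  have h := strong_min hF (u := fun z => gk F z y) (fun z => gk_nonneg hF hN z y)
    (fun z => gk_superharm hF hN z y) h0.symm
  have h1 := gk_eq hF hN y y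
  simp only [dl, if_true] at h1
  have h2 : avg F (fun z => gk F z y) y = 0 := by simp [avg, h]
  rw [h2, h y] at h1
  norm_num at h1

theorem gk_le_diag (hF : SymGen F) (hN : NA F κ) (x y : G) : gk F x y ≤ gk F y y := by
  have := hN.infinite
  have h := max_principle hF (w := fun z => gk F z y - gk F y y) (A := {y}ᶜ) (fun z hz => ?_)
    (fun z hz => ?_) (fun ε hε => ?_) x
  · linarith
  · have h1 := gk_eq hF hN z y
    have h2 : dl y z = 0 := if_neg hz
    rw [h2] at h1
    rw [avg_sub, avg_const hF]
    linarith
  · have : z = y := by simpa using hz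
    simp [this]
  · refine ((gk_L2 (F := F) y).finite hε).subset fun z hz => ?_
    have h1 : ε ≤ gk F z y - gk F y y := hz
    change ε ≤ gk F z y
    have := gk_nonneg hF hN y y
    linarith

/-- finite sources -/
theorem green_finset (hF : SymGen F) (hN : NA F κ) (V : Finset G) (c : G → ℝ) (x : G) :
    green F (fun y => if y ∈ V then c y else 0) x = ∑ v ∈ V, c v * gk F x v := by
  have hq : L2 (fun y => if y ∈ V then c y else 0) :=
    L2.of_finite_support (V.finite_toSet.subset fun y hy => by
      by_contra h
      exact hy (if_neg h))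
  have h := green_hasSum hF hN hq x
  have h2 : HasSum (fun y => gk F x y * (if y ∈ V then c y else 0)) (∑ v ∈ V, c v * gk F x v) := by
    have : ∑ v ∈ V, c v * gk F x v = ∑ v ∈ V, gk F x v * (if v ∈ V then c v else 0) :=
      Finset.sum_congr rfl fun v hv => by rw [if_pos hv, mul_comm]
    rw [this]
    exact hasSum_sum_of_ne_finset_zero fun y hy => by rw [if_neg hy, mul_zero]
  exact h.unique h2

/-- comparison with finite sources: `w ∈ ℓ²`, `w - avg w ≤ c` on `V`, `≤ 0` off `V` -/
theorem le_sum_gk (hF : SymGen F) (hN : NA F κ) {w : G → ℝ} (hw : L2 w) {V : Finset G}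
    {c : G → ℝ} (h1 : ∀ x ∈ V, w x - avg F w x ≤ c x) (h0 : ∀ x, x ∉ V → w x ≤ avg F w x) (x : G) :
    w x ≤ ∑ v ∈ V, c v * gk F x v := by
  rw [← green_finset hF hN]
  refine le_green hF hN hw (L2.of_finite_support (V.finite_toSet.subset fun y hy => ?_)) ?_ x
  · by_contra h
    exact hy (if_neg h)
  · intro y
    by_cases hy : y ∈ V
    · rw [if_pos hy]; exact h1 y hy
    · rw [if_neg hy]; linarith [h0 y hy]

end Crest.Agent.R224.Pot
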