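import Crest.Agent.R224.Pot3

/-!
# Row 224: the harmonic part of a Dirichlet function
-/

set_option autoImplicit false
set_option linter.unusedSectionVars false

open Set Filter Topology
open scoped InnerProductSpace

noncomputable section

namespace Crest.Agent.R224.Pot

variable {G : Type*} [Group G] {F : Finset G} {κ : ℝ}

open Classical

/-- the harmonic part -/
def hpart (F : Finset G) (f : G → ℝ) (x : G) : ℝ := f x - green F (fun y => f y - avg F f y) x

theorem hpart_sub_eq (f : G → ℝ) (x : G) :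
    f x - hpart F f x = green F (fun y => f y - avg F f y) x := by unfold hpart; ring

theorem hpart_sub_L2 (f : G → ℝ) : L2 (fun x => f x - hpart F f x) := by
  have h : (fun x => f x - hpart F f x) = green F (fun y => f y - avg F f y) :=
    funext fun x => hpart_sub_eq f x
  rw [h]; exact green_L2 _

theorem hpart_tendsto (f : G → ℝ) : Tendsto (fun x => f x - hpart F f x) cofinite (𝓝 0) :=
  (hpart_sub_L2 f).tendsto

theorem hpart_harm (hF : SymGen F) (hN : NA F κ) {f : G → ℝ} (hf : Dir F f) (x : G) :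
    avg F (hpart F f) x = hpart F f x := by
  have h := green_eq hF hN (hf.L2_sub_avg hF) x
  have h2 : avg F (hpart F f) x = avg F f x - avg F (green F (fun y => f y - avg F f y)) x :=
    avg_sub _ _ x
  rw [h2]
  unfold hpart
  linarith

theorem hpart_unique (hF : SymGen F) (hN : NA F κ) {f h : G → ℝ}
    (hharm : ∀ x, avg F h x = h x) (hL : L2 (fun x => f x - h x)) : hpart F f = h := by
  have h1 := green_unique hF hN (q := fun y => f y - avg F f y) hL fun x => by
    rw [avg_sub, hharm]; ring
  funext x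
  unfold hpart
  rw [h1]; ring

theorem hpart_of_harm (hF : SymGen F) (hN : NA F κ) {h : G → ℝ}
    (hharm : ∀ x, avg F h x = h x) : hpart F h = h :=
  hpart_unique hF hN hharm (by simpa using L2.zero)

theorem hpart_const (hF : SymGen F) (hN : NA F κ) (c : ℝ) : hpart F (fun _ : G => c) = fun _ => c :=
  hpart_of_harm hF hN (avg_const hF c)

theorem hpart_L2 (hF : SymGen F) (hN : NA F κ) {f : G → ℝ} (hf : L2 f) :
    hpart F f = fun _ => 0 :=
  hpart_unique hF hN (fun x => by simp [avg]) (by simpa using hf)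

theorem hpart_add (hF : SymGen F) (hN : NA F κ) {f g : G → ℝ} (hf : Dir F f) (hg : Dir F g) :
    hpart F (fun x => f x + g x) = fun x => hpart F f x + hpart F g x := by
  refine hpart_unique hF hN (fun x => ?_) ?_
  · rw [avg_add, hpart_harm hF hN hf, hpart_harm hF hN hg]
  · refine ((hpart_sub_L2 (F := F) f).add (hpart_sub_L2 (F := F) g)).congr fun x => ?_
    ring

theorem hpart_sub (hF : SymGen F) (hN : NA F κ) {f g : G → ℝ} (hf : Dir F f) (hg : Dir F g) :
    hpart F (fun x => f x - g x) = fun x => hpart F f x - hpart F g x := by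
  refine hpart_unique hF hN (fun x => ?_) ?_
  · rw [avg_sub, hpart_harm hF hN hf, hpart_harm hF hN hg]
  · refine ((hpart_sub_L2 (F := F) f).sub (hpart_sub_L2 (F := F) g)).congr fun x => ?_
    ring

theorem hpart_neg (hF : SymGen F) (hN : NA F κ) {f : G → ℝ} (hf : Dir F f) :
    hpart F (fun x => - f x) = fun x => - hpart F f x := by
  refine hpart_unique hF hN (fun x => ?_) ?_
  · rw [avg_neg, hpart_harm hF hN hf]
  · refine ((hpart_sub_L2 (F := F) f).neg).congr fun x => ?_
    ring

theorem hpart_const_mul (hF : SymGen F) (hN : NA F κ) (c : ℝ) {f : G → ℝ} (hf : Dir F f) :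
    hpart F (fun x => c * f x) = fun x => c * hpart F f x := by
  refine hpart_unique hF hN (fun x => ?_) ?_
  · rw [avg_const_mul, hpart_harm hF hN hf]
  · refine ((hpart_sub_L2 (F := F) f).const_mul c).congr fun x => ?_
    ring

theorem hpart_add_const (hF : SymGen F) (hN : NA F κ) (c : ℝ) {f : G → ℝ} (hf : Dir F f) :
    hpart F (fun x => f x + c) = fun x => hpart F f x + c := by
  rw [hpart_add hF hN hf (Dir.const c), hpart_const hF hN]

/-- the harmonic part only depends on the function modulo `ℓ²` -/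
theorem hpart_congr_L2 (hF : SymGen F) (hN : NA F κ) {f g : G → ℝ} (hf : Dir F f)
    (h : L2 (fun x => g x - f x)) : hpart F g = hpart F f := by
  refine hpart_unique hF hN (hpart_harm hF hN hf) ?_
  refine (h.add (hpart_sub_L2 (F := F) f)).congr fun x => ?_
  ring

theorem hpart_dir {f : G → ℝ} (hf : Dir F f) : Dir F (hpart F f) :=
  hf.sub (green_L2 (F := F) _).dir

theorem hpart_translate (hF : SymGen F) (hN : NA F κ) (g : G) {f : G → ℝ} (hf : Dir F f) :
    hpart F (fun y => f (g * y)) = fun x => hpart F f (g * x) := by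
  refine hpart_unique hF hN (fun x => ?_) ?_
  · rw [avg_translate, hpart_harm hF hN hf]
  · exact (hpart_sub_L2 (F := F) f).translate_left g

/-- if `liminf f ≥ 0` at infinity then the harmonic part is nonnegative -/
theorem hpart_nonneg_of_cofinite (hF : SymGen F) (hN : NA F κ) {f : G → ℝ} (hf : Dir F f)
    (h : ∀ ε > 0, {x | f x ≤ -ε}.Finite) (x : G) : 0 ≤ hpart F f x := by
  have := hN.infinite
  have h1 := max_principle' hF (w := fun y => - hpart F f y) (fun y => ?_) (fun ε hε => ?_) x
  · linarith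
  · rw [avg_neg, hpart_harm hF hN hf]
  · refine ((h (ε / 2) (by positivity)).union
      ((hpart_sub_L2 (F := F) f).finite (ε := ε / 2) (by positivity))).subset fun y hy => ?_
    have hy' : ε ≤ - hpart F f y := hy
    by_cases h3 : f y ≤ -(ε / 2)
    · exact Or.inl h3
    · right
      change ε / 2 ≤ f y - hpart F f y
      push Not at h3
      linarith

theorem hpart_nonneg (hF : SymGen F) (hN : NA F κ) {f : G → ℝ} (hf : Dir F f)
    (h : ∀ x, 0 ≤ f x) (x : G) : 0 ≤ hpart F f x := by
  refine hpart_nonneg_of_cofinite hF hN hf (fun ε hε => ?_) x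
  refine (finite_empty).subset fun y hy => ?_
  have hy' : f y ≤ -ε := hy
  have := h y
  linarith

theorem hpart_mono_of_cofinite (hF : SymGen F) (hN : NA F κ) {f g : G → ℝ} (hf : Dir F f)
    (hg : Dir F g) (h : ∀ ε > 0, {x | g x ≤ f x - ε}.Finite) (x : G) :
    hpart F f x ≤ hpart F g x := by
  have h1 := hpart_nonneg_of_cofinite hF hN (hg.sub hf) (fun ε hε => ?_) x
  · rw [hpart_sub hF hN hg hf] at h1
    linarith
  · refine (h ε hε).subset fun y hy => ?_
    have hy' : g y - f y ≤ -ε := hy
    change g y ≤ f y - ε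
    linarith

theorem hpart_mono (hF : SymGen F) (hN : NA F κ) {f g : G → ℝ} (hf : Dir F f) (hg : Dir F g)
    (h : ∀ x, f x ≤ g x) (x : G) : hpart F f x ≤ hpart F g x := by
  refine hpart_mono_of_cofinite hF hN hf hg (fun ε hε => ?_) x
  refine (finite_empty).subset fun y hy => ?_
  have hy' : g y ≤ f y - ε := hy
  have := h y
  linarith

theorem hpart_le_of_cofinite (hF : SymGen F) (hN : NA F κ) {f : G → ℝ} (hf : Dir F f) {M : ℝ}
    (h : ∀ ε > 0, {x | M + ε ≤ f x}.Finite) (x : G) : hpart F f x ≤ M := by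
  have h1 := hpart_mono_of_cofinite hF hN hf (Dir.const M) (fun ε hε => ?_) x
  · rwa [hpart_const hF hN] at h1
  · refine (h ε hε).subset fun y hy => ?_
    have hy' : M ≤ f y - ε := hy
    change M + ε ≤ f y
    linarith

theorem le_hpart_of_cofinite (hF : SymGen F) (hN : NA F κ) {f : G → ℝ} (hf : Dir F f) {M : ℝ}
    (h : ∀ ε > 0, {x | f x ≤ M - ε}.Finite) (x : G) : M ≤ hpart F f x := by
  have h1 := hpart_mono_of_cofinite hF hN (Dir.const M) hf h x
  rwa [hpart_const hF hN] at h1

theorem hpart_le (hF : SymGen F) (hN : NA F κ) {f : G → ℝ} (hf : Dir F f) {M : ℝ}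
    (h : ∀ x, f x ≤ M) (x : G) : hpart F f x ≤ M := by
  have h1 := hpart_mono hF hN hf (Dir.const M) h x
  rwa [hpart_const hF hN] at h1

theorem le_hpart (hF : SymGen F) (hN : NA F κ) {f : G → ℝ} (hf : Dir F f) {M : ℝ}
    (h : ∀ x, M ≤ f x) (x : G) : M ≤ hpart F f x := by
  have h1 := hpart_mono hF hN (Dir.const M) hf h x
  rwa [hpart_const hF hN] at h1

theorem hpart_bdd (hF : SymGen F) (hN : NA F κ) {f : G → ℝ} (hf : Dir F f) {M : ℝ}
    (h : ∀ x, |f x| ≤ M) (x : G) : |hpart F f x| ≤ M :=
  abs_le.2 ⟨le_hpart hF hN hf (fun y => (abs_le.1 (h y)).1) x,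
    hpart_le hF hN hf (fun y => (abs_le.1 (h y)).2) x⟩

/-- a Dirichlet function tending to `0` at infinity has zero harmonic part -/
theorem hpart_eq_zero (hF : SymGen F) (hN : NA F κ) {f : G → ℝ} (hf : Dir F f)
    (h : Tendsto f cofinite (𝓝 0)) (x : G) : hpart F f x = 0 := by
  have hfin : ∀ ε > 0, {x | ε ≤ |f x|}.Finite := by
    intro ε hε
    have h1 : ∀ᶠ x in cofinite, |f x| < ε := by
      have := (tendsto_zero_iff_abs_tendsto_zero f).1 h
      exact this (gt_mem_nhds hε)
    have h2 : {x | ¬ (|f x| < ε)}.Finite := h1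
    refine h2.subset fun x hx => ?_
    change ¬ _
    rw [not_lt]; exact hx
  refine le_antisymm (hpart_le_of_cofinite hF hN hf (fun ε hε => ?_) x)
    (le_hpart_of_cofinite hF hN hf (fun ε hε => ?_) x)
  · refine (hfin ε hε).subset fun y hy => ?_
    have hy' : 0 + ε ≤ f y := hy
    change ε ≤ |f y|
    exact le_trans (by linarith) (le_abs_self _)
  · refine (hfin ε hε).subset fun y hy => ?_
    have hy' : f y ≤ 0 - ε := hy
    change ε ≤ |f y|
    exact le_trans (by linarith) (neg_le_abs _)

/-- the harmonic part only depends on the behaviour at infinity -/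
theorem hpart_congr (hF : SymGen F) (hN : NA F κ) {f g : G → ℝ} (hf : Dir F f) (hg : Dir F g)
    (h : Tendsto (fun x => f x - g x) cofinite (𝓝 0)) : hpart F f = hpart F g := by
  funext x
  have h1 := hpart_eq_zero hF hN (hf.sub hg) h x
  rw [hpart_sub hF hN hf hg] at h1
  linarith

/-! ### energy identities -/

/-- Green's formula: `∑_s ∑_x (f(xs)-f(x))(u(xs)-u(x)) = 2|F| ∑_x (f - Pf)(x) u(x)` -/
theorem green_formula (hF : SymGen F) {f u : G → ℝ} (hf : Dir F f) (hu : L2 u) :
    ∑ s ∈ F, ∑' x, (f (x * s) - f x) * (u (x * s) - u x) =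
      2 * F.card * ∑' x, (f x - avg F f x) * u x := by
  have hfs := Dir_iff.1 hf
  -- first part: reindexed
  have h1 : ∀ s ∈ F, ∑' x, (f (x * s) - f x) * (u (x * s) - u x) =
      - (∑' x, (f (x * s⁻¹) - f x) * u x) - ∑' x, (f (x * s) - f x) * u x := by
    intro s hs
    have ha : Summable fun x => (f (x * s) - f x) * u (x * s) :=
      (hfs s hs).summable_mul (hu.translate_right s)
    have hb : Summable fun x => (f (x * s) - f x) * u x := (hfs s hs).summable_mul hu
    have e1 : ∑' x, (f (x * s) - f x) * u (x * s) = - ∑' x, (f (x * s⁻¹) - f x) * u x := by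
      rw [← tsum_neg, ← (Equiv.mulRight s).tsum_eq (fun x => -((f (x * s⁻¹) - f x) * u x))]
      refine tsum_congr fun x => ?_
      simp only [Equiv.coe_mulRight, mul_inv_cancel_right]
      ring
    calc ∑' x, (f (x * s) - f x) * (u (x * s) - u x)
        = ∑' x, ((f (x * s) - f x) * u (x * s) - (f (x * s) - f x) * u x) :=
          tsum_congr fun x => by ring
      _ = ∑' x, (f (x * s) - f x) * u (x * s) - ∑' x, (f (x * s) - f x) * u x :=
          ha.tsum_sub hb
      _ = _ := by rw [e1]
  rw [Finset.sum_congr rfl h1, Finset.sum_sub_distrib, Finset.sum_neg_distrib]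
  have h2 : ∑ s ∈ F, ∑' x, (f (x * s⁻¹) - f x) * u x = ∑ s ∈ F, ∑' x, (f (x * s) - f x) * u x :=
    Finset.sum_bij (fun s _ => s⁻¹) (fun s hs => hF.symm s hs)
      (fun a _ b _ h => inv_injective h) (fun b hb => ⟨b⁻¹, hF.symm b hb, inv_inv b⟩)
      (fun s _ => rfl)
  rw [h2]
  have h3 : ∑ s ∈ F, ∑' x, (f (x * s) - f x) * u x =
      - (F.card * ∑' x, (f x - avg F f x) * u x) := by
    rw [← Summable.tsum_finsetSum (fun s hs => (hfs s hs).summable_mul hu), ← tsum_mul_left,
      ← tsum_neg]
    refine tsum_congr fun x => ?_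
    rw [← Finset.sum_mul, Finset.sum_sub_distrib, Finset.sum_const, nsmul_eq_mul,
      ← card_mul_avg hF]
    ring
  rw [h3]; ring

/-- polarised energy -/
lemma En_add (hF : SymGen F) {f u : G → ℝ} (hf : Dir F f) (hu : Dir F u) :
    En F (fun x => f x + u x) = En F f + En F u +
      2 * ∑ s ∈ F, ∑' x, (f (x * s) - f x) * (u (x * s) - u x) := by
  rw [En_eq_sum (hf.add hu), En_eq_sum hf, En_eq_sum hu, Finset.mul_sum,
    ← Finset.sum_add_distrib, ← Finset.sum_add_distrib]
  refine Finset.sum_congr rfl fun s hs => ?_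
  have h1 := Dir_iff.1 hf s hs
  have h2 := Dir_iff.1 hu s hs
  have h12 := h1.summable_mul h2
  unfold L2 at h1 h2
  rw [← tsum_mul_left, ← h1.tsum_add h2, ← (h1.add h2).tsum_add (h12.mul_left 2)]
  refine tsum_congr fun x => ?_
  ring

/-- the harmonic part has smaller energy -/
theorem En_hpart_le (hF : SymGen F) (hN : NA F κ) {f : G → ℝ} (hf : Dir F f) :
    En F (hpart F f) ≤ En F f := by
  have h1 := En_add hF (hpart_dir hf) (hpart_sub_L2 (F := F) f).dir
  have h2 := green_formula hF (hpart_dir hf) (hpart_sub_L2 (F := F) f)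
  have h3 : ∑' x, (hpart F f x - avg F (hpart F f) x) * (f x - hpart F f x) = 0 := by
    simp [hpart_harm hF hN hf]
  have h4 : (fun x => hpart F f x + (f x - hpart F f x)) = f := by funext x; ring
  rw [h4] at h1
  rw [h3, mul_zero] at h2
  rw [h2] at h1
  have := En_nonneg (F := F) (fun x => f x - hpart F f x)
  linarith

lemma avg_sq_of_harm (hF : SymGen F) {h : G → ℝ} {x : G} (hx : avg F h x = h x) :
    avg F (fun y => h y ^ 2) x = h x ^ 2 + Gam F h x := by
  have hc := hF.card_pos
  have h1 : ∑ s ∈ F, (h (x * s)) ^ 2 = ∑ s ∈ F, (h (x * s) - h x) ^ 2 +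
      2 * h x * ∑ s ∈ F, h (x * s) - F.card * h x ^ 2 := by
    rw [Finset.mul_sum, ← Finset.sum_add_distrib, ← nsmul_eq_mul, ← Finset.sum_const,
      ← Finset.sum_sub_distrib]
    refine Finset.sum_congr rfl fun s _ => ?_
    ring
  rw [← card_mul_avg hF, hx] at h1
  unfold avg Gam
  rw [h1]
  field_simp
  ring

/-- `h_{f²} - h_f² = Green(Γ(h_f))` -/
theorem hpart_sq (hF : SymGen F) (hN : NA F κ) {f : G → ℝ} (hf : Dir F f) {C : ℝ}
    (hC : ∀ x, |f x| ≤ C) (x : G) :
    hpart F (fun x => f x ^ 2) x - hpart F f x ^ 2 = green F (Gam F (hpart F f)) x := by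
  have hG : L2 (Gam F (hpart F f)) := (hpart_dir hf).L2_Gam
  have hb := hpart_bdd hF hN hf hC
  have h := hpart_unique hF hN (f := fun x => f x ^ 2)
    (h := fun x => hpart F f x ^ 2 + green F (Gam F (hpart F f)) x) (fun y => ?_) ?_
  · rw [h]; ring
  · rw [avg_add, avg_sq_of_harm hF (hpart_harm hF hN hf y)]
    have := green_eq hF hN hG y
    linarith
  · have h1 : L2 (fun x => (f x - hpart F f x) * (f x + hpart F f x)) :=
      (hpart_sub_L2 (F := F) f).mul_bdd (C := C + C) fun y =>
        (abs_add_le _ _).trans (add_le_add (hC y) (hb y))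
    refine (h1.sub (green_L2 (F := F) (Gam F (hpart F f)))).congr fun y => ?_
    ring

end Crest.Agent.R224.Pot
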