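import Mathlib

/-!
# Row 224 (S0346): potential theory on a finitely generated group — definitions

`F` is a finite symmetric generating set; neighbours of `x` are `x * s`, `s ∈ F`; left translations
are automorphisms.
-/

set_option autoImplicit false

open Classical

noncomputable section

namespace Crest.Agent.R224.Pot

variable {G : Type*} [Group G]

/-- averaging operator (simple random walk) -/
def avg (F : Finset G) (f : G → ℝ) (x : G) : ℝ := (∑ s ∈ F, f (x * s)) / F.card

/-- finite Dirichlet energy -/
def Dir (F : Finset G) (f : G → ℝ) : Prop :=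
  Summable fun p : G × F => (f (p.1 * p.2) - f p.1) ^ 2

/-- Dirichlet energy -/
def En (F : Finset G) (f : G → ℝ) : ℝ := ∑' p : G × F, (f (p.1 * p.2) - f p.1) ^ 2

/-- square summable functions -/
def L2 (f : G → ℝ) : Prop := Summable fun x => f x ^ 2

/-- finite symmetric generating set -/
structure SymGen (F : Finset G) : Prop where
  ne : F.Nonempty
  symm : ∀ s ∈ F, s⁻¹ ∈ F
  gen : Subgroup.closure (F : Set G) = ⊤

/-- isoperimetric inequality (nonamenability) with constant `κ > 0` -/
def NA (F : Finset G) (κ : ℝ) : Prop :=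
  0 < κ ∧ ∀ A : Finset G, κ * A.card ≤ ((A ×ˢ F).filter fun p => p.1 * p.2 ∉ A).card

/-- the carré du champ `Γ(h)(x) = (1/|F|) ∑_s (h(xs)-h(x))²` -/
def Gam (F : Finset G) (f : G → ℝ) (x : G) : ℝ := (∑ s ∈ F, (f (x * s) - f x) ^ 2) / F.card

/-- `ℓ²(G)` -/
abbrev H2 (G : Type*) := lp (fun _ : G => ℝ) 2

end Crest.Agent.R224.Pot
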