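import Mathlib

set_option autoImplicit false

namespace Crest.Agent.R224

open Relation

/-- A triangle complex on a vertex type (only the 2-skeleton; degenerate triangles are allowed). -/
structure TriCx (V : Type*) where
  adj : V → V → Prop
  tri : V → V → V → Prop
  adj_symm : ∀ x y, adj x y → adj y x
  tri_swap : ∀ x y z, tri x y z → tri y x z
  tri_rot : ∀ x y z, tri x y z → tri y z x
  tri_adj : ∀ x y z, tri x y z → adj x y

namespace TriCx

variable {V : Type*} (X : TriCx V)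

/-- Step inside a vertex set. -/
def StepIn (A : Set V) (x y : V) : Prop := X.adj x y ∧ x ∈ A ∧ y ∈ A

/-- `A` is connected (possibly empty). -/
def Conn (A : Set V) : Prop := ∀ x ∈ A, ∀ y ∈ A, ReflTransGen (X.StepIn A) x y

/-- The component of `x` in `A` (meaningful for `x ∈ A`). -/
def comp (A : Set V) (x : V) : Set V := {y | ReflTransGen (X.StepIn A) x y}

/-- Outgoing edges of a vertex set = the wall of `A`. -/
def Out (A : Set V) : Set (V × V) := {p | X.adj p.1 p.2 ∧ p.1 ∈ A ∧ p.2 ∉ A}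

/-- Two wall edges are adjacent if they lie in a common triangle. -/
def WAdj (p q : V × V) : Prop :=
  (p.1 = q.1 ∧ X.tri p.1 p.2 q.2) ∨ (p.2 = q.2 ∧ X.tri p.1 q.1 p.2)

/-- Step inside a set of oriented edges. -/
def WStep (W : Set (V × V)) (p q : V × V) : Prop := X.WAdj p q ∧ p ∈ W ∧ q ∈ W

/-- A set of oriented edges is connected through triangles. -/
def WConn (W : Set (V × V)) : Prop := ∀ p ∈ W, ∀ q ∈ W, ReflTransGen (X.WStep W) p q

/-- The wall component of `p` in `W`. -/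
def wcomp (W : Set (V × V)) (p : V × V) : Set (V × V) := {q | ReflTransGen (X.WStep W) p q}

/-- `H¹(X; F₂) = 0`. -/
def T0 : Prop := ∀ ψ : V → V → ZMod 2, (∀ x y, ψ x y = ψ y x) →
  (∀ x y z, X.tri x y z → ψ x y + ψ y z + ψ x z = 0) →
  ∃ E : V → ZMod 2, ∀ x y, X.adj x y → ψ x y = E x + E y

/-- one-endedness: a set with finite boundary is finite or cofinite. -/
def T1 : Prop := ∀ E : Set V, (X.Out E).Finite → E.Finite ∨ Eᶜ.Finite

/-- every 1-cochain with finite coboundary is exact up to a finite cochain. -/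
def T2 : Prop := ∀ ψ : V → V → ZMod 2, (∀ x y, ψ x y = ψ y x) →
  {p : V × V × V | X.tri p.1 p.2.1 p.2.2 ∧
    ψ p.1 p.2.1 + ψ p.2.1 p.2.2 + ψ p.1 p.2.2 ≠ 0}.Finite →
  ∃ E : V → ZMod 2, {p : V × V | X.adj p.1 p.2 ∧ ψ p.1 p.2 ≠ E p.1 + E p.2}.Finite

variable {X}

lemma StepIn.symm {A : Set V} {x y : V} (h : X.StepIn A x y) : X.StepIn A y x :=
  ⟨X.adj_symm _ _ h.1, h.2.2, h.2.1⟩

lemma reach_symm {A : Set V} {x y : V} (h : ReflTransGen (X.StepIn A) x y) :
    ReflTransGen (X.StepIn A) y x := by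
  induction h with
  | refl => exact .refl
  | tail _ h2 ih => exact ih.head h2.symm

lemma WAdj.symm {p q : V × V} (h : X.WAdj p q) : X.WAdj q p := by
  rcases h with ⟨h1, h2⟩ | ⟨h1, h2⟩
  · left
    refine ⟨h1.symm, ?_⟩
    rw [← h1]
    exact X.tri_rot _ _ _ (X.tri_swap _ _ _ (X.tri_rot _ _ _ (X.tri_rot _ _ _ h2))) |> fun h => by
      -- from tri p1 p2 q2 get tri p1 q2 p2
      exact X.tri_swap _ _ _ (X.tri_rot _ _ _ (X.tri_rot _ _ _ h2))
  · right
    refine ⟨h1.symm, ?_⟩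
    rw [← h1]
    exact X.tri_swap _ _ _ h2

lemma WStep.symm {W : Set (V × V)} {p q : V × V} (h : X.WStep W p q) : X.WStep W q p :=
  ⟨h.1.symm, h.2.2, h.2.1⟩

lemma wreach_symm {W : Set (V × V)} {p q : V × V} (h : ReflTransGen (X.WStep W) p q) :
    ReflTransGen (X.WStep W) q p := by
  induction h with
  | refl => exact .refl
  | tail _ h2 ih => exact ih.head h2.symm

lemma wcomp_subset {W : Set (V × V)} {p : V × V} (hp : p ∈ W) : X.wcomp W p ⊆ W := by
  intro q hq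
  induction hq with
  | refl => exact hp
  | tail _ h2 _ => exact h2.2.2

lemma comp_subset {A : Set V} {x : V} (hx : x ∈ A) : X.comp A x ⊆ A := by
  intro q hq
  induction hq with
  | refl => exact hx
  | tail _ h2 _ => exact h2.2.2

lemma tri_adj13 {x y z : V} (h : X.tri x y z) : X.adj x z :=
  X.adj_symm _ _ (X.tri_adj _ _ _ (X.tri_rot _ _ _ (X.tri_rot _ _ _ h)))

lemma tri_adj23 {x y z : V} (h : X.tri x y z) : X.adj y z :=
  X.tri_adj _ _ _ (X.tri_rot _ _ _ h)

/-- (W1a) if `A` and its complement are connected then the wall is connected. -/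
theorem wconn_of_conn (h0 : X.T0) {A : Set V} (hA : X.Conn A) (hA' : X.Conn Aᶜ) :
    X.WConn (X.Out A) := by
  classical
  intro p hp q hq
  set C := X.wcomp (X.Out A) p with hC
  have hCsub : C ⊆ X.Out A := wcomp_subset hp
  let ψ : V → V → ZMod 2 := fun x y => if (x, y) ∈ C ∨ (y, x) ∈ C then 1 else 0
  have hψs : ∀ x y, ψ x y = ψ y x := by
    intro x y; simp only [ψ]; congr 1; exact propext or_comm
  -- membership propagation
  have prop : ∀ r ∈ C, ∀ s ∈ X.Out A, X.WAdj r s → s ∈ C := by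
    intro r hr s hs hrs
    exact ReflTransGen.tail hr ⟨hrs, hCsub hr, hs⟩
  have hval : ∀ x y, ψ x y = 1 ∨ ψ x y = 0 := by
    intro x y; simp only [ψ]; split_ifs <;> simp
  have hzero : ∀ x y, ((x ∈ A ∧ y ∈ A) ∨ (x ∉ A ∧ y ∉ A)) → ψ x y = 0 := by
    intro x y h
    simp only [ψ]
    rw [if_neg]
    rintro (h1 | h1)
    · have := hCsub h1
      rcases h with h | h
      · exact this.2.2 h.2
      · exact h.1 this.2.1
    · have := hCsub h1
      rcases h with h | h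
      · exact this.2.2 h.1
      · exact h.2 this.2.1
  -- star shape: a in A, b, c not in A
  have key1 : ∀ a b c, a ∈ A → b ∉ A → c ∉ A → X.tri a b c → ψ a b = ψ a c := by
    intro a b c ha hb hc ht
    have e1 : (a, b) ∈ X.Out A := ⟨X.tri_adj _ _ _ ht, ha, hb⟩
    have e2 : (a, c) ∈ X.Out A := ⟨tri_adj13 ht, ha, hc⟩
    have iff1 : (a, b) ∈ C ↔ (a, c) ∈ C :=
      ⟨fun h => prop _ h _ e2 (Or.inl ⟨rfl, ht⟩),
       fun h => prop _ h _ e1 (WAdj.symm (Or.inl ⟨rfl, ht⟩))⟩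
    have n1 : (b, a) ∉ C := fun h => hb (hCsub h).2.1
    have n2 : (c, a) ∉ C := fun h => hc (hCsub h).2.1
    simp only [ψ, n1, n2, or_false, iff1]
  have key2 : ∀ a b c, a ∉ A → b ∈ A → c ∈ A → X.tri a b c → ψ a b = ψ a c := by
    intro a b c ha hb hc ht
    have e1 : (b, a) ∈ X.Out A := ⟨X.adj_symm _ _ (X.tri_adj _ _ _ ht), hb, ha⟩
    have e2 : (c, a) ∈ X.Out A := ⟨X.adj_symm _ _ (tri_adj13 ht), hc, ha⟩
    have ht' : X.tri b c a := X.tri_rot _ _ _ ht
    have w : X.WAdj (b, a) (c, a) := Or.inr ⟨rfl, ht'⟩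
    have iff1 : (b, a) ∈ C ↔ (c, a) ∈ C :=
      ⟨fun h => prop _ h _ e2 w, fun h => prop _ h _ e1 w.symm⟩
    have n1 : (a, b) ∉ C := fun h => ha (hCsub h).2.1
    have n2 : (a, c) ∉ C := fun h => ha (hCsub h).2.1
    simp only [ψ, n1, n2, false_or, iff1]
  have hclosed : ∀ x y z, X.tri x y z → ψ x y + ψ y z + ψ x z = 0 := by
    intro x y z ht
    have two : ∀ a : ZMod 2, a + a = 0 := fun a => CharTwo.add_self_eq_zero a
    have t231 : X.tri y z x := X.tri_rot _ _ _ ht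
    have t312 : X.tri z x y := X.tri_rot _ _ _ t231
    by_cases hx : x ∈ A <;> by_cases hy : y ∈ A <;> by_cases hz : z ∈ A
    · simp [hzero x y (Or.inl ⟨hx, hy⟩), hzero y z (Or.inl ⟨hy, hz⟩), hzero x z (Or.inl ⟨hx, hz⟩)]
    · rw [hzero x y (Or.inl ⟨hx, hy⟩), zero_add, hψs y z, hψs x z,
        key2 z x y hz hx hy t312]
      exact two _
    · rw [hzero x z (Or.inl ⟨hx, hz⟩), add_zero, hψs x y, key2 y z x hy hz hx t231]
      exact two _
    · rw [hzero y z (Or.inr ⟨hy, hz⟩), add_zero, key1 x y z hx hy hz ht]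
      exact two _
    · rw [hzero y z (Or.inl ⟨hy, hz⟩), add_zero, key2 x y z hx hy hz ht]
      exact two _
    · rw [hzero x z (Or.inr ⟨hx, hz⟩), add_zero, hψs x y, key1 y z x hy hz hx t231]
      exact two _
    · rw [hzero x y (Or.inr ⟨hx, hy⟩), zero_add, hψs y z, hψs x z,
        key1 z x y hz hx hy t312]
      exact two _
    · simp [hzero x y (Or.inr ⟨hx, hy⟩), hzero y z (Or.inr ⟨hy, hz⟩), hzero x z (Or.inr ⟨hx, hz⟩)]
  obtain ⟨E, hE⟩ := h0 ψ hψs hclosed
  have constOn : ∀ B : Set V, (∀ x y, x ∈ B → y ∈ B → ψ x y = 0) → ∀ x y,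
      ReflTransGen (X.StepIn B) x y → E x = E y := by
    intro B hB x y h
    induction h with
    | refl => rfl
    | @tail b c _ h2 ih =>
      have h3 := hE _ _ h2.1
      rw [hB _ _ h2.2.1 h2.2.2] at h3
      rw [ih]
      have : E b + E c = 0 := h3.symm
      exact CharTwo.add_eq_zero.mp this
  have c1 : E p.1 = E q.1 := constOn A (fun x y hx hy => hzero x y (Or.inl ⟨hx, hy⟩)) _ _
    (hA _ hp.2.1 _ hq.2.1)
  have c2 : E p.2 = E q.2 := constOn Aᶜ (fun x y hx hy => hzero x y (Or.inr ⟨hx, hy⟩)) _ _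
    (hA' _ hp.2.2 _ hq.2.2)
  have hpC : p ∈ C := ReflTransGen.refl
  have hψp : ψ p.1 p.2 = 1 := by
    have : (p.1, p.2) ∈ C := hpC
    simp only [ψ, this, true_or, if_true]
  have hψq : ψ q.1 q.2 = 1 := by
    rw [hE _ _ hq.1, ← c1, ← c2, ← hE _ _ hp.1, hψp]
  by_contra hcon
  have hqC : (q.1, q.2) ∉ C := hcon
  have hqC' : (q.2, q.1) ∉ C := fun h => hq.2.2 (hCsub h).2.1
  simp [ψ, hqC, hqC'] at hψq

/-- (W1b) the wall of a component of `A` is contained in the wall of `A` ... -/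
lemma out_comp_subset {A : Set V} {x : V} (hx : x ∈ A) :
    X.Out (X.comp A x) ⊆ X.Out A := by
  rintro ⟨a, b⟩ ⟨h1, h2, h3⟩
  refine ⟨h1, comp_subset hx h2, fun hb => h3 ?_⟩
  exact ReflTransGen.tail h2 ⟨h1, comp_subset hx h2, hb⟩

/-- ... and is closed under wall adjacency. -/
lemma out_comp_closed {A : Set V} {x : V} (hx : x ∈ A) {p q : V × V}
    (hp : p ∈ X.Out (X.comp A x)) (hq : q ∈ X.Out A) (h : X.WAdj p q) :
    q ∈ X.Out (X.comp A x) := by
  refine ⟨hq.1, ?_, fun hb => hq.2.2 (comp_subset hx hb)⟩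
  rcases h with ⟨h1, _⟩ | ⟨_, h2⟩
  · rw [← h1]; exact hp.2.1
  · exact ReflTransGen.tail hp.2.1 ⟨X.tri_adj _ _ _ h2, comp_subset hx hp.2.1, hq.2.1⟩

lemma wcomp_subset_out_comp {A : Set V} {p : V × V} (hp : p ∈ X.Out A) :
    X.wcomp (X.Out A) p ⊆ X.Out (X.comp A p.1) := by
  intro q hq
  have hp' : p ∈ X.Out (X.comp A p.1) :=
    ⟨hp.1, ReflTransGen.refl, fun h => hp.2.2 (comp_subset hp.2.1 h)⟩
  induction hq with
  | refl => exact hp'
  | tail _ h2 ih => exact out_comp_closed hp.2.1 ih h2.2.2 h2.1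

end TriCx

end Crest.Agent.R224
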