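import Mathlib
import Crest.Agent.R224.Wall

set_option autoImplicit false

namespace Crest.Agent.R224

open Relation MeasureTheory

/-- A left-invariant triangle complex on a group: the graph is the Cayley graph of `F`
(edges `x ~ x * s`), the triangle relation is any left-invariant one. -/
structure CayCx (G : Type*) [Group G] extends TriCx G where
  F : Finset G
  adj_iff : ∀ x y, adj x y ↔ x⁻¹ * y ∈ F
  inv_mem : ∀ s ∈ F, s⁻¹ ∈ F
  tri_mul : ∀ g x y z, tri x y z → tri (g * x) (g * y) (g * z)
  gen : Subgroup.closure (F : Set G) = ⊤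

namespace TriCx

variable {V : Type*} (X : TriCx V)

/-- the wall of `f` at level `t` -/
def Wt (f : V → ℝ) (t : ℝ) : Set (V × V) := X.Out {x | f x < t}

/-- a set of oriented edges has finitely many components -/
def FinComp (W : Set (V × V)) : Prop :=
  ∃ s : Finset (V × V), (↑s : Set (V × V)) ⊆ W ∧
    ∀ q ∈ W, ∃ p ∈ s, ReflTransGen (X.WStep W) p q

end TriCx

namespace CayCx

variable {G : Type*} [Group G] (X : CayCx G)

/-- finite energy -/
def Dir (f : G → ℝ) : Prop :=
  Summable fun p : G × X.F => (f (p.1 * (p.2 : G)) - f p.1) ^ 2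

/-- The class `S`: bounded functions of finite energy, almost all of whose walls have finitely
many components. -/
structure IsS (f : G → ℝ) : Prop where
  bdd : ∃ C : ℝ, ∀ x, |f x| ≤ C
  dir : X.Dir f
  fin : ∀ᵐ t : ℝ, X.toTriCx.FinComp (X.toTriCx.Wt f t)

end CayCx

end Crest.Agent.R224
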